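import Vale.Agent.P281.ELL.CoreH

open scoped Manifold ContDiff Topology
open Set Filter Metric Asymptotics

namespace Vale.Agent.P281.H713

open Vale.Agent.P281 Vale.Agent.P281.MF Vale.Agent.P281.ISO Vale.Agent.P281.ELL

set_option linter.unusedSectionVars false

universe u

/-! ### Relative forms with bounds -/

section RelForm

variable {E E' E₀ : Type} [NormedAddCommGroup E] [NormedSpace ℂ E] [FiniteDimensional ℂ E]
  [NormedAddCommGroup E'] [NormedSpace ℂ E'] [FiniteDimensional ℂ E']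
  [NormedAddCommGroup E₀] [NormedSpace ℂ E₀] [FiniteDimensional ℂ E₀]
variable {X Y : Type u} [TopologicalSpace X] [ChartedSpace E X] [IsManifold 𝓘(ℂ, E) ω X]
  [TopologicalSpace Y] [ChartedSpace E' Y] [IsManifold 𝓘(ℂ, E') ω Y]

/-- `Θ` is a relative form of weight `N` over `Y ∖ S`, with poles of order at most `κ₀`, bounded on
slices avoiding the divisors of `𝒜`. -/
structure RelForm (f : X → Y) (S : Set Y) (e₀ : E ≃L[ℂ] (E' × E₀)) (N : ℕ) (𝒜 : Set (Set X))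
    (κ₀ : Set X → ℕ) (Θ : X → ℂ) : Prop where
  hol : ∀ (x₀ x : X) (y₀ : Y), f x ∉ S → x ∈ (chartAt E x₀).source →
      f x ∈ (chartAt E' y₀).source → ∀ (T : Finset (Set X)) (e : Set X → X → ℂ),
      (∀ D, κ₀ D ≠ 0 → D ∈ T) → (∀ D ∈ T, IsLocalEq E D (e D) x) →
      ∃ H : X → ℂ, HolV E H x ∧ ∀ᶠ z in 𝓝 x, (∀ D ∈ 𝒜, z ∉ D) → ∏ D ∈ T, e D z ^ κ₀ D ≠ 0 →
        jac E' (chartAt E' y₀) (f z) ^ N * Θ z * ∏ D ∈ T, e D z ^ κ₀ D =
          H z * jac E (chartAt E x₀) z ^ N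
  bound : ∀ r : ℝ, 0 < r → ∃ C : ℝ, ∀ (v₀ : E₀) (Q : E₀ → X),
      (∀ v ∈ ball v₀ r, ContMDiffAt 𝓘(ℂ, E₀) 𝓘(ℂ, E) ω Q v) → InjOn Q (ball v₀ r) →
      (∀ v ∈ ball v₀ r, f (Q v) = f (Q v₀)) → f (Q v₀) ∉ S →
      (∀ v ∈ ball v₀ r, ∀ D ∈ 𝒜, Q v ∉ D) → ∀ P : E →L[ℂ] E₀,
      P.comp (mfderiv 𝓘(ℂ, E₀) 𝓘(ℂ, E) Q v₀ : E₀ →L[ℂ] E) = ContinuousLinearMap.id ℂ E₀ →
      ‖Θ (Q v₀)‖ ≤ C * ‖JP e₀ (dM E E' f (Q v₀)) P ^ N‖

variable {f : X → Y} {S : Set Y} {e₀ : E ≃L[ℂ] (E' × E₀)} {𝒜 : Set (Set X)}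

theorem RelForm.mul {N N' : ℕ} {κ κ' : Set X → ℕ} {Θ Θ' : X → ℂ}
    (h : RelForm f S e₀ N 𝒜 κ Θ) (h' : RelForm f S e₀ N' 𝒜 κ' Θ') :
    RelForm f S e₀ (N + N') 𝒜 (fun D => κ D + κ' D) (fun x => Θ x * Θ' x) where
  hol := by
    intro x₀ x y₀ hx hx₀ hy₀ T e hT he
    obtain ⟨H, hH, hHe⟩ := h.hol x₀ x y₀ hx hx₀ hy₀ T e (fun D hD => hT D (by omega)) he
    obtain ⟨H', hH', hHe'⟩ := h'.hol x₀ x y₀ hx hx₀ hy₀ T e (fun D hD => hT D (by omega)) he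
    refine ⟨fun z => H z * H' z, hH.mul hH', ?_⟩
    filter_upwards [hHe, hHe'] with z hz hz' hzA hz0
    simp only [pow_add, Finset.prod_mul_distrib] at hz0 ⊢
    have h1 := hz hzA (left_ne_zero_of_mul hz0)
    have h2 := hz' hzA (right_ne_zero_of_mul hz0)
    linear_combination (jac E' (chartAt E' y₀) (f z) ^ N' * Θ' z * ∏ D ∈ T, e D z ^ κ' D) * h1 +
      (H z * jac E (chartAt E x₀) z ^ N) * h2
  bound := by
    intro r hr
    obtain ⟨C, hC⟩ := h.bound r hr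
    obtain ⟨C', hC'⟩ := h'.bound r hr
    refine ⟨C * C', fun v₀ Q h1 h2 h3 h4 h5 P h6 => ?_⟩
    have h7 := hC v₀ Q h1 h2 h3 h4 h5 P h6
    have h8 := hC' v₀ Q h1 h2 h3 h4 h5 P h6
    have h9 := mul_le_mul h7 h8 (norm_nonneg _) ((norm_nonneg _).trans h7)
    rw [← norm_mul] at h9
    refine h9.trans (le_of_eq ?_)
    rw [pow_add, norm_mul]
    ring

theorem relForm_one : RelForm f S e₀ 0 𝒜 (fun _ => 0) (fun _ => 1) where
  hol := by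
    intro x₀ x y₀ hx hx₀ hy₀ T e hT he
    exact ⟨fun _ => 1, HolV.const (1 : ℂ) x, Filter.Eventually.of_forall fun z _ _ => by simp⟩
  bound := by
    intro r hr
    exact ⟨1, fun v₀ Q _ _ _ _ _ P _ => by simp⟩

theorem RelForm.congr {N N' : ℕ} {κ κ' : Set X → ℕ} {Θ Θ' : X → ℂ}
    (h : RelForm f S e₀ N 𝒜 κ Θ) (hN : N = N') (hκ : ∀ D, κ D = κ' D) (hΘ : ∀ x, Θ x = Θ' x) :
    RelForm f S e₀ N' 𝒜 κ' Θ' := by
  subst hN
  have h1 : κ = κ' := funext hκ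
  have h2 : Θ = Θ' := funext hΘ
  rw [← h1, ← h2]; exact h

theorem RelForm.pow {N : ℕ} {κ : Set X → ℕ} {Θ : X → ℂ} (h : RelForm f S e₀ N 𝒜 κ Θ) (a : ℕ) :
    RelForm f S e₀ (N * a) 𝒜 (fun D => a * κ D) (fun x => Θ x ^ a) := by
  induction a with
  | zero => exact relForm_one.congr (by simp) (fun D => by simp) (fun x => by simp)
  | succ a ih =>
    exact (ih.mul h).congr (by ring) (fun D => by ring) (fun x => by rw [pow_succ])

theorem RelForm.mono {N : ℕ} {κ κ' : Set X → ℕ} {Θ : X → ℂ} (h : RelForm f S e₀ N 𝒜 κ Θ)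
    (hκ : ∀ D, κ D ≤ κ' D) : RelForm f S e₀ N 𝒜 κ' Θ where
  hol := by
    intro x₀ x y₀ hx hx₀ hy₀ T e hT he
    obtain ⟨H, hH, hHe⟩ := h.hol x₀ x y₀ hx hx₀ hy₀ T e
      (fun D hD => hT D (by have := hκ D; omega)) he
    refine ⟨fun z => H z * ∏ D ∈ T, e D z ^ (κ' D - κ D),
      hH.mul (HolV.prod fun D hD => ((he D hD).holAt).pow _), ?_⟩
    filter_upwards [hHe] with z hz hzA hz0
    have h1 : ∏ D ∈ T, e D z ^ κ' D = (∏ D ∈ T, e D z ^ κ D) * ∏ D ∈ T, e D z ^ (κ' D - κ D) := by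
      rw [← Finset.prod_mul_distrib]
      refine Finset.prod_congr rfl fun D _ => ?_
      rw [← pow_add]
      congr 1
      have := hκ D
      omega
    rw [h1] at hz0 ⊢
    have h2 := hz hzA (left_ne_zero_of_mul hz0)
    linear_combination (∏ D ∈ T, e D z ^ (κ' D - κ D)) * h2
  bound := h.bound

/-- lifting a section of the base with a relative form. -/
theorem lift_rel [Nonempty X] (hf : ∀ x, HolM E E' f x) (hS : IsClosed S)
    (hthin : ∀ x, ∃ h : X → ℂ, HolV E h x ∧ (¬ ∀ᶠ z in 𝓝 x, h z = 0) ∧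
      ∀ᶠ z in 𝓝 x, (f z ∈ S → h z = 0) ∧ (h z = 0 → z ∈ closure {z | h z = 0 ∧ Good E E' f S z}))
    (h𝒜f : 𝒜.Finite) (h𝒜p : ∀ D ∈ 𝒜, IsPrimeDivisor E D) {n : ℕ} (hn : 0 < n)
    {K : Set X → ℕ} {Θ : X → ℂ} (hΘ : RelForm f S e₀ n 𝒜 K Θ)
    {Δ : Set X → ℝ} (hsnc : IsSNCBoundary E Δ) (hK : ∀ D, (K D : ℝ) = n * Δ D) {B : Set Y → ℝ}
    (hB : ∀ G, B G ≠ 0 → IsPrimeDivisor E' G ∧ G ⊆ S)
    (hBD : ∀ (D : Set X) (G : Set Y) (κ : ℕ), IsPrimeDivisor E D → IsPrimeDivisor E' G →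
      closure (f '' D) = G → 0 < κ → (∃ z ∈ D, ∃ e g w, IsLocalEq E D e z ∧
        IsLocalEq E' G g (f z) ∧ HolAt E w z ∧ w z ≠ 0 ∧ ∀ᶠ x in 𝓝 z, g (f x) = e x ^ κ * w x) →
      (κ : ℝ) * B G ≤ κ - 1 + Δ D)
    {k : Set Y → ℕ} (hk : ∀ G, (k G : ℝ) = n * B G) {t : Y → ℂ}
    (ht : IsSection E' (fun (G : Set Y) z g => IsLocalEq E' G g z) n k t) :
    ∃ σ : X → ℂ, IsSection E (fun (D : Set X) z g => IsLocalEq E D g z) n K σ ∧
      ∀ z, f z ∉ S → (∀ D ∈ 𝒜, z ∉ D) → σ z = t (f z) * Θ z := by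
  classical
  have hKD0 : ∀ D, K D ≠ 0 → Δ D ≠ 0 := by
    intro D hD h0
    apply hD
    have h1 := hK D
    rw [h0, mul_zero] at h1
    exact_mod_cast h1
  have hkB : ∀ G, k G ≠ 0 → B G ≠ 0 := by
    intro G hG h0
    have h1 := hk G
    rw [h0, mul_zero] at h1
    exact hG (by exact_mod_cast h1)
  exact liftH hf hS hthin (n := n) (Θ := Θ)
    (K := K) (hsnc.finite.subset fun D hD => hKD0 D hD)
    (fun D hD => hsnc.prime D (hKD0 D hD)) h𝒜f h𝒜p hΘ.hol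
    (fun x₀ y y₀ hx₀ hy₀ e w g κ hκ he he0 hde hg hg0 hdg hw hw0 heq hsub' hav => by
      refine rel_bound_GP hf (A := {z | ∃ D ∈ 𝒜, z ∈ D}) e₀ hn ?_
        hx₀ hy₀ hκ he he0 hde hg hg0 hdg hw hw0 heq hsub'
        (hav.mono fun z hz hzS hzA => by
          obtain ⟨D, hD, hzD⟩ := hzA
          exact hz hzS D (Or.inr hD) hzD)
      intro r hr
      obtain ⟨C, hC⟩ := hΘ.bound r hr
      exact ⟨C, fun v₀ Q h1 h2 h3 h4 h4' P h5 => hC v₀ Q h1 h2 h3 h4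
        (fun v hv D hD hQD => h4' v hv ⟨D, hD, hQD⟩) P h5⟩)
    (fun G hG => (hB G (hkB G hG)).1)
    (fun G hG => (hB G (hkB G hG)).2) (fun D G κ hD hG hDG hκ hwit => by
      have h1 := hBD D G κ hD hG hDG hκ hwit
      have h3 : ((κ * k G : ℕ) : ℝ) ≤ ((n * (κ - 1) + K D : ℕ) : ℝ) := by
        push_cast [Nat.cast_sub (show 1 ≤ κ from hκ)]
        rw [hk G, hK]
        have h4 : (0 : ℝ) ≤ n := by positivity
        calc (κ : ℝ) * (n * B G) = n * (κ * B G) := by ring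
          _ ≤ n * (κ - 1 + Δ D) := by gcongr
          _ = n * (κ - 1) + n * Δ D := by ring
      exact_mod_cast h3) ht

end RelForm

section Kod

variable {E : Type} [NormedAddCommGroup E] [NormedSpace ℂ E]
variable {X : Type u} [TopologicalSpace X] [ChartedSpace E X]

/-- Sections indexed by a finite type. -/
theorem kodGE_of_fintype {ι : Type u} {eqn : ι → X → (X → ℂ) → Prop} {c : ι → ℝ} {P : Type}
    [Fintype P] {m : ℕ} (hm : 0 < m) {k : ι → ℕ} (hk : ∀ i, (k i : ℝ) = m * c i)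
    {s₀ : X → ℂ} {s : P → X → ℂ} {z : X} (hs₀ : IsSection E eqn m k s₀)
    (hs : ∀ b, IsSection E eqn m k (s b)) (hz : ∀ i, k i ≠ 0 → ∃ g, eqn i z g ∧ g z ≠ 0)
    (h0 : s₀ z ≠ 0) (hind : LinearIndependent ℂ fun b : P => dif E (fun w => s b w / s₀ w) z)
    {j : ℕ} (hj : Fintype.card P = j) : KodGE E eqn c j := by
  let φ : Fin j ≃ P := (Fintype.equivFinOfCardEq hj).symm
  refine ⟨m, k, Fin.cons (α := fun _ => X → ℂ) s₀ fun b => s (φ b), z, hm, hk, ?_, hz, ?_, ?_⟩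
  · intro b
    refine Fin.cases ?_ (fun b => ?_) b
    · exact hs₀
    · exact hs _
  · exact h0
  · exact hind.comp φ φ.injective

end Kod

section Core

variable {E E' E₀ : Type} [NormedAddCommGroup E] [NormedSpace ℂ E] [FiniteDimensional ℂ E]
  [NormedAddCommGroup E'] [NormedSpace ℂ E'] [FiniteDimensional ℂ E']
  [NormedAddCommGroup E₀] [NormedSpace ℂ E₀] [FiniteDimensional ℂ E₀]
variable {X Y : Type u} [TopologicalSpace X] [ChartedSpace E X] [IsManifold 𝓘(ℂ, E) ω X]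
  [TopologicalSpace Y] [ChartedSpace E' Y] [IsManifold 𝓘(ℂ, E') ω Y]

/-- Campana's inequality from relative forms, which may depend on the point of the base. -/
theorem coreR [Nonempty X] {f : X → Y} (hf : ∀ x, HolM E E' f x) {S : Set Y} (hS : IsClosed S)
    (hSd : Dense Sᶜ)
    (hsub : ∀ x, f x ∉ S → Function.Surjective (dM E E' f x)) (e₀ : E ≃L[ℂ] (E' × E₀))
    (hthin : ∀ x, ∃ h : X → ℂ, HolV E h x ∧ (¬ ∀ᶠ z in 𝓝 x, h z = 0) ∧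
      ∀ᶠ z in 𝓝 x, (f z ∈ S → h z = 0) ∧ (h z = 0 → z ∈ closure {z | h z = 0 ∧ Good E E' f S z}))
    {Δ : Set X → ℝ} (hsnc : IsSNCBoundary E Δ) {r : ℕ}
    (hform : ∀ y, y ∉ S → ∃ (N : ℕ) (𝒜 : Set (Set X)) (κ₀ : Set X → ℕ) (Θ : X → ℂ)
      (Ξ : Fin r → X → ℂ), 0 < N ∧ 𝒜.Finite ∧ (∀ D ∈ 𝒜, IsPrimeDivisor E D) ∧
      RelForm f S e₀ N 𝒜 κ₀ Θ ∧ (∀ b, RelForm f S e₀ N 𝒜 κ₀ (Ξ b)) ∧
      (∀ D, (κ₀ D : ℝ) ≤ N * Δ D) ∧ ∃ x, f x = y ∧ (∀ᶠ z in 𝓝 x, Θ z ≠ 0) ∧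
      (∀ b, HolV E (fun z => Ξ b z / Θ z) x) ∧
      ∀ c : Fin r → ℂ, (∀ ξ, dM E E' f x ξ = 0 →
        ∑ b, c b * dif E (fun z => Ξ b z / Θ z) x ξ = 0) → ∀ b, c b = 0)
    {B : Set Y → ℝ}
    (hB : ∀ G, B G ≠ 0 → IsPrimeDivisor E' G ∧ G ⊆ S)
    (hBD : ∀ (D : Set X) (G : Set Y) (κ : ℕ), IsPrimeDivisor E D → IsPrimeDivisor E' G →
      closure (f '' D) = G → 0 < κ → (∃ z ∈ D, ∃ e g w, IsLocalEq E D e z ∧
        IsLocalEq E' G g (f z) ∧ HolAt E w z ∧ w z ≠ 0 ∧ ∀ᶠ x in 𝓝 z, g (f x) = e x ^ κ * w x) →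
      (κ : ℝ) * B G ≤ κ - 1 + Δ D)
    {j : ℕ} (h₂ : KodGE E' (fun (G : Set Y) z g => IsLocalEq E' G g z) B j) :
    KodGE E (fun (D : Set X) z g => IsLocalEq E D g z) Δ (j + r) := by
  classical
  obtain ⟨m, k, t, y₁, hm, hk, ht, hy₁, ht0, hind⟩ := h₂
  obtain ⟨y₂, hy₂⟩ := good_point ht hy₁ ht0 hind
  have hkB : ∀ G, k G ≠ 0 → IsPrimeDivisor E' G := by
    intro G hG
    refine (hB G fun h0 => hG ?_).1
    have h1 := hk G
    rw [h0, mul_zero] at h1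
    exact_mod_cast h1
  have hkfin : {G | k G ≠ 0}.Finite := by
    obtain ⟨T, g, a, hT, -⟩ := ht 0 y₁
    exact (T.finite_toSet).subset fun G hG => hT G hG
  have hdY := dense_compl_finite hkfin (fun G hG => (hkB G hG).1) (fun G hG => by
    rw [dense_iff_inter_open]
    intro U hU hUne
    obtain ⟨x, hxU, hxD⟩ := IsLocalEq.exists_notMem (hkB G hG).2.1 hU hUne
    exact ⟨x, hxU, hxD⟩)
  have hcont : Continuous f := continuous_iff_continuousAt.2 fun x => (hf x).continuousAt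
  -- an open set below
  obtain ⟨V, hV1, hV2, hV3⟩ := eventually_nhds_iff.1 hy₂
  have hVne : (V ∩ {y | ∀ G ∈ {G | k G ≠ 0}, y ∉ G}).Nonempty :=
    hdY.2.inter_open_nonempty _ hV2 ⟨y₂, hV3⟩
  set O : Set Y := V ∩ {y | ∀ G ∈ {G | k G ≠ 0}, y ∉ G} with hO
  have hOo : IsOpen O := hV2.inter hdY.1
  have hdo : IsOpen {x | f x ∉ S} := hS.isOpen_compl.preimage hcont
  obtain ⟨y, hyO, hyS⟩ := hSd.inter_open_nonempty _ hOo hVne
  obtain ⟨N, 𝒜, κ₀, Θ, Ξ, hN, h𝒜f, h𝒜p, hΘ, hΞ, hκ₀, x₁, hx₁y, hΘx₁, hRx₁, hRi⟩ := hform y hyS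
  have hx₁O : f x₁ ∈ O := hx₁y ▸ hyO
  have hx₁S : f x₁ ∉ S := hx₁y ▸ hyS
  obtain ⟨q₀, hq₀, K₁, hK₁, -⟩ := exists_denominator hsnc
  have hfin : {D | Δ D ≠ 0}.Finite := hsnc.finite
  have hpr' : ∀ D ∈ {D | Δ D ≠ 0} ∪ 𝒜, IsPrimeDivisor E D := fun D hD =>
    hD.elim (hsnc.prime D) (h𝒜p D)
  have hdX := dense_compl_finite (hfin.union h𝒜f) (fun D hD => (hpr' D hD).1) (fun D hD => by
    rw [dense_iff_inter_open]
    intro U hU hUne
    obtain ⟨x, hxU, hxD⟩ := IsLocalEq.exists_notMem (hpr' D hD).2.1 hU hUne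
    exact ⟨x, hxU, hxD⟩)
  set q : ℕ := N * q₀ with hqdef
  have hq : 0 < q := Nat.mul_pos hN hq₀
  -- the functions
  let ρ : Fin j ⊕ Fin r → X → ℂ := Sum.elim
    (fun b : Fin j => fun z => (t b.succ (f z) / t 0 (f z)) ^ q) (fun b z => Ξ b z / Θ z)
  obtain ⟨hy1, hy2, hy3, hy4⟩ := hV1 _ hx₁O.1
  have hρh : ∀ b, HolV E (ρ b) x₁ := by
    rintro (b | b)
    · have h1 : HolV E (fun z => (t b.succ (f z) / t 0 (f z)) ^ q) x₁ :=
        HolV.comp (E' := E') (HolV.pow (hy3 b) q) (hf x₁)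
      exact h1
    · exact hRx₁ b
  have hdρ : ∀ b : Fin j, dif E (ρ (Sum.inl b)) x₁ =
      ((q : ℂ) * (t b.succ (f x₁) / t 0 (f x₁)) ^ (q - 1)) •
          (dif E' (fun w => t b.succ w / t 0 w) (f x₁)).comp (dM E E' f x₁) := by
    intro b
    have h1 := dif_comp (HolV.pow (hy3 b) q) (hf x₁)
    rw [dif_pow (hy3 b)] at h1
    exact h1
  have hρi : LinearIndependent ℂ (fun b => dif E (ρ b) x₁) := by
    have h5 : LinearIndependent ℂ (fun b : Fin j =>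
        (dif E' (fun w => t b.succ w / t 0 w) (f x₁)).comp (dM E E' f x₁)) :=
      (linearIndependent_precomp (hsub x₁ hx₁S) _).2 hy4
    have hc : ∀ b : Fin j, (q : ℂ) * (t b.succ (f x₁) / t 0 (f x₁)) ^ (q - 1) ≠ 0 := fun b =>
      mul_ne_zero (by exact_mod_cast hq.ne') (pow_ne_zero _ (div_ne_zero (hy2 b) hy1))
    have h6 := h5.units_smul (fun b => Units.mk0 _ (hc b))
    rw [Fintype.linearIndependent_iff] at h6 ⊢
    intro g hg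
    rw [Fintype.sum_sum_type] at hg
    have h7 : ∀ b : Fin r, g (Sum.inr b) = 0 := by
      refine hRi _ fun ξ hξ => ?_
      have h8 := congrArg (fun L : E →L[ℂ] ℂ => L ξ) hg
      have h9 : (∑ b : Fin j, g (Sum.inl b) • dif E (ρ (Sum.inl b)) x₁ : E →L[ℂ] ℂ) ξ = 0 := by
        rw [sum_apply]
        refine Finset.sum_eq_zero fun b _ => ?_
        rw [hdρ b]
        show g (Sum.inl b) • (((q : ℂ) * (t b.succ (f x₁) / t 0 (f x₁)) ^ (q - 1)) •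
          (dif E' (fun w => t b.succ w / t 0 w) (f x₁)) (dM E E' f x₁ ξ)) = 0
        rw [hξ, map_zero, smul_zero, smul_zero]
      have h10 : (∑ b : Fin j, g (Sum.inl b) • dif E (ρ (Sum.inl b)) x₁ : E →L[ℂ] ℂ) ξ +
          (∑ b : Fin r, g (Sum.inr b) • dif E (ρ (Sum.inr b)) x₁ : E →L[ℂ] ℂ) ξ = 0 := h8
      rw [h9, zero_add, sum_apply] at h10
      exact h10
    have hg' : ∑ b : Fin j, g (Sum.inl b) • dif E (ρ (Sum.inl b)) x₁ = 0 := by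
      have h0 : (∑ b : Fin r, g (Sum.inr b) • dif E (ρ (Sum.inr b)) x₁ : E →L[ℂ] ℂ) = 0 := by
        refine Finset.sum_eq_zero fun b _ => ?_
        rw [h7 b]
        refine ContinuousLinearMap.ext fun v => ?_
        show (0 : ℂ) * dif E (ρ (Sum.inr b)) x₁ v = 0
        exact zero_mul _
      rw [h0, add_zero] at hg
      exact hg
    have h8 := h6 (fun b => g (Sum.inl b)) (by
      rw [← hg']
      refine Finset.sum_congr rfl fun b _ => ?_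
      rw [hdρ b]
      rfl)
    rintro (b | b)
    · exact h8 b
    · exact h7 b
  obtain ⟨NN, hN1, hN2, hN3⟩ := eventually_nhds_iff.1
    ((linearIndependent_dif_eventually hρh hρi).and hΘx₁)
  obtain ⟨x, ⟨⟨hxO, hxs⟩, hxN⟩, hxD⟩ := hdX.2.inter_open_nonempty _
    (((hOo.preimage hcont).inter hdo).inter hN2) ⟨x₁, ⟨hx₁O, hx₁S⟩, hN3⟩
  -- the sections above
  have hqm : 0 < q₀ * m := Nat.mul_pos hq₀ hm
  obtain ⟨p, hp⟩ : ∃ p, q₀ * m = p + 1 := ⟨q₀ * m - 1, by omega⟩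
  have hKΔ : ∀ D, ((m * (N * K₁ D) : ℕ) : ℝ) = (N * (q₀ * m) : ℕ) * Δ D := by
    intro D
    push_cast
    rw [hK₁ D]; ring
  have hκK : ∀ D, q₀ * m * κ₀ D ≤ m * (N * K₁ D) := by
    intro D
    have h1 : ((q₀ * m * κ₀ D : ℕ) : ℝ) ≤ ((m * (N * K₁ D) : ℕ) : ℝ) := by
      push_cast
      rw [hK₁ D]
      have h2 := hκ₀ D
      have h3 : (0 : ℝ) ≤ q₀ * m := by positivity
      calc (q₀ : ℝ) * m * κ₀ D ≤ q₀ * m * (N * Δ D) := by gcongr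
        _ = m * (N * (q₀ * Δ D)) := by ring
    exact_mod_cast h1
  have hform₀ : RelForm f S e₀ (N * (q₀ * m)) 𝒜 (fun D => m * (N * K₁ D))
      (fun z => Θ z ^ (q₀ * m)) := (hΘ.pow (q₀ * m)).mono hκK
  have hform₁ : ∀ b, RelForm f S e₀ (N * (q₀ * m)) 𝒜 (fun D => m * (N * K₁ D))
      (fun z => Θ z ^ p * Ξ b z) := fun b =>
    (((hΘ.pow p).mul (hΞ b)).congr (N' := N * (q₀ * m)) (by rw [hp]; ring)
      (κ' := fun D => q₀ * m * κ₀ D) (fun D => by rw [hp]; ring) (fun x => rfl)).mono hκK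
  have hkq : ∀ G, ((k G * q : ℕ) : ℝ) = (N * (q₀ * m) : ℕ) * B G := by
    intro G
    push_cast
    rw [hk G, hqdef]
    push_cast
    ring
  have hmq : m * q = N * (q₀ * m) := by rw [hqdef]; ring
  have htq : ∀ b, IsSection E' (fun (G : Set Y) z g => IsLocalEq E' G g z) (N * (q₀ * m))
      (fun G => k G * q) (fun y => t b y ^ q) := by
    intro b
    have := isSection_pow (ht b) q
    rwa [hmq] at this
  have hn : 0 < N * (q₀ * m) := Nat.mul_pos hN hqm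
  have hσ : ∀ b : Fin (j + 1), ∃ σ : X → ℂ,
      IsSection E (fun (D : Set X) z g => IsLocalEq E D g z) (N * (q₀ * m))
        (fun D => m * (N * K₁ D)) σ ∧
        ∀ z, f z ∉ S → (∀ D ∈ 𝒜, z ∉ D) → σ z = t b (f z) ^ q * Θ z ^ (q₀ * m) := fun b =>
    lift_rel hf hS hthin h𝒜f h𝒜p hn hform₀ hsnc hKΔ hB hBD hkq (htq b)
  have hσ' : ∀ b : Fin r, ∃ σ : X → ℂ,
      IsSection E (fun (D : Set X) z g => IsLocalEq E D g z) (N * (q₀ * m))
        (fun D => m * (N * K₁ D)) σ ∧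
        ∀ z, f z ∉ S → (∀ D ∈ 𝒜, z ∉ D) → σ z = t 0 (f z) ^ q * (Θ z ^ p * Ξ b z) := fun b =>
    lift_rel hf hS hthin h𝒜f h𝒜p hn (hform₁ b) hsnc hKΔ hB hBD hkq (htq 0)
  choose σ hσs hσv using hσ
  choose σ' hσ's hσ'v using hσ'
  have hev : ∀ᶠ z in 𝓝 x, f z ∈ O ∧ Θ z ≠ 0 ∧
      (∀ b, σ b z = t b (f z) ^ q * Θ z ^ (q₀ * m)) ∧
      ∀ b, σ' b z = t 0 (f z) ^ q * (Θ z ^ p * Ξ b z) := by
    filter_upwards [(hOo.preimage hcont).mem_nhds hxO, hdo.mem_nhds hxs, hN2.mem_nhds hxN,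
      hdX.1.mem_nhds hxD] with z h1 h2 h3 h4
    have h5 : ∀ D ∈ 𝒜, z ∉ D := fun D hD => h4 D (Or.inr hD)
    exact ⟨h1, (hN1 z h3).2, fun b => hσv b z h2 h5, fun b => hσ'v b z h2 h5⟩
  let s : Fin j ⊕ Fin r → X → ℂ := Sum.elim (fun b => σ b.succ) σ'
  have hrat : ∀ b, (fun z => s b z / σ 0 z) =ᶠ[𝓝 x] ρ b := by
    rintro (b | b)
    · filter_upwards [hev] with z hz
      have h1 : t 0 (f z) ^ q ≠ 0 := pow_ne_zero _ (hV1 _ hz.1.1).1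
      have h2 : Θ z ^ (q₀ * m) ≠ 0 := pow_ne_zero _ hz.2.1
      show σ b.succ z / σ 0 z = (t b.succ (f z) / t 0 (f z)) ^ q
      rw [hz.2.2.1, hz.2.2.1, mul_div_mul_right _ _ h2, div_pow]
    · filter_upwards [hev] with z hz
      have h1 : t 0 (f z) ^ q ≠ 0 := pow_ne_zero _ (hV1 _ hz.1.1).1
      have h2 : Θ z ≠ 0 := hz.2.1
      show σ' b z / σ 0 z = Ξ b z / Θ z
      rw [hz.2.2.1, hz.2.2.2, hp, pow_succ]
      field_simp
  refine kodGE_of_fintype (P := Fin j ⊕ Fin r) hn (k := fun D => m * (N * K₁ D)) hKΔ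
    (s₀ := σ 0) (s := s) (z := x) (hσs 0) ?_ ?_ ?_ ?_ (by simp)
  · rintro (b | b)
    · exact hσs _
    · exact hσ's _
  · intro D hD
    have hΔ : Δ D ≠ 0 := by
      intro h0
      have h1 := hK₁ D
      rw [h0, mul_zero] at h1
      exact right_ne_zero_of_mul (right_ne_zero_of_mul hD) (by exact_mod_cast h1)
    obtain ⟨g, hg⟩ := (hsnc.prime D hΔ).2.1 x
    exact ⟨g, hg, fun h0 => hxD D (Or.inl hΔ) (hg.mem_iff.2 h0)⟩
  · rw [hev.self_of_nhds.2.2.1]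
    exact mul_ne_zero (pow_ne_zero _ (hV1 _ hxO.1).1) (pow_ne_zero _ hev.self_of_nhds.2.1)
  · have hfun : (fun b : Fin j ⊕ Fin r => dif E (fun w => s b w / σ 0 w) x) =
        fun b => dif E (ρ b) x := by
      funext b
      exact dV_congr (hrat b)
    rw [hfun]
    exact (hN1 x hxN).1

end Core

end Vale.Agent.P281.H713
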