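import Vale.Agent.P281.MF.Hol

open scoped Topology ContDiff
open Set Filter Metric

namespace Vale.Agent.P281.H713

set_option linter.unusedSectionVars false

section Lift

variable {E V : Type*} [NormedAddCommGroup E] [NormedSpace ℂ E]
  [NormedAddCommGroup V] [NormedSpace ℂ V] {X : Type*}

theorem lift_diff {p : V → X} {Λ : Set V} {ε : ℝ} (hε : 0 < ε) (hΛ0 : ∀ l ∈ Λ, ∀ l' ∈ Λ,
    ‖l - l'‖ < ε → l = l') (hp : ∀ w w', p w = p w' → w' - w ∈ Λ) {g g' : E → V} {v : E}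
    (hg : ContinuousAt g v) (hg' : ContinuousAt g' v) (he : ∀ᶠ z in 𝓝 v, p (g z) = p (g' z)) :
    ∀ᶠ z in 𝓝 v, g' z = g z + (g' v - g v) := by
  have h1 : ContinuousAt (fun z => g' z - g z - (g' v - g v)) v :=
    (hg'.sub hg).sub continuousAt_const
  have h2 : ∀ᶠ z in 𝓝 v, ‖g' z - g z - (g' v - g v)‖ < ε := by
    refine h1.norm.eventually_lt_const ?_
    simpa using hε
  have h3 := hp _ _ he.self_of_nhds
  filter_upwards [he, h2] with z hz hz2
  have h4 := hp _ _ hz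
  have h5 := hΛ0 _ h4 _ h3 hz2
  rw [← h5]
  abel

theorem lift_fderiv {p : V → X} {Λ : Set V} {ε : ℝ} (hε : 0 < ε) (hΛ0 : ∀ l ∈ Λ, ∀ l' ∈ Λ,
    ‖l - l'‖ < ε → l = l') (hp : ∀ w w', p w = p w' → w' - w ∈ Λ) {g g' : E → V} {v : E}
    (hg : ContinuousAt g v) (hg' : ContinuousAt g' v) (he : ∀ᶠ z in 𝓝 v, p (g z) = p (g' z)) :
    fderiv ℂ g' v = fderiv ℂ g v := by
  have h1 : g' =ᶠ[𝓝 v] fun z => g z + (g' v - g v) := lift_diff hε hΛ0 hp hg hg' he
  rw [h1.fderiv_eq, fderiv_add_const]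

/-- Lifting of holomorphic maps on convex open sets. -/
theorem exists_lift [CompleteSpace V] {p : V → X} {Λ : Set V} {ε : ℝ} (hε : 0 < ε)
    (hΛ0 : ∀ l ∈ Λ, ∀ l' ∈ Λ, ‖l - l'‖ < ε → l = l')
    (hp : ∀ w w', p w = p w' ↔ w' - w ∈ Λ) {B : Set E} (hBo : IsOpen B)
    (hBc : Convex ℝ B) {Q : E → X}
    (hloc : ∀ v ∈ B, ∃ g : E → V, ContDiffAt ℂ ω g v ∧ ∀ᶠ z in 𝓝 v, p (g z) = Q z) :
    ∃ H : E → V, DifferentiableOn ℂ H B ∧ (∀ v ∈ B, p (H v) = Q v) ∧
      ∀ v ∈ B, ∀ g : E → V, ContinuousAt g v → (∀ᶠ z in 𝓝 v, p (g z) = Q z) →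
        fderiv ℂ g v = fderiv ℂ H v := by
  rcases B.eq_empty_or_nonempty with rfl | ⟨v₀, hv₀⟩
  · exact ⟨fun _ => 0, by simp, by simp, by simp⟩
  have hp1 : ∀ w w', p w = p w' → w' - w ∈ Λ := fun w w' => (hp w w').1
  choose! g hgc hgp using hloc
  set hd : E → (E →L[ℂ] V) := fun v => fderiv ℂ (g v) v with hhd
  have hdev : ∀ v ∈ B, ∀ᶠ z in 𝓝 v, hd z = fderiv ℂ (g v) z ∧ DifferentiableAt ℂ (g v) z ∧
      z ∈ B ∧ p (g v z) = Q z := by
    intro v hv
    filter_upwards [hBo.mem_nhds hv, (hgc v hv).eventually (by simp),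
      eventually_eventually_nhds.2 (hgp v hv)] with z hz hgz hgp'
    refine ⟨?_, hgz.differentiableAt (by simp), hz, hgp'.self_of_nhds⟩
    refine lift_fderiv hε hΛ0 hp1 hgz.continuousAt (hgc z hz).continuousAt ?_
    filter_upwards [hgp', hgp z hz] with x hx1 hx2
    rw [hx1, hx2]
  have hfd : ∀ v ∈ B, HasFDerivAt hd (fderiv ℂ (fderiv ℂ (g v)) v) v := by
    intro v hv
    have h1 : DifferentiableAt ℂ (fderiv ℂ (g v)) v :=
      ((hgc v hv).fderiv_right (m := ω) (by simp)).differentiableAt (by simp)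
    have h2 : hd =ᶠ[𝓝 v] fderiv ℂ (g v) := (hdev v hv).mono fun z hz => hz.1
    exact h1.hasFDerivAt.congr_of_eventuallyEq h2
  have hfd' : ∀ v ∈ B, HasFDerivWithinAt (𝕜 := ℝ) hd
      ((fderiv ℂ (fderiv ℂ (g v)) v).restrictScalars ℝ) B v := fun v hv =>
    ((hfd v hv).restrictScalars ℝ).hasFDerivWithinAt
  have hsym : ∀ a ∈ B, ∀ x ∈ tangentConeAt ℝ B a, ∀ y ∈ tangentConeAt ℝ B a,
      (fderiv ℂ (fderiv ℂ (g a)) a).restrictScalars ℝ x y =
        (fderiv ℂ (fderiv ℂ (g a)) a).restrictScalars ℝ y x := by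
    intro a ha x _ y _
    have h1 : IsSymmSndFDerivAt ℂ (g a) a := (hgc a ha).isSymmSndFDerivAt (by simp)
    exact h1.eq x y
  obtain ⟨H₀, hH₀⟩ := Convex.exists_forall_hasFDerivWithinAt_of_hasFDerivWithinAt_symmetric
    (𝕜 := ℂ) (F := V) hBc hfd' hsym
  set H : E → V := fun v => H₀ v + (g v₀ v₀ - H₀ v₀) with hH
  have hHd : ∀ v ∈ B, HasFDerivAt H (hd v) v := fun v hv =>
    ((hH₀ v hv).hasFDerivAt (hBo.mem_nhds hv)).add_const _
  have hHc : ∀ v ∈ B, ContinuousAt H v := fun v hv => (hHd v hv).continuousAt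
  have hconst : ∀ v ∈ B, ∀ᶠ z in 𝓝 v, H z = g v z + (H v - g v v) := by
    intro v hv
    obtain ⟨δ, hδ, hball⟩ := Metric.eventually_nhds_iff_ball.1 (hdev v hv)
    have h1 : EqOn H (fun z => g v z + (H v - g v v)) (ball v δ) := by
      refine isOpen_ball.eqOn_of_fderiv_eq (𝕜 := ℂ) (convex_ball v δ).isPreconnected ?_ ?_ ?_
        (mem_ball_self hδ) ?_
      · intro z hz
        exact (hHd z (hball z hz).2.2.1).differentiableAt.differentiableWithinAt
      · intro z hz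
        exact ((hball z hz).2.1.add_const _).differentiableWithinAt
      · intro z hz
        show fderiv ℂ H z = fderiv ℂ (fun z => g v z + (H v - g v v)) z
        rw [(hHd z (hball z hz).2.2.1).fderiv, (hball z hz).1, fderiv_add_const]
      · show H v = g v v + (H v - g v v)
        abel
    filter_upwards [ball_mem_nhds v hδ] with z hz using h1 hz
  have hlift : B ⊆ {v | ∀ᶠ z in 𝓝 v, p (H z) = Q z} := by
    refine IsPreconnected.subset_left_of_subset_union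
      (v := {v | ∀ᶠ z in 𝓝 v, ¬ p (H z) = Q z})
      (isOpen_iff_mem_nhds.2 fun v hv => eventually_eventually_nhds.2 hv)
      (isOpen_iff_mem_nhds.2 fun v hv => eventually_eventually_nhds.2 hv) ?_ ?_ ?_
      hBc.isPreconnected
    · rw [Set.disjoint_left]
      intro v h1 h2
      exact h2.self_of_nhds h1.self_of_nhds
    · intro v hv
      by_cases hc : H v - g v v ∈ Λ
      · left
        filter_upwards [hconst v hv, hgp v hv] with z hz1 hz2
        rw [← hz2, hz1]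
        refine ((hp _ _).2 ?_).symm
        rwa [add_sub_cancel_left]
      · right
        filter_upwards [hconst v hv, hgp v hv] with z hz1 hz2 hz3
        apply hc
        rw [← hz2] at hz3
        have h4 := hp1 _ _ hz3.symm
        rwa [hz1, add_sub_cancel_left] at h4
    · refine ⟨v₀, hv₀, ?_⟩
      filter_upwards [hconst v₀ hv₀, hgp v₀ hv₀] with z hz1 hz2
      rw [hz1, ← hz2]
      congr 1
      rw [hH]
      simp
  refine ⟨H, fun v hv => (hHd v hv).differentiableAt.differentiableWithinAt,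
    fun v hv => (hlift hv).self_of_nhds, ?_⟩
  intro v hv g' hg' hgp'
  refine lift_fderiv hε hΛ0 hp1 (hHc v hv) hg' ?_
  filter_upwards [hgp', hlift hv] with z hz1 hz2
  rw [hz1, hz2]

end Lift

end Vale.Agent.P281.H713
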