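import Vale.Agent.P281.H713.CurvHol
import Vale.Agent.P281.H713.Lift

open scoped Manifold ContDiff Topology ENNReal NNReal
open Set Filter Metric Module MeasureTheory

namespace Vale.Agent.P281.H713

open Vale.Agent.P281 Vale.Agent.P281.MF Vale.Agent.P281.ISO Vale.Agent.P281.ELL

set_option linter.unusedSectionVars false

universe u

section Mean

variable {V : Type} [NormedAddCommGroup V] [InnerProductSpace ℂ V] [FiniteDimensional ℂ V]

theorem sub_mean {u : ℂ → V} {z : ℂ} {ρ : ℝ} (hu : DifferentiableOn ℂ u (ball z ρ)) :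
    ‖u z‖ₑ ^ 2 * volume (ball z ρ) ≤ ∫⁻ v in ball z ρ, ‖u v‖ₑ ^ 2 := by
  rcases eq_or_ne (u z) 0 with h0 | h0
  · rw [h0]
    simp
  have hF : DifferentiableOn ℂ (fun v => innerSL ℂ (u z) (u v)) (ball z ρ) :=
    (innerSL ℂ (u z)).differentiable.comp_differentiableOn hu
  have h1 := H124.rpow_mul_volume_le (volume : Measure ℂ) hF (p := 2) (by norm_num)
  have h2 : ‖innerSL ℂ (u z) (u z)‖ₑ = ‖u z‖ₑ ^ 2 := by
    rw [innerSL_apply_apply, ← ofReal_norm, ← ofReal_norm, ← ENNReal.ofReal_pow (norm_nonneg _)]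
    congr 1
    rw [inner_self_eq_norm_sq_to_K, norm_pow]
    simp
  have h3 : ∫⁻ v in ball z ρ, ‖innerSL ℂ (u z) (u v)‖ₑ ^ (2 : ℝ) ≤
      ‖u z‖ₑ ^ 2 * ∫⁻ v in ball z ρ, ‖u v‖ₑ ^ 2 := by
    rw [← lintegral_const_mul' _ _ (by simp)]
    refine lintegral_mono fun v => ?_
    rw [← mul_pow, ENNReal.rpow_ofNat]
    gcongr
    rw [innerSL_apply_apply, ← ofReal_norm, ← ofReal_norm, ← ofReal_norm,
      ← ENNReal.ofReal_mul (norm_nonneg _)]
    exact ENNReal.ofReal_le_ofReal (norm_inner_le_norm _ _)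
  rw [h2] at h1
  have h4 := h1.trans h3
  have h5 : (‖u z‖ₑ ^ 2) ^ (2 : ℝ) * volume (ball z ρ) =
      ‖u z‖ₑ ^ 2 * (‖u z‖ₑ ^ 2 * volume (ball z ρ)) := by
    rw [ENNReal.rpow_ofNat]
    ring
  rw [h5] at h4
  exact (ENNReal.mul_le_mul_iff_right (by simpa using h0) (by simp)).1 h4

theorem disc_bound {r : ℝ} (hr : 0 < r) (A : ℝ≥0) (i : ℕ) : ∃ M : ℝ, 0 ≤ M ∧
    ∀ (u : ℂ → V) (v₀ : ℂ), DifferentiableOn ℂ u (ball v₀ r) →
      ∫⁻ v in ball v₀ r, ‖u v‖ₑ ^ 2 ≤ A → ‖iteratedDeriv i u v₀‖ ≤ M := by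
  have hr2 : 0 < r / 2 := by positivity
  set b : ℝ≥0∞ := volume (ball (0 : ℂ) (r / 2)) with hb
  have hb0 : b ≠ 0 := (measure_ball_pos volume 0 hr2).ne'
  have hbt : b ≠ ⊤ := measure_ball_lt_top.ne
  have : CompleteSpace V := FiniteDimensional.complete ℂ V
  refine ⟨i.factorial * Real.sqrt ((A : ℝ≥0∞) / b).toReal / (r / 2) ^ i, by positivity,
    fun u v₀ hu hA => ?_⟩
  have hsup : ∀ z ∈ closedBall v₀ (r / 2), ‖u z‖ ≤ Real.sqrt ((A : ℝ≥0∞) / b).toReal := by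
    intro z hz
    have hsub : ball z (r / 2) ⊆ ball v₀ r := by
      refine ball_subset_ball' ?_
      have := mem_closedBall.1 hz
      linarith
    have h1 := (sub_mean (hu.mono hsub)).trans ((lintegral_mono_set hsub).trans hA)
    have h2 : volume (ball z (r / 2)) = b := Measure.addHaar_ball_center _ _ _
    rw [h2] at h1
    have h3 : ‖u z‖ₑ ^ 2 ≤ (A : ℝ≥0∞) / b := by
      rw [ENNReal.le_div_iff_mul_le (Or.inl hb0) (Or.inl hbt)]
      exact h1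
    refine Real.le_sqrt_of_sq_le ?_
    have h4 : (‖u z‖ₑ ^ 2).toReal = ‖u z‖ ^ 2 := by
      rw [ENNReal.toReal_pow, toReal_enorm]
    rw [← h4]
    exact ENNReal.toReal_mono (ENNReal.div_ne_top (by simp) hb0) h3
  refine Complex.norm_iteratedDeriv_le_of_forall_mem_sphere_norm_le i hr2 ?_ fun z hz =>
    hsup z (sphere_subset_closedBall hz)
  refine DifferentiableOn.diffContOnCl (hu.mono ?_)
  refine closure_ball_subset_closedBall.trans ?_
  exact closedBall_subset_ball (by linarith)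

theorem bdet_bound {g : ℕ} (e : Basis (Fin g) ℂ V) {M : ℝ} (hM : 0 ≤ M) : ∃ K : ℝ, 0 ≤ K ∧
    ∀ v : Fin g → V, (∀ i, ‖v i‖ ≤ M) → ‖e.det v‖ ≤ K := by
  obtain ⟨K, hK⟩ := (isCompact_closedBall (0 : Fin g → V) M).exists_bound_of_continuousOn
    (contDiff_bdet e).continuous.continuousOn
  refine ⟨max K 0, le_max_right _ _, fun v hv => (hK v ?_).trans (le_max_left _ _)⟩
  rw [mem_closedBall_zero_iff]
  exact (pi_norm_le_iff_of_nonneg hM).2 hv

end Mean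

section Bound

variable {E E' : Type} [NormedAddCommGroup E] [NormedSpace ℂ E] [FiniteDimensional ℂ E]
  [NormedAddCommGroup E'] [NormedSpace ℂ E'] [FiniteDimensional ℂ E']
variable {X Y : Type u} [TopologicalSpace X] [ChartedSpace E X] [IsManifold 𝓘(ℂ, E) ω X]
  [TopologicalSpace Y] [ChartedSpace E' Y] [IsManifold 𝓘(ℂ, E') ω Y]
variable {V : Type} [NormedAddCommGroup V] [InnerProductSpace ℂ V] [FiniteDimensional ℂ V]
variable {n g : ℕ} {Q : (Fin n → ℝ) → (Fin n → ℝ) → ℝ}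
variable {f : X → Y} {S : Set Y} {ι : Type u} {U : ι → Set Y}
  {π : ι → Y → ((Fin n → ℝ) ≃L[ℝ] V)} {α : ι → X → V}

/-- the class modulo the periods -/
def cls (P : (Fin n → ℝ) ≃L[ℝ] V) (w : V) : Set V := {w' | w' - w ∈ Lam P}

theorem zero_mem_lam (P : (Fin n → ℝ) ≃L[ℝ] V) : (0 : V) ∈ Lam P := by
  have h1 := mem_lam (P := P) (0 : Fin n → ℤ)
  have h2 : (fun i => (((0 : Fin n → ℤ) i : ℤ) : ℝ)) = 0 := by
    funext i
    simp
  rwa [h2, map_zero] at h1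

theorem cls_eq {P : (Fin n → ℝ) ≃L[ℝ] V} {w w' : V} : cls P w = cls P w' ↔ w' - w ∈ Lam P := by
  constructor
  · intro h
    have h1 : w' ∈ cls P w' := by
      show w' - w' ∈ Lam P
      rw [sub_self]
      exact zero_mem_lam P
    rw [← h] at h1
    exact h1
  · intro h
    ext v
    show v - w ∈ Lam P ↔ v - w' ∈ Lam P
    constructor
    · intro h1
      have := lam_sub h1 h
      rwa [sub_sub_sub_cancel_right] at this
    · intro h1
      have := lam_add h1 h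
      rwa [sub_add_sub_cancel] at this

theorem congr_iff_cls {P : (Fin n → ℝ) ≃L[ℝ] V} {w w' : V} :
    IsCongr P w w' ↔ cls P w = cls P w' := by
  rw [cls_eq]
  constructor
  · rintro ⟨m, hm⟩
    exact ⟨m, by rw [hm]; abel⟩
  · rintro ⟨m, hm⟩
    exact ⟨m, by rw [← hm]; abel⟩

/-- the lift of the map to the torus along a disc -/
theorem disc_lift (hC : IsCurveFamily E E' f S Q U π α) {q : ℂ → X} {v₀ : ℂ} {r : ℝ}
    (hq : IsDisc E f q v₀ r) {a : ι} (ha : f (q v₀) ∈ U a) :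
    ∃ h : ℂ → V, DifferentiableOn ℂ h (ball v₀ r) ∧
      (∀ v ∈ ball v₀ r, IsCongr (π a (f (q v₀))) (α a (q v)) (h v)) := by
  obtain ⟨hq1, hq2, hq3⟩ := hq
  set y' := f (q v₀) with hy'
  obtain ⟨ε, hε, hdis⟩ := lam_discrete (π a y')
  have : CompleteSpace V := FiniteDimensional.complete ℂ V
  obtain ⟨H, hH1, hH2, -⟩ := exists_lift (E := ℂ) (p := cls (π a y')) (Λ := Lam (π a y')) hε hdis
    (fun w w' => cls_eq) (B := ball v₀ r) isOpen_ball (convex_ball v₀ r)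
    (Q := fun v => cls (π a y') (α a (q v)))
    (fun v hv => by
      have hv' : f (q v) ∈ U a := by rw [hq3 v hv]; exact ha
      obtain ⟨β, h4, h5⟩ := hC.lift a (q v) hv'
      have h6 := hq1 v hv
      refine ⟨fun z => β (q z), (slice_fderiv h6 h4).1, ?_⟩
      filter_upwards [h6.continuousAt.eventually h5, isOpen_ball.mem_nhds hv] with z h7 h8
      rw [hq3 z h8] at h7
      exact (congr_iff_cls.1 h7).symm)
  exact ⟨H, hH1, fun v hv => congr_iff_cls.2 (hH2 v hv).symm⟩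

/-- two lifts differ by a constant -/
theorem lift_const {P : (Fin n → ℝ) ≃L[ℝ] V} {h h' w : ℂ → V} {v₀ : ℂ}
    (hc : ContinuousAt h v₀) (hc' : ContinuousAt h' v₀)
    (h1 : ∀ᶠ z in 𝓝 v₀, IsCongr P (w z) (h z)) (h2 : ∀ᶠ z in 𝓝 v₀, IsCongr P (w z) (h' z)) :
    h' =ᶠ[𝓝 v₀] fun z => h z + (h' v₀ - h v₀) := by
  obtain ⟨ε, hε, hdis⟩ := lam_discrete P
  refine lift_diff (p := cls P) hε hdis (fun w w' => cls_eq.1) hc hc' ?_
  filter_upwards [h1, h2] with z h3 h4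
  rw [← congr_iff_cls.1 h3, ← congr_iff_cls.1 h4]

theorem cval_shift {φ : V → ℂ} {k : ℕ} {π₀ : (Fin n → ℝ) ≃L[ℝ] V} {e : Basis (Fin g) ℂ V}
    {P : (Fin n → ℝ) ≃L[ℝ] V} (c : V) (b : ℂ → V) (t : ℂ) :
    cval Q φ k π₀ e P (fun s => b s + c) t = cval Q φ k π₀ e P b t := by
  unfold cval
  have h1 : deriv (fun s => b s + c) t = deriv b t := deriv_add_const _
  have h2 := wr_affine e (ContinuousLinearEquiv.refl ℂ V) c b t
  have h3 : ((ContinuousLinearEquiv.refl ℂ V : V ≃L[ℂ] V) : V →L[ℂ] V).det = 1 := det_id''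
  rw [h3, one_mul] at h2
  rw [h1]
  congr 2

/-- the uniform bound -/
theorem form_bound (hC : IsCurveFamily E E' f S Q U π α) (hn : 0 < n)
    (e₀ : E ≃L[ℂ] (E' × ℂ)) {φ : V → ℂ} {d : ℕ} {A : ℝ} (hA : 0 ≤ A)
    (hφA : ∀ v, ‖φ v‖ ≤ A * ‖v‖ ^ d) {k : ℕ} (hk : 2 * (n * n + 1) ≤ k)
    {π₀ : (Fin n → ℝ) ≃L[ℝ] V} {G₀ : V ≃L[ℂ] V} (h₀ : IsPol Q π₀ G₀) (e : Basis (Fin g) ℂ V)
    {Θ : X → ℂ}
    (hΘ : ∀ a x, f x ∈ U a → ∀ β, Lft E f π α a x β → ∀ q v P, Slc E f q v x P →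
      Θ x = cval Q φ k π₀ e (π a (f x)) (fun t => β (q t)) v *
        JP e₀ (dM E E' f x) P ^ (d + k * gg g)) {r : ℝ} (hr : 0 < r) :
    ∃ C : ℝ, ∀ (v₀ : ℂ) (q : ℂ → X),
      (∀ v ∈ ball v₀ r, ContMDiffAt 𝓘(ℂ, ℂ) 𝓘(ℂ, E) ω q v) → InjOn q (ball v₀ r) →
      (∀ v ∈ ball v₀ r, f (q v) = f (q v₀)) → f (q v₀) ∉ S → ∀ P : E →L[ℂ] ℂ,
      P.comp (mfderiv 𝓘(ℂ, ℂ) 𝓘(ℂ, E) q v₀ : ℂ →L[ℂ] E) = ContinuousLinearMap.id ℂ ℂ →
      ‖Θ (q v₀)‖ ≤ C * ‖JP e₀ (dM E E' f (q v₀)) P ^ (d + k * gg g)‖ := by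
  obtain ⟨A₁, hA₁⟩ := hC.area
  choose M hM0 hM using fun i : ℕ => disc_bound (V := V) hr A₁ i
  set M' : ℝ := ∑ i ∈ Finset.range (g + 1), M i with hM'
  have hM'0 : 0 ≤ M' := Finset.sum_nonneg fun i _ => hM0 i
  have hMM' : ∀ i, i ≤ g → M i ≤ M' := fun i hi =>
    Finset.single_le_sum (f := M) (fun i _ => hM0 i) (Finset.mem_range.2 (by omega))
  obtain ⟨K, hK0, hK⟩ := bdet_bound e hM'0
  refine ⟨A * (‖(G₀.symm : V →L[ℂ] V)‖ * M') ^ d * ‖(G₀ : V →L[ℂ] V).det‖⁻¹ ^ k *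
    |CP Q π₀ G₀| * K ^ k, fun v₀ q h1 h2 h3 h4 P h5 => ?_⟩
  obtain ⟨a, ha⟩ := (hC.cover _).1 h4
  obtain ⟨h, hh1, hh2⟩ := disc_lift hC ⟨h1, h2, h3⟩ ha
  obtain ⟨β, hβ⟩ := hC.lift a (q v₀) ha
  obtain ⟨G, hG⟩ : ∃ G, IsPol Q (π a (f (q v₀))) G := hC.polarized a _ ha
  have hqc := (h1 v₀ (mem_ball_self hr)).continuousAt
  have hslc : Slc E f q v₀ (q v₀) P :=
    ⟨rfl, h1 v₀ (mem_ball_self hr), eventually_of_mem (ball_mem_nhds v₀ hr) h3, h5⟩
  have hcv : cval Q φ k π₀ e (π a (f (q v₀))) (fun t => β (q t)) v₀ =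
      cval Q φ k π₀ e (π a (f (q v₀))) h v₀ := by
    have h6 : (fun t => β (q t)) =ᶠ[𝓝 v₀] fun z => h z + (β (q v₀) - h v₀) := by
      refine lift_const (P := π a (f (q v₀))) (w := fun z => α a (q z))
        (hh1.continuousOn.continuousAt (ball_mem_nhds v₀ hr))
        (slice_fderiv (h1 v₀ (mem_ball_self hr)) hβ.1).1.continuousAt
        (eventually_of_mem (ball_mem_nhds v₀ hr) hh2) ?_
      filter_upwards [hqc.eventually hβ.2, ball_mem_nhds v₀ hr] with z h7 h8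
      rw [h3 z h8] at h7
      exact h7
    rw [cval_congr h6, cval_shift]
  rw [hΘ a _ ha β hβ q v₀ P hslc, hcv, norm_mul]
  refine mul_le_mul_of_nonneg_right ?_ (norm_nonneg _)
  -- the normalized lift
  have : CompleteSpace V := FiniteDimensional.complete ℂ V
  set w : ℂ → V := fun z => G (deriv h z) with hw
  have hwd : DifferentiableOn ℂ w (ball v₀ r) := by
    have h6 : DifferentiableOn ℂ (deriv h) (ball v₀ r) := hh1.deriv isOpen_ball
    exact (G : V →L[ℂ] V).differentiable.comp_differentiableOn h6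
  have harea := hA₁ a q v₀ r ⟨h1, h2, h3⟩ ha h hh1 hh2 G hG
  have hit : ∀ i, i ≤ g → ‖iteratedDeriv i w v₀‖ ≤ M' := fun i hi =>
    (hM i w v₀ hwd harea).trans (hMM' i hi)
  have hwr : ‖(G : V →L[ℂ] V).det‖ * ‖wr e h v₀‖ ≤ K := by
    rw [← norm_mul, ← wr_affine e G 0 h v₀]
    refine hK _ fun i => ?_
    have h6 : iteratedDeriv (i + 1) (fun t => G (h t) + 0) v₀ = iteratedDeriv i w v₀ := by
      rw [iteratedDeriv_affine, iteratedDeriv_succ', ← congrFun (iteratedDeriv_map G i (deriv h)) v₀]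
    rw [h6]
    exact hit i i.2.le
  have hPP := (PP_bound hn hA hφA hk h₀ hG (deriv h v₀)).2
  have hw0 : ‖G (deriv h v₀)‖ ≤ M' := by
    have := hit 0 (Nat.zero_le _)
    simpa using this
  unfold cval
  rw [norm_mul, norm_pow]
  calc ‖PP Q φ k π₀ (π a (f (q v₀))) (deriv h v₀)‖ * ‖wr e h v₀‖ ^ k
      ≤ (A * (‖(G₀.symm : V →L[ℂ] V)‖ * M') ^ d *
        (‖(G : V →L[ℂ] V).det‖ * ‖(G₀ : V →L[ℂ] V).det‖⁻¹) ^ k * |CP Q π₀ G₀|) *
        ‖wr e h v₀‖ ^ k := by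
        refine mul_le_mul_of_nonneg_right (hPP.trans ?_) (by positivity)
        have h7 : 0 ≤ CP Q π₀ G₀ := by
          unfold CP
          refine mul_nonneg (pow_nonneg ?_ _) (tsum_nonneg fun _ => by positivity)
          unfold C0
          positivity
        have h6 : CP Q π₀ G₀ ≤ |CP Q π₀ G₀| := le_abs_self _
        gcongr
    _ = A * (‖(G₀.symm : V →L[ℂ] V)‖ * M') ^ d * ‖(G₀ : V →L[ℂ] V).det‖⁻¹ ^ k *
        |CP Q π₀ G₀| * (‖(G : V →L[ℂ] V).det‖ * ‖wr e h v₀‖) ^ k := by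
        rw [mul_pow, mul_pow]
        ring
    _ ≤ _ := by gcongr

end Bound

end Vale.Agent.P281.H713
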