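import Vale.Agent.P281.H713.Defs

namespace Vale.Agent.P281.H713

open scoped Manifold ContDiff Topology ENNReal NNReal
open Set Metric MeasureTheory

universe u

section

variable (E E' : Type) [NormedAddCommGroup E] [NormedSpace ℂ E]
  [NormedAddCommGroup E'] [NormedSpace ℂ E']
variable {X Y : Type u} [TopologicalSpace X] [ChartedSpace E X]
  [TopologicalSpace Y] [ChartedSpace E' Y]
variable {V : Type} [NormedAddCommGroup V] [InnerProductSpace ℂ V] [FiniteDimensional ℂ V]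

/-- `v` and `w` are congruent modulo the lattice `P(ℤ ^ n)`. -/
def IsCongr {n : ℕ} (P : (Fin n → ℝ) ≃L[ℝ] V) (v w : V) : Prop :=
  ∃ m : Fin n → ℤ, w = v + P fun i => (m i : ℝ)

/-- `q` embeds the disc `|v - v₀| < r` holomorphically in the fibre of `f` through `q v₀`. -/
def IsDisc (f : X → Y) (q : ℂ → X) (v₀ : ℂ) (r : ℝ) : Prop :=
  (∀ v ∈ ball v₀ r, ContMDiffAt 𝓘(ℂ, ℂ) 𝓘(ℂ, E) ω q v) ∧ InjOn q (ball v₀ r) ∧
    ∀ v ∈ ball v₀ r, f (q v) = f (q v₀)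

/-- Over `Y ∖ S`, `f : X → Y` is a smooth family of curves, with varying moduli, together with
holomorphic maps from the curves to polarized complex tori, for instance the Abel-Jacobi maps of
the curves: `α a`, defined modulo the periods `π a`, maps `f⁻¹(y)`, `y ∈ U a`, to the torus
`V / π a y (ℤ ^ n)`; the curves are not mapped to translates of smaller subtori (or of any
hyperplane of `V`); the areas of the discs in the curves, for the metrics given by the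
polarization, are bounded; the changes of maps are affine and respect the polarization. -/
structure IsCurveFamily {n : ℕ} (f : X → Y) (S : Set Y) (Q : (Fin n → ℝ) → (Fin n → ℝ) → ℝ)
    {ι : Type u} (U : ι → Set Y) (π : ι → Y → ((Fin n → ℝ) ≃L[ℝ] V)) (α : ι → X → V) : Prop
    extends IsPeriodFamily E' S Q U π where
  coord : ∀ x, f x ∉ S → ∃ ζ : X → ℂ, J.HolAt E ζ x ∧
    ∀ ξ : E, mfderiv 𝓘(ℂ, E) 𝓘(ℂ, E') f x ξ = 0 → J.dif E ζ x ξ = 0 → ξ = 0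
  lift : ∀ a x, f x ∈ U a → ∃ β : X → V, ContMDiffAt 𝓘(ℂ, E) 𝓘(ℂ, V) ω β x ∧
    ∀ᶠ z in 𝓝 x, IsCongr (π a (f z)) (α a z) (β z)
  nondeg : ∀ a, ∀ y ∈ U a, ∃ x, f x = y ∧ ∀ β : X → V, ContMDiffAt 𝓘(ℂ, E) 𝓘(ℂ, V) ω β x →
    (∀ᶠ z in 𝓝 x, IsCongr (π a (f z)) (α a z) (β z)) → ∀ l : V →L[ℂ] ℂ,
    (∀ᶠ z in 𝓝 x, f z = y → l (β z) = l (β x)) → l = 0
  area : ∃ A : ℝ≥0, ∀ (a : ι) (q : ℂ → X) (v₀ : ℂ) (r : ℝ), IsDisc E f q v₀ r →
    f (q v₀) ∈ U a → ∀ h : ℂ → V, DifferentiableOn ℂ h (ball v₀ r) →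
    (∀ v ∈ ball v₀ r, IsCongr (π a (f (q v₀))) (α a (q v)) (h v)) →
    ∀ G : V ≃L[ℂ] V, (∀ x x', (inner ℂ (G (π a (f (q v₀)) x)) (G (π a (f (q v₀)) x'))).im =
      Q x x') → ∫⁻ v in ball v₀ r, ‖G (deriv h v)‖ₑ ^ 2 ≤ A
  change : ∀ a b, ∀ y ∈ U a ∩ U b, ∃ (G : V ≃L[ℂ] V) (c : V),
    IsPeriodChange Q (π a y) (π b y) G ∧ ∀ z, f z = y →
      IsCongr (π b y) (G (α a z) + c) (α b z)

end

end Vale.Agent.P281.H713
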