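import Vale.Agent.P281.H713.Poinc2
import Vale.Agent.P281.H124.Mean

open scoped Topology ContDiff ENNReal
open Set Filter Complex Module MeasureTheory Metric

namespace Vale.Agent.P281.H713

set_option linter.unusedSectionVars false

section Vol

variable {V : Type*} [NormedAddCommGroup V] [InnerProductSpace ℂ V] [FiniteDimensional ℂ V]
  [MeasurableSpace V] [BorelSpace V] (μ : Measure V) [μ.IsAddHaarMeasure]
variable {n : ℕ} {Q : (Fin n → ℝ) → (Fin n → ℝ) → ℝ}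
variable {π₀ π : (Fin n → ℝ) ≃L[ℝ] V} {G₀ G : V ≃L[ℂ] V}

/-- the lattice basis -/
noncomputable def lb (π : (Fin n → ℝ) ≃L[ℝ] V) : Basis (Fin n) ℝ V :=
  (Pi.basisFun ℝ (Fin n)).map π.toLinearEquiv

/-- the normalized periods -/
noncomputable def gp (π : (Fin n → ℝ) ≃L[ℝ] V) (G : V ≃L[ℂ] V) : (Fin n → ℝ) ≃L[ℝ] V :=
  π.trans (G.restrictScalars ℝ)

theorem gp_apply (π : (Fin n → ℝ) ≃L[ℝ] V) (G : V ≃L[ℂ] V) (x : Fin n → ℝ) :
    gp π G x = G (π x) := rfl

theorem mem_lattice {π : (Fin n → ℝ) ≃L[ℝ] V} {v : V} :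
    v ∈ Submodule.span ℤ (Set.range (lb π)) ↔ ∃ m : Fin n → ℤ, v = π fun i => (m i : ℝ) := by
  rw [(lb π).mem_span_iff_repr_mem ℤ]
  constructor
  · intro h
    choose m hm using h
    refine ⟨m, ?_⟩
    have h1 : (fun i => (m i : ℝ)) = π.symm v := by
      funext i
      have := hm i
      rw [lb, Basis.map_repr] at this
      simpa using this
    rw [h1, π.apply_symm_apply]
  · rintro ⟨m, rfl⟩ i
    refine ⟨m i, ?_⟩
    rw [lb, Basis.map_repr]
    simp

theorem fd_const (h₀ : IsPol Q π₀ G₀) (h : IsPol Q π G) :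
    μ (ZSpan.fundamentalDomain (lb (gp π G))) = μ (ZSpan.fundamentalDomain (lb (gp π₀ G₀))) := by
  have : FiniteDimensional ℝ V := FiniteDimensional.complexToReal V
  -- the symplectic map
  let e : V ≃L[ℝ] V := (gp π₀ G₀).symm.trans (gp π G)
  have he : IsSymp (e : V →L[ℝ] V) := by
    intro u v
    show (inner ℂ (G (π _)) (G (π _))).im = _
    rw [h, ← h₀]
    show (inner ℂ (gp π₀ G₀ ((gp π₀ G₀).symm u)) (gp π₀ G₀ ((gp π₀ G₀).symm v))).im = _
    rw [(gp π₀ G₀).apply_symm_apply, (gp π₀ G₀).apply_symm_apply]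
  have h1 : lb (gp π G) = (lb (gp π₀ G₀)).map e.toLinearEquiv := by
    refine Basis.eq_of_apply_eq fun i => ?_
    show gp π G (Pi.basisFun ℝ (Fin n) i) =
      gp π G ((gp π₀ G₀).symm (gp π₀ G₀ (Pi.basisFun ℝ (Fin n) i)))
    rw [(gp π₀ G₀).symm_apply_apply]
  rw [h1, ← ZSpan.map_fundamentalDomain]
  have h2 := Measure.addHaar_image_linearMap μ (e : V →ₗ[ℝ] V)
    (ZSpan.fundamentalDomain (lb (gp π₀ G₀)))
  have h3 : |LinearMap.det (e : V →ₗ[ℝ] V)| = 1 := abs_det_symp he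
  rw [h3, ENNReal.ofReal_one, one_mul] at h2
  exact h2

/-- volume of a subset which is injective modulo the periods -/
theorem vol_le {h : V → V} {B : Set V} (hB : IsOpen B) (hh : DifferentiableOn ℂ h B)
    (hinj : ∀ v ∈ B, ∀ v' ∈ B, (∃ m : Fin n → ℤ, h v' - h v = π fun i => (m i : ℝ)) → v = v') :
    ∫⁻ v in B, ‖(fderiv ℂ h v).det‖ₑ ^ (2 : ℝ) ∂μ ≤ μ (ZSpan.fundamentalDomain (lb π)) := by
  have : FiniteDimensional ℝ V := FiniteDimensional.complexToReal V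
  have hinj' : InjOn h B := fun v hv v' hv' hvv => hinj v hv v' hv' ⟨0, by
    rw [hvv, sub_self]
    have h0 : (fun i : Fin n => (((0 : Fin n → ℤ) i : ℤ) : ℝ)) = 0 := by
      funext i
      simp
    rw [h0, map_zero]⟩
  have h1 := lintegral_abs_det_fderiv_eq_addHaar_image μ hB.measurableSet
    (f' := fun v => (fderiv ℂ h v).restrictScalars ℝ)
    (fun x hx => ((hh.differentiableAt (hB.mem_nhds hx)).hasFDerivAt.restrictScalars
      ℝ).hasFDerivWithinAt) hinj'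
  have h2 : ∫⁻ v in B, ‖(fderiv ℂ h v).det‖ₑ ^ (2 : ℝ) ∂μ =
      ∫⁻ v in B, ENNReal.ofReal |((fderiv ℂ h v).restrictScalars ℝ).det| ∂μ := by
    refine lintegral_congr fun v => ?_
    rw [H124.abs_det_real, ← ofReal_norm, ENNReal.ofReal_rpow_of_nonneg (norm_nonneg _)
      (by norm_num)]
    norm_num
  rw [h2, h1]
  by_contra hcon
  have hfd := ZSpan.isAddFundamentalDomain' (lb π) μ
  have : Countable (Submodule.span ℤ (range (lb π))).toAddSubgroup :=
    inferInstanceAs (Countable (Submodule.span ℤ (range (lb π))))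
  have hmeas : MeasurableSet (h '' B) := by
    refine MeasureTheory.measurable_image_of_fderivWithin hB.measurableSet (f' := fun v => (fderiv ℂ h v).restrictScalars ℝ)
      (fun x hx => ((hh.differentiableAt (hB.mem_nhds hx)).hasFDerivAt.restrictScalars
      ℝ).hasFDerivWithinAt) hinj'
  obtain ⟨x, hx, y, hy, l, hl, hxy⟩ := hfd.exists_ne_zero_vadd_eq hmeas.nullMeasurableSet
    (not_le.1 hcon)
  obtain ⟨v, hv, rfl⟩ := hx
  obtain ⟨v', hv', rfl⟩ := hy
  obtain ⟨m, hm⟩ := mem_lattice.1 l.2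
  have h3 : h v' - h v = π fun i => (m i : ℝ) := by
    rw [← hm, ← hxy]
    show (l : V) + h v - h v = _
    abel
  have h4 := hinj v hv v' hv' ⟨m, h3⟩
  rw [h4, sub_self] at h3
  apply hl
  have h5 : (l : V) = 0 := by rw [hm, ← h3]
  exact Subtype.ext h5

end Vol

section Slice

variable {V : Type*} [NormedAddCommGroup V] [InnerProductSpace ℂ V] [FiniteDimensional ℂ V]
variable {n : ℕ} {Q : (Fin n → ℝ) → (Fin n → ℝ) → ℝ}
variable {π₀ π : (Fin n → ℝ) ≃L[ℝ] V} {G₀ G : V ≃L[ℂ] V}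

/-- the Jacobians of the slices of the tori -/
theorem tor_slice (h₀ : IsPol Q π₀ G₀) {r : ℝ} (hr : 0 < r) :
    ∃ C : ℝ, 0 ≤ C ∧ ∀ (π : (Fin n → ℝ) ≃L[ℝ] V) (G : V ≃L[ℂ] V), IsPol Q π G →
      ∀ (v₀ : V) (h : V → V), DifferentiableOn ℂ h (ball v₀ r) →
      (∀ v ∈ ball v₀ r, ∀ v' ∈ ball v₀ r,
        (∃ m : Fin n → ℤ, h v' - h v = π fun i => (m i : ℝ)) → v = v') →
      ‖(G : V →L[ℂ] V).det‖ * ‖(fderiv ℂ h v₀).det‖ ≤ C := by
  have : FiniteDimensional ℝ V := FiniteDimensional.complexToReal V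
  let _ : MeasurableSpace V := borel V
  have : BorelSpace V := ⟨rfl⟩
  let μ : Measure V := Measure.addHaar
  set c₀ : ℝ≥0∞ := μ (ZSpan.fundamentalDomain (lb (gp π₀ G₀))) with hc₀
  have hc₀t : c₀ ≠ ⊤ := by
    have h1 := ZSpan.fundamentalDomain_isBounded (lb (gp π₀ G₀))
    exact (h1.measure_lt_top).ne
  set b₀ : ℝ≥0∞ := μ (ball (0 : V) r) with hb₀
  have hb₀0 : b₀ ≠ 0 := (measure_ball_pos μ 0 hr).ne'
  have hb₀t : b₀ ≠ ⊤ := measure_ball_lt_top.ne
  refine ⟨Real.sqrt (c₀ / b₀).toReal, Real.sqrt_nonneg _, fun π G hG v₀ h hh hinj => ?_⟩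
  set g : V → V := fun v => G (h v) with hg
  have hgd : DifferentiableOn ℂ g (ball v₀ r) :=
    ((G : V →L[ℂ] V).differentiable.comp_differentiableOn hh)
  have hginj : ∀ v ∈ ball v₀ r, ∀ v' ∈ ball v₀ r,
      (∃ m : Fin n → ℤ, g v' - g v = gp π G fun i => (m i : ℝ)) → v = v' := by
    rintro v hv v' hv' ⟨m, hm⟩
    refine hinj v hv v' hv' ⟨m, ?_⟩
    apply G.injective
    rw [map_sub]
    exact hm
  have h1 := vol_le μ (π := gp π G) isOpen_ball hgd hginj
  rw [fd_const μ h₀ hG] at h1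
  have hfd : DifferentiableOn ℂ (fun v => (fderiv ℂ g v).det) (ball v₀ r) := by
    have : CompleteSpace V := FiniteDimensional.complete ℂ V
    intro v hv
    have h2 := (MF.analyticAt_of_differentiableOn isOpen_ball hgd hv).contDiffAt (n := ω)
    have h3 : ContDiffAt ℂ ω (fderiv ℂ g) v := h2.fderiv_right (by simp)
    exact ((contDiff_det'.contDiffAt.comp v h3).differentiableAt (by simp)).differentiableWithinAt
  have h2 := H124.rpow_mul_volume_le μ hfd (p := 2) (by norm_num)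
  have h3 : μ (ball v₀ r) = b₀ := Measure.addHaar_ball_center _ _ _
  rw [h3] at h2
  have h4 := h2.trans h1
  have h5 : ‖(fderiv ℂ g v₀).det‖ₑ ^ (2 : ℝ) ≤ c₀ / b₀ := by
    rw [ENNReal.le_div_iff_mul_le (Or.inl hb₀0) (Or.inl hb₀t)]
    exact h4
  have h6 : (fderiv ℂ g v₀).det = (G : V →L[ℂ] V).det * (fderiv ℂ h v₀).det := by
    rw [← det_comp]
    congr 1
    have h7 : DifferentiableAt ℂ h v₀ := hh.differentiableAt (ball_mem_nhds v₀ hr)
    exact ((G : V →L[ℂ] V).hasFDerivAt.comp v₀ h7.hasFDerivAt).fderiv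
  rw [← norm_mul, ← h6]
  refine Real.le_sqrt_of_sq_le ?_
  have h8 : (‖(fderiv ℂ g v₀).det‖ₑ ^ (2 : ℝ)).toReal = ‖(fderiv ℂ g v₀).det‖ ^ 2 := by
    rw [← ENNReal.toReal_rpow, toReal_enorm]
    norm_num
  rw [← h8]
  exact ENNReal.toReal_mono (ENNReal.div_ne_top hc₀t hb₀0) h5

end Slice

end Vale.Agent.P281.H713
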