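import Vale.Agent.P281.H713.TypeI
import Vale.Agent.P281.H713.Lift
import Vale.Agent.P281.H713.TorVol

open scoped Manifold ContDiff Topology
open Set Filter Metric Module

namespace Vale.Agent.P281.H713

open Vale.Agent.P281 Vale.Agent.P281.MF Vale.Agent.P281.ISO Vale.Agent.P281.ELL

set_option linter.unusedSectionVars false

universe u

section Torus

variable {E E' : Type} [NormedAddCommGroup E] [NormedSpace ℂ E] [FiniteDimensional ℂ E]
  [NormedAddCommGroup E'] [NormedSpace ℂ E'] [FiniteDimensional ℂ E']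
variable {X Y : Type u} [TopologicalSpace X] [ChartedSpace E X] [IsManifold 𝓘(ℂ, E) ω X]
  [TopologicalSpace Y] [ChartedSpace E' Y] [IsManifold 𝓘(ℂ, E') ω Y]
variable {V : Type} [NormedAddCommGroup V] [InnerProductSpace ℂ V] [FiniteDimensional ℂ V]
variable {n : ℕ} {Q : (Fin n → ℝ) → (Fin n → ℝ) → ℝ}
variable {f : X → Y} {S : Set Y} {ι : Type u} {U : ι → Set Y}
  {π : ι → Y → ((Fin n → ℝ) ≃L[ℝ] V)} {u : ι → Y → V → X}

theorem periods_discrete (P : (Fin n → ℝ) ≃L[ℝ] V) : ∃ ε : ℝ, 0 < ε ∧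
    ∀ m m' : Fin n → ℤ, ‖(P fun i => (m i : ℝ)) - P fun i => (m' i : ℝ)‖ < ε → m = m' := by
  set c : ℝ := ‖(P.symm : V →L[ℝ] (Fin n → ℝ))‖ + 1 with hc
  have hc0 : 0 < c := by positivity
  refine ⟨1 / c, by positivity, fun m m' h => ?_⟩
  have h1 := (P.symm : V →L[ℝ] (Fin n → ℝ)).le_opNorm
    ((P fun i => (m i : ℝ)) - P fun i => (m' i : ℝ))
  have h2 : (P.symm : V →L[ℝ] (Fin n → ℝ)) ((P fun i => (m i : ℝ)) - P fun i => (m' i : ℝ)) =
      fun i => ((m i - m' i : ℤ) : ℝ) := by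
    show P.symm _ = _
    rw [map_sub, P.symm_apply_apply, P.symm_apply_apply]
    funext i
    push_cast
    rfl
  rw [h2] at h1
  have h3 : ‖(fun i => ((m i - m' i : ℤ) : ℝ) : Fin n → ℝ)‖ < 1 := by
    refine h1.trans_lt ?_
    have h4 : ‖(P.symm : V →L[ℝ] (Fin n → ℝ))‖ *
        ‖(P fun i => (m i : ℝ)) - P fun i => (m' i : ℝ)‖ ≤ c *
        ‖(P fun i => (m i : ℝ)) - P fun i => (m' i : ℝ)‖ := by
      gcongr
      rw [hc]
      linarith
    refine h4.trans_lt ?_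
    calc c * ‖(P fun i => (m i : ℝ)) - P fun i => (m' i : ℝ)‖ < c * (1 / c) := by gcongr
      _ = 1 := by field_simp
  funext i
  have h5 := (norm_le_pi_norm (fun i => ((m i - m' i : ℤ) : ℝ) : Fin n → ℝ) i).trans_lt h3
  rw [Real.norm_eq_abs, ← Int.cast_abs] at h5
  have h6 : |m i - m' i| < 1 := by exact_mod_cast h5
  have h7 := Int.abs_lt_one_iff.1 h6
  omega

/-- the lattice of periods -/
def Lam (P : (Fin n → ℝ) ≃L[ℝ] V) : Set V := {v | ∃ m : Fin n → ℤ, v = P fun i => (m i : ℝ)}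

theorem lam_discrete (P : (Fin n → ℝ) ≃L[ℝ] V) : ∃ ε : ℝ, 0 < ε ∧
    ∀ l ∈ Lam P, ∀ l' ∈ Lam P, ‖l - l'‖ < ε → l = l' := by
  obtain ⟨ε, hε, h⟩ := periods_discrete P
  refine ⟨ε, hε, ?_⟩
  rintro _ ⟨m, rfl⟩ _ ⟨m', rfl⟩ h1
  rw [h m m' h1]

/-- admissible fibre coordinates -/
def TorCoord (E E' : Type) [NormedAddCommGroup E] [NormedSpace ℂ E]
    [NormedAddCommGroup E'] [NormedSpace ℂ E'] {X Y : Type u} [TopologicalSpace X]
    [ChartedSpace E X] [TopologicalSpace Y] [ChartedSpace E' Y] {ι : Type u} (f : X → Y)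
    (u : ι → Y → V → X) (a : ι) (x : X) (ζ : X → V) : Prop :=
  HolV E ζ x ∧ (∀ᶠ z in 𝓝 x, u a (f z) (ζ z) = z) ∧
    ∀ ξ, dM E E' f x ξ = 0 → dV E ζ x ξ = 0 → ξ = 0

/-- the change of uniformization changes the periods -/
theorem change_period (hT : IsTorusFamily E E' f S Q U π u) {a b : ι} {y : Y} (ha : y ∈ U a)
    (hb : y ∈ U b) {G : V ≃L[ℂ] V} {c : V}
    (hQ : ∀ x x', Q ((π b y).symm (G (π a y x))) ((π b y).symm (G (π a y x'))) = Q x x')
    (h : ∀ w, u b y (G w + c) = u a y w) : IsPeriodChange Q (π a y) (π b y) G := by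
  refine ⟨fun m => ?_, fun m' => ?_, hQ⟩
  · have h1 : u a y 0 = u a y (π a y fun i => (m i : ℝ)) :=
      (hT.unif a y ha 0 _).2.2 ⟨m, by rw [zero_add]⟩
    rw [← h, ← h] at h1
    obtain ⟨m', hm'⟩ := (hT.unif b y hb _ _).2.1 h1
    refine ⟨m', ?_⟩
    have h2 : G (π a y fun i => (m i : ℝ)) + c = c + π b y (fun i => (m' i : ℝ)) := by
      rw [hm', map_zero, zero_add]
    rw [add_comm c] at h2
    exact add_right_cancel h2
  · have h1 : u b y (G 0 + c) = u b y (G (G.symm (π b y fun i => (m' i : ℝ))) + c) :=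
      (hT.unif b y hb _ _).2.2 ⟨m', by rw [G.apply_symm_apply, map_zero, zero_add, add_comm]⟩
    rw [h, h] at h1
    obtain ⟨m, hm⟩ := (hT.unif a y ha _ _).2.1 h1
    refine ⟨m, ?_⟩
    rw [zero_add] at hm
    rw [← hm, G.apply_symm_apply]

theorem hasForms_torus (hn : 0 < n) (hT : IsTorusFamily E E' f S Q U π u)
    (hf : ∀ x, HolM E E' f x) (e₀ : E ≃L[ℂ] (E' × V)) {Δ : Set X → ℝ} (hΔ : ∀ D, 0 ≤ Δ D)
    {y : Y} (hy : y ∉ S) : HasForms f S e₀ Δ 0 y := by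
  classical
  obtain ⟨a₀, ha₀⟩ := (hT.cover y).1 hy
  obtain ⟨G₀, h₀⟩ : ∃ G₀, IsPol Q (π a₀ y) G₀ := hT.polarized a₀ y ha₀
  refine hasForms_typeI hn hT.toIsPeriodFamily hf e₀ hΔ (𝒵 := TorCoord E E' f u)
    (N₀ := 1) (p := 1) one_pos one_pos (fun a x hx => ?_) (fun a x ζ hx hζ => ?_)
    (fun a b x ζ ζ' ha hb hζ hζ' => ?_) (fun r hr => ?_) hy
    ⟨u a₀ y 0, (hT.unif a₀ y ha₀ 0 0).1⟩
  · obtain ⟨ζ, h1, h2, h3⟩ := hT.coord a x hx
    exact ⟨ζ, h1, h2, h3⟩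
  · obtain ⟨h1, h2, h3⟩ := hζ
    refine ⟨h1, ?_, h3⟩
    filter_upwards [h1.eventually, eventually_eventually_nhds.2 h2,
      ker_eventually hf e₀ h1 h3] with z h4 h5 h6 using ⟨h4, h5, h6⟩
  · obtain ⟨G, c, hQ, hG⟩ := hT.change a b (f x) ⟨ha, hb⟩
    refine ⟨G, change_period hT ha hb hQ hG, ?_⟩
    obtain ⟨h1, h2, h3⟩ := hζ
    obtain ⟨h1', h2', -⟩ := hζ'
    rw [pow_one, pow_one, pow_one]
    obtain ⟨ε, hε, hdis⟩ := lam_discrete (π b (f x))
    have hlat : ∀ᶠ z in 𝓝 x, f z = f x → ζ' z - (G (ζ z) + c) ∈ Lam (π b (f x)) := by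
      filter_upwards [h2, h2'] with z hz hz' hfz
      rw [hfz] at hz hz'
      have h4 : u b (f x) (G (ζ z) + c) = u b (f x) (ζ' z) := by rw [hG, hz, hz']
      obtain ⟨m, hm⟩ := (hT.unif b (f x) hb _ _).2.1 h4
      exact ⟨m, by rw [hm]; abel⟩
    have hx0 := hlat.self_of_nhds rfl
    have hcont : ContinuousAt (fun z => ζ' z - (G (ζ z) + c) - (ζ' x - (G (ζ x) + c))) x :=
      (h1'.continuousAt.sub
        ((G.continuous.continuousAt.comp h1.continuousAt).add continuousAt_const)).sub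
        continuousAt_const
    have hsm := hcont.norm.eventually_lt_const (u := ε) (by
      show ‖ζ' x - (G (ζ x) + c) - (ζ' x - (G (ζ x) + c))‖ < ε
      rw [sub_self, norm_zero]
      exact hε)
    refine JP_change hf e₀ (c := c + (ζ' x - (G (ζ x) + c))) h1 h1' h3 ?_
    filter_upwards [hlat, hsm] with z hz hz' hfz
    have h5 := hdis _ (hz hfz) _ hx0 hz'
    rw [← h5]
    abel
  · obtain ⟨C, hC0, hC⟩ := tor_slice h₀ hr
    refine ⟨C, hC0, fun v₀ q h1 h2 h3 a ha ζ hζ G hG => ?_⟩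
    rw [pow_one, pow_one]
    set y' := f (q v₀) with hy'
    obtain ⟨ε, hε, hdis⟩ := lam_discrete (π a y')
    have : CompleteSpace V := FiniteDimensional.complete ℂ V
    obtain ⟨H, hH1, hH2, hH3⟩ := exists_lift (E := V) (p := u a y') (Λ := Lam (π a y')) hε hdis
      (fun w w' => by
        rw [(hT.unif a y' ha w w').2]
        constructor
        · rintro ⟨m, hm⟩
          exact ⟨m, by rw [hm]; abel⟩
        · rintro ⟨m, hm⟩
          exact ⟨m, by rw [← hm]; abel⟩) (B := ball v₀ r) isOpen_ball (convex_ball v₀ r) (Q := q)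
      (fun v hv => by
        have hv' : f (q v) ∈ U a := by rw [h3 v hv]; exact ha
        obtain ⟨ζv, h4, h5, -⟩ := hT.coord a (q v) hv'
        have h6 := h1 v hv
        refine ⟨fun z => ζv (q z), (slice_fderiv h6 h4).1, ?_⟩
        filter_upwards [h6.continuousAt.eventually h5, isOpen_ball.mem_nhds hv] with z h7 h8
        rwa [h3 z h8] at h7)
    have h4 : fderiv ℂ (fun v => ζ (q v)) v₀ = fderiv ℂ H v₀ := by
      have h6 := h1 v₀ (mem_ball_self hr)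
      refine hH3 v₀ (mem_ball_self hr) _ (slice_fderiv h6 hζ.1).1.continuousAt ?_
      filter_upwards [h6.continuousAt.eventually hζ.2.1, ball_mem_nhds v₀ hr] with z h7 h8
      rwa [h3 z h8] at h7
    rw [h4]
    refine hC (π a y') G hG v₀ H hH1 fun v hv v' hv' hm => ?_
    refine h2 hv hv' ?_
    rw [← hH2 v hv, ← hH2 v' hv']
    obtain ⟨m, hm⟩ := hm
    exact (hT.unif a y' ha _ _).2.2 ⟨m, by rw [← hm]; abel⟩

end Torus

end Vale.Agent.P281.H713
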