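import Vale.Agent.P281.H713.Poinc3

open scoped Topology ContDiff
open Set Filter Complex Module

namespace Vale.Agent.P281.H713

set_option linter.unusedSectionVars false

section Pol

variable {V : Type*} [NormedAddCommGroup V] [InnerProductSpace ℂ V] [FiniteDimensional ℂ V]
variable {n : ℕ} {Q : (Fin n → ℝ) → (Fin n → ℝ) → ℝ}
variable {π₀ : (Fin n → ℝ) ≃L[ℝ] V} {G₀ : V ≃L[ℂ] V}

theorem dl_self (M : Matrix (Fin n) (Fin n) ℤ) : dl π₀ π₀ G₀ G₀ M = ‖(LL π₀ π₀ M).det‖ := by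
  rw [dl_eq]
  have := norm_pos_iff.2 (det_equiv_ne G₀)
  field_simp

theorem one_le_det (h₀ : IsPol Q π₀ G₀) (M : spq Q) : 1 ≤ ‖(LL π₀ π₀ (mx M)).det‖ := by
  rw [← dl_self (G₀ := G₀)]
  exact one_le_dl h₀ h₀ M

theorem TT_mul (M N : Matrix (Fin n) (Fin n) ℤ) :
    TT π₀ π₀ (M * N) = (TT π₀ π₀ M).comp (TT π₀ π₀ N) := by
  ext v
  show π₀ (mact (M * N) (π₀.symm v)) = π₀ (mact M (π₀.symm (π₀ (mact N (π₀.symm v)))))
  rw [mact_mul, π₀.symm_apply_apply]

theorem TT_one : TT π₀ π₀ (1 : Matrix (Fin n) (Fin n) ℤ) = ContinuousLinearMap.id ℝ V := by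
  ext v
  show π₀ (mact 1 (π₀.symm v)) = v
  rw [mact_one, π₀.apply_symm_apply]

theorem LL_one : LL π₀ π₀ (1 : Matrix (Fin n) (Fin n) ℤ) = ContinuousLinearMap.id ℂ V := by
  rw [LL, TT_one]
  ext v
  rw [clin_apply]
  simp only [ContinuousLinearMap.id_apply]
  have h4 : I * I = -1 := I_mul_I
  match_scalars
  linear_combination (-(1 / 2 : ℂ)) * h4

/-- the elements with determinant of modulus one act complex linearly. -/
theorem TT_of_det (h₀ : IsPol Q π₀ G₀) {M : spq Q} (hM : ‖(LL π₀ π₀ (mx M)).det‖ = 1) :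
    TT π₀ π₀ (mx M) = (LL π₀ π₀ (mx M)).restrictScalars ℝ := by
  have hs := isSymp_NT h₀ h₀ M
  have h1 : ‖(clin (NT π₀ π₀ G₀ G₀ (mx M))).det‖ = 1 := by
    rw [← hM, ← dl_self (G₀ := G₀)]
    rfl
  have h2 := (expanding _ (le_clin_norm hs)).2.2 h1
  have h3 : ∀ u, alin (NT π₀ π₀ G₀ G₀ (mx M)) u = 0 := by
    intro u
    have h4 := clin_norm hs u
    rw [h2 u] at h4
    have h5 : ‖alin (NT π₀ π₀ G₀ G₀ (mx M)) u‖ ^ 2 = 0 := by linarith
    exact norm_eq_zero.1 (pow_eq_zero_iff two_ne_zero |>.1 h5)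
  ext v
  have h6 := clin_add_alin (NT π₀ π₀ G₀ G₀ (mx M)) (G₀ v)
  rw [h3, add_zero, clin_NT, NT_apply, G₀.symm_apply_apply] at h6
  have h7 : G₀ (LL π₀ π₀ (mx M) v) = G₀ (π₀ (mact (mx M) (π₀.symm v))) := by
    rw [← h6]
    show _ = G₀ (LL π₀ π₀ (mx M) (G₀.symm (G₀ v)))
    rw [G₀.symm_apply_apply]
  exact (G₀.injective h7).symm

theorem LL_mul (h₀ : IsPol Q π₀ G₀) {M : spq Q} (hM : ‖(LL π₀ π₀ (mx M)).det‖ = 1) (N : spq Q) :
    LL π₀ π₀ (mx (M * N)) = (LL π₀ π₀ (mx M)).comp (LL π₀ π₀ (mx N)) := by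
  have h1 : LL π₀ π₀ (mx (M * N)) = clin (TT π₀ π₀ (mx (M * N))) := rfl
  rw [h1, mx_mul, TT_mul, TT_of_det h₀ hM, clin_comp_left]
  rfl

theorem det_mul' (h₀ : IsPol Q π₀ G₀) {M : spq Q} (hM : ‖(LL π₀ π₀ (mx M)).det‖ = 1) (N : spq Q) :
    (LL π₀ π₀ (mx (M * N))).det = (LL π₀ π₀ (mx M)).det * (LL π₀ π₀ (mx N)).det := by
  rw [LL_mul h₀ hM, det_comp]

theorem finite_unit (hn : 0 < n) (h₀ : IsPol Q π₀ G₀) :
    {M : spq Q | ‖(LL π₀ π₀ (mx M)).det‖ = 1}.Finite := by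
  have hs := summable_mx (Γ := spq Q) hn (Nat.lt_succ_self (n * n))
  have hC : 0 ≤ C0 π₀ G₀ := by unfold C0; positivity
  have h1 := hs.tendsto_cofinite_zero
  have hε : (0 : ℝ) < (C0 π₀ G₀ + 1)⁻¹ ^ (n * n + 1) := by positivity
  have h2 := h1.eventually (gt_mem_nhds hε)
  rw [Filter.eventually_cofinite] at h2
  refine h2.subset fun M hM => ?_
  have h3 := mact_le h₀ h₀ 1 M
  rw [inv_one, one_mul, dl_self, dl_self, mx_one, LL_one, det_id'', norm_one,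
    show ‖(LL π₀ π₀ (mx M)).det‖ = 1 from hM, mul_one, mul_one] at h3
  have h4 := mact_mx_pos hn M
  show ¬ (‖mact (mx M)‖⁻¹ ^ (n * n + 1) < (C0 π₀ G₀ + 1)⁻¹ ^ (n * n + 1))
  rw [not_lt]
  gcongr
  linarith

/-- The finite group of the automorphisms of the periods `π₀`. -/
noncomputable def unitF (hn : 0 < n) (h₀ : IsPol Q π₀ G₀) : Finset (spq Q) :=
  (finite_unit hn h₀).toFinset

theorem mem_unitF (hn : 0 < n) (h₀ : IsPol Q π₀ G₀) {M : spq Q} :
    M ∈ unitF hn h₀ ↔ ‖(LL π₀ π₀ (mx M)).det‖ = 1 := by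
  rw [unitF, Set.Finite.mem_toFinset, Set.mem_ofPred_eq]

theorem one_mem_unitF (hn : 0 < n) (h₀ : IsPol Q π₀ G₀) : (1 : spq Q) ∈ unitF hn h₀ := by
  rw [mem_unitF, mx_one, LL_one, det_id'', norm_one]

theorem mul_mem_unitF (hn : 0 < n) (h₀ : IsPol Q π₀ G₀) {M N : spq Q}
    (hM : M ∈ unitF hn h₀) (hN : N ∈ unitF hn h₀) : M * N ∈ unitF hn h₀ := by
  rw [mem_unitF] at *
  rw [det_mul' h₀ hM, norm_mul, hM, hN, mul_one]

theorem exists_exponent (hn : 0 < n) (h₀ : IsPol Q π₀ G₀) :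
    ∃ m : ℕ, 0 < m ∧ ∀ M ∈ unitF hn h₀, (LL π₀ π₀ (mx M)).det ^ m = 1 := by
  classical
  have hpow : ∀ M ∈ unitF hn h₀, ∀ j : ℕ, M ^ j ∈ unitF hn h₀ := by
    intro M hM j
    induction j with
    | zero => rw [pow_zero]; exact one_mem_unitF hn h₀
    | succ j ih => rw [pow_succ]; exact mul_mem_unitF hn h₀ ih hM
  have hdet : ∀ M ∈ unitF hn h₀, ∀ j : ℕ, (LL π₀ π₀ (mx (M ^ j))).det =
      (LL π₀ π₀ (mx M)).det ^ j := by
    intro M hM j
    induction j with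
    | zero => rw [pow_zero, pow_zero, mx_one, LL_one, det_id'']
    | succ j ih =>
      rw [pow_succ, pow_succ, det_mul' h₀ ((mem_unitF hn h₀).1 (hpow M hM j)), ih]
  have hord : ∀ M ∈ unitF hn h₀, ∃ o : ℕ, 0 < o ∧ (LL π₀ π₀ (mx M)).det ^ o = 1 := by
    intro M hM
    have hfin : (Set.range fun j : ℕ => M ^ j).Finite :=
      (unitF hn h₀).finite_toSet.subset (by
        rintro _ ⟨j, rfl⟩
        exact hpow M hM j)
    have h1 : ¬ Function.Injective fun j : ℕ => M ^ j := fun hinj =>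
      Set.infinite_range_of_injective hinj hfin
    rw [Function.Injective] at h1
    push Not at h1
    obtain ⟨a, b, hab, hne⟩ := h1
    have hab : M ^ a = M ^ b := hab
    have key : ∀ a b : ℕ, a < b → M ^ a = M ^ b →
        ∃ o : ℕ, 0 < o ∧ (LL π₀ π₀ (mx M)).det ^ o = 1 := by
      intro a b hlt hab
      refine ⟨b - a, by omega, ?_⟩
      have h2 : M ^ (b - a) = 1 := by
        have h3 : M ^ a * M ^ (b - a) = M ^ a * 1 := by
          rw [← pow_add, mul_one, hab]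
          congr 1
          omega
        exact mul_left_cancel h3
      rw [← hdet M hM, h2, mx_one, LL_one, det_id'']
    rcases lt_or_gt_of_ne hne with h | h
    · exact key a b h hab
    · exact key b a h hab.symm
  choose! o ho ho' using hord
  refine ⟨∏ M ∈ unitF hn h₀, o M, Finset.prod_pos fun M hM => ho M hM, fun M hM => ?_⟩
  obtain ⟨c, hc⟩ := Finset.dvd_prod_of_mem o hM
  rw [hc, pow_mul, ho' M hM, one_pow]

open Classical in
/-- the error term -/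
noncomputable def errT (hn : 0 < n) (h₀ : IsPol Q π₀ G₀) (k : ℕ) : ℝ :=
  ∑' M : spq Q, if M ∈ unitF hn h₀ then 0 else ‖(LL π₀ π₀ (mx M)).det‖⁻¹ ^ k

theorem errT_tendsto (hn : 0 < n) (h₀ : IsPol Q π₀ G₀) :
    Tendsto (errT hn h₀) atTop (𝓝 0) := by
  classical
  have h1 := dl_sum hn (Nat.lt_succ_self (n * n)) h₀ h₀
  have h2 : Summable fun M : spq Q => ‖(LL π₀ π₀ (mx M)).det‖⁻¹ ^ (2 * (n * n + 1)) := by
    refine h1.1.congr fun M => ?_
    rw [dl_self]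
  have h3 : Tendsto (fun k : ℕ => ∑' M : spq Q,
      if M ∈ unitF hn h₀ then 0 else ‖(LL π₀ π₀ (mx M)).det‖⁻¹ ^ k) atTop
      (𝓝 (∑' M : spq Q, (0 : ℝ))) := by
    refine tendsto_tsum_of_dominated_convergence h2 (fun M => ?_) ?_
    · by_cases hM : M ∈ unitF hn h₀
      · simp only [if_pos hM]
        exact tendsto_const_nhds
      · simp only [if_neg hM]
        refine tendsto_pow_atTop_nhds_zero_of_lt_one (by positivity) ?_
        have h4 := one_le_det h₀ M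
        rw [mem_unitF] at hM
        have h5 : 1 < ‖(LL π₀ π₀ (mx M)).det‖ := lt_of_le_of_ne h4 (Ne.symm hM)
        exact inv_lt_one_of_one_lt₀ h5
    · filter_upwards [eventually_ge_atTop (2 * (n * n + 1))] with k hk M
      by_cases hM : M ∈ unitF hn h₀
      · simp only [if_pos hM, norm_zero]
        positivity
      · simp only [if_neg hM, norm_pow, norm_inv, norm_norm]
        exact pow_le_pow_of_le_one (by positivity) (inv_le_one_of_one_le₀ (one_le_det h₀ M)) hk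
  rw [tsum_zero] at h3
  exact h3

/-- Asymptotics of the Poincaré series at the base point. -/
theorem PP_limit (hn : 0 < n) (h₀ : IsPol Q π₀ G₀) {φ : V → ℂ} {A : ℝ} (hA : 0 ≤ A) {N : ℕ}
    (hφ : ∀ v, ‖φ v‖ ≤ A * ‖v‖ ^ N)
    (hinv : ∀ M ∈ unitF hn h₀, ∀ v, φ ((LL π₀ π₀ (mx M)).inverse v) = φ v)
    {k : ℕ} (hk : 2 * (n * n + 1) ≤ k) (hkm : ∀ M ∈ unitF hn h₀, (LL π₀ π₀ (mx M)).det ^ k = 1)
    (w : V) :
    ‖PP Q φ k π₀ π₀ w - (unitF hn h₀).card * φ w‖ ≤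
      A * (‖(G₀.symm : V →L[ℂ] V)‖ * ‖G₀ w‖) ^ N * errT hn h₀ k := by
  classical
  obtain ⟨hsum, -⟩ := PP_bound hn hA hφ hk h₀ h₀ w
  have hsum' : Summable fun M : spq Q => pterm φ k π₀ π₀ w (mx M) := hsum.of_norm
  set K : ℝ := A * (‖(G₀.symm : V →L[ℂ] V)‖ * ‖G₀ w‖) ^ N with hK
  have hK0 : 0 ≤ K := by positivity
  have h1 : ∑ M ∈ unitF hn h₀, pterm φ k π₀ π₀ w (mx M) = (unitF hn h₀).card * φ w := by
    rw [← nsmul_eq_mul, ← Finset.sum_const]
    refine Finset.sum_congr rfl fun M hM => ?_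
    rw [pterm, hinv M hM, inv_pow, hkm M hM, inv_one, mul_one]
  have h2 : PP Q φ k π₀ π₀ w - (unitF hn h₀).card * φ w =
      ∑' M : spq Q, if M ∈ unitF hn h₀ then 0 else pterm φ k π₀ π₀ w (mx M) := by
    rw [← h1, PP]
    have h3 : Summable fun M : spq Q => if M ∈ unitF hn h₀ then pterm φ k π₀ π₀ w (mx M) else 0 :=
      summable_of_ne_finset_zero (s := unitF hn h₀) fun M hM => by simp [hM]
    have h4 : ∑ M ∈ unitF hn h₀, pterm φ k π₀ π₀ w (mx M) =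
        ∑' M : spq Q, if M ∈ unitF hn h₀ then pterm φ k π₀ π₀ w (mx M) else 0 := by
      rw [tsum_eq_sum (s := unitF hn h₀) (fun M hM => by simp [hM])]
      exact Finset.sum_congr rfl fun M hM => by simp [hM]
    rw [h4, ← hsum'.tsum_sub h3]
    refine tsum_congr fun M => ?_
    by_cases hM : M ∈ unitF hn h₀ <;> simp [hM]
  rw [h2]
  have hdom : ∀ M : spq Q, ‖if M ∈ unitF hn h₀ then 0 else pterm φ k π₀ π₀ w (mx M)‖ ≤
      K * (if M ∈ unitF hn h₀ then 0 else ‖(LL π₀ π₀ (mx M)).det‖⁻¹ ^ k) := by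
    intro M
    by_cases hM : M ∈ unitF hn h₀
    · simp [hM]
    · simp only [if_neg hM]
      have h5 := pterm_le hA hφ k h₀ h₀ M w
      rw [dl_self] at h5
      have h6 := norm_pos_iff.2 (det_equiv_ne G₀)
      rw [mul_inv_cancel₀ h6.ne', one_pow, mul_one] at h5
      exact h5
  have hsumE : Summable fun M : spq Q =>
      (if M ∈ unitF hn h₀ then 0 else ‖(LL π₀ π₀ (mx M)).det‖⁻¹ ^ k) := by
    have h1 := (dl_sum hn (Nat.lt_succ_self (n * n)) h₀ h₀).1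
    refine Summable.of_nonneg_of_le (fun M => by split_ifs <;> positivity) (fun M => ?_) h1
    by_cases hM : M ∈ unitF hn h₀
    · simp only [if_pos hM]
      have := one_le_dl h₀ h₀ M
      positivity
    · simp only [if_neg hM]
      rw [dl_self]
      exact pow_le_pow_of_le_one (by positivity) (inv_le_one_of_one_le₀ (one_le_det h₀ M)) hk
  have hE : errT hn h₀ k = ∑' M : spq Q,
      (if M ∈ unitF hn h₀ then 0 else ‖(LL π₀ π₀ (mx M)).det‖⁻¹ ^ k) := rfl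
  rw [hE, ← tsum_mul_left]
  have h7 := hsumE.mul_left K
  have h8 : Summable fun M : spq Q => ‖if M ∈ unitF hn h₀ then 0 else pterm φ k π₀ π₀ w (mx M)‖ :=
    Summable.of_nonneg_of_le (fun M => norm_nonneg _) hdom h7
  exact (norm_tsum_le_tsum_norm h8).trans (h8.tsum_le_tsum hdom h7)

end Pol

end Vale.Agent.P281.H713
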