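import Vale.Agent.P281.H713.Core
import Vale.Agent.P281.ISO.MainQ

open scoped Manifold ContDiff Topology
open Set Filter Metric Asymptotics

namespace Vale.Agent.P281.H713

open Vale.Agent.P281 Vale.Agent.P281.MF Vale.Agent.P281.ISO Vale.Agent.P281.ELL

set_option linter.unusedSectionVars false

universe u

section Main

variable {E E' E₀ : Type} [NormedAddCommGroup E] [NormedSpace ℂ E] [FiniteDimensional ℂ E]
  [NormedAddCommGroup E'] [NormedSpace ℂ E'] [FiniteDimensional ℂ E']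
  [NormedAddCommGroup E₀] [NormedSpace ℂ E₀] [FiniteDimensional ℂ E₀]
variable {X Z Y : Type u} [TopologicalSpace X] [ChartedSpace E X] [IsManifold 𝓘(ℂ, E) ω X]
  [TopologicalSpace Z] [ChartedSpace E Z] [IsManifold 𝓘(ℂ, E) ω Z]
  [TopologicalSpace Y] [ChartedSpace E' Y] [IsManifold 𝓘(ℂ, E') ω Y]

/-- The relative forms needed above the point `y`. -/
def HasForms (f : Z → Y) (S : Set Y) (e₀ : E ≃L[ℂ] (E' × E₀)) (Δ : Set Z → ℝ) (r : ℕ)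
    (y : Y) : Prop :=
  ∃ (N : ℕ) (𝒜 : Set (Set Z)) (κ₀ : Set Z → ℕ) (Θ : Z → ℂ)
      (Ξ : Fin r → Z → ℂ), 0 < N ∧ 𝒜.Finite ∧ (∀ D ∈ 𝒜, IsPrimeDivisor E D) ∧
      RelForm f S e₀ N 𝒜 κ₀ Θ ∧ (∀ b, RelForm f S e₀ N 𝒜 κ₀ (Ξ b)) ∧
      (∀ D, (κ₀ D : ℝ) ≤ N * Δ D) ∧ ∃ x, f x = y ∧ (∀ᶠ z in 𝓝 x, Θ z ≠ 0) ∧
      (∀ b, HolV E (fun z => Ξ b z / Θ z) x) ∧
      ∀ c : Fin r → ℂ, (∀ ξ, dM E E' f x ξ = 0 →
        ∑ b, c b * dif E (fun z => Ξ b z / Θ z) x ξ = 0) → ∀ b, c b = 0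

/-- Meromorphic fibrations on compact manifolds. -/
theorem kodGE_of_forms [Nonempty X] (j : Z → X) (hj : J.IsBigOpen E j)
    (f : Z → Y) (hf : ContMDiff 𝓘(ℂ, E) 𝓘(ℂ, E') ω f)
    (𝒢 : Set (Set Y)) (h𝒢 : J.IsDivisorial E E' f 𝒢)
    (hsub : ∀ x, f x ∉ ⋃₀ 𝒢 → Function.Surjective (dM E E' f x))
    (e₀ : E ≃L[ℂ] (E' × E₀))
    (Δ : Set X → ℝ) (hsnc : J.IsSNC E Δ)
    (Δ' : Set Z → ℝ) (hsnc' : J.IsSNC E Δ') (hΔ : J.IsRestriction j Δ Δ')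
    (hBS : ∀ G, J.orbBase' E E' f Δ' G ≠ 0 → G ∈ 𝒢) {r : ℕ}
    (hform : ∀ y, y ∉ ⋃₀ 𝒢 → HasForms f (⋃₀ 𝒢) e₀ Δ' r y) {j₂ : ℕ}
    (h₂ : KodGE E' (fun (G : Set Y) z g => IsLocalEq E' G g z) (J.orbBase' E E' f Δ') j₂) :
    KodGE E (fun (D : Set X) z g => IsLocalEq E D g z) Δ (j₂ + r) := by
  classical
  have hs := JB.snc hsnc
  have hs' := JB.snc hsnc'
  have hZ : Nonempty Z := by
    obtain ⟨x⟩ := ‹Nonempty X›
    obtain ⟨h, -, hne, hev⟩ := hj.2.2.2 x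
    by_contra hcon
    apply hne
    filter_upwards [hev] with z hz
    refine hz.1 ?_
    rintro ⟨w, -⟩
    exact hcon ⟨w⟩
  obtain ⟨h𝒢f, h𝒢p, 𝒟, h𝒟f, hpre, hdom⟩ := h𝒢
  have hS : IsClosed (⋃₀ 𝒢) := by
    rw [sUnion_eq_biUnion]
    exact h𝒢f.isClosed_biUnion fun G hG => (h𝒢p G hG).1
  have hSd : Dense (⋃₀ 𝒢)ᶜ := by
    have h1 := (dense_compl_finite h𝒢f (fun G hG => (h𝒢p G hG).1) (fun G hG => by
      rw [← interior_eq_empty_iff_dense_compl, eq_empty_iff_forall_notMem]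
      intro y hy
      obtain ⟨g, hg⟩ := (show IsPrimeDivisor E' G from h𝒢p G hG).2.1 y
      refine leq_not_zero hg ?_
      filter_upwards [hg.eventually, isOpen_interior.mem_nhds hy] with z hz hz'
      exact hz.mem_iff.1 (interior_subset hz'))).2
    refine h1.mono ?_
    intro y hy
    rw [mem_compl_iff, mem_sUnion]
    rintro ⟨G, hG, hyG⟩
    exact hy G hG hyG
  have hthin := thin_of_components (fun x => hf x) h𝒟f h𝒢p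
    (fun D hD => by obtain ⟨G, -, h⟩ := hdom D hD; exact h.1) hpre
    (fun D hD => by obtain ⟨G, hG, h⟩ := hdom D hD; exact ⟨G, hG, h.2⟩)
  refine kodGE_emb (fun z => hj.1 z) hj.2.1 hj.2.2.1 hj.2.2.2 hs.finite hs.prime hΔ.1 hΔ.2 ?_
  refine coreR (fun x => hf x) hS hSd hsub e₀ hthin hs' hform
    (fun G hG => ⟨orbBase'_prime hG, subset_sUnion_of_mem (hBS G hG)⟩)
    (fun D G κ hD hG hDG hκ hwit => ?_) h₂
  obtain ⟨h0, h1⟩ := snc01 hs' D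
  exact orbBase'_mul_le hκ hG hD hDG hwit h0 h1

end Main

end Vale.Agent.P281.H713
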