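import Vale.Agent.P281.H713.FormBuild
import Vale.Agent.P281.H713.Wrap

open scoped Manifold ContDiff Topology
open Set Filter Metric Asymptotics

namespace Vale.Agent.P281.H713

open Vale.Agent.P281 Vale.Agent.P281.MF Vale.Agent.P281.ISO Vale.Agent.P281.ELL

set_option linter.unusedSectionVars false

universe u

section Slice

variable {E E' E₀ : Type} [NormedAddCommGroup E] [NormedSpace ℂ E] [FiniteDimensional ℂ E]
  [NormedAddCommGroup E'] [NormedSpace ℂ E'] [FiniteDimensional ℂ E']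
  [NormedAddCommGroup E₀] [NormedSpace ℂ E₀] [FiniteDimensional ℂ E₀]
variable {X Y : Type u} [TopologicalSpace X] [ChartedSpace E X] [IsManifold 𝓘(ℂ, E) ω X]
  [TopologicalSpace Y] [ChartedSpace E' Y] [IsManifold 𝓘(ℂ, E') ω Y]

/-- `det (A, P) ≠ 0` when `(A, P)` is injective. -/
theorem JP_ne_zero (e₀ : E ≃L[ℂ] (E' × E₀)) {A : E →L[ℂ] E'} {P : E →L[ℂ] E₀}
    (h : ∀ ξ, A ξ = 0 → P ξ = 0 → ξ = 0) : JP e₀ A P ≠ 0 := by
  intro h0
  unfold JP at h0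
  have h1 : Function.Injective ((A.prod P).comp (e₀.symm : (E' × E₀) →L[ℂ] E)) := by
    rw [injective_iff_map_eq_zero]
    intro v hv
    have h2 := h (e₀.symm v) (Prod.mk.inj hv).1 (Prod.mk.inj hv).2
    exact (map_eq_zero_iff e₀.symm e₀.symm.injective).1 h2
  have h2 : LinearMap.ker ((A.prod P).comp
      (e₀.symm : (E' × E₀) →L[ℂ] E) : (E' × E₀) →ₗ[ℂ] (E' × E₀)) = ⊥ :=
    LinearMap.ker_eq_bot.2 h1
  have h3 := (LinearMap.isUnit_iff_ker_eq_bot _).2 h2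
  exact (LinearMap.isUnit_det _ h3).ne_zero h0

/-- `(A, P)` is injective when `det (A, P) ≠ 0`. -/
theorem inj_of_JP_ne (e₀ : E ≃L[ℂ] (E' × E₀)) {A : E →L[ℂ] E'} {P : E →L[ℂ] E₀}
    (h : JP e₀ A P ≠ 0) (ξ : E) (h1 : A ξ = 0) (h2 : P ξ = 0) : ξ = 0 := by
  by_contra h3
  apply h
  unfold JP
  by_contra h4
  have h5 : LinearMap.ker ((A.prod P).comp
      (e₀.symm : (E' × E₀) →L[ℂ] E) : (E' × E₀) →ₗ[ℂ] (E' × E₀)) = ⊥ := by
    have h7 : IsUnit (LinearMap.det ((A.prod P).comp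
      (e₀.symm : (E' × E₀) →L[ℂ] E) : (E' × E₀) →ₗ[ℂ] (E' × E₀))) := isUnit_iff_ne_zero.2 h4
    exact (LinearMap.isUnit_iff_ker_eq_bot _).1 ((LinearMap.isUnit_iff_isUnit_det _).2 h7)
  have h6 : e₀ ξ ∈ LinearMap.ker ((A.prod P).comp
      (e₀.symm : (E' × E₀) →L[ℂ] E) : (E' × E₀) →ₗ[ℂ] (E' × E₀)) := by
    rw [LinearMap.mem_ker]
    show (A (e₀.symm (e₀ ξ)), P (e₀.symm (e₀ ξ))) = 0
    rw [e₀.symm_apply_apply, h1, h2]
    rfl
  rw [h5, Submodule.mem_bot] at h6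
  exact h3 ((map_eq_zero_iff e₀ e₀.injective).1 h6)

/-- being a fibre coordinate is an open condition -/
theorem ker_eventually {f : X → Y} (hf : ∀ x, HolM E E' f x) (e₀ : E ≃L[ℂ] (E' × E₀)) {x : X}
    {ζ : X → E₀} (hζ : HolV E ζ x)
    (hinj : ∀ ξ, dM E E' f x ξ = 0 → dV E ζ x ξ = 0 → ξ = 0) :
    ∀ᶠ z in 𝓝 x, ∀ ξ, dM E E' f z ξ = 0 → dV E ζ z ξ = 0 → ξ = 0 := by
  obtain ⟨J, hJ, hev⟩ := JP_local hf e₀ (mem_chart_source E x) (mem_chart_source E' (f x)) hζ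
  have h1 : J x ≠ 0 := by
    intro h0
    have h2 := hev.self_of_nhds
    rw [h0, zero_mul] at h2
    exact (mul_ne_zero (jac_chart_ne_zero (mem_chart_source E' (f x)))
      (JP_ne_zero e₀ hinj)) h2.symm
  filter_upwards [hev, hJ.continuousAt.eventually_ne h1,
    (chartAt E x).open_source.mem_nhds (mem_chart_source E x)] with z h2 h3 h4
  refine inj_of_JP_ne e₀ ?_
  intro h5
  rw [h5, mul_zero] at h2
  exact (mul_ne_zero h3 (jac_chart_ne_zero h4)) h2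

/-- Slices of a submersion. -/
theorem exists_slice {f : X → Y} (hf : ∀ x, HolM E E' f x) (e₀ : E ≃L[ℂ] (E' × E₀)) {x₀ : X}
    {ζ : X → E₀} (hζ : HolV E ζ x₀)
    (hinj : ∀ ξ, dM E E' f x₀ ξ = 0 → dV E ζ x₀ ξ = 0 → ξ = 0) :
    ∃ q : E₀ → X, ContMDiffAt 𝓘(ℂ, E₀) 𝓘(ℂ, E) ω q (ζ x₀) ∧ q (ζ x₀) = x₀ ∧
      ∀ᶠ p in 𝓝 (ζ x₀), f (q p) = f x₀ ∧ ζ (q p) = p := by
  have : CompleteSpace E := FiniteDimensional.complete ℂ E
  have : CompleteSpace E' := FiniteDimensional.complete ℂ E'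
  have : CompleteSpace E₀ := FiniteDimensional.complete ℂ E₀
  set φ := chartAt E x₀ with hφ
  set ψY := chartAt E' (f x₀) with hψY
  have hxs : x₀ ∈ φ.source := mem_chart_source E x₀
  have hys : f x₀ ∈ ψY.source := mem_chart_source E' (f x₀)
  have h1 : HolV E (fun z => ψY (f z)) x₀ :=
    HolV.comp (h := (ψY : Y → E')) (HolV.chart hys) (hf x₀)
  have hG1 : ContDiffAt ℂ ω ((fun z => ψY (f z)) ∘ φ.symm) (φ x₀) := h1.rep hxs
  have hG2 : ContDiffAt ℂ ω (ζ ∘ φ.symm) (φ x₀) := hζ.rep hxs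
  set G : E → E' × E₀ := fun v => (ψY (f (φ.symm v)), ζ (φ.symm v)) with hG
  have hGc : ContDiffAt ℂ ω G (φ x₀) := hG1.prodMk hG2
  set L₁ := fderiv ℂ ((fun z => ψY (f z)) ∘ φ.symm) (φ x₀) with hL₁
  set L₂ := fderiv ℂ (ζ ∘ φ.symm) (φ x₀) with hL₂
  have hGd : HasFDerivAt G (L₁.prod L₂) (φ x₀) :=
    (hG1.differentiableAt (by simp)).hasFDerivAt.prodMk
      (hG2.differentiableAt (by simp)).hasFDerivAt
  have d1 : (dV E' (ψY : Y → E') (f x₀)).comp (dM E E' f x₀) =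
      L₁.comp (dV E (φ : X → E) x₀) := by
    have h9 := dV_comp (h := (ψY : Y → E')) (HolV.chart hys) (hf x₀)
    rw [← h9]
    exact dV_eq_chart hxs h1
  have d2 : dV E ζ x₀ = L₂.comp (dV E (φ : X → E) x₀) := dV_eq_chart hxs hζ
  have hker : ∀ ξ, L₁ (dV E (φ : X → E) x₀ ξ) = 0 → dM E E' f x₀ ξ = 0 := by
    intro ξ hv1
    have e1 := congrArg (fun T : E →L[ℂ] E' => T ξ) d1
    simp only [ContinuousLinearMap.comp_apply] at e1
    rw [hv1] at e1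
    obtain ⟨A₁, hA₁⟩ := dV_chart_leftInv (E := E') hys
    have := congrArg (fun T : E' →L[ℂ] E' => T (dM E E' f x₀ ξ)) hA₁
    simp only [ContinuousLinearMap.comp_apply, ContinuousLinearMap.id_apply] at this
    rw [← this, e1, map_zero]
  have hinj' : Function.Injective (L₁.prod L₂) := by
    rw [injective_iff_map_eq_zero]
    intro v hv
    obtain ⟨ξ, rfl⟩ := dV_chart_surj (E := E) hxs v
    have hv1 : L₁ (dV E (φ : X → E) x₀ ξ) = 0 := (Prod.mk.inj hv).1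
    have hv2 : L₂ (dV E (φ : X → E) x₀ ξ) = 0 := (Prod.mk.inj hv).2
    have e4 : dV E ζ x₀ ξ = 0 := by
      rw [d2]
      exact hv2
    rw [hinj ξ (hker ξ hv1) e4, map_zero]
  have hbij : Function.Bijective ((L₁.prod L₂ : E →L[ℂ] (E' × E₀)) : E →ₗ[ℂ] (E' × E₀)) := by
    refine ⟨hinj', ?_⟩
    have h3 : Function.Injective (((L₁.prod L₂ : E →L[ℂ] (E' × E₀)) : E →ₗ[ℂ] (E' × E₀)) ∘ₗ
        (e₀.symm.toLinearEquiv : (E' × E₀) →ₗ[ℂ] E)) := hinj'.comp e₀.symm.injective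
    have h4 := LinearMap.surjective_of_injective h3
    intro w
    obtain ⟨v, hv⟩ := h4 w
    exact ⟨e₀.symm v, hv⟩
  let L : E ≃L[ℂ] (E' × E₀) := (LinearEquiv.ofBijective _ hbij).toContinuousLinearEquiv
  have hL : (L : E →L[ℂ] (E' × E₀)) = L₁.prod L₂ := by ext v <;> rfl
  have hGd' : HasFDerivAt G (L : E →L[ℂ] (E' × E₀)) (φ x₀) := by rw [hL]; exact hGd
  have hn : (ω : WithTop ℕ∞) ≠ 0 := by simp
  set R := hGc.localInverse hGd' hn with hR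
  have hRc : ContDiffAt ℂ ω R (G (φ x₀)) := hGc.to_localInverse hGd' hn
  have hstr : HasStrictFDerivAt G (L : E →L[ℂ] (E' × E₀)) (φ x₀) :=
    hGc.hasStrictFDerivAt' hGd' hn
  have hRr : ∀ᶠ w in 𝓝 (G (φ x₀)), G (R w) = w := hstr.eventually_right_inverse
  have hR0 : R (G (φ x₀)) = φ x₀ := hstr.eventually_left_inverse.self_of_nhds
  have hG0 : G (φ x₀) = (ψY (f x₀), ζ x₀) := by
    simp only [hG, φ.left_inv hxs]
  set γ : E₀ → E := fun p => R (ψY (f x₀), p) with hγ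
  have hγ0 : γ (ζ x₀) = φ x₀ := by
    simp only [hγ]
    rw [← hG0, hR0]
  have hγc : ContDiffAt ℂ ω γ (ζ x₀) := by
    have h2 : ContDiffAt ℂ ω R (ψY (f x₀), ζ x₀) := by rw [← hG0]; exact hRc
    exact h2.comp (ζ x₀) (contDiffAt_const.prodMk contDiffAt_id)
  have hsymm : ContMDiffAt 𝓘(ℂ, E) 𝓘(ℂ, E) ω φ.symm (φ x₀) :=
    contMDiffOn_chart_symm.contMDiffAt (φ.open_target.mem_nhds (φ.map_source hxs))
  refine ⟨fun p => φ.symm (γ p), ?_, ?_, ?_⟩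
  · have h2 : ContMDiffAt 𝓘(ℂ, E₀) 𝓘(ℂ, E) ω γ (ζ x₀) := contMDiffAt_iff_contDiffAt.2 hγc
    have h3 : ContMDiffAt 𝓘(ℂ, E) 𝓘(ℂ, E) ω φ.symm (γ (ζ x₀)) := by rw [hγ0]; exact hsymm
    exact ContMDiffAt.comp (ζ x₀) h3 h2
  · show φ.symm (γ (ζ x₀)) = x₀
    rw [hγ0, φ.left_inv hxs]
  · have hγt : Tendsto γ (𝓝 (ζ x₀)) (𝓝 (φ x₀)) := by
      have := hγc.continuousAt.tendsto
      rwa [hγ0] at this
    have hz : Tendsto (fun p => φ.symm (γ p)) (𝓝 (ζ x₀)) (𝓝 x₀) := (tendsto_symm x₀).comp hγt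
    have hpairc : Tendsto (fun p : E₀ => (ψY (f x₀), p)) (𝓝 (ζ x₀)) (𝓝 (G (φ x₀))) := by
      rw [hG0]
      exact (continuous_const.prodMk continuous_id).tendsto _
    filter_upwards [hpairc.eventually hRr,
      hz.eventually ((hf x₀).continuousAt.eventually (ψY.open_source.mem_nhds hys))] with p h3 h4
    have h7 : ψY (f (φ.symm (γ p))) = ψY (f x₀) := (Prod.mk.inj h3).1
    have h8 : ζ (φ.symm (γ p)) = p := (Prod.mk.inj h3).2
    exact ⟨ψY.injOn h4 hys h7, h8⟩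

/-- comparison of two fibre coordinates, `d ζ' = G d ζ` on the fibre -/
theorem JP_change {f : X → Y} (hf : ∀ x, HolM E E' f x) (e₀ : E ≃L[ℂ] (E' × E₀)) {x₀ : X}
    {ζ ζ' : X → E₀} (hζ : HolV E ζ x₀) (hζ' : HolV E ζ' x₀)
    (hinj : ∀ ξ, dM E E' f x₀ ξ = 0 → dV E ζ x₀ ξ = 0 → ξ = 0) {G : E₀ ≃L[ℂ] E₀} {c : E₀}
    (h : ∀ᶠ z in 𝓝 x₀, f z = f x₀ → ζ' z = G (ζ z) + c) :
    JP e₀ (dM E E' f x₀) (dV E ζ' x₀) =
      (G : E₀ →L[ℂ] E₀).det * JP e₀ (dM E E' f x₀) (dV E ζ x₀) := by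
  obtain ⟨q, hq, hq0, hqe⟩ := exists_slice hf e₀ hζ hinj
  have hqt : Tendsto q (𝓝 (ζ x₀)) (𝓝 x₀) := by
    have := hq.continuousAt.tendsto
    rwa [hq0] at this
  have hfq : ∀ᶠ z in 𝓝 (ζ x₀), f (q z) = f (q (ζ x₀)) := by
    rw [hq0]
    exact hqe.mono fun z hz => hz.1
  set t : E₀ →L[ℂ] E := mfderiv 𝓘(ℂ, E₀) 𝓘(ℂ, E) q (ζ x₀) with ht
  have hAt : ∀ w, dM E E' f x₀ (t w) = 0 := by
    intro w
    have := slice_ker hf hq hfq w
    rwa [hq0] at this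
  have hζq : HolV E ζ (q (ζ x₀)) := by rw [hq0]; exact hζ
  have hζ'q : HolV E ζ' (q (ζ x₀)) := by rw [hq0]; exact hζ'
  have h1 := (slice_fderiv hq hζq).2
  have h2 := (slice_fderiv hq hζ'q).2
  have h3 : fderiv ℂ (fun z => ζ (q z)) (ζ x₀) = ContinuousLinearMap.id ℂ E₀ := by
    have : (fun z => ζ (q z)) =ᶠ[𝓝 (ζ x₀)] fun z => z := hqe.mono fun z hz => hz.2
    rw [this.fderiv_eq]
    exact fderiv_fun_id
  have h4 : fderiv ℂ (fun z => ζ' (q z)) (ζ x₀) = (G : E₀ →L[ℂ] E₀) := by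
    have : (fun z => ζ' (q z)) =ᶠ[𝓝 (ζ x₀)] fun z => G z + c := by
      filter_upwards [hqe, hqt.eventually h] with z hz hz'
      rw [hz' hz.1, hz.2]
    rw [this.fderiv_eq]
    exact ((G : E₀ →L[ℂ] E₀).hasFDerivAt.add_const c).fderiv
  rw [hq0] at h1 h2
  have h5 : ∀ w, dV E ζ x₀ (t w) = w := fun w => by
    have := congrArg (fun L : E₀ →L[ℂ] E₀ => L w) (h1.symm.trans h3)
    exact this
  have h6 : ∀ w, dV E ζ' x₀ (t w) = G w := fun w => by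
    have := congrArg (fun L : E₀ →L[ℂ] E₀ => L w) (h2.symm.trans h4)
    exact this
  set P₁ : E →L[ℂ] E₀ := (G.symm : E₀ →L[ℂ] E₀).comp (dV E ζ' x₀) with hP₁
  have hP₁t : ∀ w, P₁ (t w) = w := fun w => by
    show G.symm (dV E ζ' x₀ (t w)) = w
    rw [h6, G.symm_apply_apply]
  have h7 := JP_left e₀ (dM E E' f x₀) P₁ (ContinuousLinearMap.id ℂ E') (G : E₀ →L[ℂ] E₀)
  have h8 : (G : E₀ →L[ℂ] E₀).comp P₁ = dV E ζ' x₀ := by
    ext w
    show G (G.symm (dV E ζ' x₀ w)) = _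
    rw [G.apply_symm_apply]
  rw [h8, det_id', one_mul, ContinuousLinearMap.id_comp] at h7
  rw [h7, JP_indep e₀ hAt h5 hP₁t]

end Slice

end Vale.Agent.P281.H713
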