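import Vale.Agent.P281.H713.Defs
import Vale.Agent.P281.H713.Poinc4
import Vale.Agent.P281.H713.Slice2
import Vale.Agent.P281.H713.Wrap

open scoped Manifold ContDiff Topology
open Set Filter Metric Module

namespace Vale.Agent.P281.H713

open Vale.Agent.P281 Vale.Agent.P281.MF Vale.Agent.P281.ISO Vale.Agent.P281.ELL

set_option linter.unusedSectionVars false

universe u

section Change

variable {V : Type} [NormedAddCommGroup V] [InnerProductSpace ℂ V] [FiniteDimensional ℂ V]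
variable {n : ℕ} {Q : (Fin n → ℝ) → (Fin n → ℝ) → ℝ}

theorem mact_int (M : Matrix (Fin n) (Fin n) ℤ) (m : Fin n → ℤ) :
    mact M (fun i => (m i : ℝ)) = fun i => ((M.mulVec m i : ℤ) : ℝ) := by
  funext i
  rw [mact_apply]
  simp only [Matrix.mulVec, dotProduct, Matrix.map_apply]
  push_cast
  rfl

theorem exists_matrix {P P' : (Fin n → ℝ) →ₗ[ℝ] V}
    (h : ∀ m : Fin n → ℤ, ∃ m' : Fin n → ℤ, P (fun i => (m i : ℝ)) = P' fun i => (m' i : ℝ)) :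
    ∃ M : Matrix (Fin n) (Fin n) ℤ, ∀ x, P' (mact M x) = P x := by
  classical
  choose c hc using h
  let M : Matrix (Fin n) (Fin n) ℤ := fun i j => c (Pi.single j 1) i
  refine ⟨M, fun x => ?_⟩
  have h1 : P'.comp (mact M : (Fin n → ℝ) →ₗ[ℝ] (Fin n → ℝ)) = P := by
    refine (Pi.basisFun ℝ (Fin n)).ext fun j => ?_
    rw [Pi.basisFun_apply]
    have e1 : (Pi.single j (1 : ℝ) : Fin n → ℝ) = fun i => (((Pi.single j 1 : Fin n → ℤ) i : ℤ) : ℝ) := by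
      funext i
      by_cases hij : i = j
      · subst hij; simp
      · simp [hij]
    have h2 := hc (Pi.single j 1)
    rw [e1, h2]
    show P' (mact M _) = _
    rw [mact_int]
    congr 1
    funext i
    congr 1
    rw [Matrix.mulVec_single_one]
    rfl
  exact LinearMap.congr_fun h1 x

/-- the matrix of a change of periods -/
theorem IsPeriodChange.exists_mx {π π' : (Fin n → ℝ) ≃L[ℝ] V} {G : V ≃L[ℂ] V}
    (h : IsPeriodChange Q π π' G) : ∃ M : spq Q, ∀ x, π' (mact (mx M) x) = G (π x) := by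
  obtain ⟨h1, h2, h3⟩ := h
  let GR : V →ₗ[ℝ] V := ((G : V →L[ℂ] V).restrictScalars ℝ : V →L[ℝ] V)
  obtain ⟨M, hM⟩ := exists_matrix (P := GR.comp (π : (Fin n → ℝ) →ₗ[ℝ] V))
    (P' := (π' : (Fin n → ℝ) →ₗ[ℝ] V)) h1
  have hM' : ∀ x, π' (mact M x) = G (π x) := hM
  obtain ⟨N, hN⟩ := exists_matrix (P' := GR.comp (π : (Fin n → ℝ) →ₗ[ℝ] V))
    (P := (π' : (Fin n → ℝ) →ₗ[ℝ] V)) (fun m => by
      obtain ⟨m', hm'⟩ := h2 m
      exact ⟨m', hm'.symm⟩)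
  have hN' : ∀ x, G (π (mact N x)) = π' x := hN
  have hMN : ∀ x, mact (M * N) x = x := by
    intro x
    apply π'.injective
    rw [mact_mul, hM', hN']
  have hinj : ∀ A B : Matrix (Fin n) (Fin n) ℤ, (∀ x, mact A x = mact B x) → A = B := by
    intro A B h
    ext i j
    have h4 := congrFun (h (Pi.single j 1)) i
    rw [mact_apply, mact_apply, Matrix.mulVec_single_one, Matrix.mulVec_single_one] at h4
    have h5 : ((A i j : ℤ) : ℝ) = ((B i j : ℤ) : ℝ) := h4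
    exact_mod_cast h5
  have hMN1 : M * N = 1 := hinj _ _ fun x => by rw [hMN, mact_one]
  have hNM1 : N * M = 1 := mul_eq_one_comm.1 hMN1
  let U : GL (Fin n) ℤ := ⟨M, N, hMN1, hNM1⟩
  have hU : ∀ x x', Q (mact M x) (mact M x') = Q x x' := by
    intro x x'
    rw [← h3 x x', ← hM', ← hM', π'.symm_apply_apply, π'.symm_apply_apply]
  exact ⟨⟨U, hU⟩, hM'⟩

end Change

section TypeI

variable {E E' E₀ : Type} [NormedAddCommGroup E] [NormedSpace ℂ E] [FiniteDimensional ℂ E]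
  [NormedAddCommGroup E'] [NormedSpace ℂ E'] [FiniteDimensional ℂ E']
  [NormedAddCommGroup E₀] [NormedSpace ℂ E₀] [FiniteDimensional ℂ E₀]
variable {X Y : Type u} [TopologicalSpace X] [ChartedSpace E X] [IsManifold 𝓘(ℂ, E) ω X]
  [TopologicalSpace Y] [ChartedSpace E' Y] [IsManifold 𝓘(ℂ, E') ω Y]
variable {V : Type} [NormedAddCommGroup V] [InnerProductSpace ℂ V] [FiniteDimensional ℂ V]
variable {n : ℕ} {Q : (Fin n → ℝ) → (Fin n → ℝ) → ℝ}
variable {f : X → Y} {S : Set Y} {ι : Type u} {U : ι → Set Y}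
  {π : ι → Y → ((Fin n → ℝ) ≃L[ℝ] V)}

theorem isClosed_of_periods (hP : IsPeriodFamily E' S Q U π) : IsClosed S := by
  have h1 : Sᶜ = ⋃ a, U a := by
    ext y
    rw [mem_compl_iff, mem_iUnion]
    exact hP.cover y
  rw [← isOpen_compl_iff, h1]
  exact isOpen_iUnion fun a => hP.isOpen a

/-- The Poincaré series of the periods of a family is holomorphic on the base (with a holomorphic
vector as additional variable). -/
theorem PP_holV (hn : 0 < n) {φ : V → ℂ} (hφd : Differentiable ℂ φ) {A : ℝ} (hA : 0 ≤ A)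
    {N : ℕ} (hφ : ∀ v, ‖φ v‖ ≤ A * ‖v‖ ^ N) {k : ℕ} (hk : n * n + 1 ≤ k)
    {π₀ : (Fin n → ℝ) ≃L[ℝ] V} {G₀ : V ≃L[ℂ] V} (h₀ : IsPol Q π₀ G₀)
    (hP : IsPeriodFamily E' S Q U π) (hf : ∀ x, HolM E E' f x) {a : ι} {x : X} (hx : f x ∈ U a)
    {w : X → V} (hw : HolV E w x) :
    HolV E (fun z => PP Q φ k π₀ (π a (f z)) (w z)) x := by
  have hxs : x ∈ (chartAt E x).source := mem_chart_source E x
  refine HolV.of_rep hxs ?_
  have hsymm : Tendsto (chartAt E x).symm (𝓝 (chartAt E x x)) (𝓝 x) := tendsto_symm x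
  have hcov : ∀ᶠ z in 𝓝 x, f z ∈ U a ∧ HolV E w z ∧ z ∈ (chartAt E x).source := by
    filter_upwards [(hf x).continuousAt.eventually ((hP.isOpen a).mem_nhds hx), hw.eventually,
      (chartAt E x).open_source.mem_nhds hxs] with z h1 h2 h3 using ⟨h1, h2, h3⟩
  have hev : ∀ᶠ c in 𝓝 (chartAt E x x), f ((chartAt E x).symm c) ∈ U a ∧
      HolV E w ((chartAt E x).symm c) ∧ (chartAt E x).symm c ∈ (chartAt E x).source ∧
      c ∈ (chartAt E x).target := by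
    filter_upwards [hsymm.eventually hcov,
      (chartAt E x).open_target.mem_nhds ((chartAt E x).map_source hxs)] with c h1 h2
      using ⟨h1.1, h1.2.1, h1.2.2, h2⟩
  obtain ⟨U', hU'1, hU'2, hU'3⟩ := _root_.eventually_nhds_iff.1 hev
  have hd : ∀ {W : Type} [NormedAddCommGroup W] [NormedSpace ℂ W] (h : X → W),
      (∀ c ∈ U', HolV E h ((chartAt E x).symm c)) →
      DifferentiableOn ℂ (fun c => h ((chartAt E x).symm c)) U' := by
    intro W _ _ h hh c hc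
    have h1 := (hh c hc).rep (hU'1 c hc).2.2.1
    rw [(chartAt E x).right_inv (hU'1 c hc).2.2.2] at h1
    exact (h1.differentiableAt (by simp)).differentiableWithinAt
  refine (PP_analytic hn hφd hA hφ hk h₀ hU'2 (π := fun c => π a (f ((chartAt E x).symm c)))
    (fun v => hd (fun z => π a (f z) v) fun c hc => HolV.comp (E' := E') (h := fun y => π a y v)
      (hP.hol a v _ (hU'1 c hc).1) (hf _))
    (fun c hc => ?_) (w := fun c => w ((chartAt E x).symm c))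
    (hd w fun c hc => (hU'1 c hc).2.1) hU'3).contDiffAt
  exact hP.polarized a _ (hU'1 c hc).1

/-- Relative forms from periods: `𝒵 a x ζ` means that `ζ` is an admissible fibre coordinate near
`x`, adapted to the periods `π a`. -/
theorem hasForms_typeI (hn : 0 < n) (hP : IsPeriodFamily E' S Q U π) (hf : ∀ x, HolM E E' f x)
    (e₀ : E ≃L[ℂ] (E' × E₀)) {Δ : Set X → ℝ} (hΔ : ∀ D, 0 ≤ Δ D)
    {𝒵 : ι → X → (X → E₀) → Prop} {N₀ p : ℕ} (hN₀ : 0 < N₀) (hp : 0 < p)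
    (h𝒵 : ∀ a x, f x ∈ U a → ∃ ζ, 𝒵 a x ζ)
    (hhol : ∀ a x ζ, f x ∈ U a → 𝒵 a x ζ → HolV E ζ x ∧ (∀ᶠ z in 𝓝 x, 𝒵 a z ζ) ∧
      ∀ ξ, dM E E' f x ξ = 0 → dV E ζ x ξ = 0 → ξ = 0)
    (hch : ∀ a b x ζ ζ', f x ∈ U a → f x ∈ U b → 𝒵 a x ζ → 𝒵 b x ζ' → ∃ G : V ≃L[ℂ] V,
      IsPeriodChange Q (π a (f x)) (π b (f x)) G ∧
      JP e₀ (dM E E' f x) (dV E ζ' x) ^ N₀ =
        (G : V →L[ℂ] V).det ^ p * JP e₀ (dM E E' f x) (dV E ζ x) ^ N₀)
    (hbd : ∀ r : ℝ, 0 < r → ∃ C : ℝ, 0 ≤ C ∧ ∀ (v₀ : E₀) (q : E₀ → X),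
      (∀ v ∈ ball v₀ r, ContMDiffAt 𝓘(ℂ, E₀) 𝓘(ℂ, E) ω q v) → InjOn q (ball v₀ r) →
      (∀ v ∈ ball v₀ r, f (q v) = f (q v₀)) → ∀ a, f (q v₀) ∈ U a → ∀ ζ, 𝒵 a (q v₀) ζ →
      ∀ G : V ≃L[ℂ] V, IsPol Q (π a (f (q v₀))) G →
      ‖(G : V →L[ℂ] V).det‖ ^ p * ‖(fderiv ℂ (fun v => ζ (q v)) v₀).det‖ ^ N₀ ≤ C)
    {y : Y} (hy : y ∉ S) (hne : ∃ x, f x = y) : HasForms f S e₀ Δ 0 y := by
  classical
  obtain ⟨a₀, ha₀⟩ := (hP.cover y).1 hy
  obtain ⟨G₀, h₀⟩ : ∃ G₀, IsPol Q (π a₀ y) G₀ := hP.polarized a₀ y ha₀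
  set π₀ := π a₀ y with hπ₀
  -- the weight
  obtain ⟨m, hm, hm1⟩ := exists_exponent hn h₀
  have hφ1 : ∀ v : V, ‖(1 : ℂ)‖ ≤ 1 * ‖v‖ ^ 0 := fun v => by simp
  obtain ⟨k', hk'1, hk'2⟩ : ∃ k', 2 * (n * n + 1) ≤ k' ∧ errT hn h₀ (p * m * k') < 1 := by
    have h1 : Tendsto (fun k' => p * m * k') atTop atTop :=
      tendsto_id.const_mul_atTop' (Nat.mul_pos hp hm)
    have h2 := ((errT_tendsto hn h₀).comp h1).eventually (gt_mem_nhds zero_lt_one)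
    obtain ⟨k', h3, h4⟩ := ((eventually_ge_atTop (2 * (n * n + 1))).and h2).exists
    exact ⟨k', h3, h4⟩
  set kk : ℕ := m * k' with hkk
  set k : ℕ := p * kk with hk
  have hpm : 0 < p * m := Nat.mul_pos hp hm
  have hk2 : 2 * (n * n + 1) ≤ k := by
    refine hk'1.trans ?_
    rw [hk, hkk, ← mul_assoc]
    exact Nat.le_mul_of_pos_left _ hpm
  have hkk0 : 0 < kk := by
    rcases Nat.eq_zero_or_pos kk with h | h
    · rw [hk, h, mul_zero] at hk2; omega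
    · exact h
  have hkm : ∀ M ∈ unitF hn h₀, (LL π₀ π₀ (mx M)).det ^ k = 1 := by
    intro M hM
    have : k = m * (p * k') := by rw [hk, hkk]; ring
    rw [this, pow_mul, hm1 M hM, one_pow]
  let ψ : ι → Y → ℂ := fun a y => PP Q (fun _ => (1 : ℂ)) k π₀ (π a y) 0
  have hψ0 : ψ a₀ y ≠ 0 := by
    have h1 := PP_limit hn h₀ zero_le_one hφ1 (fun M _ v => rfl) hk2 hkm 0
    rw [pow_zero, mul_one, one_mul] at h1
    have h2 : errT hn h₀ k < 1 := by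
      rw [hk, hkk, ← mul_assoc]; exact hk'2
    intro h3
    have h3' : PP Q (fun _ => (1 : ℂ)) k π₀ π₀ 0 = 0 := h3
    rw [h3', zero_sub, norm_neg, Complex.norm_natCast] at h1
    have h4 : 1 ≤ (unitF hn h₀).card := Finset.card_pos.2 ⟨1, one_mem_unitF hn h₀⟩
    have h5 : (1 : ℝ) ≤ (unitF hn h₀).card := by exact_mod_cast h4
    linarith
  have hψch : ∀ a b y (G : V ≃L[ℂ] V), IsPeriodChange Q (π a y) (π b y) G →
      ψ b y = ((G : V →L[ℂ] V).det)⁻¹ ^ k * ψ a y := by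
    intro a b y G hG
    obtain ⟨M, hM⟩ := IsPeriodChange.exists_mx hG
    have h1 := PP_change (π₀ := π₀) hM (fun _ => (1 : ℂ)) k 0
    rw [map_zero] at h1
    exact h1
  -- the form
  have key : ∀ a b x ζ ζ', f x ∈ U a → f x ∈ U b → 𝒵 a x ζ → 𝒵 b x ζ' →
      ψ b (f x) * JP e₀ (dM E E' f x) (dV E ζ' x) ^ (N₀ * kk) =
        ψ a (f x) * JP e₀ (dM E E' f x) (dV E ζ x) ^ (N₀ * kk) := by
    intro a b x ζ ζ' ha hb hζ hζ'
    obtain ⟨G, hG, hJ⟩ := hch a b x ζ ζ' ha hb hζ hζ'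
    have hG0 := det_equiv_ne G
    rw [hψch a b _ G hG, pow_mul (JP e₀ (dM E E' f x) (dV E ζ' x)), hJ, mul_pow, ← pow_mul, ← hk,
      ← pow_mul, inv_pow]
    have h1 := pow_ne_zero k hG0
    field_simp
  have hex : ∀ x, ∃ v : ℂ, ∀ a, f x ∈ U a → ∀ ζ, 𝒵 a x ζ →
      v = ψ a (f x) * JP e₀ (dM E E' f x) (dV E ζ x) ^ (N₀ * kk) := by
    intro x
    by_cases hx : ∃ a, f x ∈ U a
    · obtain ⟨a, ha⟩ := hx
      obtain ⟨ζ, hζ⟩ := h𝒵 a x ha
      exact ⟨_, fun b hb ζ' hζ' => (key a b x ζ ζ' ha hb hζ hζ').symm⟩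
    · exact ⟨0, fun a ha => absurd ⟨a, ha⟩ hx⟩
  choose Θ hΘ using hex
  have hψh : ∀ a x, f x ∈ U a → HolV E (fun z => ψ a (f z)) x := fun a x hx =>
    PP_holV hn (differentiable_const _) zero_le_one hφ1 (by omega) h₀ hP hf hx
      (HolV.const (0 : V) x)
  have hrel : RelForm f S e₀ (N₀ * kk) ∅ (fun _ => 0) Θ := by
    refine ⟨hol_of_local hf e₀ ?_, ?_⟩
    · intro x hx T e _ _
      obtain ⟨a, ha⟩ := (hP.cover (f x)).1 hx
      obtain ⟨ζ, hζ⟩ := h𝒵 a x ha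
      obtain ⟨h1, h2, h3⟩ := hhol a x ζ ha hζ
      refine ⟨ζ, fun z => ψ a (f z), h1, hψh a x ha, ?_⟩
      filter_upwards [h2, (hf x).continuousAt.eventually ((hP.isOpen a).mem_nhds ha)]
        with z h4 h5 _ _
      simp only [pow_zero, Finset.prod_const_one, mul_one]
      exact hΘ z a h5 ζ h4
    · intro r hr
      obtain ⟨C, hC0, hC⟩ := hbd r hr
      set c₀ : ℝ := ‖(G₀ : V →L[ℂ] V).det‖⁻¹ with hc₀
      refine ⟨c₀ ^ k * |CP Q π₀ G₀| * C ^ kk, fun v₀ q h1 h2 h3 h4 _ P h6 => ?_⟩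
      obtain ⟨a, ha⟩ := (hP.cover _).1 h4
      obtain ⟨ζ, hζ⟩ := h𝒵 a _ ha
      obtain ⟨hζ1, -, hζ3⟩ := hhol a _ ζ ha hζ
      obtain ⟨G, hG⟩ : ∃ G, IsPol Q (π a (f (q v₀))) G := hP.polarized a _ ha
      have h7 := hC v₀ q h1 h2 h3 a ha ζ hζ G hG
      have h8 := (PP_bound hn zero_le_one hφ1 hk2 h₀ hG 0).2
      rw [pow_zero, mul_one, one_mul] at h8
      have h9 := JP_slice hf e₀ (h1 v₀ (mem_ball_self hr))
        (eventually_of_mem (ball_mem_nhds v₀ hr) fun v hv => h3 v hv) hζ1 hζ3 h6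
      rw [hΘ _ a ha ζ hζ, h9, mul_pow, norm_mul, norm_mul, norm_pow _ (N₀ * kk), ← mul_assoc]
      refine mul_le_mul_of_nonneg_right ?_ (norm_nonneg _)
      have h10 : ‖ψ a (f (q v₀))‖ ≤ (‖(G : V →L[ℂ] V).det‖ * c₀) ^ k * |CP Q π₀ G₀| :=
        h8.trans (mul_le_mul_of_nonneg_left (le_abs_self _) (by positivity))
      calc ‖ψ a (f (q v₀))‖ * ‖(fderiv ℂ (fun v => ζ (q v)) v₀).det‖ ^ (N₀ * kk)
          ≤ ((‖(G : V →L[ℂ] V).det‖ * c₀) ^ k * |CP Q π₀ G₀|) *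
            ‖(fderiv ℂ (fun v => ζ (q v)) v₀).det‖ ^ (N₀ * kk) := by gcongr
        _ = c₀ ^ k * |CP Q π₀ G₀| * (‖(G : V →L[ℂ] V).det‖ ^ p *
            ‖(fderiv ℂ (fun v => ζ (q v)) v₀).det‖ ^ N₀) ^ kk := by
            rw [mul_pow _ c₀, mul_pow _ _ kk, ← pow_mul, ← pow_mul, ← hk]
            ring
        _ ≤ _ := by gcongr
  obtain ⟨x, hx⟩ := hne
  refine ⟨N₀ * kk, ∅, fun _ => 0, Θ, Fin.elim0, Nat.mul_pos hN₀ hkk0, Set.finite_empty,
    fun D hD => absurd hD (Set.notMem_empty D), hrel, fun b => b.elim0, ?_, x, hx, ?_,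
    fun b => b.elim0, fun c _ b => b.elim0⟩
  · intro D
    have := hΔ D
    have h0 : (0 : ℝ) ≤ ((N₀ * kk : ℕ) : ℝ) * Δ D := by positivity
    simpa using h0
  · have ha : f x ∈ U a₀ := by rw [hx]; exact ha₀
    obtain ⟨ζ, hζ⟩ := h𝒵 a₀ x ha
    obtain ⟨h1, h2, h3⟩ := hhol a₀ x ζ ha hζ
    have h4 : ψ a₀ (f x) ≠ 0 := by rw [hx]; exact hψ0
    have h5 := (hψh a₀ x ha).continuousAt.eventually_ne h4
    filter_upwards [h2, h5, (hf x).continuousAt.eventually ((hP.isOpen a₀).mem_nhds ha)]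
      with z h6 h7 h8
    rw [hΘ z a₀ h8 ζ h6]
    exact mul_ne_zero h7 (pow_ne_zero _ (JP_ne_zero e₀ (hhol a₀ z ζ h8 h6).2.2))

end TypeI

end Vale.Agent.P281.H713
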