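import Vale.Agent.P281.H713.Slices
import Vale.Agent.P281.H713.TypeI
import Vale.Agent.P281.H713.Torus
import Vale.Agent.P281.H713.DefsB

open scoped Manifold ContDiff Topology
open Set Filter Metric Module

namespace Vale.Agent.P281.H713

open Vale.Agent.P281 Vale.Agent.P281.MF Vale.Agent.P281.ISO Vale.Agent.P281.ELL

set_option linter.unusedSectionVars false

universe u

section CVal

variable {V : Type} [NormedAddCommGroup V] [InnerProductSpace ℂ V] [FiniteDimensional ℂ V]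
variable {n g : ℕ} {Q : (Fin n → ℝ) → (Fin n → ℝ) → ℝ}

theorem PP_smul {φ : V → ℂ} {d : ℕ} (hφ : ∀ (c : ℂ) v, φ (c • v) = c ^ d * φ v) (k : ℕ)
    (π₀ π : (Fin n → ℝ) ≃L[ℝ] V) (c : ℂ) (w : V) :
    PP Q φ k π₀ π (c • w) = c ^ d * PP Q φ k π₀ π w := by
  unfold PP
  rw [← tsum_mul_left]
  congr 1
  funext M
  unfold pterm
  rw [map_smul, hφ, mul_assoc]

/-- the coefficient of the forms -/
noncomputable def cval (Q : (Fin n → ℝ) → (Fin n → ℝ) → ℝ) (φ : V → ℂ) (k : ℕ)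
    (π₀ : (Fin n → ℝ) ≃L[ℝ] V) (e : Basis (Fin g) ℂ V) (P : (Fin n → ℝ) ≃L[ℝ] V) (b : ℂ → V)
    (t : ℂ) : ℂ :=
  PP Q φ k π₀ P (deriv b t) * wr e b t ^ k

theorem cval_congr {φ : V → ℂ} {k : ℕ} {π₀ : (Fin n → ℝ) ≃L[ℝ] V} {e : Basis (Fin g) ℂ V}
    {P : (Fin n → ℝ) ≃L[ℝ] V} {b b' : ℂ → V} {t : ℂ} (h : b =ᶠ[𝓝 t] b') :
    cval Q φ k π₀ e P b t = cval Q φ k π₀ e P b' t := by
  unfold cval
  rw [wr_congr h, h.deriv_eq]

theorem cval_comp {φ : V → ℂ} {d : ℕ} (hφ : ∀ (c : ℂ) v, φ (c • v) = c ^ d * φ v) (k : ℕ)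
    (π₀ : (Fin n → ℝ) ≃L[ℝ] V) (e : Basis (Fin g) ℂ V) (P : (Fin n → ℝ) ≃L[ℝ] V) {b : ℂ → V}
    {h : ℂ → ℂ} {t : ℂ} (hb : ContDiffAt ℂ ω b (h t)) (hh : ContDiffAt ℂ ω h t) :
    cval Q φ k π₀ e P (fun s => b (h s)) t =
      deriv h t ^ (d + k * gg g) * cval Q φ k π₀ e P b (h t) := by
  unfold cval
  have h1 : deriv (fun s => b (h s)) t = deriv h t • deriv b (h t) :=
    deriv.scomp t (hb.differentiableAt (by simp)) (hh.differentiableAt (by simp))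
  rw [h1, wr_comp e hb hh, PP_smul hφ, mul_pow, ← pow_mul, mul_comm (gg g) k, pow_add]
  ring

theorem cval_affine {φ : V → ℂ} {k : ℕ} {π₀ : (Fin n → ℝ) ≃L[ℝ] V} {e : Basis (Fin g) ℂ V}
    {P P' : (Fin n → ℝ) ≃L[ℝ] V} {G : V ≃L[ℂ] V} (hG : IsPeriodChange Q P P' G) (c : V)
    (b : ℂ → V) (t : ℂ) :
    cval Q φ k π₀ e P' (fun s => G (b s) + c) t = cval Q φ k π₀ e P b t := by
  obtain ⟨M, hM⟩ := IsPeriodChange.exists_mx hG
  unfold cval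
  have h1 : deriv (fun s => G (b s) + c) t = G (deriv b t) := by
    have := iteratedDeriv_affine G c 0 b t
    simpa using this
  rw [h1, wr_affine, PP_change (π₀ := π₀) hM φ k (deriv b t), mul_pow]
  have h2 := pow_ne_zero k (det_equiv_ne G)
  rw [inv_pow]
  field_simp

end CVal

section Forms

variable {E E' : Type} [NormedAddCommGroup E] [NormedSpace ℂ E] [FiniteDimensional ℂ E]
  [NormedAddCommGroup E'] [NormedSpace ℂ E'] [FiniteDimensional ℂ E']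
variable {X Y : Type u} [TopologicalSpace X] [ChartedSpace E X] [IsManifold 𝓘(ℂ, E) ω X]
  [TopologicalSpace Y] [ChartedSpace E' Y] [IsManifold 𝓘(ℂ, E') ω Y]
variable {V : Type} [NormedAddCommGroup V] [InnerProductSpace ℂ V] [FiniteDimensional ℂ V]
variable {n g : ℕ} {Q : (Fin n → ℝ) → (Fin n → ℝ) → ℝ}
variable {f : X → Y} {S : Set Y} {ι : Type u} {U : ι → Set Y}
  {π : ι → Y → ((Fin n → ℝ) ≃L[ℝ] V)} {α : ι → X → V}

/-- lifts of the maps to the tori -/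
def Lft (E : Type) [NormedAddCommGroup E] [NormedSpace ℂ E] {X Y : Type u} [TopologicalSpace X]
    [ChartedSpace E X] {ι : Type u} (f : X → Y) (π : ι → Y → ((Fin n → ℝ) ≃L[ℝ] V))
    (α : ι → X → V) (a : ι) (x : X) (β : X → V) : Prop :=
  HolV E β x ∧ ∀ᶠ z in 𝓝 x, IsCongr (π a (f z)) (α a z) (β z)

/-- slices of the fibres -/
def Slc (E : Type) [NormedAddCommGroup E] [NormedSpace ℂ E] {X Y : Type u} [TopologicalSpace X]
    [ChartedSpace E X] (f : X → Y) (q : ℂ → X) (v : ℂ) (x : X) (P : E →L[ℂ] ℂ) : Prop :=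
  q v = x ∧ ContMDiffAt 𝓘(ℂ, ℂ) 𝓘(ℂ, E) ω q v ∧ (∀ᶠ z in 𝓝 v, f (q z) = f x) ∧
    P.comp (mfderiv 𝓘(ℂ, ℂ) 𝓘(ℂ, E) q v : ℂ →L[ℂ] E) = ContinuousLinearMap.id ℂ ℂ

theorem congr_lam {P : (Fin n → ℝ) ≃L[ℝ] V} {v w w' : V} (h : IsCongr P v w)
    (h' : IsCongr P v w') : w' - w ∈ Lam P := by
  obtain ⟨m, hm⟩ := h
  obtain ⟨m', hm'⟩ := h'
  refine ⟨m' - m, ?_⟩
  have h1 : (fun i => (((m' - m : Fin n → ℤ) i : ℤ) : ℝ)) =
      (fun i => (m' i : ℝ)) - fun i => (m i : ℝ) := by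
    funext i
    simp
  rw [h1, map_sub, hm, hm']
  abel

theorem lam_add {P : (Fin n → ℝ) ≃L[ℝ] V} {v w : V} (hv : v ∈ Lam P) (hw : w ∈ Lam P) :
    v + w ∈ Lam P := by
  obtain ⟨m, rfl⟩ := hv
  obtain ⟨m', rfl⟩ := hw
  refine ⟨m + m', ?_⟩
  rw [← map_add]
  congr 1
  funext i
  simp

theorem lam_neg {P : (Fin n → ℝ) ≃L[ℝ] V} {v : V} (hv : v ∈ Lam P) : -v ∈ Lam P := by
  obtain ⟨m, rfl⟩ := hv
  refine ⟨-m, ?_⟩
  rw [← map_neg]
  congr 1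
  funext i
  simp

theorem lam_sub {P : (Fin n → ℝ) ≃L[ℝ] V} {v w : V} (hv : v ∈ Lam P) (hw : w ∈ Lam P) :
    v - w ∈ Lam P := by
  rw [sub_eq_add_neg]
  exact lam_add hv (lam_neg hw)

theorem mem_lam {P : (Fin n → ℝ) ≃L[ℝ] V} (m : Fin n → ℤ) : (P fun i => (m i : ℝ)) ∈ Lam P :=
  ⟨m, rfl⟩

/-- two lifts differ by an affine map along the fibre -/
theorem lift_change (hC : IsCurveFamily E E' f S Q U π α) {a b : ι} {x : X} (ha : f x ∈ U a)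
    (hb : f x ∈ U b) {β β' : X → V} (hβ : Lft E f π α a x β) (hβ' : Lft E f π α b x β') :
    ∃ (G : V ≃L[ℂ] V) (c : V), IsPeriodChange Q (π a (f x)) (π b (f x)) G ∧
      ∀ᶠ z in 𝓝 x, f z = f x → β' z = G (β z) + c := by
  obtain ⟨G, c, hG, hGc⟩ := hC.change a b (f x) ⟨ha, hb⟩
  obtain ⟨ε, hε, hdis⟩ := lam_discrete (π b (f x))
  have hlat : ∀ᶠ z in 𝓝 x, f z = f x → β' z - (G (β z) + c) ∈ Lam (π b (f x)) := by
    filter_upwards [hβ.2, hβ'.2] with z h1 h2 hz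
    rw [hz] at h1 h2
    obtain ⟨m₁, hm₁⟩ := h1
    obtain ⟨m₂, hm₂⟩ := h2
    obtain ⟨m₃, hm₃⟩ := hGc z hz
    obtain ⟨m₄, hm₄⟩ := hG.1 m₁
    have h3 : β' z - (G (β z) + c) = (π b (f x) fun i => (m₃ i : ℝ)) +
        (π b (f x) fun i => (m₂ i : ℝ)) - π b (f x) fun i => (m₄ i : ℝ) := by
      rw [hm₂, hm₃, hm₁, map_add, hm₄]
      abel
    rw [h3]
    exact lam_sub (lam_add (mem_lam _) (mem_lam _)) (mem_lam _)
  have hx0 := hlat.self_of_nhds rfl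
  have hcont : ContinuousAt (fun z => β' z - (G (β z) + c) - (β' x - (G (β x) + c))) x :=
    (hβ'.1.continuousAt.sub
      ((G.continuous.continuousAt.comp hβ.1.continuousAt).add continuousAt_const)).sub
      continuousAt_const
  have hsm := hcont.norm.eventually_lt_const (u := ε) (by
    show ‖β' x - (G (β x) + c) - (β' x - (G (β x) + c))‖ < ε
    rw [sub_self, norm_zero]
    exact hε)
  refine ⟨G, c + (β' x - (G (β x) + c)), hG, ?_⟩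
  filter_upwards [hlat, hsm] with z hz hz' hfz
  have h5 := hdis _ (hz hfz) _ hx0 hz'
  rw [← h5]
  abel

/-- the value of the form does not depend on the slice -/
theorem cval_slice (hf : ∀ x, HolM E E' f x) (e₀ : E ≃L[ℂ] (E' × ℂ)) {φ : V → ℂ} {d : ℕ}
    (hφ : ∀ (c : ℂ) v, φ (c • v) = c ^ d * φ v) (k : ℕ) (π₀ : (Fin n → ℝ) ≃L[ℝ] V)
    (e : Basis (Fin g) ℂ V) (Pr : (Fin n → ℝ) ≃L[ℝ] V) {x : X} {ζ : X → ℂ} (hζ : HolV E ζ x)
    (hinj : ∀ ξ, dM E E' f x ξ = 0 → dV E ζ x ξ = 0 → ξ = 0) {R : E' × ℂ → X}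
    (hR1 : ContMDiffAt 𝓘(ℂ, E' × ℂ) 𝓘(ℂ, E) ω R (chartAt E' (f x) (f x), ζ x))
    (hR2 : ∀ᶠ z in 𝓝 x, R (chartAt E' (f x) (f z), ζ z) = z)
    {β : X → V} (hβ : HolV E β x) {q : ℂ → X} {v : ℂ} {P : E →L[ℂ] ℂ} (hq : Slc E f q v x P) :
    cval Q φ k π₀ e Pr (fun t => β (q t)) v *
        JP e₀ (dM E E' f x) P ^ (d + k * gg g) =
      cval Q φ k π₀ e Pr (fun t => β (R (chartAt E' (f x) (f x), t))) (ζ x) *
        JP e₀ (dM E E' f x) (dV E ζ x) ^ (d + k * gg g) := by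
  obtain ⟨hqx, hq1, hq2, hq3⟩ := hq
  subst hqx
  set x := q v with hx
  have hqt : Tendsto q (𝓝 v) (𝓝 x) := hq1.continuousAt
  set h : ℂ → ℂ := fun t => ζ (q t) with hh
  have hhc : ContDiffAt ℂ ω h v := (slice_fderiv hq1 hζ).1
  have hR0 : R (chartAt E' (f x) (f x), ζ x) = x := hR2.self_of_nhds
  set b₀ : ℂ → V := fun t => β (R (chartAt E' (f x) (f x), t)) with hb₀
  have hb₀c : ContDiffAt ℂ ω b₀ (h v) := by
    have h1 : ContMDiffAt 𝓘(ℂ, ℂ) 𝓘(ℂ, E' × ℂ) ω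
        (fun t : ℂ => (chartAt E' (f x) (f x), t)) (ζ x) :=
      contMDiffAt_iff_contDiffAt.2 (contDiffAt_const.prodMk contDiffAt_id)
    have h2 : ContMDiffAt 𝓘(ℂ, ℂ) 𝓘(ℂ, E) ω
        (fun t : ℂ => R (chartAt E' (f x) (f x), t)) (ζ x) := ContMDiffAt.comp (ζ x) hR1 h1
    have h3 : HolV E β (R (chartAt E' (f x) (f x), ζ x)) := by rw [hR0]; exact hβ
    exact (slice_fderiv h2 h3).1
  have heq : (fun t => β (q t)) =ᶠ[𝓝 v] fun t => b₀ (h t) := by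
    filter_upwards [hqt.eventually hR2, hq2] with t h1 h2
    show β (q t) = β (R (chartAt E' (f x) (f x), ζ (q t)))
    rw [h2] at h1
    rw [h1]
  rw [cval_congr heq, cval_comp hφ k π₀ e Pr hb₀c hhc]
  have h4 := JP_slice hf e₀ hq1 hq2 hζ hinj hq3
  rw [h4, mul_pow]
  have h5 : (fderiv ℂ (fun z => ζ (q z)) v).det = deriv h v := by
    have h6 : fderiv ℂ (fun z => ζ (q z)) v =
        (deriv h v) • ContinuousLinearMap.id ℂ ℂ := by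
      ext
      simp [hh]
    rw [h6]
    show LinearMap.det ((deriv h v) • (LinearMap.id : ℂ →ₗ[ℂ] ℂ)) = _
    rw [LinearMap.det_smul]
    simp
  rw [h5]
  ring

/-- the value of the form is well defined -/
theorem cval_indep (hC : IsCurveFamily E E' f S Q U π α) (hf : ∀ x, HolM E E' f x)
    (e₀ : E ≃L[ℂ] (E' × ℂ)) {φ : V → ℂ} {d : ℕ} (hφ : ∀ (c : ℂ) v, φ (c • v) = c ^ d * φ v)
    (k : ℕ) (π₀ : (Fin n → ℝ) ≃L[ℝ] V) (e : Basis (Fin g) ℂ V) {a b : ι} {x : X}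
    (ha : f x ∈ U a) (hb : f x ∈ U b) {β β' : X → V} (hβ : Lft E f π α a x β)
    (hβ' : Lft E f π α b x β') {q q' : ℂ → X} {v v' : ℂ} {P P' : E →L[ℂ] ℂ}
    (hq : Slc E f q v x P) (hq' : Slc E f q' v' x P') :
    cval Q φ k π₀ e (π a (f x)) (fun t => β (q t)) v *
        JP e₀ (dM E E' f x) P ^ (d + k * gg g) =
      cval Q φ k π₀ e (π b (f x)) (fun t => β' (q' t)) v' *
        JP e₀ (dM E E' f x) P' ^ (d + k * gg g) := by
  obtain ⟨G, c, hG, hGc⟩ := lift_change hC ha hb hβ hβ'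
  obtain ⟨ζ, hζ, hinj⟩ := hC.coord x ((hC.cover _).2 ⟨a, ha⟩)
  obtain ⟨R, hR1, hR2, -⟩ := exists_slices hf e₀ hζ hinj
  rw [cval_slice hf e₀ hφ k π₀ e _ hζ hinj hR1 hR2 hβ.1 hq]
  rw [← cval_slice hf e₀ hφ k π₀ e (π a (f x)) hζ hinj hR1 hR2 hβ.1 hq']
  congr 1
  rw [← cval_affine hG c]
  refine cval_congr ?_
  obtain ⟨hq0, hq1, hq2, -⟩ := hq'
  have hqt : Tendsto q' (𝓝 v') (𝓝 x) := by
    have := hq1.continuousAt.tendsto
    rwa [hq0] at this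
  filter_upwards [hqt.eventually hGc, hq2] with t h1 h2
  exact (h1 h2).symm

end Forms

end Vale.Agent.P281.H713
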