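import Vale.Agent.P281.H713.CurvForm

open scoped Manifold ContDiff Topology
open Set Filter Metric Module

namespace Vale.Agent.P281.H713

open Vale.Agent.P281 Vale.Agent.P281.MF Vale.Agent.P281.ISO Vale.Agent.P281.ELL

set_option linter.unusedSectionVars false

universe u

section Det

variable {V : Type} [NormedAddCommGroup V] [NormedSpace ℂ V] [FiniteDimensional ℂ V] {g : ℕ}

theorem contDiff_bdet (e : Basis (Fin g) ℂ V) : ContDiff ℂ ω fun v : Fin g → V => e.det v := by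
  have h1 : (fun v : Fin g → V => e.det v) = fun v : Fin g → V =>
      ∑ σ : Equiv.Perm (Fin g), ((Equiv.Perm.sign σ : ℤ) : ℂ) *
        ∏ i : Fin g, (e.coord (σ i)) (v i) := by
    funext v
    rw [Basis.det_apply, Matrix.det_apply']
    rfl
  rw [h1]
  refine ContDiff.sum fun σ _ => ?_
  refine contDiff_const.mul (contDiff_prod fun i _ => ?_)
  have h2 : ContDiff ℂ ω (LinearMap.toContinuousLinearMap (e.coord (σ i))) :=
    ContinuousLinearMap.contDiff _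
  exact h2.comp (contDiff_apply ℂ V i)

end Det

section Forms

variable {E E' : Type} [NormedAddCommGroup E] [NormedSpace ℂ E] [FiniteDimensional ℂ E]
  [NormedAddCommGroup E'] [NormedSpace ℂ E'] [FiniteDimensional ℂ E']
variable {X Y : Type u} [TopologicalSpace X] [ChartedSpace E X] [IsManifold 𝓘(ℂ, E) ω X]
  [TopologicalSpace Y] [ChartedSpace E' Y] [IsManifold 𝓘(ℂ, E') ω Y]
variable {V : Type} [NormedAddCommGroup V] [InnerProductSpace ℂ V] [FiniteDimensional ℂ V]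
variable {n g : ℕ} {Q : (Fin n → ℝ) → (Fin n → ℝ) → ℝ}
variable {f : X → Y} {S : Set Y} {ι : Type u} {U : ι → Set Y}
  {π : ι → Y → ((Fin n → ℝ) ≃L[ℝ] V)} {α : ι → X → V}

/-- the slices of a product structure -/
theorem slc_near (hf : ∀ x, HolM E E' f x) {x : X} {ζ : X → ℂ} (hζ : HolV E ζ x)
    {R : E' × ℂ → X}
    (hR1 : ContMDiffAt 𝓘(ℂ, E' × ℂ) 𝓘(ℂ, E) ω R (chartAt E' (f x) (f x), ζ x))
    (hR2 : ∀ᶠ z in 𝓝 x, R (chartAt E' (f x) (f z), ζ z) = z)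
    (hR3 : ∀ᶠ p in 𝓝 (chartAt E' (f x) (f x), ζ x), f (R p) ∈ (chartAt E' (f x)).source ∧
        chartAt E' (f x) (f (R p)) = p.1 ∧ ζ (R p) = p.2) :
    ∀ᶠ z in 𝓝 x, Slc E f (fun t => R (chartAt E' (f x) (f z), t)) (ζ z) z (dV E ζ z) := by
  set ψ := chartAt E' (f x) with hψ
  have hys : f x ∈ ψ.source := mem_chart_source E' (f x)
  have hpair : HolV E (fun z => (ψ (f z), ζ z)) x :=
    (HolV.comp (h := (ψ : Y → E')) (HolV.chart hys) (hf x)).prodMk hζ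
  have hpt : Tendsto (fun z => (ψ (f z), ζ z)) (𝓝 x) (𝓝 (ψ (f x), ζ x)) := hpair.continuousAt
  have hR1' : ∀ᶠ p in 𝓝 (ψ (f x), ζ x), ContMDiffAt 𝓘(ℂ, E' × ℂ) 𝓘(ℂ, E) ω R p :=
    (contMDiffAt_iff_contMDiffAt_nhds (by simp)).1 hR1
  filter_upwards [hpt.eventually hR1', hpt.eventually (eventually_eventually_nhds.2 hR3),
    eventually_eventually_nhds.2 hR2, hζ.eventually,
    (hf x).continuousAt.eventually (ψ.open_source.mem_nhds hys)] with z h1 h2 h3 h4 h5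
  have hq0 : R (ψ (f z), ζ z) = z := h3.self_of_nhds
  have hq1 : ContMDiffAt 𝓘(ℂ, ℂ) 𝓘(ℂ, E) ω (fun t : ℂ => R (ψ (f z), t)) (ζ z) := by
    have h6 : ContMDiffAt 𝓘(ℂ, ℂ) 𝓘(ℂ, E' × ℂ) ω (fun t : ℂ => (ψ (f z), t)) (ζ z) :=
      contMDiffAt_iff_contDiffAt.2 (contDiffAt_const.prodMk contDiffAt_id)
    exact ContMDiffAt.comp (ζ z) h1 h6
  have htt : Tendsto (fun t : ℂ => (ψ (f z), t)) (𝓝 (ζ z)) (𝓝 (ψ (f z), ζ z)) := by
    have : Continuous fun t : ℂ => (ψ (f z), t) := by fun_prop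
    exact this.tendsto _
  have h7 := htt.eventually h2
  refine ⟨hq0, hq1, ?_, ?_⟩
  · filter_upwards [h7] with t ht
    exact ψ.injOn ht.1 h5 ht.2.1
  · have h8 : HolV E ζ (R (ψ (f z), ζ z)) := by rw [hq0]; exact h4
    have h9 := (slice_fderiv hq1 h8).2
    rw [hq0] at h9
    rw [← h9]
    have h10 : (fun t => ζ (R (ψ (f z), t))) =ᶠ[𝓝 (ζ z)] fun t => t := by
      filter_upwards [h7] with t ht
      exact ht.2.2
    rw [h10.fderiv_eq]
    exact fderiv_fun_id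

theorem exists_slc (hC : IsCurveFamily E E' f S Q U π α) (hf : ∀ x, HolM E E' f x)
    (e₀ : E ≃L[ℂ] (E' × ℂ)) {x : X} (hx : f x ∉ S) : ∃ q v P, Slc E f q v x P := by
  obtain ⟨ζ, hζ, hinj⟩ := hC.coord x hx
  obtain ⟨R, hR1, hR2, hR3⟩ := exists_slices hf e₀ hζ hinj
  exact ⟨_, _, _, (slc_near hf hζ hR1 hR2 hR3).self_of_nhds⟩

/-- the forms -/
theorem exists_form (hC : IsCurveFamily E E' f S Q U π α) (hf : ∀ x, HolM E E' f x)
    (e₀ : E ≃L[ℂ] (E' × ℂ)) {φ : V → ℂ} {d : ℕ} (hφ : ∀ (c : ℂ) v, φ (c • v) = c ^ d * φ v)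
    (k : ℕ) (π₀ : (Fin n → ℝ) ≃L[ℝ] V) (e : Basis (Fin g) ℂ V) :
    ∃ Θ : X → ℂ, ∀ a x, f x ∈ U a → ∀ β, Lft E f π α a x β → ∀ q v P, Slc E f q v x P →
      Θ x = cval Q φ k π₀ e (π a (f x)) (fun t => β (q t)) v *
        JP e₀ (dM E E' f x) P ^ (d + k * gg g) := by
  classical
  have hex : ∀ x, ∃ θ : ℂ, ∀ a, f x ∈ U a → ∀ β, Lft E f π α a x β → ∀ q v P, Slc E f q v x P →
      θ = cval Q φ k π₀ e (π a (f x)) (fun t => β (q t)) v *
        JP e₀ (dM E E' f x) P ^ (d + k * gg g) := by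
    intro x
    by_cases hx : ∃ a, f x ∈ U a
    · obtain ⟨a, ha⟩ := hx
      obtain ⟨β, hβ⟩ := hC.lift a x ha
      obtain ⟨q, v, P, hq⟩ := exists_slc hC hf e₀ ((hC.cover _).2 ⟨a, ha⟩)
      exact ⟨_, fun b hb β' hβ' q' v' P' hq' => cval_indep hC hf e₀ hφ k π₀ e ha hb hβ hβ' hq hq'⟩
    · exact ⟨0, fun a ha => absurd ⟨a, ha⟩ hx⟩
  choose Θ hΘ using hex
  exact ⟨Θ, fun a x => hΘ x a⟩

/-- holomorphy of the coefficients -/
theorem form_local' (hC : IsCurveFamily E E' f S Q U π α) (hn : 0 < n)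
    (hf : ∀ x, HolM E E' f x) (e₀ : E ≃L[ℂ] (E' × ℂ)) {φ : V → ℂ} {d : ℕ}
    (hφd : Differentiable ℂ φ) {A : ℝ} (hA : 0 ≤ A) (hφA : ∀ v, ‖φ v‖ ≤ A * ‖v‖ ^ d)
    {k : ℕ} (hk : n * n + 1 ≤ k) {π₀ : (Fin n → ℝ) ≃L[ℝ] V} {G₀ : V ≃L[ℂ] V}
    (h₀ : IsPol Q π₀ G₀) (e : Basis (Fin g) ℂ V) {Θ : X → ℂ}
    (hΘ : ∀ a x, f x ∈ U a → ∀ β, Lft E f π α a x β → ∀ q v P, Slc E f q v x P →
      Θ x = cval Q φ k π₀ e (π a (f x)) (fun t => β (q t)) v *
        JP e₀ (dM E E' f x) P ^ (d + k * gg g)) {x : X} (hx : f x ∉ S) {ζ : X → ℂ}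
    (hζ : HolV E ζ x) (hinj : ∀ ξ, dM E E' f x ξ = 0 → dV E ζ x ξ = 0 → ξ = 0) :
    ∃ (c : X → ℂ), HolV E c x ∧
      ∀ᶠ z in 𝓝 x, Θ z = c z * JP e₀ (dM E E' f z) (dV E ζ z) ^ (d + k * gg g) := by
  obtain ⟨a, ha⟩ := (hC.cover (f x)).1 hx
  obtain ⟨β, hβ⟩ := hC.lift a x ha
  obtain ⟨R, hR1, hR2, hR3⟩ := exists_slices hf e₀ hζ hinj
  set ψ := chartAt E' (f x) with hψ
  have hys : f x ∈ ψ.source := mem_chart_source E' (f x)
  have hR0 : R (ψ (f x), ζ x) = x := hR2.self_of_nhds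
  have hpair : HolV E (fun z => (ψ (f z), ζ z)) x :=
    (HolV.comp (h := (ψ : Y → E')) (HolV.chart hys) (hf x)).prodMk hζ
  have hB : ContDiffAt ℂ ω (fun p => β (R p)) (ψ (f x), ζ x) := by
    have h1 : HolV E β (R (ψ (f x), ζ x)) := by rw [hR0]; exact hβ.1
    exact (slice_fderiv hR1 h1).1
  have hD : ∀ j : ℕ, HolV E (fun z => iteratedDeriv j (fun t => β (R (ψ (f z), t))) (ζ z)) x :=
    fun j => HolV.comp_contDiff (v := fun z => (ψ (f z), ζ z))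
      (G := fun p : E' × ℂ => iteratedDeriv j (fun t => β (R (p.1, t))) p.2)
      (iter_snd j hB) hpair
  refine ⟨fun z => cval Q φ k π₀ e (π a (f z)) (fun t => β (R (ψ (f z), t))) (ζ z), ?_, ?_⟩
  · unfold cval
    refine HolV.mul ?_ (HolV.pow ?_ k)
    · refine PP_holV hn hφd hA hφA hk h₀ hC.toIsPeriodFamily hf ha ?_
      have := hD 1
      simpa using this
    · unfold wr
      exact HolV.comp_contDiff (G := fun v : Fin g → V => e.det v) (contDiff_bdet e).contDiffAt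
        (HolV.piF fun i => hD (i + 1))
  · filter_upwards [slc_near hf hζ hR1 hR2 hR3, HolV.eventually hβ.1,
      eventually_eventually_nhds.2 hβ.2,
      (hf x).continuousAt.eventually ((hC.isOpen a).mem_nhds ha)] with z h1 h2 h3 h4
    exact hΘ a z h4 β ⟨h2, h3⟩ _ _ _ h1

end Forms

end Vale.Agent.P281.H713
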