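import Vale.Agent.P281.H713.Poinc4
import Mathlib.Algebra.Module.Submodule.Union

open scoped Topology ContDiff
open Set Filter Complex Module

namespace Vale.Agent.P281.H713

set_option linter.unusedSectionVars false

section PhiL

variable {V : Type} [NormedAddCommGroup V] [InnerProductSpace ℂ V] [FiniteDimensional ℂ V]
variable {n : ℕ} {Q : (Fin n → ℝ) → (Fin n → ℝ) → ℝ}
variable {π₀ : (Fin n → ℝ) ≃L[ℝ] V} {G₀ : V ≃L[ℂ] V}

theorem LL_equiv (h₀ : IsPol Q π₀ G₀) (M : spq Q) :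
    ∃ e : V ≃L[ℂ] V, (e : V →L[ℂ] V) = LL π₀ π₀ (mx M) :=
  ⟨(LL π₀ π₀ (mx M)).toContinuousLinearEquivOfDetNeZero (dl_ne h₀ h₀ M),
    ContinuousLinearMap.coe_toContinuousLinearEquivOfDetNeZero _ _⟩

/-- the inverse of `L_M` -/
noncomputable def LI (π₀ : (Fin n → ℝ) ≃L[ℝ] V) (M : spq Q) : V →L[ℂ] V :=
  (LL π₀ π₀ (mx M)).inverse

theorem LI_one : LI π₀ (1 : spq Q) = ContinuousLinearMap.id ℂ V := by
  unfold LI
  rw [mx_one, LL_one]
  exact ContinuousLinearMap.inverse_id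

theorem LI_inj (h₀ : IsPol Q π₀ G₀) (M : spq Q) : Function.Injective (LI π₀ M) := by
  obtain ⟨e, he⟩ := LL_equiv h₀ M
  unfold LI
  rw [← he, ContinuousLinearMap.inverse_equiv]
  exact e.symm.injective

theorem LI_surj (h₀ : IsPol Q π₀ G₀) (M : spq Q) : Function.Surjective (LI π₀ M) := by
  obtain ⟨e, he⟩ := LL_equiv h₀ M
  unfold LI
  rw [← he, ContinuousLinearMap.inverse_equiv]
  exact e.symm.surjective

theorem LI_mul (h₀ : IsPol Q π₀ G₀) {N : spq Q} (hN : ‖(LL π₀ π₀ (mx N)).det‖ = 1)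
    (M : spq Q) (v : V) : LI π₀ M (LI π₀ N v) = LI π₀ (N * M) v := by
  obtain ⟨e, he⟩ := LL_equiv h₀ N
  obtain ⟨e', he'⟩ := LL_equiv h₀ M
  unfold LI
  rw [LL_mul h₀ hN, ← he, ← he']
  have h1 : (e : V →L[ℂ] V).comp (e' : V →L[ℂ] V) = ((e'.trans e : V ≃L[ℂ] V) : V →L[ℂ] V) := rfl
  rw [h1, ContinuousLinearMap.inverse_equiv, ContinuousLinearMap.inverse_equiv,
    ContinuousLinearMap.inverse_equiv]
  rfl

/-- the invariant polynomial attached to a linear form -/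
noncomputable def phiL (hn : 0 < n) (h₀ : IsPol Q π₀ G₀) (l : V →L[ℂ] ℂ) (v : V) : ℂ :=
  ∏ M ∈ unitF hn h₀, l (LI π₀ M v)

theorem phiL_smul (hn : 0 < n) (h₀ : IsPol Q π₀ G₀) (l : V →L[ℂ] ℂ) (c : ℂ) (v : V) :
    phiL hn h₀ l (c • v) = c ^ (unitF hn h₀).card * phiL hn h₀ l v := by
  unfold phiL
  simp only [map_smul, smul_eq_mul, Finset.prod_mul_distrib, Finset.prod_const]

theorem phiL_diff (hn : 0 < n) (h₀ : IsPol Q π₀ G₀) (l : V →L[ℂ] ℂ) :
    Differentiable ℂ (phiL hn h₀ l) := by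
  have h1 : ContDiff ℂ 1 fun v : V => ∏ M ∈ unitF hn h₀, (l.comp (LI π₀ M)) v :=
    contDiff_prod fun M _ => (l.comp (LI π₀ M)).contDiff
  exact h1.differentiable one_ne_zero

theorem phiL_bound (hn : 0 < n) (h₀ : IsPol Q π₀ G₀) (l : V →L[ℂ] ℂ) :
    ∃ A : ℝ, 0 ≤ A ∧ ∀ v, ‖phiL hn h₀ l v‖ ≤ A * ‖v‖ ^ (unitF hn h₀).card := by
  refine ⟨∏ M ∈ unitF hn h₀, ‖l.comp (LI π₀ M)‖, Finset.prod_nonneg fun _ _ => norm_nonneg _,
    fun v => ?_⟩
  unfold phiL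
  rw [norm_prod, ← Finset.prod_const, ← Finset.prod_mul_distrib]
  exact Finset.prod_le_prod (fun _ _ => norm_nonneg _) fun M _ =>
    (l.comp (LI π₀ M)).le_opNorm v

theorem phiL_inv (hn : 0 < n) (h₀ : IsPol Q π₀ G₀) (l : V →L[ℂ] ℂ) (N : spq Q)
    (hN : N ∈ unitF hn h₀) (v : V) :
    phiL hn h₀ l ((LL π₀ π₀ (mx N)).inverse v) = phiL hn h₀ l v := by
  classical
  show phiL hn h₀ l (LI π₀ N v) = phiL hn h₀ l v
  unfold phiL
  have hN' := (mem_unitF hn h₀).1 hN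
  have h1 : (unitF hn h₀).image (fun M => N * M) = unitF hn h₀ := by
    refine Finset.eq_of_subset_of_card_le ?_ ?_
    · intro M hM
      obtain ⟨M', hM', rfl⟩ := Finset.mem_image.1 hM
      exact mul_mem_unitF hn h₀ hN hM'
    · rw [Finset.card_image_of_injective _ (mul_right_injective N)]
  calc ∏ M ∈ unitF hn h₀, l (LI π₀ M (LI π₀ N v)) = ∏ M ∈ unitF hn h₀, l (LI π₀ (N * M) v) :=
        Finset.prod_congr rfl fun M _ => by rw [LI_mul h₀ hN']
    _ = ∏ M ∈ (unitF hn h₀).image (fun M => N * M), l (LI π₀ M v) := by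
        rw [Finset.prod_image fun _ _ _ _ h => mul_right_injective N h]
    _ = _ := by rw [h1]

/-- a linear form with `φ (w) ≠ 0`. -/
theorem exists_phi_ne (hn : 0 < n) (h₀ : IsPol Q π₀ G₀) {w : V} (hw : w ≠ 0) :
    ∃ l : V →L[ℂ] ℂ, phiL hn h₀ l w ≠ 0 := by
  obtain ⟨l, hl⟩ := Module.exists_dual_forall_apply_ne_zero (K := ℂ)
    (fun M : unitF hn h₀ => LI π₀ (M : spq Q) w) (fun M => by
      intro h
      exact hw ((LI_inj h₀ _) (h.trans (map_zero _).symm)))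
  refine ⟨LinearMap.toContinuousLinearMap l, ?_⟩
  unfold phiL
  exact Finset.prod_ne_zero_iff.2 fun M hM => hl ⟨M, hM⟩

/-- a nonzero linear form vanishing at `w` -/
theorem exists_phi_zero (hn : 0 < n) (h₀ : IsPol Q π₀ G₀) (hg : 2 ≤ finrank ℂ V) (w : V) :
    ∃ l : V →L[ℂ] ℂ, l ≠ 0 ∧ phiL hn h₀ l w = 0 := by
  have hlt : Submodule.span ℂ {w} < ⊤ := by
    rw [lt_top_iff_ne_top]
    intro h1
    have h2 := finrank_span_le_card (R := ℂ) ({w} : Set V)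
    rw [h1, finrank_top] at h2
    simp at h2
    omega
  obtain ⟨l, hl, hker⟩ := Submodule.exists_le_ker_of_lt_top _ hlt
  refine ⟨LinearMap.toContinuousLinearMap l, ?_, ?_⟩
  · intro h
    apply hl
    ext v
    exact congrArg (fun T : V →L[ℂ] ℂ => T v) h
  · unfold phiL
    refine Finset.prod_eq_zero (one_mem_unitF hn h₀) ?_
    rw [LI_one]
    exact LinearMap.mem_ker.1 (hker (Submodule.mem_span_singleton_self w))

/-- the limit of the Poincaré series -/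
theorem PP_tendsto (hn : 0 < n) (h₀ : IsPol Q π₀ G₀) (l : V →L[ℂ] ℂ) {m : ℕ} (hm : 0 < m)
    (hm1 : ∀ M ∈ unitF hn h₀, (LL π₀ π₀ (mx M)).det ^ m = 1) (w : V) :
    Tendsto (fun k' => PP Q (phiL hn h₀ l) (m * k') π₀ π₀ w) atTop
      (𝓝 ((unitF hn h₀).card * phiL hn h₀ l w)) := by
  obtain ⟨A, hA, hφA⟩ := phiL_bound hn h₀ l
  rw [tendsto_iff_norm_sub_tendsto_zero]
  have h1 : Tendsto (fun k' => m * k') atTop atTop := tendsto_id.const_mul_atTop' hm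
  have h2 := ((errT_tendsto hn h₀).comp h1).const_mul
    (A * (‖(G₀.symm : V →L[ℂ] V)‖ * ‖G₀ w‖) ^ (unitF hn h₀).card)
  rw [mul_zero] at h2
  refine squeeze_zero' (Eventually.of_forall fun _ => norm_nonneg _) ?_ h2
  filter_upwards [h1.eventually (eventually_ge_atTop (2 * (n * n + 1)))] with k' hk'
  refine PP_limit hn h₀ hA hφA (fun M hM v => phiL_inv hn h₀ l M hM v) hk' (fun M hM => ?_) w
  rw [pow_mul, hm1 M hM, one_pow]

end PhiL

end Vale.Agent.P281.H713
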