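import Vale.Agent.P281.H713.Wron

open scoped Topology ContDiff
open Set Filter Module Metric

namespace Vale.Agent.P281.H713

set_option linter.unusedSectionVars false

section WrNe

variable {V : Type*} [NormedAddCommGroup V] [NormedSpace ℂ V] [FiniteDimensional ℂ V] {g : ℕ}

/-- the map `c ↦ ∑ c_i u^{(i)}(t)` -/
noncomputable def BB (u : ℂ → V) (k : ℕ) (t : ℂ) : (Fin k → ℂ) →L[ℂ] V :=
  ∑ i : Fin k, (ContinuousLinearMap.proj i : (Fin k → ℂ) →L[ℂ] ℂ).smulRight (iteratedDeriv i u t)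

theorem BB_apply (u : ℂ → V) (k : ℕ) (t : ℂ) (c : Fin k → ℂ) :
    BB u k t c = ∑ i : Fin k, c i • iteratedDeriv i u t := by
  simp [BB]

theorem BB_cd {u : ℂ → V} {t : ℂ} (hu : ContDiffAt ℂ ω u t) (k : ℕ) :
    ContDiffAt ℂ ω (BB u k) t := by
  refine ContDiffAt.sum fun i _ => ?_
  exact (ContinuousLinearMap.smulRightL ℂ (Fin k → ℂ) V
    (ContinuousLinearMap.proj i : (Fin k → ℂ) →L[ℂ] ℂ)).contDiff.contDiffAt.comp t (cd_iter hu i)

/-- A curve whose Wronskian vanishes identically lies in a hyperplane. -/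
theorem wr_ne (e : Basis (Fin g) ℂ V) {b : ℂ → V} {t₀ : ℂ} (hb : ContDiffAt ℂ ω b t₀)
    (hnd : ∀ ℓ : V →L[ℂ] ℂ, (∀ᶠ t in 𝓝 t₀, ℓ (deriv b t) = 0) → ℓ = 0) :
    ∃ᶠ t in 𝓝 t₀, wr e b t ≠ 0 := by
  have hn : (ω : WithTop ℕ∞) ≠ 0 := by simp
  have : CompleteSpace V := FiniteDimensional.complete ℂ V
  intro hcon
  have hcon : ∀ᶠ t in 𝓝 t₀, wr e b t = 0 := hcon.mono fun t ht => not_not.1 ht
  set u := deriv b with hu
  have hgV : finrank ℂ V = g := by rw [finrank_eq_card_basis e, Fintype.card_fin]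
  let LI : ℕ → ℂ → Prop := fun k t => LinearIndependent ℂ fun i : Fin k => iteratedDeriv i u t
  have hLIg : ∀ᶠ t in 𝓝 t₀, ¬ LI g t := by
    filter_upwards [hcon] with t ht hLI
    have h1 : IsUnit (e.det fun i : Fin g => iteratedDeriv (i + 1) b t) := by
      have h2 : (fun i : Fin g => iteratedDeriv (i + 1) b t) =
          fun i : Fin g => iteratedDeriv i u t := by
        funext i
        rw [iteratedDeriv_succ']
      rw [h2]
      refine e.is_basis_iff_det.1 ⟨hLI, ?_⟩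
      exact hLI.span_eq_top_of_card_eq_finrank' (by rw [Fintype.card_fin, hgV])
    exact h1.ne_zero ht
  have hex : ∃ k, ∀ᶠ t in 𝓝 t₀, ¬ LI k t := ⟨g, hLIg⟩
  classical
  set k' := Nat.find hex with hk'
  have hk's : ∀ᶠ t in 𝓝 t₀, ¬ LI k' t := Nat.find_spec hex
  have hk'g : k' ≤ g := Nat.find_min' hex hLIg
  have hk'0 : k' ≠ 0 := by
    intro h0
    rw [h0] at hk's
    exact hk's.self_of_nhds (linearIndependent_empty_type)
  obtain ⟨k, hkk⟩ : ∃ k, k' = k + 1 := ⟨k' - 1, by omega⟩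
  rw [hkk] at hk's hk'g
  have hkf : ∃ᶠ t in 𝓝 t₀, LI k t := by
    intro h1
    exact Nat.find_min hex (show k < Nat.find hex by rw [← hk']; omega) h1
  obtain ⟨δ, hδ, hball⟩ := Metric.eventually_nhds_iff_ball.1
    ((hb.eventually (by simp)).and hk's)
  obtain ⟨t₁, ht₁, ht₁b⟩ : ∃ t, LI k t ∧ t ∈ ball t₀ δ :=
    (hkf.and_eventually (ball_mem_nhds t₀ hδ)).exists
  have hbt : ∀ t ∈ ball t₀ δ, ContDiffAt ℂ ω u t := fun t ht => cd_deriv (hball t ht).1
  have hut₁ := hbt t₁ ht₁b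
  have hB := BB_cd hut₁ k
  have hinj : Function.Injective (BB u k t₁) := by
    rw [injective_iff_map_eq_zero]
    intro c hc
    rw [BB_apply] at hc
    exact funext fun i => (Fintype.linearIndependent_iff.1 ht₁) c hc i
  obtain ⟨L₀, hL₀⟩ := (BB u k t₁ : (Fin k → ℂ) →ₗ[ℂ] V).exists_leftInverse_of_injective
    (LinearMap.ker_eq_bot.2 hinj)
  set L : V →L[ℂ] (Fin k → ℂ) := LinearMap.toContinuousLinearMap L₀ with hL
  have hLB : L.comp (BB u k t₁) = ((ContinuousLinearEquiv.refl ℂ (Fin k → ℂ)) :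
      (Fin k → ℂ) →L[ℂ] (Fin k → ℂ)) := by
    ext1 c
    exact LinearMap.congr_fun hL₀ c
  set A : ℂ → ((Fin k → ℂ) →L[ℂ] (Fin k → ℂ)) := fun t => L.comp (BB u k t) with hA
  have hAc : ContDiffAt ℂ ω A t₁ := contDiffAt_const.clm_comp hB
  have hAi : ContDiffAt ℂ ω (fun t => (A t).inverse) t₁ := by
    have h1 := contDiffAt_map_inverse (𝕜 := ℂ) (n := ω)
      (ContinuousLinearEquiv.refl ℂ (Fin k → ℂ))
    rw [← hLB] at h1
    exact h1.comp t₁ hAc
  have hAe : ∀ᶠ t in 𝓝 t₁, ∃ e' : (Fin k → ℂ) ≃L[ℂ] (Fin k → ℂ),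
      (e' : (Fin k → ℂ) →L[ℂ] (Fin k → ℂ)) = A t := by
    have h1 := ContinuousLinearEquiv.nhds (ContinuousLinearEquiv.refl ℂ (Fin k → ℂ))
    rw [← hLB] at h1
    exact hAc.continuousAt.eventually h1
  set R : ℂ → (V →L[ℂ] (Fin k → ℂ)) := fun t => (A t).inverse.comp L with hR
  have hRc : ContDiffAt ℂ ω R t₁ := hAi.clm_comp contDiffAt_const
  have hRB : ∀ᶠ t in 𝓝 t₁, ∀ c, R t (BB u k t c) = c := by
    filter_upwards [hAe] with t ht c
    obtain ⟨e', he'⟩ := ht
    show (A t).inverse (A t c) = c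
    rw [← he', ContinuousLinearMap.inverse_equiv]
    exact e'.symm_apply_apply c
  have hrange : ∀ j, j ≤ k → ∀ᶠ t in 𝓝 t₁, ∃ c, iteratedDeriv j u t = BB u k t c := by
    intro j hj
    rcases hj.lt_or_eq with hj | rfl
    · refine Eventually.of_forall fun t => ⟨Pi.single ⟨j, hj⟩ 1, ?_⟩
      rw [BB_apply, Finset.sum_eq_single ⟨j, hj⟩]
      · simp
      · intro i _ hi
        rw [Pi.single_eq_of_ne hi, zero_smul]
      · intro h
        exact absurd (Finset.mem_univ _) h
    · filter_upwards [isOpen_ball.mem_nhds ht₁b, hRB] with t ht htR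
      have h1 := (hball t ht).2
      have h2 : LinearIndependent ℂ (fun i : Fin j => iteratedDeriv i u t) := by
        rw [Fintype.linearIndependent_iff]
        intro c hc i
        have h3 : BB u j t c = 0 := by rw [BB_apply]; exact hc
        have h4 := htR c
        rw [h3, map_zero] at h4
        rw [← h4]
        rfl
      have h3 : ¬ LinearIndependent ℂ fun i : Fin (j + 1) => iteratedDeriv i u t := h1
      rw [linearIndependent_finSucc'] at h3
      have h4 : iteratedDeriv j u t ∈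
          Submodule.span ℂ (range fun i : Fin j => iteratedDeriv i u t) := by
        by_contra h5
        refine h3 ⟨h2, ?_⟩
        exact h5
      obtain ⟨c, hc⟩ := (Submodule.mem_span_range_iff_exists_fun ℂ).1 h4
      exact ⟨c, by rw [BB_apply]; exact hc.symm⟩
  have hproj : ∀ᶠ t in 𝓝 t₁, ∀ j, j ≤ k →
      BB u k t (R t (iteratedDeriv j u t)) = iteratedDeriv j u t := by
    have h1 : ∀ᶠ t in 𝓝 t₁, ∀ j ∈ Finset.range (k + 1),
        ∃ c, iteratedDeriv j u t = BB u k t c :=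
      (Finset.eventually_all _).2 fun j hj =>
        hrange j (by have := Finset.mem_range.1 hj; omega)
    filter_upwards [h1, hRB] with t h2 h3 j hj
    obtain ⟨c, hc⟩ := h2 j (Finset.mem_range.2 (by omega))
    rw [hc, h3]
  -- the class of functions with values in the range
  let P : (ℂ → V) → Prop := fun y => ∃ c : ℂ → (Fin k → ℂ), ContDiffAt ℂ ω c t₁ ∧
    y =ᶠ[𝓝 t₁] fun t => BB u k t (c t)
  have hP0 : P u := by
    refine ⟨fun t => R t (u t), hRc.clm_apply hut₁, ?_⟩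
    filter_upwards [hproj] with t ht
    exact (ht 0 (Nat.zero_le _)).symm
  have hPs : ∀ y, P y → P (deriv y) := by
    rintro y ⟨c, hc, hy⟩
    have hB' : ContDiffAt ℂ ω (deriv (BB u k)) t₁ := cd_deriv hB
    refine ⟨fun t => R t (deriv (BB u k) t (c t)) + deriv c t,
      (hRc.clm_apply (hB'.clm_apply hc)).add (cd_deriv hc), ?_⟩
    filter_upwards [eventually_eventually_nhds.2 hy, hB.eventually (by simp),
      hc.eventually (by simp), hproj, hut₁.eventually (by simp)] with t h1 h2 h3 h4 h5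
    have h6 : deriv y t = deriv (fun t => BB u k t (c t)) t := Filter.EventuallyEq.deriv_eq h1
    have h7 : HasDerivAt (BB u k) (deriv (BB u k) t) t := (h2.differentiableAt hn).hasDerivAt
    have h8 : HasDerivAt c (deriv c t) t := (h3.differentiableAt hn).hasDerivAt
    rw [h6, (h7.clm_apply h8).deriv, map_add]
    congr 1
    have h9 : deriv (BB u k) t (c t) = ∑ i : Fin k, c t i • iteratedDeriv (i + 1) u t := by
      have h10 : HasDerivAt (fun s => BB u k s (c t))
          (∑ i : Fin k, c t i • iteratedDeriv (i + 1) u t) t := by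
        have h11 : (fun s => BB u k s (c t)) = fun s => ∑ i : Fin k, c t i • iteratedDeriv i u s :=
          funext fun s => BB_apply u k s (c t)
        rw [h11]
        refine HasDerivAt.fun_sum fun i _ => HasDerivAt.const_smul _ ?_
        have := ((cd_iter h5 i).differentiableAt hn).hasDerivAt
        rwa [← iteratedDeriv_succ] at this
      have h12 := h7.clm_apply (hasDerivAt_const t (c t))
      have h13 := h12.unique h10
      simpa using h13
    rw [h9, map_sum, map_sum]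
    refine Finset.sum_congr rfl fun i _ => ?_
    rw [map_smul, map_smul, h4 (i + 1) (by omega)]
  have hPm : ∀ m, P (iteratedDeriv m u) := by
    intro m
    induction m with
    | zero => simpa using hP0
    | succ m ih =>
      rw [iteratedDeriv_succ]
      exact hPs _ ih
  have hlt : LinearMap.range (BB u k t₁ : (Fin k → ℂ) →ₗ[ℂ] V) < ⊤ := by
    rw [lt_top_iff_ne_top]
    intro h1
    have h2 := LinearMap.finrank_range_le (BB u k t₁ : (Fin k → ℂ) →ₗ[ℂ] V)
    rw [h1, finrank_top, hgV, Module.finrank_pi, Fintype.card_fin] at h2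
    omega
  obtain ⟨ℓ₀, hℓ₀, hker⟩ := Submodule.exists_le_ker_of_lt_top _ hlt
  set ℓ : V →L[ℂ] ℂ := LinearMap.toContinuousLinearMap ℓ₀ with hℓ
  have hℓB : ∀ c, ℓ (BB u k t₁ c) = 0 := fun c =>
    LinearMap.mem_ker.1 (hker (LinearMap.mem_range_self _ c))
  have hm0 : ∀ m, ℓ (iteratedDeriv m u t₁) = 0 := by
    intro m
    obtain ⟨c, -, hc⟩ := hPm m
    rw [hc.self_of_nhds]
    exact hℓB _
  have hdu : DifferentiableOn ℂ u (ball t₀ δ) := fun t ht =>
    ((hbt t ht).differentiableAt hn).differentiableWithinAt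
  obtain ⟨ρ, hρ, hρb⟩ := Metric.isOpen_iff.1 isOpen_ball t₁ ht₁b
  have hz1 : ∀ z ∈ ball t₁ ρ, ℓ (u z) = 0 := by
    intro z hz
    have h1 := Complex.hasSum_taylorSeries_on_ball (hdu.mono hρb) hz
    have h2 := h1.mapL ℓ
    have h3 : (fun n : ℕ => ℓ ((n.factorial : ℂ)⁻¹ • (z - t₁) ^ n • iteratedDeriv n u t₁)) =
        fun _ => 0 := by
      funext n
      rw [map_smul, map_smul, hm0, smul_zero, smul_zero]
    rw [h3] at h2
    exact (h2.unique hasSum_zero)
  have han : AnalyticOnNhd ℂ (fun z => ℓ (u z)) (ball t₀ δ) := fun z hz =>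
    ((ℓ.contDiff.contDiffAt.comp z (hbt z hz)) : ContDiffAt ℂ ω _ z).analyticAt
  have hz0 : EqOn (fun z => ℓ (u z)) 0 (ball t₀ δ) :=
    han.eqOn_zero_of_preconnected_of_eventuallyEq_zero (convex_ball t₀ δ).isPreconnected ht₁b
      (eventually_of_mem (ball_mem_nhds t₁ hρ) hz1)
  have hℓ0 : ℓ = 0 := hnd ℓ (eventually_of_mem (ball_mem_nhds t₀ hδ) hz0)
  apply hℓ₀
  ext v
  have := congrArg (fun T : V →L[ℂ] ℂ => T v) hℓ0
  exact this

end WrNe

end Vale.Agent.P281.H713
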