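import Vale.Agent.P281.H713.CurvHol
import Vale.Agent.P281.H713.WronNe
import Vale.Agent.P281.H713.PhiL

open scoped Manifold ContDiff Topology
open Set Filter Metric Module

namespace Vale.Agent.P281.H713

open Vale.Agent.P281 Vale.Agent.P281.MF Vale.Agent.P281.ISO Vale.Agent.P281.ELL

set_option linter.unusedSectionVars false

universe u

section OneVar

/-- a point where the ratio is nonconstant -/
theorem ratio_deriv {p₀ p₁ : ℂ → ℂ} {c : ℂ} {δ : ℝ} (h0 : AnalyticOnNhd ℂ p₀ (ball c δ))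
    (h1 : AnalyticOnNhd ℂ p₁ (ball c δ)) {t₁ t₂ : ℂ} (ht₁ : t₁ ∈ ball c δ) (ht₂ : t₂ ∈ ball c δ)
    (hp : p₀ t₁ ≠ 0) (hne : p₁ t₁ * p₀ t₂ ≠ p₁ t₂ * p₀ t₁) {good : ℂ → Prop}
    (hgood : ∀ᶠ t in 𝓝 t₁, good t) :
    ∃ t ∈ ball c δ, good t ∧ p₀ t ≠ 0 ∧ deriv (fun t => p₁ t / p₀ t) t ≠ 0 := by
  by_contra hcon
  push Not at hcon
  have h2 : ∀ᶠ t in 𝓝 t₁, t ∈ ball c δ ∧ p₀ t ≠ 0 ∧ deriv (fun t => p₁ t / p₀ t) t = 0 := by
    filter_upwards [hgood, isOpen_ball.mem_nhds ht₁,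
      (h0 t₁ ht₁).continuousAt.eventually_ne hp] with t h3 h4 h5
    exact ⟨h4, h5, hcon t h4 h3 h5⟩
  obtain ⟨ε, hε, hb⟩ := Metric.eventually_nhds_iff_ball.1 h2
  set κ := p₁ t₁ / p₀ t₁ with hκ
  have hconst : ∀ t ∈ ball t₁ ε, p₁ t / p₀ t = κ := by
    intro t ht
    refine isOpen_ball.is_const_of_deriv_eq_zero (𝕜 := ℂ) (f := fun t => p₁ t / p₀ t)
      (convex_ball t₁ ε).isPreconnected ?_ ?_ ht (mem_ball_self hε)
    · intro s hs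
      obtain ⟨h3, h4, -⟩ := hb s hs
      exact ((h1 s h3).differentiableAt.div (h0 s h3).differentiableAt
        h4).differentiableWithinAt
    · intro s hs
      exact (hb s hs).2.2
  have heq : EqOn p₁ (fun t => κ * p₀ t) (ball c δ) := by
    refine h1.eqOn_of_preconnected_of_eventuallyEq ?_ (convex_ball c δ).isPreconnected ht₁ ?_
    · exact fun t ht => analyticAt_const.mul (h0 t ht)
    · filter_upwards [ball_mem_nhds t₁ hε] with t ht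
      rw [← hconst t ht, div_mul_cancel₀ _ (hb t ht).2.1]
  apply hne
  rw [heq ht₁, heq ht₂]
  ring

end OneVar

section NC

variable {E E' : Type} [NormedAddCommGroup E] [NormedSpace ℂ E] [FiniteDimensional ℂ E]
  [NormedAddCommGroup E'] [NormedSpace ℂ E'] [FiniteDimensional ℂ E']
variable {X Y : Type u} [TopologicalSpace X] [ChartedSpace E X] [IsManifold 𝓘(ℂ, E) ω X]
  [TopologicalSpace Y] [ChartedSpace E' Y] [IsManifold 𝓘(ℂ, E') ω Y]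
variable {V : Type} [NormedAddCommGroup V] [InnerProductSpace ℂ V] [FiniteDimensional ℂ V]
variable {n g : ℕ} {Q : (Fin n → ℝ) → (Fin n → ℝ) → ℝ}
variable {f : X → Y} {S : Set Y} {ι : Type u} {U : ι → Set Y}
  {π : ι → Y → ((Fin n → ℝ) ≃L[ℝ] V)} {α : ι → X → V}

theorem curve_nc (hC : IsCurveFamily E E' f S Q U π α) (hn : 0 < n)
    (hf : ∀ x, HolM E E' f x) (e₀ : E ≃L[ℂ] (E' × ℂ)) (hg : 2 ≤ finrank ℂ V)
    (e : Basis (Fin g) ℂ V) {a₀ : ι} {y : Y} (ha₀ : y ∈ U a₀) {G₀ : V ≃L[ℂ] V}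
    (h₀ : IsPol Q (π a₀ y) G₀) : ∃ (l₀ l₁ : V →L[ℂ] ℂ) (k : ℕ), 2 * (n * n + 1) ≤ k ∧
      ∀ Θ Ξ : X → ℂ,
      (∀ a x, f x ∈ U a → ∀ β, Lft E f π α a x β → ∀ q v P, Slc E f q v x P →
        Θ x = cval Q (phiL hn h₀ l₀) k (π a₀ y) e (π a (f x)) (fun t => β (q t)) v *
          JP e₀ (dM E E' f x) P ^ ((unitF hn h₀).card + k * gg g)) →
      (∀ a x, f x ∈ U a → ∀ β, Lft E f π α a x β → ∀ q v P, Slc E f q v x P →
        Ξ x = cval Q (phiL hn h₀ l₁) k (π a₀ y) e (π a (f x)) (fun t => β (q t)) v *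
          JP e₀ (dM E E' f x) P ^ ((unitF hn h₀).card + k * gg g)) →
      ∃ x, f x = y ∧ (∀ᶠ z in 𝓝 x, Θ z ≠ 0) ∧ HolV E (fun z => Ξ z / Θ z) x ∧
        ∃ ξ, dM E E' f x ξ = 0 ∧ dif E (fun z => Ξ z / Θ z) x ξ ≠ 0 := by
  classical
  have : CompleteSpace V := FiniteDimensional.complete ℂ V
  have hn' : (ω : WithTop ℕ∞) ≠ 0 := by simp
  obtain ⟨x₀, hx₀, hnd⟩ := hC.nondeg a₀ y ha₀
  have hfa : f x₀ ∈ U a₀ := by rw [hx₀]; exact ha₀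
  have hfS : f x₀ ∉ S := (hC.cover _).2 ⟨a₀, hfa⟩
  obtain ⟨β, hβ⟩ := hC.lift a₀ x₀ hfa
  obtain ⟨ζ, hζ, hinj⟩ := hC.coord x₀ hfS
  obtain ⟨R, hR1, hR2, hR3⟩ := exists_slices hf e₀ hζ hinj
  set ψ := chartAt E' (f x₀) with hψ
  have hys : f x₀ ∈ ψ.source := mem_chart_source E' (f x₀)
  set q₀ : ℂ → X := fun t => R (ψ (f x₀), t) with hq₀
  have hq₀0 : q₀ (ζ x₀) = x₀ := hR2.self_of_nhds
  have hslc0 := slc_near hf hζ hR1 hR2 hR3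
  have hq₀c : ContMDiffAt 𝓘(ℂ, ℂ) 𝓘(ℂ, E) ω q₀ (ζ x₀) := hslc0.self_of_nhds.2.1
  have hq₀t : Tendsto q₀ (𝓝 (ζ x₀)) (𝓝 x₀) := by
    have := hq₀c.continuousAt.tendsto
    rwa [hq₀0] at this
  have hfq : ∀ᶠ t in 𝓝 (ζ x₀), f (q₀ t) = f x₀ ∧ ζ (q₀ t) = t := by
    have htt : Tendsto (fun t : ℂ => (ψ (f x₀), t)) (𝓝 (ζ x₀)) (𝓝 (ψ (f x₀), ζ x₀)) := by
      have : Continuous fun t : ℂ => (ψ (f x₀), t) := by fun_prop
      exact this.tendsto _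
    filter_upwards [htt.eventually hR3] with t ht
    exact ⟨ψ.injOn ht.1 hys ht.2.1, ht.2.2⟩
  set b : ℂ → V := fun t => β (q₀ t) with hb
  have hbc : ContDiffAt ℂ ω b (ζ x₀) := by
    have h1 : HolV E β (q₀ (ζ x₀)) := by rw [hq₀0]; exact hβ.1
    exact (slice_fderiv hq₀c h1).1
  -- good facts near the point
  have hgood : ∀ᶠ t in 𝓝 (ζ x₀), ContDiffAt ℂ ω b t ∧
      Slc E f q₀ t (q₀ t) (dV E ζ (q₀ t)) ∧ f (q₀ t) = y ∧ Lft E f π α a₀ (q₀ t) β ∧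
      HolV E ζ (q₀ t) ∧ ∀ ξ, dM E E' f (q₀ t) ξ = 0 → dV E ζ (q₀ t) ξ = 0 → ξ = 0 := by
    filter_upwards [hbc.eventually (by simp), hq₀t.eventually hslc0, hfq,
      hq₀t.eventually (HolV.eventually hβ.1), hq₀t.eventually (eventually_eventually_nhds.2 hβ.2),
      hq₀t.eventually (HolV.eventually hζ), hq₀t.eventually (ker_eventually hf e₀ hζ hinj)]
      with t h1 h2 h3 h4 h5 h6 h7
    refine ⟨h1, ?_, h3.1.trans hx₀, ⟨h4, h5⟩, h6, h7⟩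
    rw [h3.1, h3.2] at h2
    exact h2
  obtain ⟨δ, hδ, hball⟩ := Metric.eventually_nhds_iff_ball.1 hgood
  have hdb : ∀ t ∈ ball (ζ x₀) δ, ContDiffAt ℂ ω (deriv b) t := fun t ht =>
    cd_deriv (hball t ht).1
  -- nondegeneracy
  have hnd0 : ∀ l : V →L[ℂ] ℂ, (∀ᶠ t in 𝓝 (ζ x₀), l (deriv b t) = 0) → l = 0 := by
    intro l hl
    refine hnd β hβ.1 hβ.2 l ?_
    obtain ⟨ε, hε, hbε⟩ := Metric.eventually_nhds_iff_ball.1
      (hl.and (hbc.eventually (by simp)))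
    have hconst : ∀ t ∈ ball (ζ x₀) ε, l (b t) = l (b (ζ x₀)) := by
      intro t ht
      have hder : ∀ s ∈ ball (ζ x₀) ε, HasDerivAt (fun s => l (b s)) (l (deriv b s)) s :=
        fun s hs => l.hasFDerivAt.comp_hasDerivAt s
          (((hbε s hs).2.differentiableAt hn').hasDerivAt)
      refine isOpen_ball.is_const_of_deriv_eq_zero (𝕜 := ℂ) (f := fun t => l (b t))
        (convex_ball (ζ x₀) ε).isPreconnected ?_ ?_ ht (mem_ball_self hε)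
      · exact fun s hs => (hder s hs).differentiableAt.differentiableWithinAt
      · intro s hs
        rw [(hder s hs).deriv]
        exact (hbε s hs).1
    filter_upwards [hR2, hζ.continuousAt.eventually (ball_mem_nhds (ζ x₀) hε)] with z h1 h2 h3
    have h4 := hconst (ζ z) h2
    have h5 : b (ζ z) = β z := by
      show β (R (ψ (f x₀), ζ z)) = β z
      rw [hx₀, ← h3, h1]
    have h6 : b (ζ x₀) = β x₀ := by
      show β (q₀ (ζ x₀)) = β x₀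
      rw [hq₀0]
    rw [h5, h6] at h4
    exact h4
  have han : ∀ l : V →L[ℂ] ℂ, AnalyticOnNhd ℂ (fun t => l (deriv b t)) (ball (ζ x₀) δ) :=
    fun l t ht => ((l.contDiff.contDiffAt.comp t (hdb t ht)) : ContDiffAt ℂ ω _ t).analyticAt
  have hnd1 : ∀ t₁ ∈ ball (ζ x₀) δ, ∀ l : V →L[ℂ] ℂ, (∀ᶠ t in 𝓝 t₁, l (deriv b t) = 0) →
      l = 0 := by
    intro t₁ ht₁ l hl
    refine hnd0 l (eventually_of_mem (ball_mem_nhds _ hδ) ?_)
    exact (han l).eqOn_zero_of_preconnected_of_eventuallyEq_zero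
      (convex_ball _ δ).isPreconnected ht₁ hl
  -- the point `t₁`
  obtain ⟨t₁, hwr, ht₁⟩ : ∃ t, wr e b t ≠ 0 ∧ t ∈ ball (ζ x₀) δ :=
    ((wr_ne e hbc hnd0).and_eventually (ball_mem_nhds _ hδ)).exists
  have hwrc : ∀ t ∈ ball (ζ x₀) δ, ContinuousAt (wr e b) t := by
    intro t ht
    have h1 : ContinuousAt (fun t => fun i : Fin g => iteratedDeriv (i + 1) b t) t :=
      continuousAt_pi.2 fun i => (cd_iter (hball t ht).1 _).continuousAt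
    exact (contDiff_bdet e).continuous.continuousAt.comp h1
  have hg0 : 0 < g := by
    have : finrank ℂ V = g := by rw [finrank_eq_card_basis e, Fintype.card_fin]
    omega
  have hw₁ : deriv b t₁ ≠ 0 := by
    intro h
    apply hwr
    unfold wr
    refine e.det.map_coord_zero (⟨0, hg0⟩ : Fin g) ?_
    show iteratedDeriv (0 + 1) b t₁ = 0
    rw [zero_add, iteratedDeriv_one, h]
  obtain ⟨l₀, hl₀⟩ := exists_phi_ne hn h₀ hw₁
  obtain ⟨l₁, hl₁, hl₁w⟩ := exists_phi_zero hn h₀ hg (deriv b t₁)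
  -- the point `t₂`
  obtain ⟨t₂, ht₂, hl₁t₂⟩ : ∃ t₂ ∈ ball (ζ x₀) δ, phiL hn h₀ l₁ (deriv b t₂) ≠ 0 := by
    have h1 : ∀ M ∈ unitF hn h₀, ∀ᶠ t in 𝓝[≠] t₁, l₁ (LI (π a₀ y) M (deriv b t)) ≠ 0 := by
      intro M hM
      have h2 := han (l₁.comp (LI (π a₀ y) M)) t₁ ht₁
      rcases h2.eventually_eq_zero_or_eventually_ne_zero with h3 | h3
      · exfalso
        apply hl₁
        have h4 := hnd1 t₁ ht₁ _ h3
        ext v
        obtain ⟨v', rfl⟩ := LI_surj h₀ M v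
        exact congrArg (fun T : V →L[ℂ] ℂ => T v') h4
      · exact h3
    have h2 : ∀ᶠ t in 𝓝[≠] t₁, ∀ M ∈ unitF hn h₀, l₁ (LI (π a₀ y) M (deriv b t)) ≠ 0 :=
      (Finset.eventually_all _).2 h1
    have h3 : ∀ᶠ t in 𝓝[≠] t₁, t ∈ ball (ζ x₀) δ :=
      eventually_nhdsWithin_of_eventually_nhds (isOpen_ball.mem_nhds ht₁)
    obtain ⟨t₂, h4, h5⟩ := (h2.and h3).exists
    exact ⟨t₂, h5, Finset.prod_ne_zero_iff.2 h4⟩
  -- the weight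
  obtain ⟨m, hm, hm1⟩ := exists_exponent hn h₀
  have hlim := fun l w => PP_tendsto hn h₀ l hm hm1 w
  have hcard : ((unitF hn h₀).card : ℂ) ≠ 0 := by
    have : 0 < (unitF hn h₀).card := Finset.card_pos.2 ⟨1, one_mem_unitF hn h₀⟩
    exact_mod_cast this.ne'
  have hev1 := (hlim l₀ (deriv b t₁)).eventually_ne (mul_ne_zero hcard hl₀)
  have hev2 : ∀ᶠ k' in atTop,
      PP Q (phiL hn h₀ l₁) (m * k') (π a₀ y) (π a₀ y) (deriv b t₁) *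
        PP Q (phiL hn h₀ l₀) (m * k') (π a₀ y) (π a₀ y) (deriv b t₂) -
      PP Q (phiL hn h₀ l₁) (m * k') (π a₀ y) (π a₀ y) (deriv b t₂) *
        PP Q (phiL hn h₀ l₀) (m * k') (π a₀ y) (π a₀ y) (deriv b t₁) ≠ 0 := by
    refine (((hlim l₁ (deriv b t₁)).mul (hlim l₀ (deriv b t₂))).sub
      ((hlim l₁ (deriv b t₂)).mul (hlim l₀ (deriv b t₁)))).eventually_ne ?_
    rw [hl₁w, mul_zero, zero_mul, zero_sub, neg_ne_zero]
    exact mul_ne_zero (mul_ne_zero hcard hl₁t₂) (mul_ne_zero hcard hl₀)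
  have hev3 : ∀ᶠ k' in atTop, 2 * (n * n + 1) ≤ m * k' :=
    (tendsto_id.const_mul_atTop' hm).eventually (eventually_ge_atTop _)
  obtain ⟨k', hk1, hk2, hk3⟩ := (hev1.and (hev2.and hev3)).exists
  set k : ℕ := m * k' with hk
  refine ⟨l₀, l₁, k, hk3, fun Θ Ξ hΘ hΞ => ?_⟩
  set p : (V →L[ℂ] ℂ) → ℂ → ℂ := fun l t =>
    PP Q (phiL hn h₀ l) k (π a₀ y) (π a₀ y) (deriv b t) with hp
  have hpan : ∀ l, AnalyticOnNhd ℂ (p l) (ball (ζ x₀) δ) := by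
    intro l t ht
    obtain ⟨A, hA, hφA⟩ := phiL_bound hn h₀ l
    exact PP_analytic hn (phiL_diff hn h₀ l) hA hφA (by omega) h₀ isOpen_ball
      (π := fun _ => π a₀ y) (fun v => differentiableOn_const _) (fun z _ => ⟨G₀, h₀⟩)
      (w := deriv b) (fun s hs => ((hdb s hs).differentiableAt hn').differentiableWithinAt) ht
  obtain ⟨t, ht, ⟨hwrt, -⟩, hpt, hdt⟩ := ratio_deriv (hpan l₀) (hpan l₁) ht₁ ht₂ hk1
    (sub_ne_zero.1 hk2) (good := fun t => wr e b t ≠ 0 ∧ True)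
    (((hwrc t₁ ht₁).eventually_ne hwr).mono fun t ht => ⟨ht, trivial⟩)
  obtain ⟨g1, g2, g3, g4, g5, g6⟩ := hball t ht
  have hxS : f (q₀ t) ∉ S := by
    rw [g3]
    exact (hC.cover _).2 ⟨a₀, ha₀⟩
  -- the values of the forms
  have hval : ∀ (l : V →L[ℂ] ℂ) (Θ : X → ℂ),
      (∀ a x, f x ∈ U a → ∀ β, Lft E f π α a x β → ∀ q v P, Slc E f q v x P →
        Θ x = cval Q (phiL hn h₀ l) k (π a₀ y) e (π a (f x)) (fun t => β (q t)) v *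
          JP e₀ (dM E E' f x) P ^ ((unitF hn h₀).card + k * gg g)) →
      ∀ s ∈ ball (ζ x₀) δ, Θ (q₀ s) = p l s * wr e b s ^ k *
        JP e₀ (dM E E' f (q₀ s)) (dV E ζ (q₀ s)) ^ ((unitF hn h₀).card + k * gg g) := by
    intro l Θ hΘ s hs
    obtain ⟨-, s2, s3, s4, -, -⟩ := hball s hs
    have h1 := hΘ a₀ (q₀ s) (by rw [s3]; exact ha₀) β s4 q₀ s _ s2
    rw [h1, s3]
    rfl
  obtain ⟨A₀, hA₀, hφA₀⟩ := phiL_bound hn h₀ l₀
  obtain ⟨A₁, hA₁, hφA₁⟩ := phiL_bound hn h₀ l₁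
  obtain ⟨c₀, hc₀, hc₀e⟩ := form_local' hC hn hf e₀ (phiL_diff hn h₀ l₀) hA₀ hφA₀
    (by omega) h₀ e hΘ hxS g5 g6
  obtain ⟨c₁, hc₁, hc₁e⟩ := form_local' hC hn hf e₀ (phiL_diff hn h₀ l₁) hA₁ hφA₁
    (by omega) h₀ e hΞ hxS g5 g6
  have hJ0 := JP_ne_zero e₀ g6
  have hΘ0 : Θ (q₀ t) ≠ 0 := by
    rw [hval l₀ Θ hΘ t ht]
    exact mul_ne_zero (mul_ne_zero hpt (pow_ne_zero _ hwrt)) (pow_ne_zero _ hJ0)
  have hc₀0 : c₀ (q₀ t) ≠ 0 := by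
    intro h
    apply hΘ0
    rw [hc₀e.self_of_nhds, h, zero_mul]
  have hev : ∀ᶠ z in 𝓝 (q₀ t), Θ z ≠ 0 ∧ Ξ z / Θ z = c₁ z / c₀ z := by
    filter_upwards [hc₀e, hc₁e, hc₀.continuousAt.eventually_ne hc₀0,
      ker_eventually hf e₀ g5 g6] with z h1 h2 h3 h4
    have h5 := pow_ne_zero ((unitF hn h₀).card + k * gg g) (JP_ne_zero e₀ h4)
    rw [h1, h2]
    exact ⟨mul_ne_zero h3 h5, mul_div_mul_right _ _ h5⟩
  have hratio : HolV E (fun z => Ξ z / Θ z) (q₀ t) :=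
    (hc₁.div hc₀ hc₀0).congr (hev.mono fun z hz => hz.2)
  refine ⟨q₀ t, g3, hev.mono fun z hz => hz.1, hratio,
    (mfderiv 𝓘(ℂ, ℂ) 𝓘(ℂ, E) q₀ t : ℂ →L[ℂ] E) (1 : ℂ),
    slice_ker hf g2.2.1 g2.2.2.1 (1 : ℂ), ?_⟩
  have h1 := (slice_fderiv g2.2.1 hratio).2
  have h2 : dif E (fun z => Ξ z / Θ z) (q₀ t) 
      ((mfderiv 𝓘(ℂ, ℂ) 𝓘(ℂ, E) q₀ t : ℂ →L[ℂ] E) (1 : ℂ)) =
      deriv (fun s => Ξ (q₀ s) / Θ (q₀ s)) t := by
    rw [← fderiv_apply_one_eq_deriv, h1]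
    rfl
  rw [h2]
  have h3 : (fun s => Ξ (q₀ s) / Θ (q₀ s)) =ᶠ[𝓝 t] fun s => p l₁ s / p l₀ s := by
    filter_upwards [isOpen_ball.mem_nhds ht, (hwrc t ht).eventually_ne hwrt] with s hs hs2
    obtain ⟨-, -, -, -, -, s6⟩ := hball s hs
    rw [hval l₀ Θ hΘ s hs, hval l₁ Ξ hΞ s hs]
    rw [mul_div_mul_right _ _ (pow_ne_zero _ (JP_ne_zero e₀ s6)),
      mul_div_mul_right _ _ (pow_ne_zero _ hs2)]
  rw [Filter.EventuallyEq.deriv_eq h3]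
  exact hdt

end NC

end Vale.Agent.P281.H713
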