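import Vale.Agent.P281.ISO.DefsQ

namespace Vale.Agent.P281.H713

open scoped Manifold ContDiff Topology
open Set

universe u

section

variable (E E' : Type) [NormedAddCommGroup E] [NormedSpace ℂ E]
  [NormedAddCommGroup E'] [NormedSpace ℂ E']
variable {X Y : Type u} [TopologicalSpace X] [ChartedSpace E X]
  [TopologicalSpace Y] [ChartedSpace E' Y]
variable {V : Type} [NormedAddCommGroup V] [InnerProductSpace ℂ V] [FiniteDimensional ℂ V]

/-- A lattice with a polarization, in coordinates: the image of `ℤ ^ n` under the real linear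
isomorphism `π : ℝ ^ n → V` is a lattice of the complex vector space `V`, and `Q` is, on `ℝ ^ n`,
the imaginary part of a positive definite Hermitian form `⟨G ·, G ·⟩` on `V`. -/
def IsPolarized {n : ℕ} (Q : (Fin n → ℝ) → (Fin n → ℝ) → ℝ) (π : (Fin n → ℝ) ≃L[ℝ] V) : Prop :=
  ∃ G : V ≃L[ℂ] V, ∀ x x', (inner ℂ (G (π x)) (G (π x'))).im = Q x x'

/-- The periods `π a y`, `y ∈ U a`, of a variation of polarized complex tori over `Y ∖ S`: the open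
sets `U a` cover `Y ∖ S`, the periods depend holomorphically on `y` and are polarized by `Q`. -/
structure IsPeriodFamily {n : ℕ} (S : Set Y) (Q : (Fin n → ℝ) → (Fin n → ℝ) → ℝ) {ι : Type u}
    (U : ι → Set Y) (π : ι → Y → ((Fin n → ℝ) ≃L[ℝ] V)) : Prop where
  cover : ∀ y, y ∉ S ↔ ∃ a, y ∈ U a
  isOpen : ∀ a, IsOpen (U a)
  hol : ∀ a x, ∀ y ∈ U a, ContMDiffAt 𝓘(ℂ, E') 𝓘(ℂ, V) ω (fun y => π a y x) y
  polarized : ∀ a, ∀ y ∈ U a, IsPolarized Q (π a y)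

/-- `G : V → V` maps the lattice `π (ℤ ^ n)` onto the lattice `π' (ℤ ^ n)` and preserves `Q`. -/
def IsPeriodChange {n : ℕ} (Q : (Fin n → ℝ) → (Fin n → ℝ) → ℝ) (π π' : (Fin n → ℝ) ≃L[ℝ] V)
    (G : V ≃L[ℂ] V) : Prop :=
  (∀ m : Fin n → ℤ, ∃ m' : Fin n → ℤ, G (π fun i => (m i : ℝ)) = π' fun i => (m' i : ℝ)) ∧
  (∀ m' : Fin n → ℤ, ∃ m : Fin n → ℤ, G (π fun i => (m i : ℝ)) = π' fun i => (m' i : ℝ)) ∧
  ∀ x x', Q (π'.symm (G (π x))) (π'.symm (G (π x'))) = Q x x'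

/-- Over `Y ∖ S`, `f : X → Y` is a smooth family of polarized complex tori, with varying moduli:
for `y ∈ U a`, the map `u a y : V → f⁻¹(y)` is the uniformization of `f⁻¹(y)`, with lattice of
periods `π a y (ℤ ^ n)`; near each point of `f⁻¹(U a)` there is a holomorphic fibre coordinate `ζ`
inverse to `u a`; the changes of uniformization are affine and respect the polarization. -/
structure IsTorusFamily {n : ℕ} (f : X → Y) (S : Set Y) (Q : (Fin n → ℝ) → (Fin n → ℝ) → ℝ)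
    {ι : Type u} (U : ι → Set Y) (π : ι → Y → ((Fin n → ℝ) ≃L[ℝ] V)) (u : ι → Y → V → X) : Prop
    extends IsPeriodFamily E' S Q U π where
  unif : ∀ a, ∀ y ∈ U a, ∀ w w', f (u a y w) = y ∧
    (u a y w = u a y w' ↔ ∃ m : Fin n → ℤ, w' = w + π a y fun i => (m i : ℝ))
  coord : ∀ a x, f x ∈ U a → ∃ ζ : X → V, ContMDiffAt 𝓘(ℂ, E) 𝓘(ℂ, V) ω ζ x ∧
    (∀ᶠ z in 𝓝 x, u a (f z) (ζ z) = z) ∧ ∀ ξ : E, mfderiv 𝓘(ℂ, E) 𝓘(ℂ, E') f x ξ = 0 →
      mfderiv 𝓘(ℂ, E) 𝓘(ℂ, V) ζ x ξ = 0 → ξ = 0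
  change : ∀ a b, ∀ y ∈ U a ∩ U b, ∃ (G : V ≃L[ℂ] V) (c : V),
    (∀ x x', Q ((π b y).symm (G (π a y x))) ((π b y).symm (G (π a y x'))) = Q x x') ∧
    ∀ w, u b y (G w + c) = u a y w

/-- The complex manifold `F` is the complex torus `V / P(ℤ ^ n)`, with uniformization `p`. -/
def IsTorus {F : Type u} [TopologicalSpace F] [ChartedSpace V F] {n : ℕ}
    (P : (Fin n → ℝ) ≃L[ℝ] V) (p : V → F) : Prop :=
  Function.Surjective p ∧ (∀ w, ContMDiffAt 𝓘(ℂ, V) 𝓘(ℂ, V) ω p w ∧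
    Function.Injective (mfderiv 𝓘(ℂ, V) 𝓘(ℂ, V) p w)) ∧
  ∀ w w', p w = p w' ↔ ∃ m : Fin n → ℤ, w' = w + P fun i => (m i : ℝ)

end

end Vale.Agent.P281.H713
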