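import Vale.Agent.P281.H713.DefsB

namespace Vale.Agent.P281.H713

open scoped Manifold ContDiff Topology ENNReal NNReal
open Set Metric MeasureTheory

universe u

section

variable (E E' : Type) [NormedAddCommGroup E] [NormedSpace ℂ E]
  [NormedAddCommGroup E'] [NormedSpace ℂ E']
variable {X Y : Type u} [TopologicalSpace X] [ChartedSpace E X]
  [TopologicalSpace Y] [ChartedSpace E' Y]
variable {V : Type} [NormedAddCommGroup V] [InnerProductSpace ℂ V] [FiniteDimensional ℂ V]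

/-- The coefficient of the holomorphic `d`-form `h^* (m 0 ∧ ⋯ ∧ m (d - 1))`. -/
noncomputable def minor {d : ℕ} (m : Fin d → (V →L[ℂ] ℂ)) (h : (Fin d → ℂ) → V)
    (v : Fin d → ℂ) : ℂ :=
  (Matrix.of fun a b => m a (fderiv ℂ h v (Pi.single b 1))).det

/-- `q` embeds the polydisc `‖v - v₀‖ < r` holomorphically in the fibre of `f` through `q v₀`. -/
def IsPolydisc {d : ℕ} (f : X → Y) (q : (Fin d → ℂ) → X) (v₀ : Fin d → ℂ) (r : ℝ) : Prop :=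
  (∀ v ∈ ball v₀ r, ContMDiffAt 𝓘(ℂ, Fin d → ℂ) 𝓘(ℂ, E) ω q v) ∧ InjOn q (ball v₀ r) ∧
    ∀ v ∈ ball v₀ r, f (q v) = f (q v₀)

/-- The holomorphic map `h : ℂ ^ d → V` is nondegenerate at `v₀`: its Gauss map, with values in the
Grassmannian of `d`-planes of `V`, is an immersion at `v₀` (in Plücker coordinates, `h` being an
immersion at `v₀`), and `h` does not map the points near `v₀` to a hyperplane. -/
def IsNondeg {d : ℕ} (h : (Fin d → ℂ) → V) (v₀ : Fin d → ℂ) : Prop :=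
  (∀ (c : ℂ) (ξ : Fin d → ℂ), (∀ m : Fin d → (V →L[ℂ] ℂ),
    c * minor m h v₀ + fderiv ℂ (minor m h) v₀ ξ = 0) → c = 0 ∧ ξ = 0) ∧
  ∀ l : V →L[ℂ] ℂ, (∀ᶠ v in 𝓝 v₀, l (h v) = l (h v₀)) → l = 0

/-- `ζ` is holomorphic at `x`, and injective on the kernel of the differential of `f`. -/
def IsFibreCoord {W : Type} [NormedAddCommGroup W] [NormedSpace ℂ W] (f : X → Y) (ζ : X → W)
    (x : X) : Prop :=
  ContMDiffAt 𝓘(ℂ, E) 𝓘(ℂ, W) ω ζ x ∧
    ∀ ξ : E, mfderiv 𝓘(ℂ, E) 𝓘(ℂ, E') f x ξ = 0 → mfderiv 𝓘(ℂ, E) 𝓘(ℂ, W) ζ x ξ = 0 → ξ = 0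

/-- Over `Y ∖ S`, `f : X → Y` is a smooth family of manifolds of dimension `d`, with varying moduli,
together with holomorphic maps to polarized complex tori, for instance the Albanese maps: `α a`,
defined modulo the periods `π a`, maps `f⁻¹(y)`, `y ∈ U a`, to the torus `V / π a y (ℤ ^ n)`, with
generically immersive Gauss map, and image in no hyperplane; the volumes of the polydiscs in the
fibres, for the metrics given by the polarization, are bounded; the changes of maps are affine and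
respect the polarization. -/
structure IsAlbaneseFamily {n : ℕ} (d : ℕ) (f : X → Y) (S : Set Y)
    (Q : (Fin n → ℝ) → (Fin n → ℝ) → ℝ) {ι : Type u} (U : ι → Set Y)
    (π : ι → Y → ((Fin n → ℝ) ≃L[ℝ] V)) (α : ι → X → V) : Prop
    extends IsPeriodFamily E' S Q U π where
  coord : ∀ x, f x ∉ S → ∃ ζ : X → (Fin d → ℂ), IsFibreCoord E E' f ζ x
  lift : ∀ a x, f x ∈ U a → ∃ β : X → V, ContMDiffAt 𝓘(ℂ, E) 𝓘(ℂ, V) ω β x ∧
    ∀ᶠ z in 𝓝 x, IsCongr (π a (f z)) (α a z) (β z)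
  nondeg : ∀ a, ∀ y ∈ U a, ∃ (q : (Fin d → ℂ) → X) (v₀ : Fin d → ℂ),
    ContMDiffAt 𝓘(ℂ, Fin d → ℂ) 𝓘(ℂ, E) ω q v₀ ∧ (∀ᶠ v in 𝓝 v₀, f (q v) = y) ∧
    ∀ h : (Fin d → ℂ) → V, ContDiffAt ℂ ω h v₀ →
    (∀ᶠ v in 𝓝 v₀, IsCongr (π a y) (α a (q v)) (h v)) → IsNondeg h v₀
  volume : ∃ A : ℝ≥0, ∀ (a : ι) (q : (Fin d → ℂ) → X) (v₀ : Fin d → ℂ) (r : ℝ),
    IsPolydisc E f q v₀ r → f (q v₀) ∈ U a → ∀ h : (Fin d → ℂ) → V,
    DifferentiableOn ℂ h (ball v₀ r) →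
    (∀ v ∈ ball v₀ r, IsCongr (π a (f (q v₀))) (α a (q v)) (h v)) →
    ∀ G : V ≃L[ℂ] V, (∀ x x', (inner ℂ (G (π a (f (q v₀)) x)) (G (π a (f (q v₀)) x'))).im =
      Q x x') → ∀ m : Fin d → (V →L[ℂ] ℂ), (∀ i, ‖m i‖ ≤ 1) →
      ∫⁻ v in ball v₀ r, ‖minor m (fun u => G (h u)) v‖ₑ ^ 2 ≤ A
  change : ∀ a b, ∀ y ∈ U a ∩ U b, ∃ (G : V ≃L[ℂ] V) (c : V),
    IsPeriodChange Q (π a y) (π b y) G ∧ ∀ z, f z = y →
      IsCongr (π b y) (G (α a z) + c) (α b z)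

end

end Vale.Agent.P281.H713
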