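import Vale.Agent.P281.H713.DefsG

namespace Vale.Agent.P281.H713

open scoped Manifold ContDiff Topology ENNReal NNReal
open Set Metric MeasureTheory

universe u

/-- The complex bilinear form with matrix `B`. -/
noncomputable def bil {n : ℕ} (B : Matrix (Fin n) (Fin n) ℝ) (x y : Fin n → ℂ) : ℂ :=
  ∑ i, ∑ j, (B i j : ℂ) * x i * y j

/-- `p ∈ ℂ ^ n` is the period of a Hodge structure of K3 type on the lattice `ℤ ^ n`, with the
symmetric form `B`, orthogonal to the real class `w` (the class of a Kähler form, or `w = 0`): `B`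
is positive definite on the span of `Re p`, `Im p`, `w`, and negative definite on its
orthogonal. -/
structure IsK3Period {n : ℕ} (B : Matrix (Fin n) (Fin n) ℝ) (w : Fin n → ℝ) (p : Fin n → ℂ) :
    Prop where
  symm : B.IsSymm
  isotropic : bil B p p = 0
  orth : bil B p (fun i => (w i : ℂ)) = 0
  pos : 0 < (bil B p (star p)).re
  wpos : w = 0 ∨ 0 < (bil B (fun i => (w i : ℂ)) (fun i => (w i : ℂ))).re
  neg : ∀ x : Fin n → ℝ, x ≠ 0 → bil B (fun i => (x i : ℂ)) p = 0 →
    bil B (fun i => (x i : ℂ)) (fun i => (w i : ℂ)) = 0 →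
    (bil B (fun i => (x i : ℂ)) (fun i => (x i : ℂ))).re < 0

/-- `p' = χ M p` for an automorphism `M` of the lattice `ℤ ^ n` preserving `B` and `w`. -/
def IsK3Change {n : ℕ} (B : Matrix (Fin n) (Fin n) ℝ) (w : Fin n → ℝ) (p p' : Fin n → ℂ) (χ : ℂ) :
    Prop :=
  ∃ M : Matrix (Fin n) (Fin n) ℤ, IsUnit M.det ∧ (M.map (Int.cast : ℤ → ℝ)).mulVec w = w ∧
    (M.map (Int.cast : ℤ → ℝ)).transpose * B * M.map (Int.cast : ℤ → ℝ) = B ∧
    p' = χ • (M.map (Int.cast : ℤ → ℂ)).mulVec p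

end Vale.Agent.P281.H713
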