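import Vale.Agent.P281.ELL.DefsC

namespace Vale.Agent.P281.H713

open scoped Manifold ContDiff Topology
open Set

universe u

section

variable (E E' : Type) [NormedAddCommGroup E] [NormedSpace ℂ E]
  [NormedAddCommGroup E'] [NormedSpace ℂ E']
variable {X Y : Type u} [TopologicalSpace X] [ChartedSpace E X]
  [TopologicalSpace Y] [ChartedSpace E' Y]

/-- Over `Y ∖ S`, `f : X → Y` is a `ℙ¹`-bundle, with homogeneous fibre coordinates `c a`, and the
divisors `D ∈ 𝒲` are disjoint and étale over `Y ∖ S`: over `U a` they are the disjoint images of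
the `d` sections with homogeneous coordinates `p a k`.  The coefficient of `Δ` at the divisor
`D ∈ 𝒲` containing the section `p a k` is `δ k`. -/
structure IsLineFamily {d : ℕ} (f : X → Y) (S : Set Y) (Δ : Set X → ℝ) (δ : Fin d → ℝ)
    (𝒲 : Set (Set X)) {ι : Type u} (U : ι → Set Y) (p : ι → Fin d → Y → ℂ × ℂ)
    (c : ι → X → ℂ × ℂ) : Prop extends J.IsBranchedOver E E' f S 1 1 d 𝒲 U p c where
  marked : ∀ a x, f x ∈ U a → ∀ D ∈ 𝒲, x ∈ D → ∃ k, J.wedge (c a x) (p a k (f x)) = 0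
  disjoint : ∀ x, f x ∉ S → ∀ D ∈ 𝒲, ∀ D' ∈ 𝒲, x ∈ D → x ∈ D' → D = D'
  weight : ∀ a k x, f x ∈ U a → J.wedge (c a x) (p a k (f x)) = 0 → ∀ D ∈ 𝒲, x ∈ D → Δ D = δ k

end

end Vale.Agent.P281.H713
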