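import Vale.Agent.P281.H713.Defs

namespace Vale.Agent.P281.H713

open scoped Manifold ContDiff Topology
open Set

universe u

section

variable (E E' : Type) [NormedAddCommGroup E] [NormedSpace ℂ E]
  [NormedAddCommGroup E'] [NormedSpace ℂ E']
variable {X Y : Type u} [TopologicalSpace X] [ChartedSpace E X]
  [TopologicalSpace Y] [ChartedSpace E' Y]

/-- Over `Y ∖ S`, `f : X → Y` is a smooth family of elliptic curves `ℂ / π a y (ℤ ^ n)` (with
uniformizations `u a y`), and the divisors of `𝒲` are étale over `Y ∖ S`: over `U a` they are the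
disjoint images of the `d` sections given by the holomorphic functions `p a k`. -/
structure IsMarkedFamily {n d : ℕ} (f : X → Y) (S : Set Y)
    (Q : (Fin n → ℝ) → (Fin n → ℝ) → ℝ) (𝒲 : Set (Set X)) {ι : Type u} (U : ι → Set Y)
    (π : ι → Y → ((Fin n → ℝ) ≃L[ℝ] ℂ)) (u : ι → Y → ℂ → X) (p : ι → Fin d → Y → ℂ) : Prop
    extends IsTorusFamily E E' f S Q U π u where
  point : ∀ a k, ∀ y ∈ U a, J.HolAt E' (p a k) y
  distinct : ∀ a k k', ∀ y ∈ U a, u a y (p a k y) = u a y (p a k' y) → k = k'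
  marked : ∀ a x, f x ∈ U a → ∀ D ∈ 𝒲, x ∈ D → ∃ k, x = u a (f x) (p a k (f x))
  near : ∀ a k x, f x ∈ U a → x = u a (f x) (p a k (f x)) →
    ∃ D ∈ 𝒲, ∀ᶠ z in 𝓝 x, z ∈ D ↔ z = u a (f z) (p a k (f z))

end

end Vale.Agent.P281.H713
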