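import Vale.Agent.P281.H713.DefsB
import Vale.Agent.P281.H713.DefsM
import Vale.Agent.P281.H713.DefsL

namespace Vale.Agent.P281.H713

open scoped Manifold ContDiff Topology
open Set

universe u

/-- The components of `Δ` which are not contained in `f⁻¹(S)`. -/
def horizontal {X Y : Type u} (f : X → Y) (S : Set Y) (Δ : Set X → ℝ) : Set (Set X) :=
  {D | Δ D ≠ 0 ∧ ¬ D ⊆ f ⁻¹' S}

/-- Over `Y ∖ S`, `f : X → Y` is a smooth family of curves, with varying moduli: either of curves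
with maps to polarized complex tori of dimension `≥ 2` (for instance the Abel-Jacobi maps of curves
of genus `≥ 2`), or of elliptic curves, or of curves of genus `0`; in the last two cases the
horizontal part of `Δ` is étale over `Y ∖ S`. -/
def IsFamilyOfCurves (E E' : Type) [NormedAddCommGroup E] [NormedSpace ℂ E]
    [NormedAddCommGroup E'] [NormedSpace ℂ E'] {X Y : Type u} [TopologicalSpace X]
    [ChartedSpace E X] [TopologicalSpace Y] [ChartedSpace E' Y] (f : X → Y) (S : Set Y)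
    (Δ : Set X → ℝ) : Prop :=
  (∃ (g n : ℕ) (Q : (Fin n → ℝ) → (Fin n → ℝ) → ℝ) (ι : Type u) (U : ι → Set Y)
    (π : ι → Y → ((Fin n → ℝ) ≃L[ℝ] EuclideanSpace ℂ (Fin g)))
    (α : ι → X → EuclideanSpace ℂ (Fin g)), 2 ≤ g ∧ IsCurveFamily E E' f S Q U π α) ∨
  (∃ (n d : ℕ) (Q : (Fin n → ℝ) → (Fin n → ℝ) → ℝ) (ι : Type u) (U : ι → Set Y)
    (π : ι → Y → ((Fin n → ℝ) ≃L[ℝ] ℂ)) (u : ι → Y → ℂ → X) (p : ι → Fin d → Y → ℂ),
    IsMarkedFamily E E' f S Q (horizontal f S Δ) U π u p) ∨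
  ∃ (d : ℕ) (δ : Fin d → ℝ) (ι : Type u) (U : ι → Set Y) (p : ι → Fin d → Y → ℂ × ℂ)
    (c : ι → X → ℂ × ℂ), IsLineFamily E E' f S Δ δ (horizontal f S Δ) U p c

end Vale.Agent.P281.H713
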