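import Vale.Agent.P281.H713.DefsK

namespace Vale.Agent.P281.H713

open scoped Manifold ContDiff Topology ENNReal NNReal
open Set Metric MeasureTheory

universe u

section

variable (E E' : Type) [NormedAddCommGroup E] [NormedSpace ℂ E]
  [NormedAddCommGroup E'] [NormedSpace ℂ E']
variable {X Y : Type u} [TopologicalSpace X] [ChartedSpace E X]
  [TopologicalSpace Y] [ChartedSpace E' Y]
variable {V : Type} [NormedAddCommGroup V] [InnerProductSpace ℂ V] [FiniteDimensional ℂ V]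

/-- The tangent vectors `ξ 0, …, ξ (d - 1)` at `x` are vertical. -/
def IsVertical {d : ℕ} (f : X → Y) (x : X) (ξ : Fin d → E) : Prop :=
  ∀ l, mfderiv 𝓘(ℂ, E) 𝓘(ℂ, E') f x (ξ l) = 0

/-- `ζ 0, …, ζ (d - 1)` are holomorphic at `x` and their differentials have no common zero on the
tangent space of the fibre of `f`. -/
def IsFibreChart {d : ℕ} (f : X → Y) (ζ : Fin d → X → ℂ) (x : X) : Prop :=
  (∀ l, J.HolAt E (ζ l) x) ∧ ∀ ξ : E, mfderiv 𝓘(ℂ, E) 𝓘(ℂ, E') f x ξ = 0 →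
    (∀ l, J.dif E (ζ l) x ξ = 0) → ξ = 0

/-- `η 0, …, η (t - 1)` are, near `x`, meromorphic `N`-canonical forms on the fibres of `f`, with
poles of order at most `κ D` along the divisors `D`: on vertical tangent vectors
`ξ 0, …, ξ (d - 1)`, they are given by `η i = (c i / ∏ e_D ^ κ_D) (dζ_0 ∧ ⋯ ∧ dζ_{d-1}) ^ N`, with
`c i` holomorphic, `ζ` fibre coordinates and `e_D` a local equation of `D`. -/
def IsFibreForms {d t : ℕ} (f : X → Y) (N : ℕ) (κ : Set X → ℕ)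
    (η : Fin t → X → (Fin d → E) → ℂ) (x : X) : Prop :=
  ∀ (T : Finset (Set X)) (e : Set X → X → ℂ), (∀ D, κ D ≠ 0 → D ∈ T) →
    (∀ D ∈ T, J.IsLocalEq E D (e D) x) → ∃ (ζ : Fin d → X → ℂ) (c : Fin t → X → ℂ),
      IsFibreChart E E' f ζ x ∧ (∀ i, J.HolAt E (c i) x) ∧
      ∀ᶠ z in 𝓝 x, ∏ D ∈ T, e D z ^ κ D ≠ 0 → ∀ i ξ, IsVertical E E' f z ξ →
        η i z ξ * ∏ D ∈ T, e D z ^ κ D =
          c i z * (Matrix.of fun k l => J.dif E (ζ k) z (ξ l)).det ^ N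

/-- The image of the fibre `f⁻¹(y)` by the map `(η 0 : ⋯ : η (t - 1))` has dimension at least `r`:
at some point `x` of the fibre, `r` of the quotients of the forms `η i` are holomorphic functions
with linearly independent differentials along the fibre. -/
def IsOfRank {d t : ℕ} (f : X → Y) (κ : Set X → ℕ) (r : ℕ)
    (η : Fin t → X → (Fin d → E) → ℂ) (y : Y) : Prop :=
  ∃ x, f x = y ∧ (∀ D, κ D ≠ 0 → x ∉ D) ∧ ∃ (i₀ : Fin t) (i : Fin r → Fin t) (g : Fin r → X → ℂ),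
    (∃ ξ, IsVertical E E' f x ξ ∧ η i₀ x ξ ≠ 0) ∧ (∀ s, J.HolAt E (g s) x) ∧
    (∀ᶠ z in 𝓝 x, ∀ s ξ, IsVertical E E' f z ξ → η (i s) z ξ = g s z * η i₀ z ξ) ∧
    ∀ c : Fin r → ℂ, (∀ ξ, mfderiv 𝓘(ℂ, E) 𝓘(ℂ, E') f x ξ = 0 →
      ∑ s, c s * J.dif E (g s) x ξ = 0) → c = 0

/-- The coefficient at `v` of the pull-back of `η` by `q : ℂ ^ d → X`. -/
noncomputable def pull {d : ℕ} (η : X → (Fin d → E) → ℂ) (q : (Fin d → ℂ) → X) (v : Fin d → ℂ) :
    ℂ :=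
  η (q v) fun l => mfderiv 𝓘(ℂ, Fin d → ℂ) 𝓘(ℂ, E) q v (Pi.single l 1)

/-- The number `∏ B_j(p_j, conj p_j) ^ e_j`. -/
noncomputable def periodNorm {b m : ℕ} (B : Fin b → Matrix (Fin m) (Fin m) ℝ) (e : Fin b → ℕ)
    (p : Fin b → Fin m → ℂ) : ℝ :=
  ∏ j, (bil (B j) (p j) (star (p j))).re ^ e j

/-- `p'` is obtained from the `b`-tuple of K3-type periods `p` by automorphisms of the lattices, a
permutation `σ` of the factors and multiplication by the `χ j`. -/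
def IsK3Changes {b m : ℕ} (B : Fin b → Matrix (Fin m) (Fin m) ℝ) (w : Fin b → Fin m → ℝ)
    (e : Fin b → ℕ) (p p' : Fin b → Fin m → ℂ) (σ : Equiv.Perm (Fin b)) (χ : Fin b → ℂ) : Prop :=
  ∀ j, B (σ j) = B j ∧ w (σ j) = w j ∧ e (σ j) = e j ∧ IsK3Change (B j) (w j) (p j) (p' (σ j)) (χ j)

/-- Over `Y ∖ S`, `f : X → Y` is a smooth family of manifolds of dimension `d`, with varying moduli,
and the `η a i`, `i < t`, are `N`-canonical forms on the fibres of `f` over `U a`, with poles of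
order at most `κ D` along the divisors `D`, such that the map `(η a 0 : ⋯ : η a (t - 1))` has rank
`≥ r` on each fibre, controlled by periods: those of polarized complex tori, `π a y`, and those of
`b` Hodge structures of K3 type, `p a y j`; the forms `η b i` are, up to a permutation, the products
of the forms `η a i` with the factor given by the change of periods, and the integrals of
`|η a i| ^ (2 / N)` are bounded by the norms of the periods. -/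
structure IsPeriodForms {n m d b t : ℕ} (f : X → Y) (S : Set Y) (r N : ℕ) (κ : Set X → ℕ)
    (Q : (Fin n → ℝ) → (Fin n → ℝ) → ℝ) (s : ℕ) (B : Fin b → Matrix (Fin m) (Fin m) ℝ)
    (w : Fin b → Fin m → ℝ) (e : Fin b → ℕ) {ι : Type u} (U : ι → Set Y)
    (π : ι → Y → ((Fin n → ℝ) ≃L[ℝ] V)) (p : ι → Y → Fin b → Fin m → ℂ)
    (η : ι → Fin t → X → (Fin d → E) → ℂ) : Prop extends IsPeriodFamily E' S Q U π where
  period : ∀ a, ∀ y ∈ U a, ∀ j, IsK3Period (B j) (w j) (p a y j) ∧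
    ∀ i, J.HolAt E' (fun y => p a y j i) y
  chart : ∀ x, f x ∉ S → ∃ ζ : Fin d → X → ℂ, IsFibreChart E E' f ζ x
  forms : ∀ a x, f x ∈ U a → IsFibreForms E E' f N κ (η a) x
  rank : ∀ a, ∀ y ∈ U a, IsOfRank E E' f κ r (η a) y
  change : ∀ a b, ∀ y ∈ U a ∩ U b, ∃ (G : V ≃L[ℂ] V) (σ : _) (χ : _) (τ : Equiv.Perm (Fin t)),
    IsPeriodChange Q (π a y) (π b y) G ∧ IsK3Changes B w e (p a y) (p b y) σ χ ∧
    ∀ x, f x = y → (∀ D, κ D ≠ 0 → x ∉ D) → ∀ i ξ, IsVertical E E' f x ξ →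
      η b (τ i) x ξ = (G : V →L[ℂ] V).det ^ s * (∏ j, χ j ^ e j) * η a i x ξ
  norm : ∃ A : ℝ, ∀ a i (q : (Fin d → ℂ) → X) (v₀ : Fin d → ℂ) (r : ℝ), IsPolydisc E f q v₀ r →
    f (q v₀) ∈ U a → (∀ v ∈ ball v₀ r, ∀ D, κ D ≠ 0 → q v ∉ D) →
    ∀ G : V ≃L[ℂ] V, (∀ x x', (inner ℂ (G (π a (f (q v₀)) x)) (G (π a (f (q v₀)) x'))).im =
      Q x x') → (∫⁻ v in ball v₀ r, ‖pull E (η a i) q v‖ₑ ^ (2 / (N : ℝ))) ^ N *
        ‖(G : V →L[ℂ] V).det‖ₑ ^ (2 * s) ≤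
      ENNReal.ofReal (A * periodNorm B e (p a (f (q v₀))))

end

end Vale.Agent.P281.H713
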