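import Vale.Agent.P281.H713.Packing
import Vale.Agent.P281.H713.TypeI

open scoped Manifold ContDiff Topology
open Set Filter Metric Module

namespace Vale.Agent.P281.H713

open Vale.Agent.P281 Vale.Agent.P281.MF Vale.Agent.P281.ISO Vale.Agent.P281.ELL

set_option linter.unusedSectionVars false

universe u

section Eis

variable {n d p : ℕ}

theorem summable_int {p : ℕ} (hp : n < p) : Summable fun m : Fin n → ℤ =>
    ((1 + ‖(fun i => (m i : ℝ) : Fin n → ℝ)‖)⁻¹) ^ p := by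
  classical
  let b := Pi.basisFun ℝ (Fin n)
  let L := Submodule.span ℤ (Set.range b)
  have hL : finrank ℤ L = n := by
    rw [ZLattice.rank ℝ L, Module.finrank_pi, Fintype.card_fin]
  have h1 : Summable fun z : L => ‖z‖⁻¹ ^ p :=
    ZLattice.summable_norm_pow_inv L p (by rw [hL]; exact hp)
  let c : (Fin n → ℤ) → (Fin n → ℝ) := fun m i => (m i : ℝ)
  have hc : ∀ m, c m ∈ L := by
    intro m
    rw [b.mem_span_iff_repr_mem ℤ]
    intro i
    exact ⟨m i, rfl⟩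
  have hci : Function.Injective fun m => (⟨c m, hc m⟩ : L) := by
    intro m m' h
    have h2 : c m = c m' := congrArg Subtype.val h
    funext i
    have h3 : (m i : ℝ) = (m' i : ℝ) := congrFun h2 i
    exact_mod_cast h3
  have h2 := h1.comp_injective hci
  have h3 : Summable fun m : Fin n → ℤ => if m = 0 then (1 : ℝ) else 0 :=
    (hasSum_ite_eq (0 : Fin n → ℤ) (1 : ℝ)).summable
  refine Summable.of_nonneg_of_le (fun M => by positivity) (fun m => ?_) (h2.add h3)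
  by_cases hm : m = 0
  · have h4 : (fun i => (m i : ℝ) : Fin n → ℝ) = 0 := by
      funext i
      rw [hm]
      simp
    rw [if_pos hm, h4]
    simp
  · rw [if_neg hm, add_zero]
    have h4 : 0 < ‖(⟨c m, hc m⟩ : L)‖ := by
      show 0 < ‖c m‖
      rw [norm_pos_iff]
      intro h0
      apply hm
      funext i
      have h6 : (m i : ℝ) = 0 := congrFun h0 i
      exact_mod_cast h6
    have h5 : ‖(⟨c m, hc m⟩ : L)‖ = ‖(fun i => (m i : ℝ) : Fin n → ℝ)‖ := rfl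
    show _ ≤ ‖(⟨c m, hc m⟩ : L)‖⁻¹ ^ p
    rw [h5] at h4 ⊢
    refine pow_le_pow_left₀ (by positivity) (inv_anti₀ h4 (by linarith)) p

/-- the term of index `i` of the Eisenstein series -/
noncomputable def et (P : (Fin n → ℝ) ≃L[ℝ] ℂ) (q : Fin d → ℂ) (w : ℂ)
    (i : Fin d × (Fin n → ℤ)) : ℂ :=
  w - q i.1 - P fun j => (i.2 j : ℝ)

theorem finite_int (B : ℝ) : {m : Fin n → ℤ | ‖(fun i => (m i : ℝ) : Fin n → ℝ)‖ ≤ B}.Finite := by
  have h1 : {m : Fin n → ℤ | ‖(fun i => (m i : ℝ) : Fin n → ℝ)‖ ≤ B} ⊆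
      (Set.univ.pi fun _ : Fin n => Set.Icc (-⌈|B|⌉) ⌈|B|⌉) := by
    intro m hm i _
    have h2 := (norm_le_pi_norm (fun i => (m i : ℝ) : Fin n → ℝ) i).trans hm
    rw [Real.norm_eq_abs] at h2
    have h3 : |(m i : ℝ)| ≤ ⌈|B|⌉ := h2.trans ((le_abs_self B).trans (Int.le_ceil _))
    rw [← Int.cast_abs] at h3
    have h4 : |m i| ≤ ⌈|B|⌉ := by exact_mod_cast h3
    exact abs_le.1 h4
  exact (Set.Finite.pi' fun _ => Set.finite_Icc _ _).subset (by
    intro m hm i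
    exact h1 hm i (Set.mem_univ _))

variable {E : Type*} [NormedAddCommGroup E] [NormedSpace ℂ E] [FiniteDimensional ℂ E]

theorem et_lower {Z : Type*} [TopologicalSpace Z] {π : Z → ((Fin n → ℝ) ≃L[ℝ] ℂ)}
    {q : Fin d → Z → ℂ} {w : Z → ℂ} {z₀ : Z}
    (hπ : ContinuousAt (fun z => (π z : (Fin n → ℝ) →L[ℝ] ℂ)) z₀)
    (hq : ∀ k, ContinuousAt (q k) z₀) (hw : ContinuousAt w z₀)
    {F : Finset (Fin d × (Fin n → ℤ))}
    (hF : ∀ i, i ∉ F → et (π z₀) (fun k => q k z₀) (w z₀) i ≠ 0) :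
    ∃ c : ℝ, 0 < c ∧ ∀ᶠ z in 𝓝 z₀, ∀ i, i ∉ F →
      c * (1 + ‖(fun j => (i.2 j : ℝ) : Fin n → ℝ)‖) ≤ ‖et (π z) (fun k => q k z) (w z) i‖ := by
  classical
  set K : ℝ := ‖((π z₀).symm : ℂ →L[ℝ] (Fin n → ℝ))‖ + 1 with hK
  have hK0 : 0 < K := by positivity
  have hx : ∀ x : Fin n → ℝ, ‖x‖ / K ≤ ‖π z₀ x‖ := by
    intro x
    rw [div_le_iff₀ hK0]
    have h1 := ((π z₀).symm : ℂ →L[ℝ] (Fin n → ℝ)).le_opNorm (π z₀ x)
    have h2 : ((π z₀).symm : ℂ →L[ℝ] (Fin n → ℝ)) (π z₀ x) = x := (π z₀).symm_apply_apply x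
    rw [h2] at h1
    calc ‖x‖ ≤ ‖((π z₀).symm : ℂ →L[ℝ] (Fin n → ℝ))‖ * ‖π z₀ x‖ := h1
      _ ≤ ‖π z₀ x‖ * K := by
        rw [mul_comm]
        gcongr
        rw [hK]
        linarith
  have e1 : ∀ᶠ z in 𝓝 z₀, ‖(π z : (Fin n → ℝ) →L[ℝ] ℂ) - (π z₀ : (Fin n → ℝ) →L[ℝ] ℂ)‖ <
      1 / (2 * K) := by
    have h1 : ContinuousAt (fun z => ‖(π z : (Fin n → ℝ) →L[ℝ] ℂ) -
      (π z₀ : (Fin n → ℝ) →L[ℝ] ℂ)‖) z₀ := (hπ.sub continuousAt_const).norm
    refine h1.eventually_lt_const ?_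
    show ‖(π z₀ : (Fin n → ℝ) →L[ℝ] ℂ) - (π z₀ : (Fin n → ℝ) →L[ℝ] ℂ)‖ < _
    rw [sub_self, norm_zero]
    positivity
  set R : ℝ := (∑ k : Fin d, ‖w z₀ - q k z₀‖) + 1 with hR
  have hR0 : 0 < R := by positivity
  have e2 : ∀ᶠ z in 𝓝 z₀, ∀ k, ‖w z - q k z‖ < R := by
    rw [Filter.eventually_all]
    intro k
    have h1 : ContinuousAt (fun z => ‖w z - q k z‖) z₀ := (hw.sub (hq k)).norm
    refine h1.eventually_lt_const ?_
    have h2 := Finset.single_le_sum (f := fun k => ‖w z₀ - q k z₀‖) (fun _ _ => norm_nonneg _)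
      (Finset.mem_univ k)
    have h3 : ‖w z₀ - q k z₀‖ ≤ ∑ k : Fin d, ‖w z₀ - q k z₀‖ := h2
    linarith
  set B : ℝ := 4 * K * R + 1 with hB
  have hBf := finite_int (n := n) B
  set T : Finset (Fin d × (Fin n → ℤ)) := (Finset.univ ×ˢ hBf.toFinset) \ F with hT
  have hTm : ∀ i, i ∉ F → ‖(fun j => (i.2 j : ℝ) : Fin n → ℝ)‖ ≤ B → i ∈ T := by
    intro i hi hi'
    rw [hT, Finset.mem_sdiff, Finset.mem_product]
    exact ⟨⟨Finset.mem_univ _, hBf.mem_toFinset.2 hi'⟩, hi⟩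
  obtain ⟨ε, hε, hεT⟩ : ∃ ε : ℝ, 0 < ε ∧ ∀ i ∈ T,
      ε < ‖et (π z₀) (fun k => q k z₀) (w z₀) i‖ := by
    have h1 : ∀ i ∈ T, 0 < ‖et (π z₀) (fun k => q k z₀) (w z₀) i‖ := by
      intro i hi
      rw [hT, Finset.mem_sdiff] at hi
      exact norm_pos_iff.2 (hF i hi.2)
    rcases T.eq_empty_or_nonempty with h0 | h0
    · exact ⟨1, one_pos, by rw [h0]; simp⟩
    · obtain ⟨i₀, hi₀, hmin⟩ := T.exists_min_image
        (fun i => ‖et (π z₀) (fun k => q k z₀) (w z₀) i‖) h0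
      refine ⟨‖et (π z₀) (fun k => q k z₀) (w z₀) i₀‖ / 2, half_pos (h1 i₀ hi₀), fun i hi => ?_⟩
      have h2 := hmin i hi
      have h3 := h1 i₀ hi₀
      linarith
  have e3 : ∀ᶠ z in 𝓝 z₀, ∀ i ∈ T, ε < ‖et (π z) (fun k => q k z) (w z) i‖ := by
    rw [Finset.eventually_all]
    intro i hi
    have h1 : ContinuousAt (fun z => ‖et (π z) (fun k => q k z) (w z) i‖) z₀ := by
      refine ((hw.sub (hq i.1)).sub ?_).norm
      exact hπ.clm_apply continuousAt_const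
    exact h1.eventually_const_lt (hεT i hi)
  refine ⟨min (ε / (1 + B)) (1 / (8 * K)), by positivity, ?_⟩
  filter_upwards [e1, e2, e3] with z h1 h2 h3 i hi
  set x : Fin n → ℝ := fun j => (i.2 j : ℝ) with hxd
  by_cases hxB : ‖x‖ ≤ B
  · have h4 := h3 i (hTm i hi hxB)
    have hB0 : 0 < B := by positivity
    calc min (ε / (1 + B)) (1 / (8 * K)) * (1 + ‖x‖) ≤ (ε / (1 + B)) * (1 + B) := by
          gcongr
          exact min_le_left _ _
      _ = ε := by field_simp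
      _ ≤ _ := h4.le
  · rw [not_le] at hxB
    have h5 : ‖x‖ / (2 * K) ≤ ‖π z x‖ := by
      have h6 := hx x
      have h7 : ‖π z₀ x‖ ≤ ‖π z x‖ + ‖x‖ / (2 * K) := by
        have h8 : π z₀ x = π z x - ((π z : (Fin n → ℝ) →L[ℝ] ℂ) -
          (π z₀ : (Fin n → ℝ) →L[ℝ] ℂ)) x := by
          show π z₀ x = π z x - (π z x - π z₀ x)
          ring
        have h9 := ((π z : (Fin n → ℝ) →L[ℝ] ℂ) - (π z₀ : (Fin n → ℝ) →L[ℝ] ℂ)).le_opNorm x
        have h10 : ‖(π z : (Fin n → ℝ) →L[ℝ] ℂ) - (π z₀ : (Fin n → ℝ) →L[ℝ] ℂ)‖ * ‖x‖ ≤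
            1 / (2 * K) * ‖x‖ := by gcongr
        calc ‖π z₀ x‖ ≤ ‖π z x‖ + ‖((π z : (Fin n → ℝ) →L[ℝ] ℂ) -
          (π z₀ : (Fin n → ℝ) →L[ℝ] ℂ)) x‖ := by
              rw [h8]
              exact norm_sub_le _ _
          _ ≤ ‖π z x‖ + 1 / (2 * K) * ‖x‖ := by linarith
          _ = _ := by ring
      have h11 : ‖x‖ / K = 2 * (‖x‖ / (2 * K)) := by field_simp
      linarith
    have h6 : ‖π z x‖ - R ≤ ‖et (π z) (fun k => q k z) (w z) i‖ := by
      have h7 := h2 i.1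
      have h8 : ‖π z x‖ ≤ ‖et (π z) (fun k => q k z) (w z) i‖ + ‖w z - q i.1 z‖ := by
        have h9 : π z x = (w z - q i.1 z) - et (π z) (fun k => q k z) (w z) i := by
          unfold et
          ring
        rw [h9, add_comm]
        exact norm_sub_le _ _
      linarith
    have h7 : R ≤ ‖x‖ / (4 * K) := by
      rw [le_div_iff₀ (by positivity)]
      rw [hB] at hxB
      nlinarith
    have h8 : 1 + ‖x‖ ≤ 2 * ‖x‖ := by
      have : 1 ≤ ‖x‖ := by
        have : 0 < 4 * K * R := by positivity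
        rw [hB] at hxB
        linarith
      linarith
    calc min (ε / (1 + B)) (1 / (8 * K)) * (1 + ‖x‖) ≤ 1 / (8 * K) * (2 * ‖x‖) := by
          gcongr
          exact min_le_right _ _
      _ = ‖x‖ / (4 * K) := by field_simp; ring
      _ = ‖x‖ / (2 * K) - ‖x‖ / (4 * K) := by field_simp; norm_num
      _ ≤ ‖π z x‖ - R := by linarith
      _ ≤ _ := h6

/-- holomorphy of the Eisenstein series, without the terms of `F` -/
theorem eis_analytic (hp : n < p) {U : Set E} (hU : IsOpen U) {π : E → ((Fin n → ℝ) ≃L[ℝ] ℂ)}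
    (hπ : ∀ x, DifferentiableOn ℂ (fun z => π z x) U) {q : Fin d → E → ℂ}
    (hq : ∀ k, DifferentiableOn ℂ (q k) U) {w : E → ℂ} (hw : DifferentiableOn ℂ w U) {z₀ : E}
    (hz₀ : z₀ ∈ U) {F : Finset (Fin d × (Fin n → ℤ))}
    (hF : ∀ i, i ∉ F → et (π z₀) (fun k => q k z₀) (w z₀) i ≠ 0) :
    AnalyticAt ℂ (fun z => ∑' i : Fin d × (Fin n → ℤ),
      if i ∈ F then 0 else ((et (π z) (fun k => q k z) (w z) i)⁻¹) ^ p) z₀ := by
  classical
  obtain ⟨c, hc, hlow⟩ := et_lower (contAt_of_pointwise hU hπ hz₀)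
    (fun k => (hq k).continuousOn.continuousAt (hU.mem_nhds hz₀))
    (hw.continuousOn.continuousAt (hU.mem_nhds hz₀)) hF
  obtain ⟨U', hU'1, hU'2, hU'3⟩ := _root_.eventually_nhds_iff.1 (hlow.and (hU.mem_nhds hz₀))
  have hsub : U' ⊆ U := fun z hz => (hU'1 z hz).2
  have hs : Summable fun i : Fin d × (Fin n → ℤ) =>
      (c⁻¹) ^ p * ((1 + ‖(fun j => (i.2 j : ℝ) : Fin n → ℝ)‖)⁻¹) ^ p := by
    refine Summable.mul_left _ ?_
    have h1 := summable_int (n := n) hp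
    have h2 : Summable fun i : Fin d × (Fin n → ℤ) =>
        (fun _ : Fin d => (1 : ℝ)) i.1 *
          (fun m : Fin n → ℤ => ((1 + ‖(fun j => (m j : ℝ) : Fin n → ℝ)‖)⁻¹) ^ p) i.2 := by
      refine Summable.mul_of_nonneg (Summable.of_finite) h1 (fun _ => zero_le_one) (fun m => ?_)
      positivity
    refine h2.congr fun i => ?_
    simp
  refine analyticAt_tsum (hU'2.mem_nhds hU'3) (fun i => ?_) hs (fun i z hz => ?_)
  · by_cases hi : i ∈ F
    · simp only [if_pos hi]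
      exact differentiableOn_const 0
    · simp only [if_neg hi]
      have h1 : DifferentiableOn ℂ (fun z => et (π z) (fun k => q k z) (w z) i) U' :=
        ((hw.mono hsub).sub ((hq i.1).mono hsub)).sub ((hπ _).mono hsub)
      refine (h1.inv fun z hz => ?_).pow p
      have h2 := (hU'1 z hz).1 i hi
      have h3 : 0 < c * (1 + ‖(fun j => (i.2 j : ℝ) : Fin n → ℝ)‖) := by positivity
      exact norm_pos_iff.1 (h3.trans_le h2)
  · by_cases hi : i ∈ F
    · simp only [if_pos hi, norm_zero]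
      positivity
    · simp only [if_neg hi]
      have h2 := (hU'1 z hz).1 i hi
      have h3 : 0 < c * (1 + ‖(fun j => (i.2 j : ℝ) : Fin n → ℝ)‖) := by positivity
      rw [norm_pow, norm_inv, ← mul_pow, ← mul_inv]
      exact pow_le_pow_left₀ (by positivity) (inv_anti₀ h3 h2) p

theorem eis_summable (hp : n < p) (P : (Fin n → ℝ) ≃L[ℝ] ℂ) (q : Fin d → ℂ) (w : ℂ) :
    Summable fun i : Fin d × (Fin n → ℤ) => ((et P q w i)⁻¹) ^ p := by
  classical
  -- finitely many zeros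
  have hfin : {i : Fin d × (Fin n → ℤ) | et P q w i = 0}.Finite := by
    set K : ℝ := ‖(P.symm : ℂ →L[ℝ] (Fin n → ℝ))‖ with hK
    have h1 : ∀ i : Fin d × (Fin n → ℤ), et P q w i = 0 →
        ‖(fun j => (i.2 j : ℝ) : Fin n → ℝ)‖ ≤ K * ∑ k, ‖w - q k‖ := by
      intro i hi
      have h2 := (P.symm : ℂ →L[ℝ] (Fin n → ℝ)).le_opNorm (P fun j => (i.2 j : ℝ))
      have h3 : (P.symm : ℂ →L[ℝ] (Fin n → ℝ)) (P fun j => (i.2 j : ℝ)) =
        fun j => (i.2 j : ℝ) := P.symm_apply_apply _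
      rw [h3] at h2
      refine h2.trans ?_
      have h4 : (P fun j => (i.2 j : ℝ)) = w - q i.1 := by
        unfold et at hi
        linear_combination -hi
      rw [h4, ← hK]
      gcongr
      exact Finset.single_le_sum (f := fun k => ‖w - q k‖) (fun _ _ => norm_nonneg _)
        (Finset.mem_univ i.1)
    refine (Set.Finite.prod (Set.finite_univ (α := Fin d))
      (finite_int (n := n) (K * ∑ k, ‖w - q k‖))).subset ?_
    intro i hi
    exact ⟨Set.mem_univ _, h1 i hi⟩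
  obtain ⟨c, hc, hlow⟩ := et_lower (Z := Unit) (π := fun _ => P) (q := fun k _ => q k)
    (w := fun _ => w) (z₀ := ()) continuousAt_const (fun k => continuousAt_const)
    continuousAt_const (F := hfin.toFinset) (fun i hi h0 => hi (hfin.mem_toFinset.2 h0))
  have hl := hlow.self_of_nhds
  have hs : Summable fun i : Fin d × (Fin n → ℤ) =>
      (c⁻¹) ^ p * ((1 + ‖(fun j => (i.2 j : ℝ) : Fin n → ℝ)‖)⁻¹) ^ p := by
    refine Summable.mul_left _ ?_
    have h1 := summable_int (n := n) hp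
    have h2 : Summable fun i : Fin d × (Fin n → ℤ) =>
        (fun _ : Fin d => (1 : ℝ)) i.1 *
          (fun m : Fin n → ℤ => ((1 + ‖(fun j => (m j : ℝ) : Fin n → ℝ)‖)⁻¹) ^ p) i.2 := by
      refine Summable.mul_of_nonneg (Summable.of_finite) h1 (fun _ => zero_le_one) (fun m => ?_)
      positivity
    refine h2.congr fun i => ?_
    simp
  refine Summable.of_norm_bounded hs fun i => ?_
  by_cases hi : et P q w i = 0
  · rw [hi, inv_zero, zero_pow (by omega), norm_zero]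
    positivity
  · have h2 := hl i fun h => hi (hfin.mem_toFinset.1 h)
    have h3 : 0 < c * (1 + ‖(fun j => (i.2 j : ℝ) : Fin n → ℝ)‖) := by positivity
    rw [norm_pow, norm_inv, ← mul_pow, ← mul_inv]
    exact pow_le_pow_left₀ (by positivity) (inv_anti₀ h3 h2) p

end Eis

end Vale.Agent.P281.H713
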