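import Vale.Agent.P281.H713.Eis
import Vale.Agent.P281.H713.Torus
import Vale.Agent.P281.H713.DefsM
import Vale.Agent.P281.ELL.CovLocal

open scoped Manifold ContDiff Topology
open Set Filter Metric Module

namespace Vale.Agent.P281.H713

open Vale.Agent.P281 Vale.Agent.P281.MF Vale.Agent.P281.ISO Vale.Agent.P281.ELL

set_option linter.unusedSectionVars false

universe u

section ES

variable {n d : ℕ}

/-- the sum of the `(w - w')⁻ᵖ` over `w' ∈ M` -/
noncomputable def ES (M : Set ℂ) (p : ℕ) (w : ℂ) : ℂ := ∑' w' : M, ((w - (w' : ℂ))⁻¹) ^ p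

theorem ES_affine {M M' : Set ℂ} {g c : ℂ} (hg : g ≠ 0) (h : ∀ w, w ∈ M ↔ g * w + c ∈ M') (p : ℕ)
    (w : ℂ) : ES M' p (g * w + c) = (g⁻¹) ^ p * ES M p w := by
  let φ : M ≃ M' :=
    { toFun := fun w => ⟨g * w + c, (h w).1 w.2⟩
      invFun := fun w => ⟨(w - c) / g, (h _).2 (by
        have : g * ((w - c) / g) + c = (w : ℂ) := by field_simp; ring
        rw [this]; exact w.2)⟩
      left_inv := fun w => by
        apply Subtype.ext
        show (g * (w : ℂ) + c - c) / g = w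
        field_simp
        ring
      right_inv := fun w => by
        apply Subtype.ext
        show g * (((w : ℂ) - c) / g) + c = w
        field_simp
        ring }
  unfold ES
  rw [← φ.tsum_eq, ← tsum_mul_left]
  refine tsum_congr fun w' => ?_
  rw [← mul_pow, ← mul_inv]
  congr 2
  show g * w + c - (g * (w' : ℂ) + c) = _
  ring

theorem ES_eq {P : (Fin n → ℝ) ≃L[ℝ] ℂ} {q : Fin d → ℂ} {M : Set ℂ}
    (hM : ∀ w, w ∈ M ↔ ∃ i : Fin d × (Fin n → ℤ), w = q i.1 + P fun j => (i.2 j : ℝ))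
    (hinj : ∀ k k', (∃ m : Fin n → ℤ, q k' = q k + P fun j => (m j : ℝ)) → k = k') (p : ℕ) (w : ℂ) :
    ES M p w = ∑' i : Fin d × (Fin n → ℤ), ((et P q w i)⁻¹) ^ p := by
  let φ : Fin d × (Fin n → ℤ) ≃ M := Equiv.ofBijective
    (fun i => ⟨q i.1 + P fun j => (i.2 j : ℝ), (hM _).2 ⟨i, rfl⟩⟩) (by
      constructor
      · rintro ⟨k, m⟩ ⟨k', m'⟩ h
        have h1 : q k + (P fun j => (m j : ℝ)) = q k' + P fun j => (m' j : ℝ) :=
          congrArg Subtype.val h
        have h2 : k = k' := by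
          refine hinj k k' ⟨m - m', ?_⟩
          have h3 : (fun j => (((m - m' : Fin n → ℤ) j : ℤ) : ℝ)) =
              (fun j => (m j : ℝ)) - fun j => (m' j : ℝ) := by
            funext j
            simp
          rw [h3, map_sub]
          linear_combination -h1
        subst h2
        have h4 := P.injective (add_left_cancel h1)
        have h5 : m = m' := by
          funext j
          have := congrFun h4 j
          exact_mod_cast this
        rw [h5]
      · rintro ⟨w, hw⟩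
        obtain ⟨i, hi⟩ := (hM w).1 hw
        exact ⟨i, Subtype.ext hi.symm⟩)
  unfold ES
  rw [← φ.tsum_eq]
  refine tsum_congr fun i => ?_
  congr 2
  show w - (q i.1 + P fun j => (i.2 j : ℝ)) = _
  unfold et
  ring

end ES

section Local

variable {E E' : Type} [NormedAddCommGroup E] [NormedSpace ℂ E] [FiniteDimensional ℂ E]
  [NormedAddCommGroup E'] [NormedSpace ℂ E'] [FiniteDimensional ℂ E']
variable {X Y : Type u} [TopologicalSpace X] [ChartedSpace E X] [IsManifold 𝓘(ℂ, E) ω X]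
  [TopologicalSpace Y] [ChartedSpace E' Y] [IsManifold 𝓘(ℂ, E') ω Y]
variable {n d : ℕ} {Q : (Fin n → ℝ) → (Fin n → ℝ) → ℝ}
variable {f : X → Y} {S : Set Y} {ι : Type u} {U : ι → Set Y}
  {π : ι → Y → ((Fin n → ℝ) ≃L[ℝ] ℂ)} {u : ι → Y → ℂ → X} {𝒲 : Set (Set X)}
  {p : ι → Fin d → Y → ℂ}

theorem eis_holV {pw : ℕ} (hp : n < pw) (hP : IsPeriodFamily E' S Q U π)
    (hf : ∀ x, HolM E E' f x) {a : ι} {x : X} (hx : f x ∈ U a) {q : Fin d → X → ℂ}
    (hq : ∀ k, HolV E (q k) x) {w : X → ℂ} (hw : HolV E w x)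
    {F : Finset (Fin d × (Fin n → ℤ))}
    (hF : ∀ i, i ∉ F → et (π a (f x)) (fun k => q k x) (w x) i ≠ 0) :
    HolV E (fun z => ∑' i : Fin d × (Fin n → ℤ),
      if i ∈ F then 0 else ((et (π a (f z)) (fun k => q k z) (w z) i)⁻¹) ^ pw) x := by
  have hxs : x ∈ (chartAt E x).source := mem_chart_source E x
  refine HolV.of_rep hxs ?_
  have hsymm : Tendsto (chartAt E x).symm (𝓝 (chartAt E x x)) (𝓝 x) := tendsto_symm x
  have hq' : ∀ᶠ z in 𝓝 x, ∀ k, HolV E (q k) z := by
    rw [Filter.eventually_all]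
    exact fun k => (hq k).eventually
  have hcov : ∀ᶠ z in 𝓝 x, f z ∈ U a ∧ HolV E w z ∧ (∀ k, HolV E (q k) z) ∧
      z ∈ (chartAt E x).source := by
    filter_upwards [(hf x).continuousAt.eventually ((hP.isOpen a).mem_nhds hx), hw.eventually,
      hq', (chartAt E x).open_source.mem_nhds hxs] with z h1 h2 h3 h4 using ⟨h1, h2, h3, h4⟩
  have hev : ∀ᶠ c in 𝓝 (chartAt E x x), f ((chartAt E x).symm c) ∈ U a ∧
      HolV E w ((chartAt E x).symm c) ∧ (∀ k, HolV E (q k) ((chartAt E x).symm c)) ∧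
      (chartAt E x).symm c ∈ (chartAt E x).source ∧ c ∈ (chartAt E x).target := by
    filter_upwards [hsymm.eventually hcov,
      (chartAt E x).open_target.mem_nhds ((chartAt E x).map_source hxs)] with c h1 h2
      using ⟨h1.1, h1.2.1, h1.2.2.1, h1.2.2.2, h2⟩
  obtain ⟨U', hU'1, hU'2, hU'3⟩ := _root_.eventually_nhds_iff.1 hev
  have hd : ∀ {W : Type} [NormedAddCommGroup W] [NormedSpace ℂ W] (h : X → W),
      (∀ c ∈ U', HolV E h ((chartAt E x).symm c)) →
      DifferentiableOn ℂ (fun c => h ((chartAt E x).symm c)) U' := by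
    intro W _ _ h hh c hc
    have h1 := (hh c hc).rep (hU'1 c hc).2.2.2.1
    rw [(chartAt E x).right_inv (hU'1 c hc).2.2.2.2] at h1
    exact (h1.differentiableAt (by simp)).differentiableWithinAt
  have hx' : (chartAt E x).symm (chartAt E x x) = x := (chartAt E x).left_inv hxs
  refine (eis_analytic hp hU'2 (π := fun c => π a (f ((chartAt E x).symm c)))
    (fun v => hd (fun z => π a (f z) v) fun c hc => HolV.comp (E' := E') (h := fun y => π a y v)
      (hP.hol a v _ (hU'1 c hc).1) (hf _))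
    (q := fun k c => q k ((chartAt E x).symm c)) (fun k => hd (q k) fun c hc => (hU'1 c hc).2.2.1 k)
    (w := fun c => w ((chartAt E x).symm c))
    (hd w fun c hc => (hU'1 c hc).2.1) hU'3 (F := F) (fun i hi => ?_)).contDiffAt
  rw [hx']
  exact hF i hi

/-- the marked points of a fibre -/
def mks (v : ℂ → X) (𝒲 : Set (Set X)) : Set ℂ := {w | ∃ D ∈ 𝒲, v w ∈ D}

theorem mem_mks (hT : IsMarkedFamily E E' f S Q 𝒲 U π u p) {a : ι} {y : Y} (hy : y ∈ U a)
    (w : ℂ) : w ∈ mks (u a y) 𝒲 ↔ ∃ i : Fin d × (Fin n → ℤ),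
      w = p a i.1 y + π a y fun j => (i.2 j : ℝ) := by
  have hfw : ∀ w, f (u a y w) = y := fun w => (hT.unif a y hy w w).1
  constructor
  · rintro ⟨D, hD, hw⟩
    obtain ⟨k, hk⟩ := hT.marked a (u a y w) (by rw [hfw]; exact hy) D hD hw
    rw [hfw] at hk
    obtain ⟨m, hm⟩ := (hT.unif a y hy _ _).2.1 hk.symm
    exact ⟨(k, m), hm⟩
  · rintro ⟨⟨k, m⟩, hw⟩
    have h1 : u a y (p a k y) = u a y w := (hT.unif a y hy _ _).2.2 ⟨m, hw⟩
    obtain ⟨D, hD, hev⟩ := hT.near a k (u a y w) (by rw [hfw]; exact hy) (by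
      rw [hfw]
      exact h1.symm)
    refine ⟨D, hD, hev.self_of_nhds.2 ?_⟩
    rw [hfw]
    exact h1.symm

theorem ES_mks (hT : IsMarkedFamily E E' f S Q 𝒲 U π u p) {a : ι} {y : Y} (hy : y ∈ U a)
    (pw : ℕ) (w : ℂ) : ES (mks (u a y) 𝒲) pw w =
      ∑' i : Fin d × (Fin n → ℤ), ((et (π a y) (fun k => p a k y) w i)⁻¹) ^ pw := by
  refine ES_eq (mem_mks hT hy) (fun k k' h => ?_) pw w
  exact hT.distinct a k k' y hy ((hT.unif a y hy _ _).2.2 h)

theorem point_hol (hT : IsMarkedFamily E E' f S Q 𝒲 U π u p) (hf : ∀ x, HolM E E' f x) {a : ι}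
    {x : X} (hx : f x ∈ U a) (k : Fin d) : HolV E (fun z => p a k (f z)) x :=
  HolV.comp (E' := E') (h := p a k) (hT.point a k _ hx) (hf x)

theorem et_hol (hT : IsMarkedFamily E E' f S Q 𝒲 U π u p) (hf : ∀ x, HolM E E' f x) {a : ι}
    {x : X} (hx : f x ∈ U a) {ζ : X → ℂ} (hζ : HolV E ζ x) (i : Fin d × (Fin n → ℤ)) :
    HolV E (fun z => et (π a (f z)) (fun k => p a k (f z)) (ζ z) i) x := by
  have h1 : HolV E (fun z => π a (f z) fun j => (i.2 j : ℝ)) x :=
    HolV.comp (E' := E') (h := fun y => π a y fun j => (i.2 j : ℝ)) (hT.hol a _ _ hx) (hf x)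
  exact (hζ.sub (point_hol hT hf hx i.1)).sub h1

theorem tsum_split {p : ℕ} (hp : n < p) (P : (Fin n → ℝ) ≃L[ℝ] ℂ) (q : Fin d → ℂ) (w : ℂ)
    (F : Finset (Fin d × (Fin n → ℤ))) :
    ∑' i : Fin d × (Fin n → ℤ), ((et P q w i)⁻¹) ^ p = ∑ i ∈ F, ((et P q w i)⁻¹) ^ p +
      ∑' i : Fin d × (Fin n → ℤ), if i ∈ F then 0 else ((et P q w i)⁻¹) ^ p := by
  classical
  have hs := eis_summable hp P q w
  have h1 : HasSum (fun i : Fin d × (Fin n → ℤ) => if i ∈ F then ((et P q w i)⁻¹) ^ p else 0)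
      (∑ i ∈ F, ((et P q w i)⁻¹) ^ p) := by
    have h2 : HasSum (fun i : Fin d × (Fin n → ℤ) => if i ∈ F then ((et P q w i)⁻¹) ^ p else 0)
        (∑ i ∈ F, if i ∈ F then ((et P q w i)⁻¹) ^ p else 0) :=
      hasSum_sum_of_ne_finset_zero (fun i hi => if_neg hi)
    have h3 : ∑ i ∈ F, (if i ∈ F then ((et P q w i)⁻¹) ^ p else 0) =
        ∑ i ∈ F, ((et P q w i)⁻¹) ^ p := Finset.sum_congr rfl fun i hi => if_pos hi
    rwa [h3] at h2
  have h4 := hs.hasSum.sub h1
  have h5 : (fun i : Fin d × (Fin n → ℤ) => ((et P q w i)⁻¹) ^ p -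
      if i ∈ F then ((et P q w i)⁻¹) ^ p else 0) =
      fun i => if i ∈ F then 0 else ((et P q w i)⁻¹) ^ p := by
    funext i
    by_cases hi : i ∈ F
    · simp [hi]
    · simp [hi]
  rw [h5] at h4
  rw [h4.tsum_eq]
  ring

/-- the local form of the Eisenstein series -/
theorem eis_local {pw : ℕ} (hpw : n < pw) (hT : IsMarkedFamily E E' f S Q 𝒲 U π u p)
    (hf : ∀ x, HolM E E' f x) (e₀ : E ≃L[ℂ] (E' × ℂ)) {a : ι} {x : X} (hx : f x ∈ U a)
    {ζ : X → ℂ} (hζ : TorCoord E E' f u a x ζ) :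
    ((∀ D ∈ 𝒲, x ∉ D) ∧ ∃ R : X → ℂ, HolV E R x ∧
      ∀ᶠ z in 𝓝 x, ES (mks (u a (f z)) 𝒲) pw (ζ z) = R z) ∨
    ∃ D ∈ 𝒲, ∃ τ R : X → ℂ, IsLocalEq E D τ x ∧ τ x = 0 ∧ HolV E R x ∧
      (∀ ξ, dM E E' f x ξ = 0 → dif E τ x ξ = dV E ζ x ξ) ∧
      ∀ᶠ z in 𝓝 x, ES (mks (u a (f z)) 𝒲) pw (ζ z) = ((τ z)⁻¹) ^ pw + R z := by
  classical
  obtain ⟨hζ1, hζ2, hζ3⟩ := hζ
  have hux : u a (f x) (ζ x) = x := hζ2.self_of_nhds
  have hUev : ∀ᶠ z in 𝓝 x, f z ∈ U a :=
    (hf x).continuousAt.eventually ((hT.isOpen a).mem_nhds hx)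
  have hzero : ∀ i, et (π a (f x)) (fun k => p a k (f x)) (ζ x) i = 0 →
      x = u a (f x) (p a i.1 (f x)) := by
    intro i hi
    have h1 : u a (f x) (p a i.1 (f x)) = u a (f x) (ζ x) := (hT.unif a _ hx _ _).2.2 ⟨i.2, by
      unfold et at hi
      linear_combination hi⟩
    rw [h1, hux]
  by_cases hz : ∃ i, et (π a (f x)) (fun k => p a k (f x)) (ζ x) i = 0
  · right
    obtain ⟨i₀, hi₀⟩ := hz
    have huniq : ∀ i, i ∉ ({i₀} : Finset (Fin d × (Fin n → ℤ))) →
        et (π a (f x)) (fun k => p a k (f x)) (ζ x) i ≠ 0 := by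
      intro i hi h0
      apply hi
      rw [Finset.mem_singleton]
      have h1 : i.1 = i₀.1 := by
        refine hT.distinct a _ _ _ hx ?_
        rw [← hzero i h0, ← hzero i₀ hi₀]
      have h2 : π a (f x) (fun j => (i.2 j : ℝ)) = π a (f x) fun j => (i₀.2 j : ℝ) := by
        unfold et at h0 hi₀
        rw [h1] at h0
        linear_combination hi₀ - h0
      have h3 := (π a (f x)).injective h2
      have h4 : i.2 = i₀.2 := by
        funext j
        have := congrFun h3 j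
        exact_mod_cast this
      exact Prod.ext h1 h4
    obtain ⟨D, hD, hDev⟩ := hT.near a i₀.1 x hx (hzero i₀ hi₀)
    set τ : X → ℂ := fun z => et (π a (f z)) (fun k => p a k (f z)) (ζ z) i₀ with hτ
    have hτh : HolV E τ x := et_hol hT hf hx hζ1 i₀
    have hdτ : ∀ ξ, dM E E' f x ξ = 0 → dif E τ x ξ = dV E ζ x ξ := by
      intro ξ hξ
      set g : Y → ℂ := fun y => -(p a i₀.1 y + π a y fun j => (i₀.2 j : ℝ)) with hg
      have hgh : HolV E' g (f x) := by
        have h1 : HolV E' (p a i₀.1) (f x) := hT.point a _ _ hx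
        have h2 : HolV E' (fun y => π a y fun j => (i₀.2 j : ℝ)) (f x) := hT.hol a _ _ hx
        exact (h1.add h2).neg
      have h1 : τ = fun z => ζ z + g (f z) := by
        funext z
        rw [hτ, hg]
        simp only [et]
        ring
      have h2 : HolV E (fun z => g (f z)) x := HolV.comp (E' := E') hgh (hf x)
      rw [h1, dif_addC hζ1 h2]
      have h3 : dif E (fun z => g (f z)) x ξ = dif E' g (f x) (dM E E' f x ξ) := by
        have h4 := dif_comp hgh (hf x)
        exact congrArg (fun T : E →L[ℂ] ℂ => T ξ) h4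
      show dif E ζ x ξ + dif E (fun z => g (f z)) x ξ = _
      rw [h3, hξ, map_zero, add_zero]
      rfl
    have hdne : dif E τ x ≠ 0 := by
      obtain ⟨ξ, hξ0, hξ⟩ := exists_ker e₀ (dM E E' f x)
      intro h0
      apply hξ0
      refine hζ3 ξ hξ ?_
      rw [← hdτ ξ hξ, h0]
      rfl
    have hev : ∀ᶠ z in 𝓝 x, z ∈ D ↔ τ z = 0 := by
      obtain ⟨c, hc, hlow⟩ := et_lower (π := fun z => π a (f z)) (q := fun k z => p a k (f z))
        (w := ζ) (z₀ := x) (by
          have h1 : ContinuousAt (fun y => (π a y : (Fin n → ℝ) →L[ℝ] ℂ)) (f x) := by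
            have h2 : ContinuousOn (fun y => (π a y : (Fin n → ℝ) →L[ℝ] ℂ)) (U a) :=
              continuousOn_clm_apply.2 fun v y hy =>
                (hT.hol a v y hy).continuousAt.continuousWithinAt
            exact h2.continuousAt ((hT.isOpen a).mem_nhds hx)
          exact ContinuousAt.comp (f := f) (x := x) h1 (hf x).continuousAt)
        (fun k => (point_hol hT hf hx k).continuousAt) hζ1.continuousAt huniq
      filter_upwards [hDev, hlow, hζ2, hUev] with z h1 h2 h3 h4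
      rw [h1]
      constructor
      · intro h5
        have h6 : u a (f z) (p a i₀.1 (f z)) = u a (f z) (ζ z) := by rw [h3]; exact h5.symm
        obtain ⟨m, hm⟩ := (hT.unif a _ h4 _ _).2.1 h6
        have h7 : et (π a (f z)) (fun k => p a k (f z)) (ζ z) (i₀.1, m) = 0 := by
          unfold et
          rw [hm]
          ring
        by_contra h8
        have h9 : (i₀.1, m) ∉ ({i₀} : Finset (Fin d × (Fin n → ℤ))) := by
          rw [Finset.mem_singleton]
          intro h10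
          rw [h10] at h7
          exact h8 h7
        have h10 := h2 _ h9
        rw [h7, norm_zero] at h10
        have h11 : 0 < c * (1 + ‖(fun j => (m j : ℝ) : Fin n → ℝ)‖) := by positivity
        exact absurd h10 (not_le.2 h11)
      · intro h5
        have h6 : u a (f z) (p a i₀.1 (f z)) = u a (f z) (ζ z) :=
          (hT.unif a _ h4 _ _).2.2 ⟨i₀.2, by
            have h7 : et (π a (f z)) (fun k => p a k (f z)) (ζ z) i₀ = 0 := h5
            unfold et at h7
            linear_combination h7⟩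
        rw [h6, h3]
    have hrest := eis_holV hpw hT.toIsPeriodFamily hf hx (q := fun k z => p a k (f z))
      (fun k => point_hol hT hf hx k) hζ1 huniq
    refine ⟨D, hD, τ, _, IsLocalEq.of_dif_ne hτh hev hdne, hi₀, hrest, hdτ, ?_⟩
    filter_upwards [hUev] with z hz
    rw [ES_mks hT hz, tsum_split hpw _ _ _ {i₀}, Finset.sum_singleton]
  · left
    push Not at hz
    refine ⟨?_, _, eis_holV hpw hT.toIsPeriodFamily hf hx (q := fun k z => p a k (f z))
      (fun k => point_hol hT hf hx k) hζ1 (F := ∅) (fun i _ => hz i), ?_⟩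
    · intro D hD hxD
      have h1 : ζ x ∈ mks (u a (f x)) 𝒲 := ⟨D, hD, by rw [hux]; exact hxD⟩
      obtain ⟨i, hi⟩ := (mem_mks hT hx _).1 h1
      apply hz i
      unfold et
      rw [hi]
      ring
    · filter_upwards [hUev] with z hz
      rw [ES_mks hT hz, tsum_split hpw _ _ _ ∅, Finset.sum_empty, zero_add]

end Local

end Vale.Agent.P281.H713
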