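import Vale.Agent.P281.H713.EllForms

open scoped Manifold ContDiff Topology
open Set Filter Metric Module

namespace Vale.Agent.P281.H713

open Vale.Agent.P281 Vale.Agent.P281.MF Vale.Agent.P281.ISO Vale.Agent.P281.ELL

set_option linter.unusedSectionVars false

universe u

section Ell

variable {E E' : Type} [NormedAddCommGroup E] [NormedSpace ℂ E] [FiniteDimensional ℂ E]
  [NormedAddCommGroup E'] [NormedSpace ℂ E'] [FiniteDimensional ℂ E']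
variable {X Y : Type u} [TopologicalSpace X] [ChartedSpace E X] [IsManifold 𝓘(ℂ, E) ω X]
  [TopologicalSpace Y] [ChartedSpace E' Y] [IsManifold 𝓘(ℂ, E') ω Y]
variable {n d : ℕ} {Q : (Fin n → ℝ) → (Fin n → ℝ) → ℝ}
variable {f : X → Y} {S : Set Y} {ι : Type u} {U : ι → Set Y}
  {π : ι → Y → ((Fin n → ℝ) ≃L[ℝ] ℂ)} {u : ι → Y → ℂ → X} {𝒲 : Set (Set X)}
  {p : ι → Fin d → Y → ℂ}

theorem ell_slice (hT : IsTorusFamily E E' f S Q U π u) {π₀ : (Fin n → ℝ) ≃L[ℝ] ℂ}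
    {G₀ : ℂ ≃L[ℂ] ℂ} (h₀ : IsPol Q π₀ G₀) {r : ℝ} (hr : 0 < r) :
    ∃ C : ℝ, 0 ≤ C ∧ ∀ a y, y ∈ U a → ∀ (v₀ : ℂ) (h : ℂ → ℂ), DifferentiableOn ℂ h (ball v₀ r) →
      (∀ v ∈ ball v₀ r, ∀ v' ∈ ball v₀ r, u a y (h v) = u a y (h v') → v = v') →
      ∀ G : ℂ ≃L[ℂ] ℂ, IsPol Q (π a y) G →
      ‖(G : ℂ →L[ℂ] ℂ).det‖ * ‖deriv h v₀‖ ≤ C := by
  obtain ⟨C, hC0, hC⟩ := tor_slice h₀ hr
  refine ⟨C, hC0, fun a y hy v₀ h hh hinj G hG => ?_⟩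
  have h1 := hC (π a y) G hG v₀ h hh fun v hv v' hv' hm => by
    obtain ⟨m, hm⟩ := hm
    refine hinj v hv v' hv' ((hT.unif a y hy _ _).2.2 ⟨m, ?_⟩)
    rw [← hm]
    ring
  rw [det_C (fderiv ℂ h v₀)] at h1
  exact h1

theorem eis_slice {pw : ℕ} (hp : n < pw) (hp3 : 3 ≤ pw)
    (hT : IsMarkedFamily E E' f S Q 𝒲 U π u p) {r : ℝ} (hr : 0 < r) :
    ∃ C : ℝ, 0 ≤ C ∧ ∀ a y, y ∈ U a → ∀ (v₀ : ℂ) (h : ℂ → ℂ), DifferentiableOn ℂ h (ball v₀ r) →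
      (∀ v ∈ ball v₀ r, ∀ v' ∈ ball v₀ r, u a y (h v) = u a y (h v') → v = v') →
      (∀ v ∈ ball v₀ r, ∀ D ∈ 𝒲, u a y (h v) ∉ D) →
      ‖ES (mks (u a y) 𝒲) pw (h v₀)‖ * ‖deriv h v₀‖ ^ pw ≤ C := by
  classical
  obtain ⟨C, hC0, hC⟩ := eis_sum_le
  obtain ⟨M, hM⟩ := dlog_bound 1 hr
  set M' : ℝ := max M 1 with hM'
  have hM'0 : 0 < M' := lt_of_lt_of_le one_pos (le_max_right _ _)
  refine ⟨d * (C * M' ^ pw), by positivity, fun a y hy v₀ h hh hinj hav => ?_⟩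
  have hv₀ : v₀ ∈ ball v₀ r := mem_ball_self hr
  rcases eq_or_ne (deriv h v₀) 0 with h0 | h0
  · rw [h0, norm_zero, zero_pow (by omega), mul_zero]
    positivity
  have hd0 : 0 < ‖deriv h v₀‖ := norm_pos_iff.2 h0
  set ρ : ℝ := ‖deriv h v₀‖ / M' with hρ
  have hρ0 : 0 < ρ := by positivity
  have hunif := hT.unif a y hy
  -- the basic estimate
  have hest : ∀ c : ℂ, (∀ v ∈ ball v₀ r, h v ≠ c) → ρ ≤ ‖h v₀ - c‖ := by
    intro c hc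
    have h1 := hM v₀ (fun v => h v - c) (hh.sub_const c) (fun v hv => sub_ne_zero.2 (hc v hv)) (by
      intro v hv hveq hvinj
      have h2 : h (v 1) = h (v 0) := sub_left_inj.1 (hveq 1)
      have h3 := hinj (v 1) (hv 1) (v 0) (hv 0) (by rw [h2])
      exact absurd (hvinj h3) (by decide))
    rw [deriv_sub_const] at h1
    rw [hρ, div_le_iff₀ hM'0, mul_comm]
    refine h1.trans ?_
    gcongr
    exact le_max_left _ _
  have hsep : ∀ m : Fin n → ℤ, m ≠ 0 → ρ ≤ ‖π a y fun j => (m j : ℝ)‖ := by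
    intro m hm
    have h1 := hest (h v₀ + π a y fun j => (m j : ℝ)) (by
      intro v hv hv2
      have h2 := hinj v₀ hv₀ v hv ((hunif _ _).2.2 ⟨m, hv2⟩)
      rw [← h2] at hv2
      have h3 : (π a y fun j => (m j : ℝ)) = 0 := by
        linear_combination -hv2
      apply hm
      have h4 := (map_eq_zero_iff (π a y) (π a y).injective).1 h3
      funext j
      have h5 := congrFun h4 j
      have h6 : (m j : ℝ) = 0 := h5
      exact_mod_cast h6)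
    have h2 : h v₀ - (h v₀ + π a y fun j => (m j : ℝ)) = -(π a y fun j => (m j : ℝ)) := by ring
    rwa [h2, norm_neg] at h1
  have hfar : ∀ i : Fin d × (Fin n → ℤ), ρ ≤ ‖et (π a y) (fun k => p a k y) (h v₀) i‖ := by
    intro i
    have h1 := hest (p a i.1 y + π a y fun j => (i.2 j : ℝ)) (by
      intro v hv hv2
      obtain ⟨D, hD, hDv⟩ := (mem_mks hT hy (h v)).2 ⟨i, hv2⟩
      exact hav v hv D hD hDv)
    unfold et
    rwa [← sub_sub] at h1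
  -- the sums for fixed `k`
  have hk : ∀ k : Fin d, ∑' m : Fin n → ℤ,
      ‖((et (π a y) (fun k => p a k y) (h v₀) (k, m))⁻¹) ^ pw‖ ≤ C * (ρ⁻¹) ^ pw := by
    intro k
    refine (hC (Fin n → ℤ) (fun m => et (π a y) (fun k => p a k y) (h v₀) (k, m)) ρ hρ0
      (fun m => hfar (k, m)) (fun m m' hmm => ?_) pw hp3).2
    have h1 : et (π a y) (fun k => p a k y) (h v₀) (k, m) -
        et (π a y) (fun k => p a k y) (h v₀) (k, m') =
        π a y fun j => (((m' - m : Fin n → ℤ) j : ℤ) : ℝ) := by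
      have h2 : (fun j => (((m' - m : Fin n → ℤ) j : ℤ) : ℝ)) =
          (fun j => (m' j : ℝ)) - fun j => (m j : ℝ) := by
        funext j
        simp
      rw [h2, map_sub]
      unfold et
      ring
    rw [h1]
    exact hsep _ (sub_ne_zero.2 fun h => hmm h.symm)
  have hs := (eis_summable hp (π a y) (fun k => p a k y) (h v₀)).norm
  have h1 : ‖ES (mks (u a y) 𝒲) pw (h v₀)‖ ≤ d * (C * (ρ⁻¹) ^ pw) := by
    rw [ES_mks hT hy]
    refine (norm_tsum_le_tsum_norm hs).trans ?_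
    rw [hs.tsum_prod, tsum_fintype]
    calc ∑ k : Fin d, ∑' m : Fin n → ℤ,
          ‖((et (π a y) (fun k => p a k y) (h v₀) (k, m))⁻¹) ^ pw‖
        ≤ ∑ _k : Fin d, C * (ρ⁻¹) ^ pw := Finset.sum_le_sum fun k _ => hk k
      _ = d * (C * (ρ⁻¹) ^ pw) := by rw [Finset.sum_const, Finset.card_univ, Fintype.card_fin,
          nsmul_eq_mul]
  calc ‖ES (mks (u a y) 𝒲) pw (h v₀)‖ * ‖deriv h v₀‖ ^ pw
      ≤ d * (C * (ρ⁻¹) ^ pw) * ‖deriv h v₀‖ ^ pw := by gcongr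
    _ = d * (C * (ρ⁻¹ * ‖deriv h v₀‖) ^ pw) := by rw [mul_pow]; ring
    _ = d * (C * M' ^ pw) := by
        congr 3
        rw [hρ]
        field_simp

/-- the two coefficients -/
theorem psi_coef_change (k : ℕ) {π₀ : (Fin n → ℝ) ≃L[ℝ] ℂ} (a b : ι) (y : Y) (G : ℂ ≃L[ℂ] ℂ)
    (hG : IsPeriodChange Q (π a y) (π b y) G) :
    psi Q π₀ k (π b y) = ((G 1)⁻¹) ^ k * psi Q π₀ k (π a y) := by
  rw [psi_change hG, det_C]
  rfl

theorem eis_coef_change (pw : ℕ) {a b : ι} {y : Y} {G : ℂ ≃L[ℂ] ℂ} {c : ℂ}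
    (hG : ∀ w, u b y (G w + c) = u a y w) (w : ℂ) :
    ES (mks (u b y) 𝒲) pw (G w + c) = ((G 1)⁻¹) ^ pw * ES (mks (u a y) 𝒲) pw w := by
  have h1 : ∀ w, G w = G 1 * w := fun w => clm_C (G : ℂ →L[ℂ] ℂ) w
  have h2 : G 1 ≠ 0 := (map_ne_zero_iff G G.injective).2 one_ne_zero
  rw [h1]
  refine ES_affine h2 (fun w' => ?_) pw w
  show (∃ D ∈ 𝒲, u a y w' ∈ D) ↔ ∃ D ∈ 𝒲, u b y (G 1 * w' + c) ∈ D
  rw [← h1, hG]

/-- the relative forms of the marked families -/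
theorem ell_forms (hn : 0 < n) (hT : IsMarkedFamily E E' f S Q 𝒲 U π u p)
    (hf : ∀ x, HolM E E' f x) (e₀ : E ≃L[ℂ] (E' × ℂ)) {π₀ : (Fin n → ℝ) ≃L[ℝ] ℂ}
    {G₀ : ℂ ≃L[ℂ] ℂ} (h₀ : IsPol Q π₀ G₀) {k pw : ℕ} (hp : n < pw) (hp3 : 3 ≤ pw)
    (hk : 2 * (n * n + 1) ≤ k) {κ₀ : Set X → ℕ} (hκ₀ : ∀ D ∈ 𝒲, pw ≤ κ₀ D) :
    ∃ Θ Ξ : X → ℂ, RelForm f S e₀ (k + pw) 𝒲 κ₀ Θ ∧ RelForm f S e₀ (k + pw) 𝒲 κ₀ Ξ ∧
      ∀ a x ζ, f x ∈ U a → TorCoord E E' f u a x ζ →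
        Θ x = psi Q π₀ (k + pw) (π a (f x)) *
          JP e₀ (dM E E' f x) (dV E ζ x) ^ (k + pw) ∧
        Ξ x = ES (mks (u a (f x)) 𝒲) pw (ζ x) * psi Q π₀ k (π a (f x)) *
          JP e₀ (dM E E' f x) (dV E ζ x) ^ (k + pw) := by
  classical
  have hA₀ : ∀ a b y, y ∈ U a → y ∈ U b → ∀ (G : ℂ ≃L[ℂ] ℂ) c,
      IsPeriodChange Q (π a y) (π b y) G → (∀ w, u b y (G w + c) = u a y w) →
      ∀ w : ℂ, (fun a y (_ : ℂ) => psi Q π₀ (k + pw) (π a y)) b y (G w + c) =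
        ((G 1)⁻¹) ^ (k + pw) * (fun a y (_ : ℂ) => psi Q π₀ (k + pw) (π a y)) a y w :=
    fun a b y _ _ G c hG _ w => psi_coef_change (k + pw) a b y G hG
  have hA₁ : ∀ a b y, y ∈ U a → y ∈ U b → ∀ (G : ℂ ≃L[ℂ] ℂ) c,
      IsPeriodChange Q (π a y) (π b y) G → (∀ w, u b y (G w + c) = u a y w) →
      ∀ w : ℂ, (fun a y w => ES (mks (u a y) 𝒲) pw w * psi Q π₀ k (π a y)) b y (G w + c) =
        ((G 1)⁻¹) ^ (k + pw) *
          (fun a y w => ES (mks (u a y) 𝒲) pw w * psi Q π₀ k (π a y)) a y w := by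
    intro a b y _ _ G c hG hu w
    simp only
    rw [eis_coef_change pw hu, psi_coef_change k a b y G hG, pow_add]
    ring
  obtain ⟨Θ, hΘ⟩ := exists_val hT.toIsTorusFamily hf e₀ (N := k + pw)
    (fun a y (_ : ℂ) => psi Q π₀ (k + pw) (π a y)) hA₀
  obtain ⟨Ξ, hΞ⟩ := exists_val hT.toIsTorusFamily hf e₀ (N := k + pw)
    (fun a y w => ES (mks (u a y) 𝒲) pw w * psi Q π₀ k (π a y)) hA₁
  refine ⟨Θ, Ξ, ?_, ?_, fun a x ζ hx hζ => ⟨hΘ a x ζ hx hζ, hΞ a x ζ hx hζ⟩⟩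
  · have h1 : RelForm f S e₀ (k + pw) 𝒲 (fun _ => 0) Θ := by
      refine ⟨hol_of_local hf e₀ ?_, ?_⟩
      · intro x hx T e _ _
        obtain ⟨a, ha⟩ := (hT.cover (f x)).1 hx
        obtain ⟨ζ, h1, h2, h3⟩ := hT.coord a x ha
        refine ⟨ζ, fun z => psi Q π₀ (k + pw) (π a (f z)), h1,
          psi_holV hn (by omega) h₀ hT.toIsPeriodFamily hf ha, ?_⟩
        filter_upwards [HolV.eventually (show HolV E ζ x from h1),
          eventually_eventually_nhds.2 h2, ker_eventually hf e₀ h1 h3,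
          (hf x).continuousAt.eventually ((hT.isOpen a).mem_nhds ha)] with z h4 h5 h6 h7 _ _
        simp only [pow_zero, Finset.prod_const_one, mul_one]
        exact hΘ a z ζ h7 ⟨h4, h5, h6⟩
      · intro r hr
        obtain ⟨C, hC0, hC⟩ := ell_slice hT.toIsTorusFamily h₀ hr
        refine ⟨(‖(G₀ : ℂ →L[ℂ] ℂ).det‖⁻¹) ^ (k + pw) * |CP Q π₀ G₀| * C ^ (k + pw),
          fun v₀ q q1 q2 q3 q4 q5 P q6 =>
          val_bound (𝒲 := 𝒲) hT.toIsTorusFamily hf e₀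
            (A := fun a y (_ : ℂ) => psi Q π₀ (k + pw) (π a y)) hA₀ hΘ hr
            (fun a y hy v₀ h hh hinj hav => ?_) q1 q2 q3 q4 q5 q6⟩
        obtain ⟨G, hG⟩ : ∃ G, IsPol Q (π a y) G := hT.polarized a y hy
        have h2 := psi_bound hn h₀ (k := k + pw) (by omega) hG
        have h3 := hC a y hy v₀ h hh hinj G hG
        calc ‖psi Q π₀ (k + pw) (π a y)‖ * ‖deriv h v₀‖ ^ (k + pw)
            ≤ (‖(G : ℂ →L[ℂ] ℂ).det‖ * ‖(G₀ : ℂ →L[ℂ] ℂ).det‖⁻¹) ^ (k + pw) *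
              |CP Q π₀ G₀| * ‖deriv h v₀‖ ^ (k + pw) := by gcongr
          _ = (‖(G₀ : ℂ →L[ℂ] ℂ).det‖⁻¹) ^ (k + pw) * |CP Q π₀ G₀| *
              (‖(G : ℂ →L[ℂ] ℂ).det‖ * ‖deriv h v₀‖) ^ (k + pw) := by
              rw [mul_pow, mul_pow]
              ring
          _ ≤ _ := by gcongr
    exact h1.mono fun D => Nat.zero_le _
  · refine ⟨hol_of_local hf e₀ ?_, ?_⟩
    · intro x hx T eD hT' heD
      obtain ⟨a, ha⟩ := (hT.cover (f x)).1 hx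
      obtain ⟨ζ, h1, h2, h3⟩ := hT.coord a x ha
      have hζ : TorCoord E E' f u a x ζ := ⟨h1, h2, h3⟩
      have hψ := psi_holV hn hk h₀ hT.toIsPeriodFamily hf ha
      have hev : ∀ᶠ z in 𝓝 x, Ξ z = ES (mks (u a (f z)) 𝒲) pw (ζ z) * psi Q π₀ k (π a (f z)) *
          JP e₀ (dM E E' f z) (dV E ζ z) ^ (k + pw) := by
        filter_upwards [HolV.eventually (show HolV E ζ x from h1),
          eventually_eventually_nhds.2 h2, ker_eventually hf e₀ h1 h3,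
          (hf x).continuousAt.eventually ((hT.isOpen a).mem_nhds ha)] with z h4 h5 h6 h7
        exact hΞ a z ζ h7 ⟨h4, h5, h6⟩
      rcases eis_local hp hT hf e₀ ha hζ with ⟨-, R, hR, hRe⟩ |
        ⟨D, hD, τ, R, hτ, -, hR, -, hRe⟩
      · refine ⟨ζ, fun z => (R z * psi Q π₀ k (π a (f z))) * ∏ D ∈ T, eD D z ^ κ₀ D, h1,
          (hR.mul hψ).mul (HolV.prod fun D hD => ((heD D hD).holAt).pow _), ?_⟩
        filter_upwards [hev, hRe] with z h4 h5 _ _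
        rw [h4, h5]
        ring
      · obtain ⟨g, hg, hge⟩ := px_factor hT' heD hτ (hκ₀ D hD)
        refine ⟨ζ, fun z => ((1 + R z * τ z ^ pw) * psi Q π₀ k (π a (f z))) * g z, h1,
          (((HolV.const (1 : ℂ) x).add (hR.mul (hτ.holAt.pow pw))).mul hψ).mul hg, ?_⟩
        filter_upwards [hev, hRe, hge, hτ.eventually] with z h4 h5 h6 h7 h8 h9
        have h10 : τ z ≠ 0 := fun h => h8 D hD (h7.mem_iff.2 h)
        rw [h4, h5, h6]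
        have h11 : ((τ z)⁻¹) ^ pw * τ z ^ pw = 1 := by
          rw [← mul_pow, inv_mul_cancel₀ h10, one_pow]
        linear_combination (psi Q π₀ k (π a (f z)) *
          JP e₀ (dM E E' f z) (dV E ζ z) ^ (k + pw) * g z) * h11
    · intro r hr
      obtain ⟨C, hC0, hC⟩ := ell_slice hT.toIsTorusFamily h₀ hr
      obtain ⟨C', hC'0, hC'⟩ := eis_slice hp hp3 hT hr
      refine ⟨C' * ((‖(G₀ : ℂ →L[ℂ] ℂ).det‖⁻¹) ^ k * |CP Q π₀ G₀| * C ^ k),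
        fun v₀ q q1 q2 q3 q4 q5 P q6 =>
        val_bound (𝒲 := 𝒲) hT.toIsTorusFamily hf e₀
          (A := fun a y w => ES (mks (u a y) 𝒲) pw w * psi Q π₀ k (π a y)) hA₁ hΞ hr
          (fun a y hy v₀ h hh hinj hav => ?_) q1 q2 q3 q4 q5 q6⟩
      obtain ⟨G, hG⟩ : ∃ G, IsPol Q (π a y) G := hT.polarized a y hy
      have h2 := psi_bound hn h₀ (k := k) hk hG
      have h3 := hC a y hy v₀ h hh hinj G hG
      have h4 := hC' a y hy v₀ h hh hinj hav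
      have h5 : ‖psi Q π₀ k (π a y)‖ * ‖deriv h v₀‖ ^ k ≤
          (‖(G₀ : ℂ →L[ℂ] ℂ).det‖⁻¹) ^ k * |CP Q π₀ G₀| * C ^ k := by
        calc ‖psi Q π₀ k (π a y)‖ * ‖deriv h v₀‖ ^ k
            ≤ (‖(G : ℂ →L[ℂ] ℂ).det‖ * ‖(G₀ : ℂ →L[ℂ] ℂ).det‖⁻¹) ^ k *
              |CP Q π₀ G₀| * ‖deriv h v₀‖ ^ k := by gcongr
          _ = (‖(G₀ : ℂ →L[ℂ] ℂ).det‖⁻¹) ^ k * |CP Q π₀ G₀| *
              (‖(G : ℂ →L[ℂ] ℂ).det‖ * ‖deriv h v₀‖) ^ k := by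
              rw [mul_pow, mul_pow]
              ring
          _ ≤ _ := by gcongr
      show ‖ES (mks (u a y) 𝒲) pw (h v₀) * psi Q π₀ k (π a y)‖ * ‖deriv h v₀‖ ^ (k + pw) ≤ _
      rw [norm_mul, pow_add]
      calc ‖ES (mks (u a y) 𝒲) pw (h v₀)‖ * ‖psi Q π₀ k (π a y)‖ *
            (‖deriv h v₀‖ ^ k * ‖deriv h v₀‖ ^ pw)
          = (‖ES (mks (u a y) 𝒲) pw (h v₀)‖ * ‖deriv h v₀‖ ^ pw) *
            (‖psi Q π₀ k (π a y)‖ * ‖deriv h v₀‖ ^ k) := by ring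
        _ ≤ _ := by gcongr

end Ell

end Vale.Agent.P281.H713
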