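import Vale.Agent.P281.H713.EisSum
import Vale.Agent.P281.ELL.Bloch

open scoped Manifold ContDiff Topology
open Set Filter Metric Module

namespace Vale.Agent.P281.H713

open Vale.Agent.P281 Vale.Agent.P281.MF Vale.Agent.P281.ISO Vale.Agent.P281.ELL

set_option linter.unusedSectionVars false

universe u

theorem det_C (A : ℂ →L[ℂ] ℂ) : A.det = A 1 := by
  have h6 : A = (A 1) • ContinuousLinearMap.id ℂ ℂ := by
    ext
    simp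
  have h7 : ((A 1) • ContinuousLinearMap.id ℂ ℂ : ℂ →L[ℂ] ℂ).det = A 1 := by
    show LinearMap.det ((A 1) • (LinearMap.id : ℂ →ₗ[ℂ] ℂ)) = _
    rw [LinearMap.det_smul]
    simp
  rw [h6, h7]
  simp

theorem clm_C (A : ℂ →L[ℂ] ℂ) (w : ℂ) : A w = A 1 * w := by
  have h1 := A.map_smul w 1
  rw [smul_eq_mul, mul_one, smul_eq_mul] at h1
  rw [h1, mul_comm]

section Psi

variable {V : Type} [NormedAddCommGroup V] [InnerProductSpace ℂ V] [FiniteDimensional ℂ V]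
variable {n : ℕ} {Q : (Fin n → ℝ) → (Fin n → ℝ) → ℝ}
variable {π₀ : (Fin n → ℝ) ≃L[ℝ] V} {G₀ : V ≃L[ℂ] V}

/-- the scalar Poincaré series -/
noncomputable def psi (Q : (Fin n → ℝ) → (Fin n → ℝ) → ℝ) (π₀ : (Fin n → ℝ) ≃L[ℝ] V) (k : ℕ)
    (P : (Fin n → ℝ) ≃L[ℝ] V) : ℂ := PP Q (fun _ => (1 : ℂ)) k π₀ P 0

theorem psi_change {P P' : (Fin n → ℝ) ≃L[ℝ] V} {G : V ≃L[ℂ] V} (hG : IsPeriodChange Q P P' G)
    (k : ℕ) : psi Q π₀ k P' = ((G : V →L[ℂ] V).det)⁻¹ ^ k * psi Q π₀ k P := by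
  obtain ⟨M, hM⟩ := IsPeriodChange.exists_mx hG
  have h1 := PP_change (π₀ := π₀) hM (fun _ => (1 : ℂ)) k 0
  rw [map_zero] at h1
  exact h1

theorem psi_bound (hn : 0 < n) (h₀ : IsPol Q π₀ G₀) {k : ℕ} (hk : 2 * (n * n + 1) ≤ k)
    {P : (Fin n → ℝ) ≃L[ℝ] V} {G : V ≃L[ℂ] V} (hG : IsPol Q P G) :
    ‖psi Q π₀ k P‖ ≤ (‖(G : V →L[ℂ] V).det‖ * ‖(G₀ : V →L[ℂ] V).det‖⁻¹) ^ k * |CP Q π₀ G₀| := by
  have hφ1 : ∀ v : V, ‖(1 : ℂ)‖ ≤ 1 * ‖v‖ ^ 0 := fun v => by simp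
  have h8 := (PP_bound hn zero_le_one hφ1 hk h₀ hG 0).2
  rw [pow_zero, mul_one, one_mul] at h8
  exact h8.trans (mul_le_mul_of_nonneg_left (le_abs_self _) (by positivity))

theorem psi_ne (hn : 0 < n) (h₀ : IsPol Q π₀ G₀) {m : ℕ} (hm : 0 < m)
    (hm1 : ∀ M ∈ unitF hn h₀, (LL π₀ π₀ (mx M)).det ^ m = 1) :
    ∀ᶠ k' in atTop, psi Q π₀ (m * k') π₀ ≠ 0 := by
  have h1 : Tendsto (fun k' => m * k') atTop atTop := tendsto_id.const_mul_atTop' hm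
  filter_upwards [h1.eventually (eventually_ge_atTop (2 * (n * n + 1))),
    ((errT_tendsto hn h₀).comp h1).eventually (gt_mem_nhds zero_lt_one)] with k' hk1 hk2
  have hφ1 : ∀ v : V, ‖(1 : ℂ)‖ ≤ 1 * ‖v‖ ^ 0 := fun v => by simp
  have h3 := PP_limit hn h₀ zero_le_one hφ1 (fun M _ v => rfl) hk1 (fun M hM => by
    rw [pow_mul, hm1 M hM, one_pow]) 0
  rw [pow_zero, mul_one, one_mul] at h3
  intro h4
  have h4' : PP Q (fun _ => (1 : ℂ)) (m * k') π₀ π₀ 0 = 0 := h4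
  rw [h4', zero_sub, norm_neg, Complex.norm_natCast] at h3
  have h5 : 1 ≤ (unitF hn h₀).card := Finset.card_pos.2 ⟨1, one_mem_unitF hn h₀⟩
  have h6 : (1 : ℝ) ≤ (unitF hn h₀).card := by exact_mod_cast h5
  have h7 : errT hn h₀ (m * k') < 1 := hk2
  linarith

end Psi

section Ell

variable {E E' : Type} [NormedAddCommGroup E] [NormedSpace ℂ E] [FiniteDimensional ℂ E]
  [NormedAddCommGroup E'] [NormedSpace ℂ E'] [FiniteDimensional ℂ E']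
variable {X Y : Type u} [TopologicalSpace X] [ChartedSpace E X] [IsManifold 𝓘(ℂ, E) ω X]
  [TopologicalSpace Y] [ChartedSpace E' Y] [IsManifold 𝓘(ℂ, E') ω Y]
variable {n d : ℕ} {Q : (Fin n → ℝ) → (Fin n → ℝ) → ℝ}
variable {f : X → Y} {S : Set Y} {ι : Type u} {U : ι → Set Y}
  {π : ι → Y → ((Fin n → ℝ) ≃L[ℝ] ℂ)} {u : ι → Y → ℂ → X} {𝒲 : Set (Set X)}
  {p : ι → Fin d → Y → ℂ}

theorem psi_holV (hn : 0 < n) {k : ℕ} (hk : 2 * (n * n + 1) ≤ k) {π₀ : (Fin n → ℝ) ≃L[ℝ] ℂ}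
    {G₀ : ℂ ≃L[ℂ] ℂ} (h₀ : IsPol Q π₀ G₀) (hP : IsPeriodFamily E' S Q U π)
    (hf : ∀ x, HolM E E' f x) {a : ι} {x : X} (hx : f x ∈ U a) :
    HolV E (fun z => psi Q π₀ k (π a (f z))) x :=
  PP_holV hn (differentiable_const _) zero_le_one (φ := fun _ => (1 : ℂ)) (N := 0)
    (fun v => by simp) (by omega) h₀ hP hf hx (HolV.const (0 : ℂ) x)

/-- the change of fibre coordinates -/
theorem tor_change (hT : IsTorusFamily E E' f S Q U π u) (hf : ∀ x, HolM E E' f x)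
    (e₀ : E ≃L[ℂ] (E' × ℂ)) {a b : ι} {x : X} (ha : f x ∈ U a) (hb : f x ∈ U b) {ζ ζ' : X → ℂ}
    (hζ : TorCoord E E' f u a x ζ) (hζ' : TorCoord E E' f u b x ζ') :
    ∃ (G : ℂ ≃L[ℂ] ℂ) (c : ℂ), IsPeriodChange Q (π a (f x)) (π b (f x)) G ∧
      (∀ w, u b (f x) (G w + c) = u a (f x) w) ∧ ζ' x = G (ζ x) + c ∧
      JP e₀ (dM E E' f x) (dV E ζ' x) = G 1 * JP e₀ (dM E E' f x) (dV E ζ x) := by
  obtain ⟨G, c, hQ, hG⟩ := hT.change a b (f x) ⟨ha, hb⟩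
  obtain ⟨h1, h2, h3⟩ := hζ
  obtain ⟨h1', h2', -⟩ := hζ'
  obtain ⟨ε, hε, hdis⟩ := lam_discrete (π b (f x))
  have hlat : ∀ᶠ z in 𝓝 x, f z = f x → ζ' z - (G (ζ z) + c) ∈ Lam (π b (f x)) := by
    filter_upwards [h2, h2'] with z hz hz' hfz
    rw [hfz] at hz hz'
    have h4 : u b (f x) (G (ζ z) + c) = u b (f x) (ζ' z) := by rw [hG, hz, hz']
    obtain ⟨m, hm⟩ := (hT.unif b (f x) hb _ _).2.1 h4
    exact ⟨m, by rw [hm]; abel⟩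
  have hx0 := hlat.self_of_nhds rfl
  have hcont : ContinuousAt (fun z => ζ' z - (G (ζ z) + c) - (ζ' x - (G (ζ x) + c))) x :=
    (h1'.continuousAt.sub
      ((G.continuous.continuousAt.comp h1.continuousAt).add continuousAt_const)).sub
      continuousAt_const
  have hsm := hcont.norm.eventually_lt_const (u := ε) (by
    show ‖ζ' x - (G (ζ x) + c) - (ζ' x - (G (ζ x) + c))‖ < ε
    rw [sub_self, norm_zero]
    exact hε)
  refine ⟨G, c + (ζ' x - (G (ζ x) + c)), change_period hT ha hb hQ hG, fun w => ?_, by ring, ?_⟩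
  · obtain ⟨m, hm⟩ := hx0
    rw [← hG w]
    refine ((hT.unif b (f x) hb _ _).2.2 ⟨m, ?_⟩).symm
    rw [hm]
    ring
  · have h5 := JP_change hf e₀ (c := c + (ζ' x - (G (ζ x) + c))) h1 h1' h3 (G := G) (by
      filter_upwards [hlat, hsm] with z hz hz' hfz
      have h5 := hdis _ (hz hfz) _ hx0 hz'
      rw [← h5]
      abel)
    rw [h5, det_C]
    rfl

/-- values given by coefficients -/
theorem exists_val (hT : IsTorusFamily E E' f S Q U π u) (hf : ∀ x, HolM E E' f x)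
    (e₀ : E ≃L[ℂ] (E' × ℂ)) {N : ℕ} (A : ι → Y → ℂ → ℂ)
    (hA : ∀ a b y, y ∈ U a → y ∈ U b → ∀ (G : ℂ ≃L[ℂ] ℂ) c,
      IsPeriodChange Q (π a y) (π b y) G → (∀ w, u b y (G w + c) = u a y w) →
      ∀ w, A b y (G w + c) = ((G 1)⁻¹) ^ N * A a y w) :
    ∃ Θ : X → ℂ, ∀ a x ζ, f x ∈ U a → TorCoord E E' f u a x ζ →
      Θ x = A a (f x) (ζ x) * JP e₀ (dM E E' f x) (dV E ζ x) ^ N := by
  classical
  have key : ∀ a b x ζ ζ', f x ∈ U a → f x ∈ U b → TorCoord E E' f u a x ζ →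
      TorCoord E E' f u b x ζ' → A b (f x) (ζ' x) * JP e₀ (dM E E' f x) (dV E ζ' x) ^ N =
        A a (f x) (ζ x) * JP e₀ (dM E E' f x) (dV E ζ x) ^ N := by
    intro a b x ζ ζ' ha hb hζ hζ'
    obtain ⟨G, c, h1, h2, h3, h4⟩ := tor_change hT hf e₀ ha hb hζ hζ'
    rw [h3, h4, hA a b (f x) ha hb G c h1 h2, mul_pow]
    have h5 : G 1 ≠ 0 := (map_ne_zero_iff G G.injective).2 one_ne_zero
    rw [inv_pow]
    field_simp
  have hex : ∀ x, ∃ v : ℂ, ∀ a, f x ∈ U a → ∀ ζ, TorCoord E E' f u a x ζ →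
      v = A a (f x) (ζ x) * JP e₀ (dM E E' f x) (dV E ζ x) ^ N := by
    intro x
    by_cases hx : ∃ a, f x ∈ U a
    · obtain ⟨a, ha⟩ := hx
      obtain ⟨ζ, h1, h2, h3⟩ := hT.coord a x ha
      exact ⟨_, fun b hb ζ' hζ' => (key a b x ζ ζ' ha hb ⟨h1, h2, h3⟩ hζ').symm⟩
    · exact ⟨0, fun a ha => absurd ⟨a, ha⟩ hx⟩
  choose Θ hΘ using hex
  exact ⟨Θ, fun a x ζ ha hζ => hΘ x a ha ζ hζ⟩

/-- bounds on slices from bounds of the coefficients -/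
theorem val_bound (hT : IsTorusFamily E E' f S Q U π u) (hf : ∀ x, HolM E E' f x)
    (e₀ : E ≃L[ℂ] (E' × ℂ)) {N : ℕ} {A : ι → Y → ℂ → ℂ}
    (hA : ∀ a b y, y ∈ U a → y ∈ U b → ∀ (G : ℂ ≃L[ℂ] ℂ) c,
      IsPeriodChange Q (π a y) (π b y) G → (∀ w, u b y (G w + c) = u a y w) →
      ∀ w, A b y (G w + c) = ((G 1)⁻¹) ^ N * A a y w) {Θ : X → ℂ}
    (hΘ : ∀ a x ζ, f x ∈ U a → TorCoord E E' f u a x ζ →
      Θ x = A a (f x) (ζ x) * JP e₀ (dM E E' f x) (dV E ζ x) ^ N) {r : ℝ} (hr : 0 < r)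
    {C : ℝ} (hC : ∀ a y, y ∈ U a → ∀ (v₀ : ℂ) (h : ℂ → ℂ), DifferentiableOn ℂ h (ball v₀ r) →
      (∀ v ∈ ball v₀ r, ∀ v' ∈ ball v₀ r, u a y (h v) = u a y (h v') → v = v') →
      (∀ v ∈ ball v₀ r, ∀ D ∈ 𝒲, u a y (h v) ∉ D) →
      ‖A a y (h v₀)‖ * ‖deriv h v₀‖ ^ N ≤ C) {v₀ : ℂ} {q : ℂ → X}
    (h1 : ∀ v ∈ ball v₀ r, ContMDiffAt 𝓘(ℂ, ℂ) 𝓘(ℂ, E) ω q v) (h2 : InjOn q (ball v₀ r))
    (h3 : ∀ v ∈ ball v₀ r, f (q v) = f (q v₀)) (h4 : f (q v₀) ∉ S)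
    (h5 : ∀ v ∈ ball v₀ r, ∀ D ∈ 𝒲, q v ∉ D) {P : E →L[ℂ] ℂ}
    (h6 : P.comp (mfderiv 𝓘(ℂ, ℂ) 𝓘(ℂ, E) q v₀ : ℂ →L[ℂ] E) = ContinuousLinearMap.id ℂ ℂ) :
    ‖Θ (q v₀)‖ ≤ C * ‖JP e₀ (dM E E' f (q v₀)) P ^ N‖ := by
  obtain ⟨a, ha⟩ := (hT.cover _).1 h4
  obtain ⟨ζ, hζ1, hζ2, hζ3⟩ := hT.coord a _ ha
  set y' := f (q v₀) with hy'
  obtain ⟨ε, hε, hdis⟩ := lam_discrete (π a y')
  obtain ⟨H, hH1, hH2, hH3⟩ := exists_lift (E := ℂ) (p := u a y') (Λ := Lam (π a y')) hε hdis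
    (fun w w' => by
      rw [(hT.unif a y' ha w w').2]
      constructor
      · rintro ⟨m, hm⟩
        exact ⟨m, by rw [hm]; abel⟩
      · rintro ⟨m, hm⟩
        exact ⟨m, by rw [← hm]; abel⟩) (B := ball v₀ r) isOpen_ball (convex_ball v₀ r) (Q := q)
    (fun v hv => by
      have hv' : f (q v) ∈ U a := by rw [h3 v hv]; exact ha
      obtain ⟨ζv, h4, h5, -⟩ := hT.coord a (q v) hv'
      have h6 := h1 v hv
      refine ⟨fun z => ζv (q z), (slice_fderiv h6 h4).1, ?_⟩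
      filter_upwards [h6.continuousAt.eventually h5, isOpen_ball.mem_nhds hv] with z h7 h8
      rwa [h3 z h8] at h7)
  have hv₀ : v₀ ∈ ball v₀ r := mem_ball_self hr
  have h7 : fderiv ℂ (fun v => ζ (q v)) v₀ = fderiv ℂ H v₀ := by
    have h6 := h1 v₀ hv₀
    refine hH3 v₀ hv₀ _ (slice_fderiv h6 hζ1).1.continuousAt ?_
    filter_upwards [h6.continuousAt.eventually hζ2, ball_mem_nhds v₀ hr] with z h7 h8
    rwa [h3 z h8] at h7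
  have h8 : A a y' (ζ (q v₀)) = A a y' (H v₀) := by
    have h9 : u a y' (H v₀) = u a y' (ζ (q v₀)) := by
      rw [hH2 v₀ hv₀]
      exact hζ2.self_of_nhds.symm
    obtain ⟨m, hm⟩ := (hT.unif a y' ha _ _).2.1 h9
    have h10 := hA a a y' ha ha (ContinuousLinearEquiv.refl ℂ ℂ) (π a y' fun i => (m i : ℝ))
      ⟨fun m => ⟨m, rfl⟩, fun m => ⟨m, rfl⟩, fun x x' => by
        show Q ((π a y').symm (π a y' x)) ((π a y').symm (π a y' x')) = Q x x'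
        rw [(π a y').symm_apply_apply, (π a y').symm_apply_apply]⟩
      (fun w => ((hT.unif a y' ha _ _).2.2 ⟨m, rfl⟩).symm) (H v₀)
    have h11 : (ContinuousLinearEquiv.refl ℂ ℂ : ℂ ≃L[ℂ] ℂ) (H v₀) = H v₀ := rfl
    have h12 : (ContinuousLinearEquiv.refl ℂ ℂ : ℂ ≃L[ℂ] ℂ) 1 = 1 := rfl
    rw [h11, h12, inv_one, one_pow, one_mul, ← hm] at h10
    exact h10
  have h9 := JP_slice hf e₀ (h1 v₀ hv₀)
    (eventually_of_mem (ball_mem_nhds v₀ hr) fun v hv => h3 v hv) hζ1 hζ3 h6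
  rw [hΘ a _ ζ ha ⟨hζ1, hζ2, hζ3⟩, h9, mul_pow, norm_mul, norm_mul, ← mul_assoc]
  refine mul_le_mul_of_nonneg_right ?_ (norm_nonneg _)
  rw [h8, h7, det_C, norm_pow]
  exact hC a y' ha v₀ H hH1 (fun v hv v' hv' h => h2 hv hv' (by
    rw [← hH2 v hv, ← hH2 v' hv', h])) (fun v hv D hD => by
    rw [hH2 v hv]
    exact h5 v hv D hD)

end Ell

end Vale.Agent.P281.H713
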