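import Vale.Agent.P281.MF.Hol

open scoped Topology ContDiff
open Set Filter Module

namespace Vale.Agent.P281.H713

set_option linter.unusedSectionVars false

section Wr

variable {V : Type*} [NormedAddCommGroup V] [NormedSpace ℂ V] [FiniteDimensional ℂ V] {g : ℕ}

/-- the Wronskian of the derivative of `b` -/
noncomputable def wr (e : Basis (Fin g) ℂ V) (b : ℂ → V) (t : ℂ) : ℂ :=
  e.det fun i : Fin g => iteratedDeriv (i + 1) b t

theorem wr_congr {e : Basis (Fin g) ℂ V} {b b' : ℂ → V} {t : ℂ} (h : b =ᶠ[𝓝 t] b') :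
    wr e b t = wr e b' t := by
  unfold wr
  congr 1
  funext i
  exact (h.iteratedDeriv _).self_of_nhds

theorem iteratedDeriv_map (G : V ≃L[ℂ] V) (n : ℕ) (b : ℂ → V) :
    iteratedDeriv n (fun t => G (b t)) = fun t => G (iteratedDeriv n b t) := by
  induction n generalizing b with
  | zero => simp
  | succ n ih =>
    rw [iteratedDeriv_succ', iteratedDeriv_succ']
    have h1 : deriv (fun t => G (b t)) = fun t => G (deriv b t) := by
      funext t
      have h2 := G.comp_fderiv (f := b) (x := t)
      rw [← fderiv_apply_one_eq_deriv, ← fderiv_apply_one_eq_deriv]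
      show fderiv ℂ (G ∘ b) t 1 = _
      rw [h2]
      rfl
    rw [h1, ih]

theorem iteratedDeriv_affine (G : V ≃L[ℂ] V) (c : V) (n : ℕ) (b : ℂ → V) (t : ℂ) :
    iteratedDeriv (n + 1) (fun t => G (b t) + c) t = G (iteratedDeriv (n + 1) b t) := by
  rw [← congrFun (iteratedDeriv_map G (n + 1) b) t, iteratedDeriv_succ', iteratedDeriv_succ']
  congr 1
  funext t
  exact deriv_add_const _

theorem wr_affine (e : Basis (Fin g) ℂ V) (G : V ≃L[ℂ] V) (c : V) (b : ℂ → V) (t : ℂ) :
    wr e (fun t => G (b t) + c) t = (G : V →L[ℂ] V).det * wr e b t := by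
  unfold wr
  have h1 : (fun i : Fin g => iteratedDeriv (i + 1) (fun t => G (b t) + c) t) =
      (G : V →ₗ[ℂ] V) ∘ fun i : Fin g => iteratedDeriv (i + 1) b t := by
    funext i
    exact iteratedDeriv_affine G c _ b t
  rw [h1, Basis.det_comp]
  rfl

theorem cd_deriv {W : Type*} [NormedAddCommGroup W] [NormedSpace ℂ W] {b : ℂ → W} {s : ℂ}
    (h : ContDiffAt ℂ ω b s) : ContDiffAt ℂ ω (deriv b) s := by
  have h1 : ContDiffAt ℂ ω (fderiv ℂ b) s := h.fderiv_right (by simp)
  have h2 : deriv b = fun z => fderiv ℂ b z 1 := by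
    funext z
    exact fderiv_apply_one_eq_deriv.symm
  rw [h2]
  exact h1.clm_apply contDiffAt_const

theorem cd_iter {W : Type*} [NormedAddCommGroup W] [NormedSpace ℂ W] {b : ℂ → W} {s : ℂ}
    (h : ContDiffAt ℂ ω b s) (j : ℕ) : ContDiffAt ℂ ω (iteratedDeriv j b) s := by
  induction j with
  | zero => simpa using h
  | succ j ih =>
    rw [iteratedDeriv_succ]
    exact cd_deriv ih

/-- the triangular form of the chain rule -/
theorem chain_tri {b : ℂ → V} {h : ℂ → ℂ} {t : ℂ} (hb : ContDiffAt ℂ ω b (h t))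
    (hh : ContDiffAt ℂ ω h t) (i : ℕ) : ∃ c : ℕ → ℂ → ℂ, (∀ j, ContDiffAt ℂ ω (c j) t) ∧
      (∀ᶠ s in 𝓝 t, c i s = deriv h s ^ (i + 1)) ∧
      ∀ᶠ s in 𝓝 t, iteratedDeriv (i + 1) (fun s => b (h s)) s =
        ∑ j ∈ Finset.range (i + 1), c j s • iteratedDeriv (j + 1) b (h s) := by
  have hn : (ω : WithTop ℕ∞) ≠ 0 := by simp
  have hht : Tendsto h (𝓝 t) (𝓝 (h t)) := hh.continuousAt
  have hbev : ∀ᶠ s in 𝓝 t, ContDiffAt ℂ ω b (h s) := hht.eventually (hb.eventually (by simp))
  have hhev : ∀ᶠ s in 𝓝 t, ContDiffAt ℂ ω h s := hh.eventually (by simp)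
  induction i with
  | zero =>
    refine ⟨fun _ => deriv h, fun j => cd_deriv hh, Eventually.of_forall fun s => by simp, ?_⟩
    filter_upwards [hbev, hhev] with s h1 h2
    simp only [zero_add, iteratedDeriv_one, Finset.range_one, Finset.sum_singleton]
    exact deriv.scomp s (h1.differentiableAt hn) (h2.differentiableAt hn)
  | succ i ih =>
    obtain ⟨c, hc, hci, hcs⟩ := ih
    set c' : ℕ → ℂ → ℂ := fun j s => (if j ≤ i then deriv (c j) s else 0) +
      (if 1 ≤ j then c (j - 1) s * deriv h s else 0) with hc'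
    refine ⟨c', fun j => ?_, ?_, ?_⟩
    · rw [hc']
      have h1 : ContDiffAt ℂ ω (fun s => if j ≤ i then deriv (c j) s else 0) t := by
        split_ifs
        · exact cd_deriv (hc j)
        · exact contDiffAt_const
      have h2 : ContDiffAt ℂ ω (fun s => if 1 ≤ j then c (j - 1) s * deriv h s else 0) t := by
        split_ifs
        · exact (hc _).mul (cd_deriv hh)
        · exact contDiffAt_const
      exact h1.add h2
    · filter_upwards [hci] with s h1
      have h2 : ¬ (i + 1 ≤ i) := by omega
      simp only [hc', h2, if_false, zero_add, if_pos (show 1 ≤ i + 1 by omega),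
        Nat.add_sub_cancel, h1]
      ring
    · have hcev : ∀ᶠ s in 𝓝 t, ∀ j ∈ Finset.range (i + 1), ContDiffAt ℂ ω (c j) s :=
        (Finset.eventually_all _).2 fun j _ => (hc j).eventually (by simp)
      filter_upwards [eventually_eventually_nhds.2 hcs, hbev, hhev, hcev] with s h1 h2 h3 h4
      rw [iteratedDeriv_succ]
      have h5 : deriv (iteratedDeriv (i + 1) fun s => b (h s)) s =
          deriv (fun s => ∑ j ∈ Finset.range (i + 1), c j s • iteratedDeriv (j + 1) b (h s)) s :=
        Filter.EventuallyEq.deriv_eq h1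
      rw [h5]
      have h6 : ∀ j ∈ Finset.range (i + 1),
          HasDerivAt (fun s => c j s • iteratedDeriv (j + 1) b (h s))
            (deriv (c j) s • iteratedDeriv (j + 1) b (h s) +
              (c j s * deriv h s) • iteratedDeriv (j + 2) b (h s)) s := by
        intro j hj
        have h7 : HasDerivAt (c j) (deriv (c j) s) s := ((h4 j hj).differentiableAt hn).hasDerivAt
        have h8 : HasDerivAt (iteratedDeriv (j + 1) b) (iteratedDeriv (j + 2) b (h s)) (h s) := by
          have := ((cd_iter h2 (j + 1)).differentiableAt hn).hasDerivAt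
          rwa [← iteratedDeriv_succ] at this
        have h9 : HasDerivAt (fun s => iteratedDeriv (j + 1) b (h s))
            (deriv h s • iteratedDeriv (j + 2) b (h s)) s :=
          h8.scomp s (h3.differentiableAt hn).hasDerivAt
        have h10 := h7.smul h9
        rw [smul_smul, add_comm ((c j s * deriv h s) • _)] at h10
        exact h10
      rw [(HasDerivAt.fun_sum h6).deriv, Finset.sum_add_distrib]
      have h7 : ∑ j ∈ Finset.range (i + 1 + 1), c' j s • iteratedDeriv (j + 1) b (h s) =
          ∑ j ∈ Finset.range (i + 1 + 1), (if j ≤ i then deriv (c j) s else 0) •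
            iteratedDeriv (j + 1) b (h s) +
          ∑ j ∈ Finset.range (i + 1 + 1), (if 1 ≤ j then c (j - 1) s * deriv h s else 0) •
            iteratedDeriv (j + 1) b (h s) := by
        rw [← Finset.sum_add_distrib]
        exact Finset.sum_congr rfl fun j _ => by rw [hc', ← add_smul]
      rw [h7]
      congr 1
      · rw [Finset.sum_range_succ (n := i + 1), if_neg (by omega), zero_smul, add_zero]
        refine Finset.sum_congr rfl fun j hj => ?_
        rw [if_pos (by have := Finset.mem_range.1 hj; omega)]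
      · rw [Finset.sum_range_succ' (n := i + 1), if_neg (by omega), zero_smul, add_zero]
        refine Finset.sum_congr rfl fun j _ => ?_
        rw [if_pos (by omega), Nat.add_sub_cancel]

/-- the weight of the Wronskian -/
def gg (g : ℕ) : ℕ := ∑ i : Fin g, ((i : ℕ) + 1)

theorem det_tri (e : Basis (Fin g) ℂ V) (v : Fin g → V) (c : Fin g → ℕ → ℂ) (w : ℕ → V)
    (hw : ∀ i : Fin g, w i = v i) :
    (e.det fun i : Fin g => ∑ j ∈ Finset.range ((i : ℕ) + 1), c i j • w j) =
      (∏ i : Fin g, c i i) * e.det v := by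
  classical
  let M : Matrix (Fin g) (Fin g) ℂ := fun i j => if j ≤ i then c i j else 0
  have h1 : (fun i : Fin g => ∑ j ∈ Finset.range ((i : ℕ) + 1), c i j • w j) =
      fun i : Fin g => ∑ j : Fin g, M i j • v j := by
    funext i
    have h2 : ∑ j ∈ Finset.range ((i : ℕ) + 1), c i j • w j =
        ∑ j ∈ Finset.range g, (if j ≤ (i : ℕ) then c i j else 0) • w j := by
      have h3 : ∀ j ∈ Finset.range g, j ∉ Finset.range ((i : ℕ) + 1) →
          (if j ≤ (i : ℕ) then c i j else 0) • w j = 0 := by
        intro j _ hj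
        rw [Finset.mem_range, not_lt] at hj
        rw [if_neg (by omega), zero_smul]
      rw [← Finset.sum_subset (Finset.range_subset_range.2 (by omega)) h3]
      refine Finset.sum_congr rfl fun j hj => ?_
      rw [if_pos (by have := Finset.mem_range.1 hj; omega)]
    rw [h2, Finset.sum_range fun j => (if j ≤ (i : ℕ) then c i j else 0) • w j]
    refine Finset.sum_congr rfl fun j _ => ?_
    rw [hw j]
    rfl
  rw [h1, Basis.det_apply, Basis.det_apply]
  have h3 : (e.toMatrix fun i : Fin g => ∑ j : Fin g, M i j • v j) =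
      e.toMatrix v * M.transpose := by
    ext i j
    rw [Matrix.mul_apply, Basis.toMatrix_apply, map_sum, Finsupp.finsetSum_apply]
    refine Finset.sum_congr rfl fun l _ => ?_
    rw [map_smul, Finsupp.smul_apply, smul_eq_mul, mul_comm]
    rfl
  rw [h3, Matrix.det_mul, Matrix.det_transpose, mul_comm]
  congr 1
  rw [Matrix.det_of_isLowerTriangular]
  · refine Finset.prod_congr rfl fun i _ => ?_
    show (if i ≤ i then c i i else 0) = _
    rw [if_pos le_rfl]
  · intro i j hij
    show (if j ≤ i then c i j else 0) = 0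
    exact if_neg (not_le.2 hij)

theorem wr_comp (e : Basis (Fin g) ℂ V) {b : ℂ → V} {h : ℂ → ℂ} {t : ℂ}
    (hb : ContDiffAt ℂ ω b (h t)) (hh : ContDiffAt ℂ ω h t) :
    wr e (fun s => b (h s)) t = deriv h t ^ gg g * wr e b (h t) := by
  choose c hc1 hc2 hc3 using chain_tri hb hh
  unfold wr
  have h1 : (fun i : Fin g => iteratedDeriv (i + 1) (fun s => b (h s)) t) =
      fun i : Fin g => ∑ j ∈ Finset.range ((i : ℕ) + 1),
        (fun (i : Fin g) (j : ℕ) => c i j t) i j • iteratedDeriv (j + 1) b (h t) := by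
    funext i
    exact (hc3 i).self_of_nhds
  rw [h1, det_tri e (fun i : Fin g => iteratedDeriv (i + 1) b (h t))
    (fun i j => c i j t) (fun j => iteratedDeriv (j + 1) b (h t)) (fun i => rfl)]
  congr 1
  rw [gg, ← Finset.prod_pow_eq_pow_sum]
  exact Finset.prod_congr rfl fun i _ => (hc2 i).self_of_nhds

end Wr

end Vale.Agent.P281.H713
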