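import Vale.Agent.P281.H713.EllBound
import Vale.Agent.P281.H713.Wron

open scoped Manifold ContDiff Topology
open Set Filter Metric Module

namespace Vale.Agent.P281.H713

open Vale.Agent.P281 Vale.Agent.P281.MF Vale.Agent.P281.ISO Vale.Agent.P281.ELL

set_option linter.unusedSectionVars false

universe u

/-- the derivative near a pole -/
theorem pole_deriv {τ R : ℂ → ℂ} {t₁ : ℂ} (hτ : ContDiffAt ℂ ω τ t₁) (hR : ContDiffAt ℂ ω R t₁)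
    (h0 : τ t₁ = 0) (h1 : deriv τ t₁ ≠ 0) {p : ℕ} (hp : 0 < p) :
    ∀ᶠ t in 𝓝[≠] t₁, τ t ≠ 0 ∧ deriv (fun s => ((τ s)⁻¹) ^ p + R s) t ≠ 0 := by
  have hn' : (ω : WithTop ℕ∞) ≠ 0 := by simp
  have hd1 : ContinuousAt (deriv τ) t₁ := (cd_deriv hτ).continuousAt
  have hd2 : ContinuousAt (deriv R) t₁ := (cd_deriv hR).continuousAt
  have h2 : ContinuousAt (fun t => -(p * deriv τ t) + τ t ^ (p + 1) * deriv R t) t₁ :=
    ((continuousAt_const.mul hd1).neg).add ((hτ.continuousAt.pow _).mul hd2)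
  have h3 : ∀ᶠ t in 𝓝 t₁, -(p * deriv τ t) + τ t ^ (p + 1) * deriv R t ≠ 0 := by
    refine h2.eventually_ne ?_
    rw [h0, zero_pow (by omega), zero_mul, add_zero, neg_ne_zero]
    exact mul_ne_zero (by exact_mod_cast hp.ne') h1
  have h4 : ∀ᶠ t in 𝓝[≠] t₁, τ t ≠ 0 := by
    have h5 := (hτ.differentiableAt hn').hasDerivAt.eventually_ne h1 (c := 0)
    exact h5
  filter_upwards [h4, eventually_nhdsWithin_of_eventually_nhds h3,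
    eventually_nhdsWithin_of_eventually_nhds (hτ.eventually (by simp)),
    eventually_nhdsWithin_of_eventually_nhds (hR.eventually (by simp))] with t h5 h6 h7 h8
  refine ⟨h5, ?_⟩
  have h9 := (h7.differentiableAt hn').hasDerivAt
  have h10 := (h8.differentiableAt hn').hasDerivAt
  have h11 : HasDerivAt (fun s => ((τ s)⁻¹) ^ p + R s)
      (p * ((τ t)⁻¹) ^ (p - 1) * (-deriv τ t / τ t ^ 2) + deriv R t) t :=
    ((h9.inv h5).pow p).add h10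
  rw [h11.deriv]
  intro h12
  apply h6
  obtain ⟨q, rfl⟩ : ∃ q, p = q + 1 := ⟨p - 1, by omega⟩
  rw [Nat.add_sub_cancel, inv_pow] at h12
  have h13 : τ t ^ (q + 1 + 1) ≠ 0 := pow_ne_zero _ h5
  have h14 : τ t ^ (q + 1 + 1) * (((q + 1 : ℕ) : ℂ) * (τ t ^ q)⁻¹ * (-deriv τ t / τ t ^ 2) +
      deriv R t) = -(((q + 1 : ℕ) : ℂ) * deriv τ t) + τ t ^ (q + 1 + 1) * deriv R t := by
    have h15 : τ t ^ q ≠ 0 := pow_ne_zero _ h5
    field_simp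
    ring
  rw [← h14, h12, mul_zero]

section Ell

variable {E E' : Type} [NormedAddCommGroup E] [NormedSpace ℂ E] [FiniteDimensional ℂ E]
  [NormedAddCommGroup E'] [NormedSpace ℂ E'] [FiniteDimensional ℂ E']
variable {X Y : Type u} [TopologicalSpace X] [ChartedSpace E X] [IsManifold 𝓘(ℂ, E) ω X]
  [TopologicalSpace Y] [ChartedSpace E' Y] [IsManifold 𝓘(ℂ, E') ω Y]
variable {n d : ℕ} {Q : (Fin n → ℝ) → (Fin n → ℝ) → ℝ}
variable {f : X → Y} {S : Set Y} {ι : Type u} {U : ι → Set Y}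
  {π : ι → Y → ((Fin n → ℝ) ≃L[ℝ] ℂ)} {u : ι → Y → ℂ → X} {𝒲 : Set (Set X)}
  {p : ι → Fin d → Y → ℂ}

theorem ell_nc (hn : 0 < n) (hd : 0 < d) (hT : IsMarkedFamily E E' f S Q 𝒲 U π u p)
    (hf : ∀ x, HolM E E' f x) (e₀ : E ≃L[ℂ] (E' × ℂ)) {a₀ : ι} {y : Y} (ha₀ : y ∈ U a₀)
    {G₀ : ℂ ≃L[ℂ] ℂ} (h₀ : IsPol Q (π a₀ y) G₀) {k pw : ℕ} (hp : n < pw)
    (hk : 2 * (n * n + 1) ≤ k) (hψ₀ : psi Q (π a₀ y) (k + pw) (π a₀ y) ≠ 0)
    (hψ₁ : psi Q (π a₀ y) k (π a₀ y) ≠ 0) {Θ Ξ : X → ℂ}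
    (hΘΞ : ∀ a x ζ, f x ∈ U a → TorCoord E E' f u a x ζ →
        Θ x = psi Q (π a₀ y) (k + pw) (π a (f x)) *
          JP e₀ (dM E E' f x) (dV E ζ x) ^ (k + pw) ∧
        Ξ x = ES (mks (u a (f x)) 𝒲) pw (ζ x) * psi Q (π a₀ y) k (π a (f x)) *
          JP e₀ (dM E E' f x) (dV E ζ x) ^ (k + pw)) :
    ∃ x, f x = y ∧ (∀ᶠ z in 𝓝 x, Θ z ≠ 0) ∧ HolV E (fun z => Ξ z / Θ z) x ∧
        ∃ ξ, dM E E' f x ξ = 0 ∧ dif E (fun z => Ξ z / Θ z) x ξ ≠ 0 := by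
  classical
  -- the marked point
  set w₁ : ℂ := p a₀ ⟨0, hd⟩ y with hw₁
  set x₁ : X := u a₀ y w₁ with hx₁
  have hfx₁ : f x₁ = y := (hT.unif a₀ y ha₀ w₁ w₁).1
  have hx₁U : f x₁ ∈ U a₀ := by rw [hfx₁]; exact ha₀
  obtain ⟨ζ, hζ1, hζ2, hζ3⟩ := hT.coord a₀ x₁ hx₁U
  have hζ : TorCoord E E' f u a₀ x₁ ζ := ⟨hζ1, hζ2, hζ3⟩
  have hmark : ∃ D ∈ 𝒲, x₁ ∈ D := by
    obtain ⟨D, hD, hev⟩ := hT.near a₀ ⟨0, hd⟩ x₁ hx₁U (by rw [hfx₁])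
    refine ⟨D, hD, hev.self_of_nhds.2 (by rw [hfx₁])⟩
  obtain ⟨τ, R, hτh, hτ0, hRh, hτd, hEv⟩ : ∃ τ R : X → ℂ, HolV E τ x₁ ∧ τ x₁ = 0 ∧
      HolV E R x₁ ∧ (∀ ξ, dM E E' f x₁ ξ = 0 → dif E τ x₁ ξ = dV E ζ x₁ ξ) ∧
      ∀ᶠ z in 𝓝 x₁, ES (mks (u a₀ (f z)) 𝒲) pw (ζ z) = ((τ z)⁻¹) ^ pw + R z := by
    rcases eis_local hp hT hf e₀ hx₁U hζ with ⟨h1, -⟩ | ⟨D, hD, τ, R, hτ, hτ0, hR, hd, hRe⟩
    · obtain ⟨D, hD, hxD⟩ := hmark
      exact absurd hxD (h1 D hD)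
    · exact ⟨τ, R, hτ.holAt, hτ0, hR, hd, hRe⟩
  -- the slice
  obtain ⟨q, hq, hq0, hqe⟩ := exists_slice hf e₀ hζ1 hζ3
  set t₁ := ζ x₁ with ht₁
  have hqt : Tendsto q (𝓝 t₁) (𝓝 x₁) := by
    have := hq.continuousAt.tendsto
    rwa [hq0] at this
  have hτq : ContDiffAt ℂ ω (fun t => τ (q t)) t₁ := by
    have h1 : HolV E τ (q t₁) := by rw [hq0]; exact hτh
    exact (slice_fderiv hq h1).1
  have hRq : ContDiffAt ℂ ω (fun t => R (q t)) t₁ := by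
    have h1 : HolV E R (q t₁) := by rw [hq0]; exact hRh
    exact (slice_fderiv hq h1).1
  have hfq : ∀ᶠ z in 𝓝 t₁, f (q z) = f (q t₁) := by
    rw [hq0]
    exact hqe.mono fun z hz => hz.1
  have hdτ : deriv (fun t => τ (q t)) t₁ ≠ 0 := by
    have h1 : HolV E τ (q t₁) := by rw [hq0]; exact hτh
    have h2 := (slice_fderiv hq h1).2
    have h3 : HolV E ζ (q t₁) := by rw [hq0]; exact hζ1
    have h4 := (slice_fderiv hq h3).2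
    rw [hq0] at h2 h4
    set t : ℂ →L[ℂ] E := mfderiv 𝓘(ℂ, ℂ) 𝓘(ℂ, E) q t₁ with ht
    have hAt : dM E E' f x₁ (t 1) = 0 := by
      have := slice_ker hf hq hfq (1 : ℂ)
      rwa [hq0] at this
    have h5 : deriv (fun t => τ (q t)) t₁ = dif E τ x₁ (t 1) := by
      rw [← fderiv_apply_one_eq_deriv, h2]
      rfl
    have h6 : deriv (fun t => ζ (q t)) t₁ = dV E ζ x₁ (t 1) := by
      rw [← fderiv_apply_one_eq_deriv, h4]
      rfl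
    have h7 : deriv (fun t => ζ (q t)) t₁ = 1 := by
      have h8 : (fun t => ζ (q t)) =ᶠ[𝓝 t₁] fun t => t := hqe.mono fun z hz => hz.2
      rw [h8.deriv_eq]
      exact deriv_id t₁
    rw [h5, hτd _ hAt, ← h6, h7]
    exact one_ne_zero
  have hτq0 : τ (q t₁) = 0 := by rw [hq0]; exact hτ0
  have hpd := pole_deriv hτq hRq hτq0 hdτ (p := pw) (by omega)
  -- the good points near `x₁`
  have hgood : ∀ᶠ z in 𝓝 x₁, f z ∈ U a₀ ∧ TorCoord E E' f u a₀ z ζ ∧ HolV E τ z ∧ HolV E R z ∧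
      (∀ᶠ z' in 𝓝 z, ES (mks (u a₀ (f z')) 𝒲) pw (ζ z') = ((τ z')⁻¹) ^ pw + R z') := by
    filter_upwards [(hf x₁).continuousAt.eventually ((hT.isOpen a₀).mem_nhds hx₁U),
      HolV.eventually (show HolV E ζ x₁ from hζ1), eventually_eventually_nhds.2 hζ2,
      ker_eventually hf e₀ hζ1 hζ3, hτh.eventually, hRh.eventually,
      eventually_eventually_nhds.2 hEv] with z h1 h2 h3 h4 h5 h6 h7
      using ⟨h1, ⟨h2, h3, h4⟩, h5, h6, h7⟩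
  have hall : ∀ᶠ t in 𝓝[≠] t₁, (τ (q t) ≠ 0 ∧
      deriv (fun s => ((τ (q s))⁻¹) ^ pw + R (q s)) t ≠ 0) ∧
      (f (q t) ∈ U a₀ ∧ TorCoord E E' f u a₀ (q t) ζ ∧ HolV E τ (q t) ∧ HolV E R (q t) ∧
      (∀ᶠ z' in 𝓝 (q t), ES (mks (u a₀ (f z')) 𝒲) pw (ζ z') = ((τ z')⁻¹) ^ pw + R z')) ∧
      (∀ᶠ s in 𝓝 t, f (q s) = f x₁ ∧ ζ (q s) = s) ∧ ContMDiffAt 𝓘(ℂ, ℂ) 𝓘(ℂ, E) ω q t := by
    filter_upwards [hpd, eventually_nhdsWithin_of_eventually_nhds (hqt.eventually hgood),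
      eventually_nhdsWithin_of_eventually_nhds (eventually_eventually_nhds.2 hqe),
      eventually_nhdsWithin_of_eventually_nhds
        ((contMDiffAt_iff_contMDiffAt_nhds (by simp)).1 hq)] with t h1 h2 h3 h4
      using ⟨h1, h2, h3, h4⟩
  obtain ⟨t, ⟨ht1, ht2⟩, ⟨g1, g2, g3, g4, g5⟩, ht3, ht4⟩ := hall.exists
  have hfqt : f (q t) = y := by rw [ht3.self_of_nhds.1, hfx₁]
  have hψ₀h := psi_holV hn (k := k + pw) (by omega) h₀ hT.toIsPeriodFamily hf g1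
  have hψ₁h := psi_holV hn (k := k) hk h₀ hT.toIsPeriodFamily hf g1
  have hψne : psi Q (π a₀ y) (k + pw) (π a₀ (f (q t))) ≠ 0 := by rw [hfqt]; exact hψ₀
  obtain ⟨k1, k2, k3⟩ := g2
  have hev : ∀ᶠ z in 𝓝 (q t), Θ z ≠ 0 ∧ Ξ z / Θ z = (((τ z)⁻¹) ^ pw + R z) *
      (psi Q (π a₀ y) k (π a₀ (f z)) / psi Q (π a₀ y) (k + pw) (π a₀ (f z))) := by
    filter_upwards [g5, (hf (q t)).continuousAt.eventually ((hT.isOpen a₀).mem_nhds g1),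
      k1.eventually, eventually_eventually_nhds.2 k2, ker_eventually hf e₀ k1 k3,
      hψ₀h.continuousAt.eventually_ne hψne] with z h1 h2 h3 h4 h5 h6
    obtain ⟨h7, h8⟩ := hΘΞ a₀ z ζ h2 ⟨h3, h4, h5⟩
    have h9 := pow_ne_zero (k + pw) (JP_ne_zero e₀ h5)
    rw [h7, h8, h1]
    refine ⟨mul_ne_zero h6 h9, ?_⟩
    field_simp
  have hRatio : HolV E (fun z => Ξ z / Θ z) (q t) := by
    refine HolV.congr ?_ (hev.mono fun z hz => hz.2)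
    have h1 : HolV E (fun z => (τ z)⁻¹) (q t) := by
      have h2 := (HolV.const (1 : ℂ) (q t)).div g3 ht1
      simpa only [one_div] using h2
    exact ((h1.pow pw).add g4).mul (hψ₁h.div hψ₀h hψne)
  refine ⟨q t, hfqt, hev.mono fun z hz => hz.1, hRatio,
    (mfderiv 𝓘(ℂ, ℂ) 𝓘(ℂ, E) q t : ℂ →L[ℂ] E) (1 : ℂ),
    slice_ker hf ht4 (by
      rw [ht3.self_of_nhds.1]
      exact ht3.mono fun s hs => hs.1) (1 : ℂ), ?_⟩
  have h1 := (slice_fderiv ht4 hRatio).2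
  have h2 : dif E (fun z => Ξ z / Θ z) (q t)
      ((mfderiv 𝓘(ℂ, ℂ) 𝓘(ℂ, E) q t : ℂ →L[ℂ] E) (1 : ℂ)) =
      deriv (fun s => Ξ (q s) / Θ (q s)) t := by
    rw [← fderiv_apply_one_eq_deriv, h1]
    rfl
  rw [h2]
  set c : ℂ := psi Q (π a₀ y) k (π a₀ y) / psi Q (π a₀ y) (k + pw) (π a₀ y) with hc
  have hc0 : c ≠ 0 := div_ne_zero hψ₁ hψ₀
  have h3 : (fun s => Ξ (q s) / Θ (q s)) =ᶠ[𝓝 t] fun s => (((τ (q s))⁻¹) ^ pw + R (q s)) * c := by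
    filter_upwards [ht4.continuousAt.eventually hev, ht3] with s hs hs2
    rw [hs.2, hs2.1, hfx₁]
  rw [h3.deriv_eq]
  have hn' : (ω : WithTop ℕ∞) ≠ 0 := by simp
  have h4 : DifferentiableAt ℂ (fun s => ((τ (q s))⁻¹) ^ pw + R (q s)) t := by
    have h5 := ((slice_fderiv ht4 g3).1.differentiableAt hn')
    have h6 := ((slice_fderiv ht4 g4).1.differentiableAt hn')
    exact ((h5.inv ht1).pow pw).add h6
  rw [deriv_mul_const h4]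
  exact mul_ne_zero ht2 hc0

/-- the forms above a point -/
theorem hasForms_ell (hd : 0 < d) (hT : IsMarkedFamily E E' f S Q 𝒲 U π u p)
    (h𝒲f : 𝒲.Finite) (h𝒲p : ∀ D ∈ 𝒲, IsPrimeDivisor E D)
    (hf : ∀ x, HolM E E' f x) (e₀ : E ≃L[ℂ] (E' × ℂ)) {Δ : Set X → ℝ} (hΔ : ∀ D, 0 ≤ Δ D)
    {δ : ℝ} (hδ : 0 < δ) (hδ' : ∀ D ∈ 𝒲, δ ≤ Δ D) {y : Y} (hy : y ∉ S) :
    HasForms f S e₀ Δ 1 y := by
  classical
  obtain ⟨a₀, ha₀⟩ := (hT.cover y).1 hy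
  have hn : 0 < n := by
    rcases Nat.eq_zero_or_pos n with h | h
    · exfalso
      subst h
      have h1 : Subsingleton ℂ := (π a₀ y).symm.injective.subsingleton
      exact zero_ne_one (h1.elim (0 : ℂ) 1)
    · exact h
  obtain ⟨G₀, h₀⟩ : ∃ G₀, IsPol Q (π a₀ y) G₀ := hT.polarized a₀ y ha₀
  obtain ⟨m, hm, hm1⟩ := exists_exponent hn h₀
  set pw : ℕ := m * (n + 3) with hpw
  have hpw1 : n + 3 ≤ pw := Nat.le_mul_of_pos_left _ hm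
  have hlim : Tendsto (fun k' => m * k') atTop atTop := tendsto_id.const_mul_atTop' hm
  have hsh : Tendsto (fun k' => k' + (n + 3)) atTop atTop := tendsto_add_atTop_nat _
  have hδk : ∀ᶠ k' : ℕ in atTop, (pw : ℝ) ≤ ((m * k' : ℕ) : ℝ) * δ := by
    have h1 : Tendsto (fun k' : ℕ => ((m * k' : ℕ) : ℝ) * δ) atTop atTop :=
      (tendsto_natCast_atTop_atTop.comp hlim).atTop_mul_const hδ
    exact h1.eventually (eventually_ge_atTop _)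
  obtain ⟨k', hk1, hk2, hk3, hk4⟩ := ((psi_ne hn h₀ hm hm1).and
    ((hsh.eventually (psi_ne hn h₀ hm hm1)).and
    ((hlim.eventually (eventually_ge_atTop (2 * (n * n + 1)))).and hδk))).exists
  set k : ℕ := m * k' with hk
  have hkpw : m * (k' + (n + 3)) = k + pw := by rw [hk, hpw]; ring
  rw [hkpw] at hk2
  set κ₀ : Set X → ℕ := fun D => if D ∈ 𝒲 then pw else 0 with hκ₀
  obtain ⟨Θ, Ξ, hΘ, hΞ, hΘΞ⟩ := ell_forms hn hT hf e₀ h₀ (k := k) (pw := pw) (by omega)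
    (by omega) hk3 (κ₀ := κ₀) (fun D hD => by rw [hκ₀]; simp only [if_pos hD]; exact le_refl _)
  obtain ⟨x, hx, h1, h2, ξ, hξ, h3⟩ := ell_nc hn hd hT hf e₀ ha₀ h₀ (k := k) (pw := pw)
    (by omega) hk3 hk2 hk1 hΘΞ
  refine ⟨k + pw, 𝒲, κ₀, Θ, fun _ => Ξ, by omega, h𝒲f, h𝒲p, hΘ, fun _ => hΞ, ?_, x, hx, h1,
    fun _ => h2, ?_⟩
  · intro D
    by_cases hD : D ∈ 𝒲
    · have h4 : κ₀ D = pw := by rw [hκ₀]; exact if_pos hD
      rw [h4]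
      refine hk4.trans ?_
      have h5 := hδ' D hD
      have h6 : ((m * k' : ℕ) : ℝ) ≤ ((k + pw : ℕ) : ℝ) := by
        exact_mod_cast (by omega : m * k' ≤ k + pw)
      gcongr
    · have h4 : κ₀ D = 0 := by rw [hκ₀]; exact if_neg hD
      rw [h4, Nat.cast_zero]
      have := hΔ D
      positivity
  · intro c hc b
    have h4 := hc ξ hξ
    rw [Fin.sum_univ_one] at h4
    have h5 : b = 0 := Subsingleton.elim _ _
    rw [h5]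
    exact (mul_eq_zero.1 h4).resolve_right h3

end Ell

end Vale.Agent.P281.H713
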