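import Vale.Agent.P281.H713.Wrap
import Vale.Agent.P281.MF.FibreZero
import Vale.Agent.P281.ELL.CovForms
import Vale.Agent.P281.ELL.CovLocal

open scoped Manifold ContDiff Topology
open Set Filter Metric Module

namespace Vale.Agent.P281.H713

open Vale.Agent.P281 Vale.Agent.P281.MF Vale.Agent.P281.ISO Vale.Agent.P281.ELL

set_option linter.unusedSectionVars false

universe u

section

variable {E₀ : Type} [NormedAddCommGroup E₀] [NormedSpace ℂ E₀] [FiniteDimensional ℂ E₀]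
variable {F : Type u} [TopologicalSpace F] [ChartedSpace E₀ F] [IsManifold 𝓘(ℂ, E₀) ω F]

/-- functions which extend holomorphically across a discrete set are constant on a compact
connected manifold -/
theorem const_of_local [CompactSpace F] [PreconnectedSpace F] {T : F → ℂ} {bad : Set F}
    (hloc : ∀ p, ∃ G : F → ℂ, HolV E₀ G p ∧ ∀ᶠ q in 𝓝 p, q ∉ bad → T q = G q)
    (hbad : ∀ p, ∀ᶠ q in 𝓝 p, q ≠ p → q ∉ bad) : ∃ c, ∀ q, q ∉ bad → T q = c := by
  classical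
  choose G hG hGe using hloc
  have hval : ∀ q, q ∉ bad → T q = G q q := fun q hq => (hGe q).self_of_nhds hq
  have hH : ∀ p, HolV E₀ (fun q => G q q) p := by
    intro p
    refine (hG p).congr ?_
    filter_upwards [hGe p, hbad p] with q h1 h2
    by_cases hqp : q = p
    · rw [hqp]
    · have h3 := h2 hqp
      rw [← hval q h3, h1 h3]
  rcases isEmpty_or_nonempty F with hF | ⟨⟨q₀⟩⟩
  · exact ⟨0, fun q => (hF.false q).elim⟩
  · refine ⟨G q₀ q₀, fun q hq => ?_⟩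
    have h1 : MDifferentiable 𝓘(ℂ, E₀) 𝓘(ℂ, ℂ) (fun q => G q q) := fun x => (hH x).mdiff
    rw [hval q hq]
    exact h1.apply_eq_of_compactSpace q q₀

/-- constant ratios -/
theorem kod_zero_aux {j : ℕ} {s : Fin (j + 1) → F → ℂ} {z : F}
    (hli : LinearIndependent ℂ (fun b : Fin j => dif E₀ (fun w => s b.succ w / s 0 w) z))
    (hc : ∀ b, ∃ c, ∀ᶠ w in 𝓝 z, s b w / s 0 w = c) : j = 0 := by
  by_contra hj
  obtain ⟨c, hc⟩ := hc (⟨0, Nat.pos_of_ne_zero hj⟩ : Fin j).succ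
  apply hli.ne_zero ⟨0, Nat.pos_of_ne_zero hj⟩
  have h1 : (fun w => s (⟨0, Nat.pos_of_ne_zero hj⟩ : Fin j).succ w / s 0 w) =ᶠ[𝓝 z]
      fun _ => c := hc
  show mfderiv 𝓘(ℂ, E₀) 𝓘(ℂ, ℂ) _ z = 0
  rw [h1.mfderiv_eq]
  exact mfderiv_const

/-- the chart differential in dimension one -/
theorem dchart_one (hE₀ : finrank ℂ E₀ = 1) (e₁ : E₀) (p q : F) :
    dV E₀ (chartAt E₀ p : F → E₀) q e₁ = jac E₀ (chartAt E₀ p) q • e₁ := by
  set A : E₀ →L[ℂ] E₀ := dV E₀ (chartAt E₀ p : F → E₀) q with hA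
  have h1 : jac E₀ (chartAt E₀ p) q = LinearMap.det (A : E₀ →ₗ[ℂ] E₀) := rfl
  rw [h1]
  by_cases he : e₁ = 0
  · rw [he, map_zero, smul_zero]
  · obtain ⟨c, hc⟩ : ∃ c : ℂ, A e₁ = c • e₁ := by
      have h2 := (finrank_eq_one_iff_of_nonzero' e₁ he).1 hE₀ (A e₁)
      obtain ⟨c, hc⟩ := h2
      exact ⟨c, hc.symm⟩
    have h3 : (A : E₀ →ₗ[ℂ] E₀) = c • LinearMap.id := by
      refine LinearMap.ext fun w => ?_
      obtain ⟨t, ht⟩ := (finrank_eq_one_iff_of_nonzero' e₁ he).1 hE₀ w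
      rw [← ht, map_smul]
      show t • A e₁ = _
      rw [hc, LinearMap.smul_apply, LinearMap.id_apply, smul_comm]
    rw [h3, LinearMap.det_smul, LinearMap.det_id, hE₀, pow_one, mul_one]
    exact hc

/-- the differential on a curve -/
theorem cur_dif (hE₀ : finrank ℂ E₀ = 1) (e₁ : E₀) {p : F} {g : F → ℂ} (hg : HolV E₀ g p) :
    ∃ h : F → ℂ, HolV E₀ h p ∧
      ∀ᶠ q in 𝓝 p, dif E₀ g q e₁ = h q * jac E₀ (chartAt E₀ p) q := by
  set φ := chartAt E₀ p with hφ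
  have hps : p ∈ φ.source := mem_chart_source E₀ p
  refine ⟨fun q => fderiv ℂ (g ∘ φ.symm) (φ q) e₁, ?_, ?_⟩
  · refine HolV.of_rep hps ?_
    have h1 : ContDiffAt ℂ ω (fderiv ℂ (g ∘ φ.symm)) (φ p) :=
      (hg.rep hps).fderiv_right (by simp)
    have h2 : ContDiffAt ℂ ω (fun w => fderiv ℂ (g ∘ φ.symm) w e₁) (φ p) :=
      h1.clm_apply contDiffAt_const
    refine h2.congr_of_eventuallyEq ?_
    filter_upwards [φ.open_target.mem_nhds (φ.map_source hps)] with w hw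
    have h5 : φ ((chartAt E₀ p).symm w) = w := φ.right_inv hw
    simp only [Function.comp_apply]
    rw [h5]
  · filter_upwards [φ.open_source.mem_nhds hps, hg.eventually] with q h1 h2
    have h5 : dV E₀ g q =
        (fderiv ℂ (g ∘ φ.symm) (φ q)).comp (dV E₀ (φ : F → E₀) q) :=
      dV_eq_chart h1 h2
    show dV E₀ g q e₁ = _
    rw [h5, ContinuousLinearMap.comp_apply, dchart_one hE₀ e₁ p q, map_smul, smul_eq_mul,
      mul_comm]

/-- simple zeroes are isolated -/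
theorem cur_isol (hE₀ : finrank ℂ E₀ = 1) {e₁ : E₀} {p : F} {g : F → ℂ} (hg : HolV E₀ g p)
    (h0 : g p = 0) (hd : dif E₀ g p e₁ ≠ 0) : ∀ᶠ q in 𝓝 p, q ≠ p → g q ≠ 0 := by
  set φ := chartAt E₀ p with hφ
  have hps : p ∈ φ.source := mem_chart_source E₀ p
  have he : e₁ ≠ 0 := by
    rintro rfl
    exact hd (map_zero _)
  have hder : HasFDerivAt (g ∘ φ.symm) (fderiv ℂ (g ∘ φ.symm) (φ p)) (φ p) :=
    ((hg.rep hps).differentiableAt (by simp)).hasFDerivAt
  have hd' : fderiv ℂ (g ∘ φ.symm) (φ p) e₁ ≠ 0 := by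
    intro h1
    apply hd
    show dV E₀ g p e₁ = 0
    rw [dV_eq_chart hps hg, ContinuousLinearMap.comp_apply, dchart_one hE₀ e₁ p p, map_smul]
    show _ • fderiv ℂ (g ∘ φ.symm) (φ p) e₁ = 0
    rw [h1, smul_zero]
  have h1 := hder.eventually_ne (c := g p)
    ⟨‖e₁‖₊ / ‖fderiv ℂ (g ∘ φ.symm) (φ p) e₁‖₊, AddMonoidHomClass.antilipschitz_of_bound _
      fun w => by
        obtain ⟨t, rfl⟩ := (finrank_eq_one_iff_of_nonzero' e₁ he).1 hE₀ w
        rw [map_smul, norm_smul, norm_smul]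
        push_cast
        rw [div_mul_eq_mul_div, le_div_iff₀ (norm_pos_iff.2 hd')]
        exact le_of_eq (by ring)⟩
  have h2 : ∀ᶠ w in 𝓝 (φ p), w ≠ φ p → (g ∘ φ.symm) w ≠ g p := eventually_nhdsWithin_iff.1 h1
  have h3 : Tendsto φ (𝓝 p) (𝓝 (φ p)) := φ.continuousAt hps
  filter_upwards [h3.eventually h2, φ.open_source.mem_nhds hps] with q h4 h5 h6
  have h7 := h4 (fun h8 => h6 (φ.injOn h5 hps h8))
  rw [Function.comp_apply, φ.left_inv h5, h0] at h7
  exact h7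

/-- points of a curve are not isolated -/
theorem cur_nebot (hE₀ : finrank ℂ E₀ = 1) (p : F) {P : F → Prop} (h : ∀ᶠ q in 𝓝 p, P q) :
    ∃ q, q ≠ p ∧ P q := by
  set φ := chartAt E₀ p with hφ
  have hps : p ∈ φ.source := mem_chart_source E₀ p
  have : Nontrivial E₀ := Module.nontrivial_of_finrank_pos (R := ℂ) (by omega)
  have hpt : φ p ∈ φ.target := φ.map_source hps
  have h1 : Tendsto φ.symm (𝓝 (φ p)) (𝓝 p) := by
    have := φ.continuousAt_symm hpt
    rwa [ContinuousAt, φ.left_inv hps] at this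
  have h2 : ∀ᶠ w in 𝓝[≠] (φ p), P (φ.symm w) ∧ w ∈ φ.target :=
    eventually_nhdsWithin_of_eventually_nhds ((h1.eventually h).and
      (φ.open_target.mem_nhds hpt))
  have h3 : (𝓝[≠] (φ p)).NeBot := Module.punctured_nhds_neBot ℂ E₀ (φ p)
  have h4 : ∀ᶠ w in 𝓝[≠] (φ p), w ≠ φ p := eventually_mem_nhdsWithin
  obtain ⟨w, ⟨h5, h6⟩, h7⟩ := (h2.and h4).exists
  refine ⟨φ.symm w, fun h8 => h7 ?_, h5⟩
  rw [← h8, φ.right_inv h6]

/-- two homogeneous lifts of a map to the projective line -/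
theorem fw {M M' : F → ℂ × ℂ} {q : F} (h1 : HolV E₀ (fun z => (M z).1) q)
    (h2 : HolV E₀ (fun z => (M z).2) q) (h1' : HolV E₀ (fun z => (M' z).1) q)
    (h2' : HolV E₀ (fun z => (M' z).2) q) (h0 : M q ≠ 0)
    (he : ∀ᶠ w in 𝓝 q, J.wedge (M w) (M' w) = 0) (ξ : E₀) :
    ∃ κ : ℂ, M' q = κ • M q ∧ WL E₀ M' q ξ = κ ^ 2 * WL E₀ M q ξ := by
  have key : ∀ (A A' : F → ℂ × ℂ), HolV E₀ (fun z => (A z).1) q → HolV E₀ (fun z => (A z).2) q →
      HolV E₀ (fun z => (A' z).1) q → (A q).1 ≠ 0 →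
      (∀ᶠ w in 𝓝 q, J.wedge (A w) (A' w) = 0) →
      ∃ κ : ℂ, A' q = κ • A q ∧ WL E₀ A' q ξ = κ ^ 2 * WL E₀ A q ξ := by
    intro A A' a1 a2 a1' a0 ae
    have hμ : HolV E₀ (fun w => (A' w).1 / (A w).1) q := a1'.div a1 a0
    have hne : ∀ᶠ w in 𝓝 q, (A w).1 ≠ 0 := a1.continuousAt.eventually_ne a0
    have e1 : (fun w => (A' w).1) =ᶠ[𝓝 q] fun w => (A' w).1 / (A w).1 * (A w).1 := by
      filter_upwards [hne] with w hw
      field_simp
    have e2 : (fun w => (A' w).2) =ᶠ[𝓝 q] fun w => (A' w).1 / (A w).1 * (A w).2 := by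
      filter_upwards [hne, ae] with w hw hw2
      unfold J.wedge at hw2
      field_simp
      linear_combination hw2
    have d1 : dif E₀ (fun w => (A' w).1) q ξ = (A' q).1 / (A q).1 * dif E₀ (fun w => (A w).1) q ξ +
        dif E₀ (fun w => (A' w).1 / (A w).1) q ξ * (A q).1 := by
      rw [← dif_mulC hμ a1]
      unfold dif
      rw [e1.mfderiv_eq]
    have d2 : dif E₀ (fun w => (A' w).2) q ξ = (A' q).1 / (A q).1 * dif E₀ (fun w => (A w).2) q ξ +
        dif E₀ (fun w => (A' w).1 / (A w).1) q ξ * (A q).2 := by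
      rw [← dif_mulC hμ a2]
      unfold dif
      rw [e2.mfderiv_eq]
    have v1 : (A' q).1 = (A' q).1 / (A q).1 * (A q).1 := e1.self_of_nhds
    have v2 : (A' q).2 = (A' q).1 / (A q).1 * (A q).2 := e2.self_of_nhds
    refine ⟨(A' q).1 / (A q).1, Prod.ext v1 v2, ?_⟩
    rw [WL_apply, WL_apply, d1, d2, v2]
    have v3 : (A' q).1 / (A q).1 * (A q).1 = (A' q).1 := v1.symm
    set κ := (A' q).1 / (A q).1
    rw [← v3]
    ring
  by_cases h3 : (M q).1 = 0
  · have h4 : (M q).2 ≠ 0 := fun h4 => h0 (Prod.ext h3 h4)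
    obtain ⟨κ, hκ1, hκ2⟩ := key (fun w => ((M w).2, (M w).1)) (fun w => ((M' w).2, (M' w).1))
      h2 h1 h2' h4 (he.mono fun w hw => by
        unfold J.wedge at hw ⊢
        simp only
        linear_combination -hw)
    refine ⟨κ, ?_, ?_⟩
    · have h5 := congrArg Prod.fst hκ1
      have h6 := congrArg Prod.snd hκ1
      exact Prod.ext h6 h5
    · rw [WL_apply, WL_apply] at hκ2 ⊢
      simp only at hκ2
      linear_combination -hκ2
  · exact key M M' h1 h2 h1' h3 he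

variable {E : Type} [NormedAddCommGroup E] [NormedSpace ℂ E] [FiniteDimensional ℂ E]
variable {X : Type u} [TopologicalSpace X] [ChartedSpace E X] [IsManifold 𝓘(ℂ, E) ω X]

theorem dif_fib {i : F → X} (hi : ∀ p, HolM E₀ E i p) {p : F} {g : X → ℂ} (hg : HolV E g (i p))
    (ξ : E₀) : dif E₀ (fun q => g (i q)) p ξ = dif E g (i p) (dM E₀ E i p ξ) := by
  have h4 : dV E₀ (fun q => g (i q)) p = (dV E g (i p)).comp (dM E₀ E i p) :=
    dV_comp (h := g) hg (hi p)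
  show dV E₀ (fun q => g (i q)) p ξ = _
  rw [h4]
  rfl

/-- the differential along a curve -/
theorem fib_dif (hE₀ : finrank ℂ E₀ = 1) (e₁ : E₀) {i : F → X} (hi : ∀ p, HolM E₀ E i p) {p : F}
    {g : X → ℂ} (hg : HolV E g (i p)) : ∃ h : F → ℂ, HolV E₀ h p ∧
      ∀ᶠ q in 𝓝 p, dif E g (i q) (dM E₀ E i q e₁) = h q * jac E₀ (chartAt E₀ p) q := by
  have hgi : HolV E₀ (fun q => g (i q)) p := HolV.comp (h := g) hg (hi p)
  obtain ⟨h, hh, hhe⟩ := cur_dif hE₀ e₁ hgi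
  refine ⟨h, hh, ?_⟩
  filter_upwards [hhe, (hi p).continuousAt.eventually hg.eventually] with q h1 h2
  rw [← dif_fib hi h2, h1]

end

end Vale.Agent.P281.H713
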