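import Vale.Agent.P281.H713.FibA
import Vale.Agent.P281.H713.EllForms

open scoped Manifold ContDiff Topology
open Set Filter Metric Module

namespace Vale.Agent.P281.H713

open Vale.Agent.P281 Vale.Agent.P281.MF Vale.Agent.P281.ISO Vale.Agent.P281.ELL

set_option linter.unusedSectionVars false

universe u

section

variable {E E' E₀ : Type} [NormedAddCommGroup E] [NormedSpace ℂ E] [FiniteDimensional ℂ E]
  [NormedAddCommGroup E'] [NormedSpace ℂ E'] [FiniteDimensional ℂ E']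
  [NormedAddCommGroup E₀] [NormedSpace ℂ E₀] [FiniteDimensional ℂ E₀]
variable {X Y F : Type u} [TopologicalSpace X] [ChartedSpace E X] [IsManifold 𝓘(ℂ, E) ω X]
  [TopologicalSpace Y] [ChartedSpace E' Y] [IsManifold 𝓘(ℂ, E') ω Y]
  [TopologicalSpace F] [ChartedSpace E₀ F] [IsManifold 𝓘(ℂ, E₀) ω F]

theorem dM_fibre {f : X → Y} (hf : ∀ x, HolM E E' f x) {i : F → X} (hi : ∀ p, HolM E₀ E i p)
    {y : Y} (hfi : ∀ p, f (i p) = y) (p : F) (ξ : E₀) :
    dM E E' f (i p) (dM E₀ E i p ξ) = 0 := by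
  have h1 : f ∘ i = fun _ => y := funext hfi
  have h2 := mfderiv_comp p (ContMDiffAt.mdifferentiableAt (hf (i p)) (by simp))
    (ContMDiffAt.mdifferentiableAt (hi p) (by simp))
  rw [h1, mfderiv_const] at h2
  have h3 := congrArg (fun A : E₀ →L[ℂ] E' => A ξ) h2
  exact h3.symm

/-- the equations of divisors which do not meet `F` -/
theorem eqn_avoid {i : F → X} (hi : ∀ p, HolM E₀ E i p) {D : Set X} {p : F} (hp : i p ∉ D)
    {g : F → ℂ} (hg : ∃ e, IsLocalEq E D e (i p) ∧ ∀ᶠ q in 𝓝 p, g q = e (i q)) :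
    HolV E₀ g p ∧ g p ≠ 0 := by
  obtain ⟨e, he, hge⟩ := hg
  have heh : HolV E e (i p) := he.holAt
  refine ⟨(HolV.comp (h := e) heh (hi p)).congr hge, ?_⟩
  rw [hge.self_of_nhds]
  intro h0
  exact hp (he.mem_iff.2 h0)

variable {n : ℕ} {Q : (Fin n → ℝ) → (Fin n → ℝ) → ℝ} {f : X → Y} {S : Set Y} {ι : Type u}
  {U : ι → Set Y} {π : ι → Y → ((Fin n → ℝ) ≃L[ℝ] ℂ)} {u : ι → Y → ℂ → X}

/-- elliptic curves without boundary have Kodaira dimension `≤ 0` -/
theorem kodF_ell (hE₀ : finrank ℂ E₀ = 1) (hT : IsTorusFamily E E' f S Q U π u)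
    (hf : ∀ x, HolM E E' f x) {y : Y} (hy : y ∉ S) [CompactSpace F] [PreconnectedSpace F]
    {i : F → X} (hi : ∀ p, HolM E₀ E i p) (hfi : ∀ p, f (i p) = y)
    (hi₃ : ∀ p, Function.Injective (dM E₀ E i p)) {Δ : Set X → ℝ}
    (hΔ : ∀ D, Δ D ≠ 0 → ∀ p, i p ∉ D) {j : ℕ}
    (h : KodGE E₀ (fun (D : Set X) p g => ∃ e, IsLocalEq E D e (i p) ∧
      ∀ᶠ q in 𝓝 p, g q = e (i q)) Δ j) : j = 0 := by
  classical
  obtain ⟨m, k, s, z, hm, hk, hs, hz, hs0, hli⟩ := h
  obtain ⟨a, ha⟩ := (hT.cover y).1 hy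
  obtain ⟨e₁, he₁⟩ : ∃ e₁ : E₀, e₁ ≠ 0 := by
    have : Nontrivial E₀ := Module.nontrivial_of_finrank_pos (R := ℂ) (by omega)
    exact exists_ne 0
  have hkΔ : ∀ D, k D ≠ 0 → Δ D ≠ 0 := by
    intro D hD h0
    have := hk D
    rw [h0, mul_zero] at this
    exact hD (by exact_mod_cast this)
  have hloc : ∀ b p, ∃ c : F → ℂ, HolV E₀ c p ∧
      ∀ᶠ w in 𝓝 p, s b w = c w * jac E₀ (chartAt E₀ p) w ^ m := fun b p =>
    MF.section_local (hs b) (fun D hD p g hg => eqn_avoid hi (hΔ D (hkΔ D hD) p) hg) p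
  have hcoord : ∀ p, ∃ ζ : X → ℂ, TorCoord E E' f u a (i p) ζ := fun p =>
    hT.coord a (i p) (by rw [hfi]; exact ha)
  choose ζ hζ using hcoord
  set Dl : F → ℂ := fun q => dif E (ζ q) (i q) (dM E₀ E i q e₁) with hDl
  have hDl0 : ∀ q, Dl q ≠ 0 := by
    intro q h0
    have h1 := (hζ q).2.2 _ (dM_fibre hf hi hfi q e₁) h0
    exact he₁ ((injective_iff_map_eq_zero _).1 (hi₃ q) e₁ h1)
  -- the differential does not depend on the coordinate
  have hDle : ∀ p, ∀ᶠ q in 𝓝 p, Dl q = dif E (ζ p) (i q) (dM E₀ E i q e₁) := by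
    intro p
    obtain ⟨ε, hε, hdis⟩ := lam_discrete (π a y)
    filter_upwards [(hi p).continuousAt.eventually (hζ p).1.eventually,
      (hi p).continuousAt.eventually (eventually_eventually_nhds.2 (hζ p).2.1)] with q h1 h2
    have h3 : ∀ᶠ w in 𝓝 q, ζ q (i w) - ζ p (i w) ∈ Lam (π a y) := by
      filter_upwards [(hi q).continuousAt.eventually (hζ q).2.1,
        (hi q).continuousAt.eventually h2] with w h4 h5
      rw [hfi] at h4 h5
      obtain ⟨l, hl⟩ := (hT.unif a y ha _ _).2.1 (h5.trans h4.symm)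
      exact ⟨l, by rw [hl]; abel⟩
    have hc1 : HolV E₀ (fun w => ζ q (i w)) q := HolV.comp (h := ζ q) (hζ q).1 (hi q)
    have hc2 : HolV E₀ (fun w => ζ p (i w)) q := HolV.comp (h := ζ p) h1 (hi q)
    have hcont : ContinuousAt (fun w => ζ q (i w) - ζ p (i w) - (ζ q (i q) - ζ p (i q))) q :=
      (hc1.continuousAt.sub hc2.continuousAt).sub continuousAt_const
    have hsm := hcont.norm.eventually_lt_const (u := ε) (by
      show ‖ζ q (i q) - ζ p (i q) - (ζ q (i q) - ζ p (i q))‖ < ε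
      rw [sub_self, norm_zero]
      exact hε)
    have h6 : (fun w => ζ q (i w)) =ᶠ[𝓝 q] fun w => ζ p (i w) + (ζ q (i q) - ζ p (i q)) := by
      filter_upwards [h3, hsm] with w h7 h8
      have h9 := hdis _ h7 _ h3.self_of_nhds h8
      rw [← h9]
      abel
    have h7 : dif E₀ (fun w => ζ q (i w)) q = dif E₀ (fun w => ζ p (i w)) q := by
      have h8 := ISO.dif_add hc2 (HolV.const (ζ q (i q) - ζ p (i q)) q)
      have h9 : dif E₀ (fun _ : F => ζ q (i q) - ζ p (i q)) q = 0 := mfderiv_const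
      rw [h9, add_zero] at h8
      rw [← h8]
      exact h6.mfderiv_eq
    have h8 : dif E₀ (fun w => ζ q (i w)) q = (dif E (ζ q) (i q)).comp (dM E₀ E i q) :=
      dV_comp (h := ζ q) (hζ q).1 (hi q)
    have h9 : dif E₀ (fun w => ζ p (i w)) q = (dif E (ζ p) (i q)).comp (dM E₀ E i q) :=
      dV_comp (h := ζ p) h1 (hi q)
    have h10 := congrArg (fun A : E₀ →L[ℂ] ℂ => A e₁) (h8.symm.trans (h7.trans h9))
    exact h10
  have hconst : ∀ b, ∃ c, ∀ q, s b q / Dl q ^ m = c := by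
    intro b
    obtain ⟨c, hc⟩ := const_of_local (T := fun q => s b q / Dl q ^ m) (bad := ∅) (fun p => by
      obtain ⟨A, hA, hAe⟩ := hloc b p
      obtain ⟨h, hh, hhe⟩ := fib_dif hE₀ e₁ hi (g := ζ p) (p := p) (hζ p).1
      have hjac : jac E₀ (chartAt E₀ p) p ≠ 0 := by
        intro h0
        have h1 := hhe.self_of_nhds
        rw [h0, mul_zero] at h1
        exact hDl0 p h1
      have hh0 : h p ≠ 0 := by
        intro h0
        have h1 := hhe.self_of_nhds
        rw [h0, zero_mul] at h1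
        exact hDl0 p h1
      refine ⟨fun q => A q / h q ^ m, hA.div (hh.pow m) (pow_ne_zero _ hh0), ?_⟩
      filter_upwards [hAe, hhe, hDle p] with q h1 h2 h3 _
      have h4 : jac E₀ (chartAt E₀ p) q ≠ 0 := by
        intro h0
        rw [h0, mul_zero] at h2
        exact hDl0 q (h3.trans h2)
      rw [h1, h3, h2, mul_pow, mul_div_mul_right _ _ (pow_ne_zero _ h4)])
      (fun p => Eventually.of_forall fun q _ => Set.notMem_empty q)
    exact ⟨c, fun q => hc q (Set.notMem_empty q)⟩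
  choose c hc using hconst
  refine kod_zero_aux hli fun b => ⟨c b / c 0, Eventually.of_forall fun q => ?_⟩
  have h1 := pow_ne_zero m (hDl0 q)
  rw [← hc b q, ← hc 0 q, div_div_div_cancel_right₀ h1]

end

end Vale.Agent.P281.H713
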