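import Vale.Agent.P281.H713.LineVal

open scoped Topology
open Set Filter Metric Module

namespace Vale.Agent.P281.H713

set_option linter.unusedSectionVars false

/-- a multigraph without loops with given degrees -/
theorem coloring {d N : ℕ} (b : Fin d → ℕ) (hs : ∑ k, b k = N + N) (hb : ∀ k, b k ≤ N) :
    ∃ i j : Fin N → Fin d, (∀ t, i t ≠ j t) ∧
      ∀ k, (∑ t, if i t = k then 1 else 0) + (∑ t, if j t = k then 1 else 0) = b k := by
  classical
  let col : Fin (N + N) → Fin d := fun s => (finSigmaFinEquiv.symm (Fin.cast hs.symm s)).1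
  have hcol : ∀ s : Fin (N + N), ∃ q : Fin (b (col s)),
      (s : ℕ) = (∑ r : Fin (col s : ℕ), b (Fin.castLE (col s).2.le r)) + q := by
    intro s
    refine ⟨(finSigmaFinEquiv.symm (Fin.cast hs.symm s)).2, ?_⟩
    have h1 := finSigmaFinEquiv_apply (finSigmaFinEquiv.symm (Fin.cast hs.symm s))
    rw [Equiv.apply_symm_apply] at h1
    exact h1
  have hne : ∀ s s' : Fin (N + N), (s' : ℕ) = s + N → col s ≠ col s' := by
    intro s s' hss h
    obtain ⟨q, hq⟩ := hcol s
    obtain ⟨q', hq'⟩ := hcol s'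
    have h1 : (q' : ℕ) < b (col s') := q'.2
    have h2 := hb (col s')
    have h3 : (∑ r : Fin (col s : ℕ), b (Fin.castLE (col s).2.le r)) =
        ∑ r : Fin (col s' : ℕ), b (Fin.castLE (col s').2.le r) := by
      rw [h]
    omega
  have hcount : ∀ k, ∑ s, (if col s = k then 1 else 0) = b k := by
    intro k
    let e : ((i : Fin d) × Fin (b i)) ≃ Fin (N + N) := finSigmaFinEquiv.trans (finCongr hs)
    have he : ∀ x, col (e x) = x.1 := by
      intro x
      show (finSigmaFinEquiv.symm (Fin.cast hs.symm (Fin.cast hs (finSigmaFinEquiv x)))).1 = x.1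
      rw [Fin.cast_cast, Fin.cast_refl, id_eq, Equiv.symm_apply_apply]
    rw [← e.sum_comp, Fintype.sum_sigma]
    simp only [he]
    rw [Finset.sum_eq_single k]
    · simp
    · intro k' _ hk'
      simp [hk']
    · intro hk
      exact absurd (Finset.mem_univ k) hk
  refine ⟨fun t => col (Fin.castAdd N t), fun t => col (Fin.natAdd N t), fun t => ?_, fun k => ?_⟩
  · refine hne _ _ ?_
    simp [add_comm]
  · rw [← hcount k, Fin.sum_univ_add]

/-- the elementary block -/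
def eb {d : ℕ} (a b : Fin d) (x y : Fin d) : ℂ := if x = a ∧ y = b then 1 else 0

theorem eb_sum {d : ℕ} (a b : Fin d) (w : Fin d → Fin d → ℂ) :
    ∑ x, ∑ y, eb a b x y * w x y = w a b := by
  rw [Finset.sum_eq_single a]
  · rw [Finset.sum_eq_single b]
    · simp [eb]
    · intro y _ hy
      simp [eb, hy]
    · intro h
      exact absurd (Finset.mem_univ b) h
  · intro x _ hx
    refine Finset.sum_eq_zero fun y _ => ?_
    simp [eb, hx]
  · intro h
    exact absurd (Finset.mem_univ a) h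

theorem eb_diag {d : ℕ} {a b : Fin d} (hab : a ≠ b) (x : Fin d) : eb a b x x = 0 := by
  unfold eb
  rw [if_neg]
  rintro ⟨h1, h2⟩
  exact hab (h1.symm.trans h2)

theorem mlt_eq {I : Type} [Fintype I] {d : ℕ} (β : I → Fin d → Fin d → ℂ) (l : Fin d)
    [DecidablePred fun t => ∃ j, β t l j ≠ 0 ∨ β t j l ≠ 0] :
    mlt β l = ∑ t, (if ∃ j, β t l j ≠ 0 ∨ β t j l ≠ 0 then 1 else 0) := by
  unfold mlt
  rw [Finset.sum_boole]
  simp only [Nat.cast_id]
  congr 1
  ext t
  simp

/-- the permutations preserving the weights -/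
def TT' {d : ℕ} (δ : Fin d → ℝ) : Subgroup (Equiv.Perm (Fin d)) where
  carrier := {σ | ∀ k, δ (σ k) = δ k}
  mul_mem' := by
    intro σ τ hσ hτ k
    show δ (σ (τ k)) = δ k
    rw [hσ, hτ]
  one_mem' := fun k => rfl
  inv_mem' := by
    intro σ hσ k
    have h1 : δ (σ (σ⁻¹ k)) = δ (σ⁻¹ k) := hσ (σ⁻¹ k)
    have h2 : σ (σ⁻¹ k) = k := σ.apply_symm_apply k
    rw [h2] at h1
    exact h1.symm

theorem mem_TT' {d : ℕ} {δ : Fin d → ℝ} (σ : TT' δ) (k : Fin d) :
    δ ((σ : Equiv.Perm (Fin d)) k) = δ k := σ.2 k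

/-- the symmetric product of the blocks of the colouring -/
def b1 {d N : ℕ} (δ : Fin d → ℝ) (i j : Fin N → Fin d) :
    (TT' δ × Fin N) → Fin d → Fin d → ℂ :=
  fun s => eb ((s.1 : Equiv.Perm (Fin d)) (i s.2)) ((s.1 : Equiv.Perm (Fin d)) (j s.2))

noncomputable instance {d : ℕ} (δ : Fin d → ℝ) : Fintype (TT' δ) := Fintype.ofFinite _

theorem b1_val {d N : ℕ} (δ : Fin d → ℝ) (i j : Fin N → Fin d) (w : Fin d → Fin d → ℂ) :
    PB (b1 δ i j) w = ∏ σ : TT' δ, ∏ t, w ((σ : Equiv.Perm (Fin d)) (i t))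
      ((σ : Equiv.Perm (Fin d)) (j t)) := by
  unfold PB
  rw [← Finset.univ_product_univ, Finset.prod_product]
  refine Finset.prod_congr rfl fun σ _ => Finset.prod_congr rfl fun t _ => ?_
  exact eb_sum _ _ _

theorem b1_diag {d N : ℕ} (δ : Fin d → ℝ) {i j : Fin N → Fin d} (hij : ∀ t, i t ≠ j t)
    (s : TT' δ × Fin N) (x : Fin d) : b1 δ i j s x x = 0 :=
  eb_diag (fun h => hij s.2 ((s.1 : Equiv.Perm (Fin d)).injective h)) x

theorem b1_mlt {d N : ℕ} (δ : Fin d → ℝ) {i j : Fin N → Fin d} {b : Fin d → ℕ}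
    (hb : ∀ k, (∑ t, if i t = k then 1 else 0) + (∑ t, if j t = k then 1 else 0) = b k)
    (hbδ : ∀ k k', δ k = δ k' → b k = b k') (l : Fin d) :
    mlt (b1 δ i j) l ≤ Fintype.card (TT' δ) * b l := by
  classical
  rw [mlt_eq, ← Finset.univ_product_univ, Finset.sum_product, ← Finset.card_univ,
    ← smul_eq_mul, ← Finset.sum_const]
  refine Finset.sum_le_sum fun σ _ => ?_
  set l' : Fin d := (σ : Equiv.Perm (Fin d)).symm l with hl'
  have h1 : (σ : Equiv.Perm (Fin d)) l' = l := Equiv.apply_symm_apply _ _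
  have h2 : b l = b l' := by
    refine hbδ _ _ ?_
    rw [← h1]
    exact mem_TT' σ l'
  rw [h2, ← hb l', ← Finset.sum_add_distrib]
  refine Finset.sum_le_sum fun t _ => ?_
  by_cases ht : ∃ k, b1 δ i j (σ, t) l k ≠ 0 ∨ b1 δ i j (σ, t) k l ≠ 0
  · rw [if_pos ht]
    obtain ⟨k, hk | hk⟩ := ht
    · have h3 : l = (σ : Equiv.Perm (Fin d)) (i t) := by
        by_contra h
        apply hk
        show eb _ _ l k = 0
        unfold eb
        rw [if_neg fun h' => h h'.1]
      have h4 : i t = l' := by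
        apply (σ : Equiv.Perm (Fin d)).injective
        rw [h1, h3]
      rw [if_pos h4]
      omega
    · have h3 : l = (σ : Equiv.Perm (Fin d)) (j t) := by
        by_contra h
        apply hk
        show eb _ _ k l = 0
        unfold eb
        rw [if_neg fun h' => h h'.2]
      have h4 : j t = l' := by
        apply (σ : Equiv.Perm (Fin d)).injective
        rw [h1, h3]
      rw [if_pos h4]
      omega
  · rw [if_neg ht]
    exact Nat.zero_le _

theorem b1_inv {d N : ℕ} (δ : Fin d → ℝ) (i j : Fin N → Fin d) (τ : Equiv.Perm (Fin d))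
    (hτ : ∀ k, δ (τ k) = δ k) (w : Fin d → Fin d → ℂ) :
    PB (b1 δ i j) (fun x y => w (τ x) (τ y)) = PB (b1 δ i j) w := by
  rw [b1_val, b1_val]
  exact Equiv.prod_comp (Equiv.mulLeft (⟨τ, hτ⟩ : TT' δ)) (fun σ : TT' δ =>
    ∏ t, w ((σ : Equiv.Perm (Fin d)) (i t)) ((σ : Equiv.Perm (Fin d)) (j t)))

/-- the blocks used when the sum of the weights is `> 2` -/
noncomputable def b2 {d N : ℕ} (δ : Fin d → ℝ) (i j : Fin N → Fin d) (B : ℕ)
    (g : TT' δ → Fin d → Fin d → ℂ) : (Fin B × (TT' δ × Fin N)) ⊕ TT' δ → Fin d → Fin d → ℂ :=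
  Sum.elim (fun s => b1 δ i j s.2) g

theorem b2_val {d N : ℕ} (δ : Fin d → ℝ) (i j : Fin N → Fin d) (B : ℕ)
    (g : TT' δ → Fin d → Fin d → ℂ) (w : Fin d → Fin d → ℂ) :
    PB (b2 δ i j B g) w = PB (b1 δ i j) w ^ B * PB g w := by
  unfold PB b2
  rw [Fintype.prod_sum_type]
  congr 1
  rw [← Finset.univ_product_univ, Finset.prod_product]
  simp

theorem b2_mlt {d N : ℕ} (δ : Fin d → ℝ) (i j : Fin N → Fin d) (B : ℕ)
    (g : TT' δ → Fin d → Fin d → ℂ) (l : Fin d) :
    mlt (b2 δ i j B g) l ≤ B * mlt (b1 δ i j) l + Fintype.card (TT' δ) := by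
  classical
  rw [mlt_eq, Fintype.sum_sum_type]
  refine add_le_add ?_ ?_
  · rw [← Finset.univ_product_univ, Finset.sum_product]
    have h1 : ∀ b : Fin B, (∑ s : TT' δ × Fin N, if ∃ k, b2 δ i j B g (Sum.inl (b, s)) l k ≠ 0 ∨
        b2 δ i j B g (Sum.inl (b, s)) k l ≠ 0 then 1 else 0) = mlt (b1 δ i j) l := by
      intro b
      rw [mlt_eq]
      rfl
    rw [Finset.sum_congr rfl fun b _ => h1 b, Finset.sum_const, Finset.card_univ,
      Fintype.card_fin, smul_eq_mul]
  · calc (∑ s : TT' δ, if ∃ k, b2 δ i j B g (Sum.inr s) l k ≠ 0 ∨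
        b2 δ i j B g (Sum.inr s) k l ≠ 0 then 1 else 0) ≤ ∑ _s : TT' δ, 1 := by
          refine Finset.sum_le_sum fun s _ => ?_
          split_ifs <;> omega
      _ = _ := by rw [Finset.sum_const, Finset.card_univ, smul_eq_mul, mul_one]

/-- common denominators -/
theorem exists_num {d : ℕ} {δ : Fin d → ℝ} (hq : ∀ k, ∃ q : ℚ, δ k = q) (h0 : ∀ k, 0 ≤ δ k)
    (h1 : ∀ k, δ k ≤ 1) (hs : ∑ k, δ k = 2) : ∃ (N : ℕ) (b : Fin d → ℕ), 0 < N ∧
      (∀ k, (b k : ℝ) = N * δ k) ∧ ∑ k, b k = N + N ∧ ∀ k, b k ≤ N := by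
  choose q hq using hq
  set N : ℕ := ∏ k, (q k).den with hN
  have hN0 : 0 < N := Finset.prod_pos fun k _ => (q k).den_pos
  have hb : ∀ k, ∃ b : ℕ, (b : ℝ) = N * δ k := by
    intro k
    obtain ⟨c, hc⟩ : (q k).den ∣ N := Finset.dvd_prod_of_mem _ (Finset.mem_univ k)
    have h2 : 0 ≤ (q k).num := by
      rw [Rat.num_nonneg]
      have := h0 k
      rw [hq] at this
      exact_mod_cast this
    refine ⟨c * (q k).num.toNat, ?_⟩
    have h3 : (((q k).num.toNat : ℕ) : ℝ) = ((q k).num : ℝ) := by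
      have h4 : (((q k).num.toNat : ℕ) : ℤ) = (q k).num := Int.toNat_of_nonneg h2
      exact_mod_cast congrArg (fun z : ℤ => (z : ℝ)) h4
    have h5 : ((q k : ℚ) : ℝ) = (q k).num / (q k).den := by
      exact_mod_cast congrArg (fun z : ℚ => (z : ℝ)) (Rat.num_div_den (q k)).symm
    rw [hc, hq, h5]
    push_cast
    rw [h3]
    have h6 : ((q k).den : ℝ) ≠ 0 := by exact_mod_cast (q k).den_ne_zero
    field_simp
  choose b hb using hb
  refine ⟨N, b, hN0, hb, ?_, fun k => ?_⟩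
  · have h2 : ((∑ k, b k : ℕ) : ℝ) = ((N + N : ℕ) : ℝ) := by
      push_cast
      rw [Finset.sum_congr rfl fun k _ => hb k, ← Finset.mul_sum, hs]
      ring
    exact_mod_cast h2
  · have h2 : (b k : ℝ) ≤ N := by
      rw [hb]
      have h3 : (0 : ℝ) ≤ N := by positivity
      nlinarith [h1 k]
    exact_mod_cast h2

end Vale.Agent.P281.H713
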