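import Vale.Agent.P281.H713.LineRel
import Vale.Agent.P281.H713.LineComb
import Vale.Agent.P281.H713.Slice2

open scoped Manifold ContDiff Topology
open Set Filter Metric Module

namespace Vale.Agent.P281.H713

open Vale.Agent.P281 Vale.Agent.P281.MF Vale.Agent.P281.ISO Vale.Agent.P281.ELL

set_option linter.unusedSectionVars false

universe u

section Line

variable {E E' : Type} [NormedAddCommGroup E] [NormedSpace ℂ E] [FiniteDimensional ℂ E]
  [NormedAddCommGroup E'] [NormedSpace ℂ E'] [FiniteDimensional ℂ E']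
variable {X Y : Type u} [TopologicalSpace X] [ChartedSpace E X] [IsManifold 𝓘(ℂ, E) ω X]
  [TopologicalSpace Y] [ChartedSpace E' Y] [IsManifold 𝓘(ℂ, E') ω Y]
variable {f : X → Y} {S : Set Y} {d : ℕ} {Δ : Set X → ℝ} {δ : Fin d → ℝ} {𝒲 : Set (Set X)}
  {ι : Type u} {U : ι → Set Y} {p : ι → Fin d → Y → ℂ × ℂ} {c : ι → X → ℂ × ℂ}

theorem ww_ne (hf : ∀ x, HolM E E' f x) (h : IsLineFamily E E' f S Δ δ 𝒲 U p c)
    (e₀ : E ≃L[ℂ] (E' × ℂ)) {a : ι} {x : X} {L : X → ℂ × ℂ} (hv : Val E f U p c a L x)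
    {i j : Fin d} (hij : i ≠ j) : ww e₀ f (p a) L x i j ≠ 0 := by
  have h1 := JP_ne_zero e₀ (hv.inj hf h.toIsBranchedOver e₀)
  exact div_ne_zero (mul_ne_zero (h.distinct a i j _ hv.mem hij) h1)
    (mul_ne_zero (hv.ne' h.toIsBranchedOver i) (hv.ne' h.toIsBranchedOver j))

/-- an admissible lift near a point is admissible nearby -/
theorem val_near (hf : ∀ x, HolM E E' f x) (h : IsLineFamily E E' f S Δ δ 𝒲 U p c) {a : ι}
    {x : X} {L : X → ℂ × ℂ} (hv : Val E f U p c a L x) : ∀ᶠ z in 𝓝 x, Val E f U p c a L z := by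
  have hp1 : ∀ i, HolV E (fun z => (p a i (f z)).1) x := fun i =>
    HolV.comp (E' := E') (h := fun y => (p a i y).1) (h.branch a i (f x) hv.mem).1 (hf x)
  have hp2 : ∀ i, HolV E (fun z => (p a i (f z)).2) x := fun i =>
    HolV.comp (E' := E') (h := fun y => (p a i y).2) (h.branch a i (f x) hv.mem).2 (hf x)
  have havh : ∀ i, HolV E (fun z => J.wedge (L z) (p a i (f z))) x := fun i =>
    hol_wedge hv.hol1 hv.hol2 (hp1 i) (hp2 i)
  have hne : ∀ᶠ z in 𝓝 x, ∀ i, J.wedge (L z) (p a i (f z)) ≠ 0 :=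
    Filter.eventually_all.2 fun i =>
      (havh i).continuousAt.eventually_ne (hv.ne' h.toIsBranchedOver i)
  have hL0e : ∀ᶠ z in 𝓝 x, L z ≠ 0 := by
    by_cases h0 : (L x).1 = 0
    · have h1 : (L x).2 ≠ 0 := fun h1 => hv.ne0 (Prod.ext h0 h1)
      filter_upwards [hv.hol2.continuousAt.eventually_ne h1] with z hz hz0
      exact hz (by rw [hz0]; rfl)
    · filter_upwards [hv.hol1.continuousAt.eventually_ne h0] with z hz hz0
      exact hz (by rw [hz0]; rfl)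
  filter_upwards [hne, hL0e, hv.hol1.eventually, hv.hol2.eventually,
    eventually_eventually_nhds.2 hv.prop,
    (hf x).continuousAt.eventually ((h.isOpen a).mem_nhds hv.mem)] with z h1 h2 h3 h4 h5 h6
  exact ⟨h6, fun k => wedge_ne_of (h.lift a z h6).1 h5.self_of_nhds (h1 k), h3, h4, h2, h5⟩

/-- a vector not proportional to given nonzero vectors -/
theorem exists_dir {m : ℕ} (v : Fin m → ℂ × ℂ) (hv : ∀ k, v k ≠ 0) :
    ∃ w : ℂ × ℂ, w ≠ 0 ∧ ∀ k, J.wedge w (v k) ≠ 0 := by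
  classical
  have h1 : (Set.range fun k => (v k).2 / (v k).1).Finite := Set.finite_range _
  obtain ⟨t, ht⟩ := h1.infinite_compl.nonempty
  by_cases h2 : ∀ k, (v k).1 ≠ 0
  · refine ⟨(1, t), fun h => one_ne_zero (congrArg Prod.fst h), fun k h => ht ⟨k, ?_⟩⟩
    unfold J.wedge at h
    simp only [one_mul] at h
    show (v k).2 / (v k).1 = t
    rw [div_eq_iff (h2 k)]
    linear_combination h
  · have h3 : (Set.range fun k => (v k).2 / (v k).1).Finite := h1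
    refine ⟨(1, t), fun h => one_ne_zero (congrArg Prod.fst h), fun k h => ?_⟩
    unfold J.wedge at h
    simp only [one_mul] at h
    by_cases h4 : (v k).1 = 0
    · rw [h4, mul_zero, sub_zero] at h
      exact hv k (Prod.ext h4 h)
    · refine ht ⟨k, ?_⟩
      show (v k).2 / (v k).1 = t
      rw [div_eq_iff h4]
      linear_combination h

/-- an unmarked point -/
theorem exists_val_pt (h : IsLineFamily E E' f S Δ δ 𝒲 U p c) (hd : 2 ≤ d) {a : ι} {y : Y}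
    (ha : y ∈ U a) : ∃ x L, f x = y ∧ Val E f U p c a L x := by
  have hp0 : ∀ k, p a k y ≠ 0 := by
    intro k h0
    obtain ⟨k', hk'⟩ : ∃ k', k ≠ k' := by
      by_cases h1 : k = ⟨0, by omega⟩
      · exact ⟨⟨1, by omega⟩, by rw [h1]; simp [Fin.ext_iff]⟩
      · exact ⟨⟨0, by omega⟩, h1⟩
    apply h.distinct a k k' y ha hk'
    rw [h0]
    simp [J.wedge]
  obtain ⟨w, hw0, hw⟩ := exists_dir (fun k => p a k y) hp0
  obtain ⟨x, hx, hxw⟩ := h.surj a y ha w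
  subst hx
  obtain ⟨hc, L, h1, h2, h3, h4, -, -⟩ := h.lift a x ha
  refine ⟨x, L, rfl, ha, fun k hk => hw k ?_, h1, h2, h3, h4⟩
  exact cf_trans hc hxw hk

theorem floor_ok {M m : ℕ} {r : ℝ} (h : (m : ℝ) ≤ M * r) : m ≤ ⌊(M : ℝ) * r⌋₊ :=
  Nat.le_floor h

/-- the weights of sum `2` -/
theorem hasForms_line₀ (hf : ∀ x, HolM E E' f x) (h : IsLineFamily E E' f S Δ δ 𝒲 U p c)
    (h𝒲f : 𝒲.Finite) (h𝒲p : ∀ D ∈ 𝒲, IsPrimeDivisor E D) (e₀ : E ≃L[ℂ] (E' × ℂ))
    (hΔ : ∀ D, 0 ≤ Δ D) (hq : ∀ k, ∃ q : ℚ, δ k = q) (h0 : ∀ k, 0 ≤ δ k) (h1 : ∀ k, δ k ≤ 1)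
    (hs : ∑ k, δ k = 2) {y : Y} (hy : y ∉ S) : HasForms f S e₀ Δ 0 y := by
  classical
  have hd : 2 ≤ d := by
    by_contra hd
    have h2 : ∑ k, δ k ≤ ∑ _k : Fin d, (1 : ℝ) := Finset.sum_le_sum fun k _ => h1 k
    rw [hs, Finset.sum_const, Finset.card_univ, Fintype.card_fin, nsmul_eq_mul, mul_one] at h2
    have h3 : (d : ℝ) < 2 := by exact_mod_cast (by omega : d < 2)
    linarith
  obtain ⟨N, b, hN, hb, hbs, hbN⟩ := exists_num hq h0 h1 hs
  obtain ⟨i, j, hij, hijb⟩ := coloring b hbs hbN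
  have hbδ : ∀ k k', δ k = δ k' → b k = b k' := by
    intro k k' hk
    have h2 : (b k : ℝ) = b k' := by rw [hb, hb, hk]
    exact_mod_cast h2
  obtain ⟨Θ, hΘ⟩ := exists_line hf h hd e₀ (Φ := PB (b1 δ i j)) (fun σ hσ w => b1_inv δ i j σ hσ w)
  set M : ℕ := Fintype.card (TT' δ × Fin N) with hM
  have hMc : M = Fintype.card (TT' δ) * N := by
    rw [hM, Fintype.card_prod, Fintype.card_fin]
  set κ₀ : Set X → ℕ := fun D => if D ∈ 𝒲 then ⌊(M : ℝ) * Δ D⌋₊ else 0 with hκ₀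
  have hTpos : 0 < Fintype.card (TT' δ) := Fintype.card_pos
  have hrel := line_rel hf h e₀ (b1_diag δ hij) (κ₀ := κ₀) (fun l D hD hDl => by
    rw [hκ₀]
    simp only [if_pos hD]
    refine floor_ok ?_
    have h2 := b1_mlt δ hijb hbδ l
    have h3 : ((mlt (b1 δ i j) l : ℕ) : ℝ) ≤ ((Fintype.card (TT' δ) * b l : ℕ) : ℝ) := by
      exact_mod_cast h2
    refine h3.trans (le_of_eq ?_)
    rw [hMc, hDl]
    push_cast
    rw [hb]
    ring) hΘ
  obtain ⟨a, ha⟩ := (h.cover y).1 hy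
  obtain ⟨x, L, hx, hv⟩ := exists_val_pt h hd ha
  refine ⟨M, 𝒲, κ₀, Θ, Fin.elim0, ?_, h𝒲f, h𝒲p, hrel, fun b => b.elim0, ?_, x, hx, ?_,
    fun b => b.elim0, fun c _ b => b.elim0⟩
  · rw [hMc]
    exact Nat.mul_pos hTpos hN
  · intro D
    by_cases hD : D ∈ 𝒲
    · have h4 : κ₀ D = ⌊(M : ℝ) * Δ D⌋₊ := by rw [hκ₀]; exact if_pos hD
      rw [h4]
      exact Nat.floor_le (mul_nonneg (Nat.cast_nonneg _) (hΔ D))
    · have h4 : κ₀ D = 0 := by rw [hκ₀]; exact if_neg hD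
      rw [h4, Nat.cast_zero]
      exact mul_nonneg (Nat.cast_nonneg _) (hΔ D)
  · filter_upwards [val_near hf h hv] with z hz
    rw [hΘ a z L hz, b1_val]
    exact Finset.prod_ne_zero_iff.2 fun σ _ => Finset.prod_ne_zero_iff.2 fun t _ =>
      ww_ne hf h e₀ hz fun h2 => hij t ((σ : Equiv.Perm (Fin d)).injective h2)

end Line

end Vale.Agent.P281.H713
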