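import Vale.Agent.P281.H713.FibB
import Vale.Agent.P281.H713.LineForms

open scoped Manifold ContDiff Topology
open Set Filter Metric Module

namespace Vale.Agent.P281.H713

open Vale.Agent.P281 Vale.Agent.P281.MF Vale.Agent.P281.ISO Vale.Agent.P281.ELL

set_option linter.unusedSectionVars false

universe u

section

variable {E E' E₀ : Type} [NormedAddCommGroup E] [NormedSpace ℂ E] [FiniteDimensional ℂ E]
  [NormedAddCommGroup E'] [NormedSpace ℂ E'] [FiniteDimensional ℂ E']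
  [NormedAddCommGroup E₀] [NormedSpace ℂ E₀] [FiniteDimensional ℂ E₀]
variable {X Y F : Type u} [TopologicalSpace X] [ChartedSpace E X] [IsManifold 𝓘(ℂ, E) ω X]
  [TopologicalSpace Y] [ChartedSpace E' Y] [IsManifold 𝓘(ℂ, E') ω Y]
  [TopologicalSpace F] [ChartedSpace E₀ F] [IsManifold 𝓘(ℂ, E₀) ω F]
variable {f : X → Y} {S : Set Y} {d : ℕ} {Δ : Set X → ℝ} {δ : Fin d → ℝ} {𝒲 : Set (Set X)}
  {ι : Type u} {U : ι → Set Y} {p : ι → Fin d → Y → ℂ × ℂ} {c : ι → X → ℂ × ℂ}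

/-- homogeneous lifts of the points of a fibre -/
def FL (E₀ : Type) [NormedAddCommGroup E₀] [NormedSpace ℂ E₀] {F X : Type u} [TopologicalSpace F]
    [ChartedSpace E₀ F] (i : F → X) (ca : X → ℂ × ℂ) (e₁ : E₀) (q : F) (M : F → ℂ × ℂ) : Prop :=
  HolV E₀ (fun w => (M w).1) q ∧ HolV E₀ (fun w => (M w).2) q ∧ M q ≠ 0 ∧
    (∀ᶠ w in 𝓝 q, J.wedge (ca (i w)) (M w) = 0) ∧ WL E₀ M q e₁ ≠ 0

/-- the lifts over the fibres -/
theorem exists_FL (h : IsLineFamily E E' f S Δ δ 𝒲 U p c) (hf : ∀ x, HolM E E' f x)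
    {i : F → X} (hi : ∀ p, HolM E₀ E i p) {y : Y} (hfi : ∀ p, f (i p) = y)
    (hi₃ : ∀ p, Function.Injective (dM E₀ E i p)) {a : ι} (ha : y ∈ U a) {e₁ : E₀} (he₁ : e₁ ≠ 0)
    (q : F) : (∀ k, p a k y ≠ 0) ∧ ∃ M : F → ℂ × ℂ, FL E₀ i (c a) e₁ q M ∧
      ∀ k, J.wedge (M q) (p a k y) = 0 → ∃ D ∈ 𝒲, ∃ u : X → ℂ, IsLocalEq E D u (i q) ∧
        ∀ᶠ w in 𝓝 q, J.wedge (M w) (p a k y) = u (i w) := by
  have haq : f (i q) ∈ U a := by rw [hfi]; exact ha
  obtain ⟨hcx, L, hL1, hL2, hL0, hcL, hunm, hbr⟩ := h.lift a (i q) haq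
  have hL1 : HolV E (fun z => (L z).1) (i q) := hL1
  have hL2 : HolV E (fun z => (L z).2) (i q) := hL2
  have hM1 : HolV E₀ (fun w => (L (i w)).1) q := HolV.comp (h := fun z => (L z).1) hL1 (hi q)
  have hM2 : HolV E₀ (fun w => (L (i w)).2) q := HolV.comp (h := fun z => (L z).2) hL2 (hi q)
  have hver : dM E E' f (i q) (dM E₀ E i q e₁) = 0 := dM_fibre hf hi hfi q e₁
  have hne : dM E₀ E i q e₁ ≠ 0 := fun h0 => he₁ ((injective_iff_map_eq_zero _).1 (hi₃ q) e₁ h0)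
  have hWL : WL E₀ (fun w => L (i w)) q e₁ = WL E L (i q) (dM E₀ E i q e₁) := by
    rw [WL_apply, WL_apply, dif_fib hi hL1, dif_fib hi hL2]
  refine ⟨fun k h0 => ?_, fun w => L (i w),
    ⟨hM1, hM2, hL0, (hi q).continuousAt.eventually hcL, ?_⟩, ?_⟩
  · obtain ⟨D, hD, u, hu, hue, hinj⟩ := hbr k (by rw [hfi, h0]; simp [J.wedge])
    have hu : IsLocalEq E D u (i q) := hu
    refine hne (hinj _ hver ?_)
    have h2 : (fun w => u (i w)) =ᶠ[𝓝 q] fun _ => (0 : ℂ) := by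
      filter_upwards [(hi q).continuousAt.eventually hue] with w hw
      rw [pow_one, hfi, h0] at hw
      rw [← hw]
      simp [J.wedge]
    have h9 := dif_fib hi hu.holAt e₁
    show dif E u (i q) (dM E₀ E i q e₁) = 0
    rw [← h9]
    have h3 : dif E₀ (fun w => u (i w)) q = dif E₀ (fun _ : F => (0 : ℂ)) q := by
      unfold dif
      rw [h2.mfderiv_eq]
    rw [h3, ISO.dif_const]
    rfl
  · rw [hWL]
    intro h0
    by_cases hall : ∀ k, J.wedge (L (i q)) (p a k (f (i q))) ≠ 0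
    · exact hne (hunm hall _ hver ((WL_apply L (i q) (dM E₀ E i q e₁)).symm.trans h0))
    · push Not at hall
      obtain ⟨k, hk⟩ := hall
      obtain ⟨D, hD, u, hu, hue, hinj⟩ := hbr k hk
      have hu : IsLocalEq E D u (i q) := hu
      refine hne (hinj _ hver ?_)
      -- the derivative of `u` along the fibre
      have h1 : HolV E₀ (fun w => u (i w)) q := HolV.comp (h := u) hu.holAt (hi q)
      have h2 : (fun w => u (i w)) =ᶠ[𝓝 q] fun w => J.wedge (L (i w)) (p a k y) := by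
        filter_upwards [(hi q).continuousAt.eventually hue] with w hw
        rw [pow_one, hfi] at hw
        exact hw.symm
      have h9 := dif_fib hi hu.holAt e₁
      show dif E u (i q) (dM E₀ E i q e₁) = 0
      rw [← h9]
      have h3 : dif E₀ (fun w => u (i w)) q e₁ =
          dif E₀ (fun w => J.wedge (L (i w)) (p a k y)) q e₁ := by
        unfold dif
        rw [h2.mfderiv_eq]
      rw [h3]
      rw [hfi] at hk
      obtain ⟨μ, hμ⟩ := cf_prop hk hL0
      have h4 : (fun w => J.wedge (L (i w)) (p a k y)) = fun w =>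
          (p a k y).2 * (L (i w)).1 + (-(p a k y).1) * (L (i w)).2 := by
        funext w
        unfold J.wedge
        ring
      have h5 := congrArg (fun T : E₀ →L[ℂ] ℂ => T e₁)
        (dif_addC ((HolV.const (p a k y).2 q).mul hM1) ((HolV.const (-(p a k y).1) q).mul hM2))
      simp only [add_apply] at h5
      rw [cf_dif_mul hM1, cf_dif_mul hM2] at h5
      rw [h4, h5, hμ]
      rw [← hWL, WL_apply] at h0
      simp only [Prod.smul_fst, Prod.smul_snd, smul_eq_mul]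
      linear_combination -μ * h0
  · intro k hk
    obtain ⟨D, hD, u, hu, hue, -⟩ := hbr k (by rw [hfi]; exact hk)
    refine ⟨D, hD, u, hu, ?_⟩
    filter_upwards [(hi q).continuousAt.eventually hue] with w hw
    rw [pow_one, hfi] at hw
    exact hw

theorem FL.wedge_ne {i : F → X} {ca : X → ℂ × ℂ} {e₁ : E₀} {q : F} {M : F → ℂ × ℂ}
    (hM : FL E₀ i ca e₁ q M) {P : ℂ × ℂ} (hc : ca (i q) ≠ 0) :
    J.wedge (ca (i q)) P = 0 ↔ J.wedge (M q) P = 0 := by
  have h1 := hM.2.2.2.1.self_of_nhds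
  constructor
  · intro h2
    exact cf_trans hc h1 h2
  · intro h2
    have h3 : J.wedge (M q) (ca (i q)) = 0 := by rw [cf_comm, h1, neg_zero]
    exact cf_trans hM.2.2.1 h3 h2

/-- the derivative of `wedge M P` at a zero -/
theorem FL.dif_ne {i : F → X} {ca : X → ℂ × ℂ} {e₁ : E₀} {q : F} {M : F → ℂ × ℂ}
    (hM : FL E₀ i ca e₁ q M) {P : ℂ × ℂ} (hP : P ≠ 0) (h0 : J.wedge (M q) P = 0) :
    dif E₀ (fun w => J.wedge (M w) P) q e₁ ≠ 0 := by
  obtain ⟨hM1, hM2, hM0, -, hW⟩ := hM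
  obtain ⟨μ, hμ⟩ := cf_prop h0 hM0
  have hμ0 : μ ≠ 0 := by
    rintro rfl
    exact hP (by rw [hμ, zero_smul])
  have h4 : (fun w => J.wedge (M w) P) = fun w => P.2 * (M w).1 + (-P.1) * (M w).2 := by
    funext w
    unfold J.wedge
    ring
  have h5 := congrArg (fun T : E₀ →L[ℂ] ℂ => T e₁)
    (dif_addC ((HolV.const P.2 q).mul hM1) ((HolV.const (-P.1) q).mul hM2))
  simp only [add_apply] at h5
  rw [cf_dif_mul hM1, cf_dif_mul hM2] at h5
  rw [h4, h5, hμ]
  rw [WL_apply] at hW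
  simp only [Prod.smul_fst, Prod.smul_snd, smul_eq_mul]
  intro h6
  apply hW
  have h7 : μ * ((M q).1 * dif E₀ (fun w => (M w).2) q e₁ -
      (M q).2 * dif E₀ (fun w => (M w).1) q e₁) = 0 := by linear_combination -h6
  exact (mul_eq_zero.1 h7).resolve_left hμ0

end

end Vale.Agent.P281.H713
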