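import Vale.Agent.P281.H713.FibC

open scoped Manifold ContDiff Topology
open Set Filter Metric Module

namespace Vale.Agent.P281.H713

open Vale.Agent.P281 Vale.Agent.P281.MF Vale.Agent.P281.ISO Vale.Agent.P281.ELL

set_option linter.unusedSectionVars false

universe u

section

variable {E E' E₀ : Type} [NormedAddCommGroup E] [NormedSpace ℂ E] [FiniteDimensional ℂ E]
  [NormedAddCommGroup E'] [NormedSpace ℂ E'] [FiniteDimensional ℂ E']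
  [NormedAddCommGroup E₀] [NormedSpace ℂ E₀] [FiniteDimensional ℂ E₀]
variable {X Y F : Type u} [TopologicalSpace X] [ChartedSpace E X] [IsManifold 𝓘(ℂ, E) ω X]
  [TopologicalSpace Y] [ChartedSpace E' Y] [IsManifold 𝓘(ℂ, E') ω Y]
  [TopologicalSpace F] [ChartedSpace E₀ F] [IsManifold 𝓘(ℂ, E₀) ω F]
variable {f : X → Y} {S : Set Y} {d : ℕ} {Δ : Set X → ℝ} {δ : Fin d → ℝ} {𝒲 : Set (Set X)}
  {ι : Type u} {U : ι → Set Y} {p : ι → Fin d → Y → ℂ × ℂ} {c : ι → X → ℂ × ℂ}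

theorem hol_wedgeC {M : F → ℂ × ℂ} {q : F} (h1 : HolV E₀ (fun w => (M w).1) q)
    (h2 : HolV E₀ (fun w => (M w).2) q) (P : ℂ × ℂ) :
    HolV E₀ (fun w => J.wedge (M w) P) q :=
  hol_wedge h1 h2 (w := fun _ => P) (HolV.const P.1 q) (HolV.const P.2 q)

/-- products of units -/
theorem unit_prod {J : Type*} {T : Finset J} {g : J → F → ℂ} {k : J → ℕ} {q₀ : F}
    (hg : ∀ D ∈ T, HolV E₀ (g D) q₀) (hne : ∀ D ∈ T, k D ≠ 0 → g D q₀ ≠ 0) :
    HolV E₀ (fun q => ∏ D ∈ T, g D q ^ k D) q₀ ∧ ∏ D ∈ T, g D q₀ ^ k D ≠ 0 := by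
  refine ⟨HolV.prod fun D hD => (hg D hD).pow _, Finset.prod_ne_zero_iff.2 fun D hD => ?_⟩
  by_cases hk : k D = 0
  · rw [hk, pow_zero]
    exact one_ne_zero
  · exact pow_ne_zero _ (hne D hD hk)

theorem claimA (h : IsLineFamily E E' f S Δ δ 𝒲 U p c)
    {i : F → X} (hi : ∀ p, HolM E₀ E i p) {y : Y} (hy : y ∉ S) (hfi : ∀ p, f (i p) = y)
    {a : ι} (ha : y ∈ U a) {e₁ : E₀} {m : ℕ} {k : Set X → ℕ} (hk : ∀ D, (k D : ℝ) = m * Δ D)
    (h𝒲 : ∀ D, Δ D ≠ 0 → D ∈ 𝒲 ∨ D ⊆ f ⁻¹' S) {κ : Fin d → ℕ} (hκ : ∀ l, (κ l : ℝ) = m * δ l)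
    {q₀ : F} {M : F → ℂ × ℂ} (hM : FL E₀ i (c a) e₁ q₀ M)
    (hM' : ∀ l, J.wedge (M q₀) (p a l y) = 0 → ∃ D ∈ 𝒲, ∃ u : X → ℂ, IsLocalEq E D u (i q₀) ∧
      ∀ᶠ w in 𝓝 q₀, J.wedge (M w) (p a l y) = u (i w)) {T : Finset (Set X)}
    {g : Set X → F → ℂ} (hT : ∀ D, k D ≠ 0 → D ∈ T) (hg : ∀ D ∈ T, ∃ e, IsLocalEq E D e (i q₀) ∧
      ∀ᶠ w in 𝓝 q₀, g D w = e (i w)) :
    ∃ w : F → ℂ, HolV E₀ w q₀ ∧ w q₀ ≠ 0 ∧
      ∀ᶠ q in 𝓝 q₀, ∏ D ∈ T, g D q ^ k D = w q * ∏ l, J.wedge (M q) (p a l y) ^ κ l := by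
  classical
  have haq : f (i q₀) ∈ U a := by rw [hfi]; exact ha
  have hfq : f (i q₀) ∉ S := by rw [hfi]; exact hy
  have hc0 : c a (i q₀) ≠ 0 := (h.lift a (i q₀) haq).1
  have hgh : ∀ D ∈ T, HolV E₀ (g D) q₀ := by
    intro D hD
    obtain ⟨e, he, hge⟩ := hg D hD
    exact (HolV.comp (h := e) he.holAt (hi q₀)).congr hge
  have hgne : ∀ D ∈ T, i q₀ ∉ D → g D q₀ ≠ 0 := fun D hD hq =>
    (eqn_avoid hi hq (hg D hD)).2
  have hwh : ∀ l, HolV E₀ (fun q => J.wedge (M q) (p a l y)) q₀ := fun l =>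
    hol_wedgeC hM.1 hM.2.1 _
  -- divisors through the point
  have hthr : ∀ D, k D ≠ 0 → i q₀ ∈ D → D ∈ 𝒲 := by
    intro D hD hq
    rcases h𝒲 D (fun h0 => hD (by
      have := hk D
      rw [h0, mul_zero] at this
      exact_mod_cast this)) with h1 | h1
    · exact h1
    · exact absurd (h1 hq) hfq
  by_cases hall : ∀ l, J.wedge (M q₀) (p a l y) ≠ 0
  · have hun : ∀ D ∈ T, k D ≠ 0 → g D q₀ ≠ 0 := by
      intro D hD hkD
      refine hgne D hD fun hq => ?_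
      obtain ⟨l, hl⟩ := h.marked a (i q₀) haq D (hthr D hkD hq) hq
      rw [hfi] at hl
      exact hall l ((FL.wedge_ne hM hc0).1 hl)
    obtain ⟨h1, h2⟩ := unit_prod hgh hun
    obtain ⟨h3, h4⟩ := unit_prod (T := Finset.univ) (k := κ) (fun l _ => hwh l)
      (fun l _ _ => hall l)
    refine ⟨_, h1.div h3 h4, div_ne_zero h2 h4, ?_⟩
    filter_upwards [h3.continuousAt.eventually_ne h4] with q hq
    rw [div_mul_cancel₀ _ hq]
  · push Not at hall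
    obtain ⟨l₀, hl₀⟩ := hall
    obtain ⟨D₀, hD₀, u, hu, hue⟩ := hM' l₀ hl₀
    have hxD : i q₀ ∈ D₀ := by
      rw [hu.mem_iff, ← hue.self_of_nhds]
      exact hl₀
    have hother : ∀ D ∈ T.erase D₀, k D ≠ 0 → g D q₀ ≠ 0 := by
      intro D hD hkD
      refine hgne D (Finset.mem_of_mem_erase hD) fun hq => ?_
      exact (Finset.mem_erase.1 hD).1
        (h.disjoint (i q₀) hfq D (hthr D hkD hq) D₀ hD₀ hq hxD)
    have hdist : ∀ l ∈ Finset.univ.erase l₀, κ l ≠ 0 → J.wedge (M q₀) (p a l y) ≠ 0 := by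
      intro l hl _ h0
      exact h.distinct a l₀ l y ha (Finset.mem_erase.1 hl).1.symm
        (wedge_zero_of hM.2.2.1 hl₀ h0)
    have hw : Δ D₀ = δ l₀ := by
      refine h.weight a l₀ (i q₀) haq ?_ D₀ hD₀ hxD
      rw [hfi]
      exact (FL.wedge_ne hM hc0).2 hl₀
    have hkκ : k D₀ = κ l₀ := by
      have h1 : (k D₀ : ℝ) = κ l₀ := by rw [hk, hκ, hw]
      exact_mod_cast h1
    obtain ⟨h1, h2⟩ := unit_prod (T := T.erase D₀)
      (fun D hD => hgh D (Finset.mem_of_mem_erase hD)) hother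
    obtain ⟨h3, h4⟩ := unit_prod (T := Finset.univ.erase l₀) (k := κ) (fun l _ => hwh l) hdist
    obtain ⟨v, hv, hv0, hve⟩ : ∃ v : F → ℂ, HolV E₀ v q₀ ∧ v q₀ ≠ 0 ∧ ∀ᶠ q in 𝓝 q₀,
        ∏ D ∈ T, g D q ^ k D = v q * J.wedge (M q) (p a l₀ y) ^ κ l₀ *
          ∏ D ∈ T.erase D₀, g D q ^ k D := by
      by_cases hDT : D₀ ∈ T
      · obtain ⟨e, he, hge⟩ := hg D₀ hDT
        obtain ⟨v, hv, hv0, hve⟩ := leq_unit hu he
        refine ⟨fun q => v (i q) ^ κ l₀, (HolV.comp (h := v) hv (hi q₀)).pow _,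
          pow_ne_zero _ hv0, ?_⟩
        filter_upwards [hge, hue, (hi q₀).continuousAt.eventually hve] with q h5 h6 h7
        rw [← Finset.mul_prod_erase T (fun D => g D q ^ k D) hDT, h5, h7, ← h6, hkκ, mul_pow]
        ring
      · refine ⟨fun _ => 1, HolV.const 1 q₀, one_ne_zero, Eventually.of_forall fun q => ?_⟩
        have h5 : κ l₀ = 0 := by
          rw [← hkκ]
          by_contra h6
          exact hDT (hT D₀ h6)
        rw [Finset.erase_eq_of_notMem hDT, h5, pow_zero, one_mul, one_mul]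
    refine ⟨_, (hv.mul h1).div h3 h4, div_ne_zero (mul_ne_zero hv0 h2) h4, ?_⟩
    filter_upwards [h3.continuousAt.eventually_ne h4, hve] with q hq h5
    rw [h5, ← Finset.mul_prod_erase Finset.univ (fun l => J.wedge (M q) (p a l y) ^ κ l)
      (Finset.mem_univ l₀)]
    field_simp

end

end Vale.Agent.P281.H713
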