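import Vale.Agent.P281.H713.FibD

open scoped Manifold ContDiff Topology
open Set Filter Metric Module

namespace Vale.Agent.P281.H713

open Vale.Agent.P281 Vale.Agent.P281.MF Vale.Agent.P281.ISO Vale.Agent.P281.ELL

set_option linter.unusedSectionVars false

universe u

/-- the homogeneous expression -/
noncomputable def hx {d : ℕ} (P : Fin d → ℂ × ℂ) (κ : Fin d → ℕ) (v : ℂ × ℂ) (e m : ℕ)
    (L : ℂ × ℂ) (W : ℂ) : ℂ :=
  (∏ l, J.wedge L (P l) ^ κ l) * J.wedge L v ^ e / W ^ m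

theorem hx_scale {d : ℕ} (P : Fin d → ℂ × ℂ) (κ : Fin d → ℕ) (v : ℂ × ℂ) {e m : ℕ}
    (hm : ∑ l, κ l + e = 2 * m) (L : ℂ × ℂ) (W : ℂ) {t : ℂ} (ht : t ≠ 0) :
    hx P κ v e m (t • L) (t ^ 2 * W) = hx P κ v e m L W := by
  have h1 : ∀ w : ℂ × ℂ, J.wedge (t • L) w = t * J.wedge L w := by
    intro w
    have := cf_smul t 1 L w
    rw [one_smul, mul_one] at this
    exact this
  unfold hx
  simp only [h1, mul_pow]
  rw [Finset.prod_mul_distrib, Finset.prod_pow_eq_pow_sum, ← pow_mul, ← hm, pow_add]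
  have h2 : t ^ ∑ l, κ l ≠ 0 := pow_ne_zero _ ht
  have h3 : t ^ e ≠ 0 := pow_ne_zero _ ht
  rw [show t ^ (∑ l, κ l) * (∏ l, J.wedge L (P l) ^ κ l) * (t ^ e * J.wedge L v ^ e) =
    (t ^ (∑ l, κ l) * t ^ e) * ((∏ l, J.wedge L (P l) ^ κ l) * J.wedge L v ^ e) by ring,
    mul_div_mul_left _ _ (mul_ne_zero h2 h3)]

section

variable {E E' E₀ : Type} [NormedAddCommGroup E] [NormedSpace ℂ E] [FiniteDimensional ℂ E]
  [NormedAddCommGroup E'] [NormedSpace ℂ E'] [FiniteDimensional ℂ E']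
  [NormedAddCommGroup E₀] [NormedSpace ℂ E₀] [FiniteDimensional ℂ E₀]
variable {X Y F : Type u} [TopologicalSpace X] [ChartedSpace E X] [IsManifold 𝓘(ℂ, E) ω X]
  [TopologicalSpace Y] [ChartedSpace E' Y] [IsManifold 𝓘(ℂ, E') ω Y]
  [TopologicalSpace F] [ChartedSpace E₀ F] [IsManifold 𝓘(ℂ, E₀) ω F]
variable {f : X → Y} {S : Set Y} {d : ℕ} {Δ : Set X → ℝ} {δ : Fin d → ℝ} {𝒲 : Set (Set X)}
  {ι : Type u} {U : ι → Set Y} {p : ι → Fin d → Y → ℂ × ℂ} {c : ι → X → ℂ × ℂ}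

/-- comparison of lifts -/
theorem FL.change {i : F → X} {ca : X → ℂ × ℂ} (hca : ∀ q : F, ca (i q) ≠ 0) {e₁ : E₀} {q : F}
    {M M' : F → ℂ × ℂ} (h1 : HolV E₀ (fun w => (M w).1) q) (h2 : HolV E₀ (fun w => (M w).2) q)
    (h0 : M q ≠ 0) (h3 : ∀ᶠ w in 𝓝 q, J.wedge (ca (i w)) (M w) = 0)
    (hM' : FL E₀ i ca e₁ q M') : ∃ t : ℂ, t ≠ 0 ∧ M' q = t • M q ∧
      WL E₀ M' q e₁ = t ^ 2 * WL E₀ M q e₁ := by
  obtain ⟨t, ht1, ht2⟩ := fw h1 h2 hM'.1 hM'.2.1 h0 (by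
    filter_upwards [h3, hM'.2.2.2.1] with w h4 h5
    exact cf_trans (hca w) h4 h5) e₁
  refine ⟨t, ?_, ht1, ht2⟩
  rintro rfl
  exact hM'.2.2.1 (by rw [ht1, zero_smul])

/-- the wedge products vanish at isolated points only -/
theorem FL.isol (hE₀ : finrank ℂ E₀ = 1) {i : F → X} {ca : X → ℂ × ℂ} {e₁ : E₀} {q : F}
    {M : F → ℂ × ℂ} (hM : FL E₀ i ca e₁ q M) {P : ℂ × ℂ} (hP : P ≠ 0) :
    ∀ᶠ w in 𝓝 q, w ≠ q → J.wedge (M w) P ≠ 0 := by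
  have h1 := hol_wedgeC hM.1 hM.2.1 P
  by_cases h0 : J.wedge (M q) P = 0
  · exact cur_isol hE₀ h1 h0 (hM.dif_ne hP h0)
  · exact (h1.continuousAt.eventually_ne h0).mono fun w hw _ => hw

/-- the multiplicities are integers -/
theorem exists_mults (h : IsLineFamily E E' f S Δ δ 𝒲 U p c) {y : Y} {a : ι} (ha : y ∈ U a)
    {m : ℕ} {k : Set X → ℕ} (hk : ∀ D, (k D : ℝ) = m * Δ D) :
    ∃ κ : Fin d → ℕ, ∀ l, (κ l : ℝ) = m * δ l := by
  have h1 : ∀ l, ∃ n : ℕ, (n : ℝ) = m * δ l := by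
    intro l
    obtain ⟨x, hx, hxw⟩ := h.surj a y ha (p a l y)
    subst hx
    obtain ⟨hcx, L, -, -, hL0, hcL, -, hbr⟩ := h.lift a x ha
    obtain ⟨D, hD, u, hu, hue, -⟩ := hbr l (cf_trans hcx hcL.self_of_nhds hxw)
    have hu : IsLocalEq E D u x := hu
    have hxD : x ∈ D := by
      rw [hu.mem_iff]
      have h2 := hue.self_of_nhds
      rw [cf_trans hcx hcL.self_of_nhds hxw, pow_one] at h2
      exact h2.symm
    refine ⟨k D, ?_⟩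
    rw [hk, h.weight a l x ha hxw D hD hxD]
  choose κ hκ using h1
  exact ⟨κ, hκ⟩

end

end Vale.Agent.P281.H713
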