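import Vale.Agent.P281.H713.FibE

open scoped Manifold ContDiff Topology
open Set Filter Metric Module

namespace Vale.Agent.P281.H713

open Vale.Agent.P281 Vale.Agent.P281.MF Vale.Agent.P281.ISO Vale.Agent.P281.ELL

set_option linter.unusedSectionVars false

universe u

section

variable {E E' E₀ : Type} [NormedAddCommGroup E] [NormedSpace ℂ E] [FiniteDimensional ℂ E]
  [NormedAddCommGroup E'] [NormedSpace ℂ E'] [FiniteDimensional ℂ E']
  [NormedAddCommGroup E₀] [NormedSpace ℂ E₀] [FiniteDimensional ℂ E₀]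
variable {X Y F : Type u} [TopologicalSpace X] [ChartedSpace E X] [IsManifold 𝓘(ℂ, E) ω X]
  [TopologicalSpace Y] [ChartedSpace E' Y] [IsManifold 𝓘(ℂ, E') ω Y]
  [TopologicalSpace F] [ChartedSpace E₀ F] [IsManifold 𝓘(ℂ, E₀) ω F]
variable {f : X → Y} {S : Set Y} {d : ℕ} {Δ : Set X → ℝ} {δ : Fin d → ℝ} {𝒲 : Set (Set X)}
  {ι : Type u} {U : ι → Set Y} {p : ι → Fin d → Y → ℂ × ℂ} {c : ι → X → ℂ × ℂ}

/-- the points at which the forms have poles -/
def badP {d : ℕ} (P : Fin d → ℂ × ℂ) (κ : Fin d → ℕ) (M : F → F → ℂ × ℂ) : Set F :=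
  {q | ∃ l, κ l ≠ 0 ∧ J.wedge (M q q) (P l) = 0}

/-- the homogeneous expressions are constant on the fibres -/
theorem line_const (hE₀ : finrank ℂ E₀ = 1) (h : IsLineFamily E E' f S Δ δ 𝒲 U p c)
    [CompactSpace F] [PreconnectedSpace F]
    {i : F → X} (hi : ∀ p, HolM E₀ E i p) {y : Y} (hy : y ∉ S) (hfi : ∀ p, f (i p) = y)
    {a : ι} (ha : y ∈ U a) {e₁ : E₀} {m : ℕ} {k : Set X → ℕ} (hk : ∀ D, (k D : ℝ) = m * Δ D)
    (h𝒲 : ∀ D, Δ D ≠ 0 → D ∈ 𝒲 ∨ D ⊆ f ⁻¹' S) {κ : Fin d → ℕ} (hκ : ∀ l, (κ l : ℝ) = m * δ l)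
    {e : ℕ} (he : ∑ l, κ l + e = 2 * m) {M : F → F → ℂ × ℂ}
    (hP : ∀ l, p a l y ≠ 0) (hM : ∀ q, FL E₀ i (c a) e₁ q (M q))
    (hM' : ∀ q l, J.wedge (M q q) (p a l y) = 0 → ∃ D ∈ 𝒲, ∃ u : X → ℂ,
      IsLocalEq E D u (i q) ∧ ∀ᶠ w in 𝓝 q, J.wedge (M q w) (p a l y) = u (i w))
    {s : F → ℂ} (hs : IsSection E₀ (fun (D : Set X) p g => ∃ e, IsLocalEq E D e (i p) ∧
      ∀ᶠ q in 𝓝 p, g q = e (i q)) m k s) (v : ℂ × ℂ) :
    ∃ C, ∀ q, q ∉ badP (fun l => p a l y) κ M →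
      s q * hx (fun l => p a l y) κ v e m (M q q) (WL E₀ (M q) q e₁) = C := by
  classical
  have hca : ∀ q : F, c a (i q) ≠ 0 := fun q =>
    (h.lift a (i q) (by rw [hfi]; exact ha)).1
  refine const_of_local (E₀ := E₀) (fun q₀ => ?_) (fun q₀ => ?_)
  · obtain ⟨T, g, A, hT, hg, hA, hev⟩ := hs q₀
    have hA : HolV E₀ A q₀ := hA
    obtain ⟨w, hw, hw0, hwe⟩ := claimA h hi hy hfi ha hk h𝒲 hκ (hM q₀) (hM' q₀) hT hg
    obtain ⟨hM1, hM2, hM0, hMc, hMW⟩ := hM q₀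
    obtain ⟨h1, hh1, hh1e⟩ := cur_dif hE₀ e₁ hM1
    obtain ⟨h2, hh2, hh2e⟩ := cur_dif hE₀ e₁ hM2
    -- the Wronskian
    set H : F → ℂ := fun q => (M q₀ q).1 * h2 q + -1 * ((M q₀ q).2 * h1 q) with hH
    have hHh : HolV E₀ H q₀ :=
      (hM1.mul hh2).add ((HolV.const (-1 : ℂ) q₀).mul (hM2.mul hh1))
    have hWe : ∀ᶠ q in 𝓝 q₀, WL E₀ (M q₀) q e₁ = H q * jac E₀ (chartAt E₀ q₀) q := by
      filter_upwards [hh1e, hh2e] with q h3 h4
      rw [WL_apply, h3, h4, hH]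
      ring
    have hH0 : H q₀ ≠ 0 := by
      intro h0
      apply hMW
      rw [hWe.self_of_nhds, h0, zero_mul]
    refine ⟨fun q => A q / w q * J.wedge (M q₀ q) v ^ e / H q ^ m,
      ((hA.div hw hw0).mul ((hol_wedgeC hM1 hM2 v).pow e)).div (hHh.pow m)
        (pow_ne_zero _ hH0), ?_⟩
    have hM0e : ∀ᶠ q in 𝓝 q₀, M q₀ q ≠ 0 := by
      by_cases h0 : (M q₀ q₀).1 = 0
      · have h1 : (M q₀ q₀).2 ≠ 0 := fun h1 => hM0 (Prod.ext h0 h1)
        filter_upwards [hM2.continuousAt.eventually_ne h1] with z hz hz0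
        exact hz (by rw [hz0]; rfl)
      · filter_upwards [hM1.continuousAt.eventually_ne h0] with z hz hz0
        exact hz (by rw [hz0]; rfl)
    filter_upwards [hev, hwe, hWe, hM0e, hM1.eventually, hM2.eventually,
      eventually_eventually_nhds.2 hMc, hw.continuousAt.eventually_ne hw0]
      with q e1 e2 e3 e4 e5 e6 e7 e8 hq
    obtain ⟨t, ht, ht1, ht2⟩ := FL.change hca e5 e6 e4 e7 (hM q)
    rw [ht1, ht2, hx_scale _ _ _ he _ _ ht]
    have hWne : WL E₀ (M q₀) q e₁ ≠ 0 := by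
      intro h0
      apply (hM q).2.2.2.2
      rw [ht2, h0, mul_zero]
    have hPi : ∏ l, J.wedge (M q₀ q) (p a l y) ^ κ l ≠ 0 := by
      refine Finset.prod_ne_zero_iff.2 fun l _ => ?_
      by_cases hl : κ l = 0
      · rw [hl, pow_zero]
        exact one_ne_zero
      · refine pow_ne_zero _ fun h0 => hq ⟨l, hl, ?_⟩
        rw [ht1]
        have := cf_smul t 1 (M q₀ q) (p a l y)
        rw [one_smul] at this
        show J.wedge (t • M q₀ q) (p a l y) = 0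
        rw [this, h0, mul_zero]
    have h3 := e1 (by rw [e2]; exact mul_ne_zero e8 hPi)
    rw [e2] at h3
    have hJ : jac E₀ (chartAt E₀ q₀) q ≠ 0 := by
      intro h0
      apply hWne
      rw [e3, h0, mul_zero]
    have hHq : H q ≠ 0 := by
      intro h0
      apply hWne
      rw [e3, h0, zero_mul]
    have h3' : s q * (w q * ∏ l, J.wedge (M q₀ q) (p a l y) ^ κ l) =
        A q * jac E₀ (chartAt E₀ q₀) q ^ m := h3
    unfold hx
    rw [e3, mul_pow]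
    have hJm := pow_ne_zero m hJ
    have hHm := pow_ne_zero m hHq
    rw [eq_div_iff hHm, ← mul_div_assoc, div_mul_eq_mul_div, div_eq_iff (mul_ne_zero hHm hJm)]
    rw [div_mul_eq_mul_div, div_mul_eq_mul_div, eq_div_iff e8]
    linear_combination (J.wedge (M q₀ q) v ^ e * H q ^ m) * h3'
  · have h1 : ∀ᶠ q in 𝓝 q₀, ∀ l, q ≠ q₀ → J.wedge (M q₀ q) (p a l y) ≠ 0 :=
      Filter.eventually_all.2 fun l => (hM q₀).isol hE₀ (hP l)
    obtain ⟨hM1, hM2, hM0, hMc, hMW⟩ := hM q₀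
    have hM0e : ∀ᶠ q in 𝓝 q₀, M q₀ q ≠ 0 := by
      by_cases h0 : (M q₀ q₀).1 = 0
      · have h1 : (M q₀ q₀).2 ≠ 0 := fun h1 => hM0 (Prod.ext h0 h1)
        filter_upwards [hM2.continuousAt.eventually_ne h1] with z hz hz0
        exact hz (by rw [hz0]; rfl)
      · filter_upwards [hM1.continuousAt.eventually_ne h0] with z hz hz0
        exact hz (by rw [hz0]; rfl)
    filter_upwards [h1, hM0e, hM1.eventually, hM2.eventually,
      eventually_eventually_nhds.2 hMc] with q e1 e4 e5 e6 e7 hq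
    rintro ⟨l, hl, hl0⟩
    obtain ⟨t, ht, ht1, ht2⟩ := FL.change hca e5 e6 e4 e7 (hM q)
    apply e1 l hq
    have h2 := cf_smul t 1 (M q₀ q) (p a l y)
    have h3 : J.wedge (M q q) (p a l y) = 0 := hl0
    rw [ht1] at h3
    rw [one_smul, h3, mul_one] at h2
    exact (mul_eq_zero.1 h2.symm).resolve_left ht

end

end Vale.Agent.P281.H713
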