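import Vale.Agent.P281.H713.FibG

open scoped Manifold ContDiff Topology
open Set Filter Metric Module

namespace Vale.Agent.P281.H713

open Vale.Agent.P281 Vale.Agent.P281.MF Vale.Agent.P281.ISO Vale.Agent.P281.ELL

set_option linter.unusedSectionVars false

universe u

section

variable {E E' E₀ : Type} [NormedAddCommGroup E] [NormedSpace ℂ E] [FiniteDimensional ℂ E]
  [NormedAddCommGroup E'] [NormedSpace ℂ E'] [FiniteDimensional ℂ E']
  [NormedAddCommGroup E₀] [NormedSpace ℂ E₀] [FiniteDimensional ℂ E₀]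
variable {X Y F : Type u} [TopologicalSpace X] [ChartedSpace E X] [IsManifold 𝓘(ℂ, E) ω X]
  [TopologicalSpace Y] [ChartedSpace E' Y] [IsManifold 𝓘(ℂ, E') ω Y]
  [TopologicalSpace F] [ChartedSpace E₀ F] [IsManifold 𝓘(ℂ, E₀) ω F]
variable {f : X → Y} {S : Set Y} {d : ℕ} {Δ : Set X → ℝ} {δ : Fin d → ℝ} {𝒲 : Set (Set X)}
  {ι : Type u} {U : ι → Set Y} {p : ι → Fin d → Y → ℂ × ℂ} {c : ι → X → ℂ × ℂ}

/-- rational curves with boundary of degree `≤ 2` -/
theorem kodF_line (hE₀ : finrank ℂ E₀ = 1) (hf : ∀ x, HolM E E' f x)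
    (h : IsLineFamily E E' f S Δ δ 𝒲 U p c) [CompactSpace F] [PreconnectedSpace F]
    {i : F → X} (hi : ∀ p, HolM E₀ E i p) {y : Y} (hy : y ∉ S) (hfi : ∀ p, f (i p) = y)
    (hi₃ : ∀ p, Function.Injective (dM E₀ E i p))
    (h𝒲 : ∀ D, Δ D ≠ 0 → D ∈ 𝒲 ∨ D ⊆ f ⁻¹' S) (hs : ∑ l, δ l ≤ 2) {j : ℕ}
    (hK : KodGE E₀ (fun (D : Set X) p g => ∃ e, IsLocalEq E D e (i p) ∧
      ∀ᶠ q in 𝓝 p, g q = e (i q)) Δ j) : ∑ l, δ l = 2 ∧ j = 0 := by
  classical
  obtain ⟨m, k, s, z, hm, hk, hsec, hz, hs0, hli⟩ := hK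
  obtain ⟨a, ha⟩ := (h.cover y).1 hy
  obtain ⟨e₁, he₁⟩ : ∃ e₁ : E₀, e₁ ≠ 0 := by
    have : Nontrivial E₀ := Module.nontrivial_of_finrank_pos (R := ℂ) (by omega)
    exact exists_ne 0
  obtain ⟨κ, hκ⟩ := exists_mults h ha hk
  have hκs : ((∑ l, κ l : ℕ) : ℝ) = m * ∑ l, δ l := by
    push_cast
    rw [Finset.mul_sum]
    exact Finset.sum_congr rfl fun l _ => hκ l
  have hmr : (0 : ℝ) < m := by exact_mod_cast hm
  have hκ2 : ∑ l, κ l ≤ 2 * m := by
    have h1 : ((∑ l, κ l : ℕ) : ℝ) ≤ ((2 * m : ℕ) : ℝ) := by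
      rw [hκs]
      push_cast
      nlinarith
    exact_mod_cast h1
  obtain ⟨e, he⟩ : ∃ e, ∑ l, κ l + e = 2 * m := ⟨2 * m - ∑ l, κ l, by omega⟩
  have hlift := fun q => exists_FL h hf hi hfi hi₃ ha he₁ q
  have hP : ∀ l, p a l y ≠ 0 := (hlift z).1
  choose M hM hM' using fun q => (hlift q).2
  have hca : ∀ q : F, c a (i q) ≠ 0 := fun q =>
    (h.lift a (i q) (by rw [hfi]; exact ha)).1
  -- the point `z` is not a pole
  have hzb : z ∉ badP (fun l => p a l y) κ M := by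
    rintro ⟨l, hl, hl0⟩
    have hl0 : J.wedge (M z z) (p a l y) = 0 := hl0
    obtain ⟨D, hD, u, hu, hue⟩ := hM' z l hl0
    have hxD : i z ∈ D := by
      rw [hu.mem_iff, ← hue.self_of_nhds]
      exact hl0
    have haz : f (i z) ∈ U a := by rw [hfi]; exact ha
    have hw : Δ D = δ l := by
      refine h.weight a l (i z) haz ?_ D hD hxD
      rw [hfi]
      exact (FL.wedge_ne (hM z) (hca z)).2 hl0
    have hkD : k D ≠ 0 := by
      have h1 : (k D : ℝ) = κ l := by rw [hk, hκ, hw]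
      have h2 : k D = κ l := by exact_mod_cast h1
      rw [h2]
      exact hl
    obtain ⟨g, ⟨e', he', hge'⟩, hg0⟩ := hz D hkD
    apply hg0
    rw [hge'.self_of_nhds]
    exact he'.mem_iff.1 hxD
  have hconst := fun b v => line_const hE₀ h hi hy hfi ha hk h𝒲 hκ he hP hM hM' (hsec b) v
  -- nearby points
  obtain ⟨hM1, hM2, hM0, hMc, hMW⟩ := hM z
  have hM0e : ∀ᶠ q in 𝓝 z, M z q ≠ 0 := by
    by_cases h0 : (M z z).1 = 0
    · have h1 : (M z z).2 ≠ 0 := fun h1 => hM0 (Prod.ext h0 h1)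
      filter_upwards [hM2.continuousAt.eventually_ne h1] with z hz hz0
      exact hz (by rw [hz0]; rfl)
    · filter_upwards [hM1.continuousAt.eventually_ne h0] with z hz hz0
      exact hz (by rw [hz0]; rfl)
  have hnear : ∀ᶠ q in 𝓝 z, ∃ t : ℂ, t ≠ 0 ∧ M q q = t • M z q := by
    filter_upwards [hM0e, hM1.eventually, hM2.eventually,
      eventually_eventually_nhds.2 hMc] with q e4 e5 e6 e7
    obtain ⟨t, ht, ht1, -⟩ := FL.change hca e5 e6 e4 e7 (hM q)
    exact ⟨t, ht, ht1⟩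
  have hbad : ∀ᶠ q in 𝓝 z, q ∉ badP (fun l => p a l y) κ M := by
    have h1 : ∀ᶠ q in 𝓝 z, ∀ l, q ≠ z → J.wedge (M z q) (p a l y) ≠ 0 :=
      Filter.eventually_all.2 fun l => (hM z).isol hE₀ (hP l)
    filter_upwards [h1, hnear] with q e1 e2
    by_cases hqz : q = z
    · rw [hqz]
      exact hzb
    · rintro ⟨l, hl, hl0⟩
      obtain ⟨t, ht, ht1⟩ := e2
      apply e1 l hqz
      have h2 := cf_smul t 1 (M z q) (p a l y)
      have h3 : J.wedge (M q q) (p a l y) = 0 := hl0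
      rw [ht1] at h3
      rw [one_smul, h3, mul_one] at h2
      exact (mul_eq_zero.1 h2.symm).resolve_left ht
  have hprod : ∀ q, q ∉ badP (fun l => p a l y) κ M →
      ∏ l, J.wedge (M q q) (p a l y) ^ κ l ≠ 0 := by
    intro q hq
    refine Finset.prod_ne_zero_iff.2 fun l _ => ?_
    by_cases hl : κ l = 0
    · rw [hl, pow_zero]
      exact one_ne_zero
    · exact pow_ne_zero _ fun h0 => hq ⟨l, hl, h0⟩
  rcases Nat.eq_zero_or_pos e with he0 | he0
  · refine ⟨?_, ?_⟩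
    · rw [he0, add_zero] at he
      rw [he] at hκs
      push_cast at hκs
      have h1 : (m : ℝ) * (∑ l, δ l - 2) = 0 := by linear_combination -hκs
      rcases mul_eq_zero.1 h1 with h2 | h2
      · exact absurd h2 hmr.ne'
      · linarith
    · refine kod_zero_aux hli fun b => ?_
      obtain ⟨Cb, hCb⟩ := hconst b 0
      obtain ⟨C0, hC0⟩ := hconst 0 0
      refine ⟨Cb / C0, ?_⟩
      filter_upwards [hbad] with q hq
      have hR : hx (fun l => p a l y) κ 0 e m (M q q) (WL E₀ (M q) q e₁) ≠ 0 := by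
        unfold hx
        rw [he0, pow_zero, mul_one]
        exact div_ne_zero (hprod q hq) (pow_ne_zero _ (hM q).2.2.2.2)
      rw [← hCb q hq, ← hC0 q hq, mul_div_mul_right _ _ hR]
  · exfalso
    have h1 := (hM z).isol hE₀ (P := M z z) hM0
    obtain ⟨q, hqz, h2, h3, h4⟩ := cur_nebot hE₀ z (h1.and (hbad.and hnear))
    obtain ⟨t, ht, ht1⟩ := h4
    obtain ⟨C, hC⟩ := hconst 0 (M q q)
    have h5 := hC q h3
    have h6 : hx (fun l => p a l y) κ (M q q) e m (M q q) (WL E₀ (M q) q e₁) = 0 := by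
      unfold hx
      have h7 : J.wedge (M q q) (M q q) = 0 := by unfold J.wedge; ring
      rw [h7, zero_pow he0.ne', mul_zero, zero_div]
    rw [h6, mul_zero] at h5
    have h8 := hC z hzb
    rw [← h5] at h8
    rcases mul_eq_zero.1 h8 with h9 | h9
    · exact hs0 h9
    · unfold hx at h9
      rcases div_eq_zero_iff.1 h9 with h10 | h10
      · rcases mul_eq_zero.1 h10 with h11 | h11
        · exact hprod z hzb h11
        · have h12 := pow_eq_zero_iff he0.ne' |>.1 h11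
          apply h2 hqz
          rw [ht1] at h12
          have h13 := cf_smul 1 t (M z z) (M z q)
          rw [one_smul, one_mul, h12] at h13
          have h14 := (mul_eq_zero.1 h13.symm).resolve_left ht
          rw [cf_comm, h14, neg_zero]
      · exact pow_ne_zero _ hMW h10

end

end Vale.Agent.P281.H713
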