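import Vale.Agent.P281.H713.Core

open scoped Manifold ContDiff Topology
open Set Filter Metric Asymptotics

namespace Vale.Agent.P281.H713

open Vale.Agent.P281 Vale.Agent.P281.MF Vale.Agent.P281.ISO Vale.Agent.P281.ELL

set_option linter.unusedSectionVars false

universe u

section Build

variable {E E' E₀ : Type} [NormedAddCommGroup E] [NormedSpace ℂ E] [FiniteDimensional ℂ E]
  [NormedAddCommGroup E'] [NormedSpace ℂ E'] [FiniteDimensional ℂ E']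
  [NormedAddCommGroup E₀] [NormedSpace ℂ E₀] [FiniteDimensional ℂ E₀]
variable {X Y : Type u} [TopologicalSpace X] [ChartedSpace E X] [IsManifold 𝓘(ℂ, E) ω X]
  [TopologicalSpace Y] [ChartedSpace E' Y] [IsManifold 𝓘(ℂ, E') ω Y]

/-- The local expression of `JP e₀ (df) (dζ)`. -/
theorem JP_local {f : X → Y} (hf : ∀ x, HolM E E' f x) (e₀ : E ≃L[ℂ] (E' × E₀)) {x₀ x : X}
    {y₀ : Y} (hx₀ : x ∈ (chartAt E x₀).source) (hy₀ : f x ∈ (chartAt E' y₀).source)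
    {ζ : X → E₀} (hζ : HolV E ζ x) :
    ∃ J : X → ℂ, HolV E J x ∧ ∀ᶠ z in 𝓝 x,
      J z * jac E (chartAt E x₀) z =
        jac E' (chartAt E' y₀) (f z) * JP e₀ (dM E E' f z) (dV E ζ z) := by
  set φ := chartAt E x₀ with hφ
  set ψ := chartAt E' y₀ with hψ
  let A₁ : X → E' := fun x => ψ (f x)
  have hA₁ : HolV E A₁ x := HolV.comp (h := (ψ : Y → E')) (HolV.chart hy₀) (hf x)
  let A : X → (E →L[ℂ] E') := fun z => fderiv ℂ (A₁ ∘ φ.symm) (φ z)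
  let P : X → (E →L[ℂ] E₀) := fun z => fderiv ℂ (ζ ∘ φ.symm) (φ z)
  have hA : HolV E A x := by
    refine HolV.comp_contDiff (G := fderiv ℂ (A₁ ∘ φ.symm)) ?_ (HolV.chart hx₀)
    exact (hA₁.rep hx₀).fderiv_right (by simp)
  have hP : HolV E P x := by
    refine HolV.comp_contDiff (G := fderiv ℂ (ζ ∘ φ.symm)) ?_ (HolV.chart hx₀)
    exact (hζ.rep hx₀).fderiv_right (by simp)
  have hM := holV_JP e₀ hA hP
  have hJ : HolV E (fun z => JP e₀ (A z) (P z)) x :=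
    HolV.comp_contDiff contDiff_det.contDiffAt hM
  refine ⟨fun z => JP e₀ (A z) (P z), hJ, ?_⟩
  filter_upwards [hA₁.eventually, hζ.eventually, φ.open_source.mem_nhds hx₀,
    (hf x).continuousAt.eventually (ψ.open_source.mem_nhds hy₀)] with z h2 h3 h4 h5
  have h8 : (dV E' (ψ : Y → E') (f z)).comp (dM E E' f z) =
      (A z).comp (dV E (φ : X → E) z) := by
    have h9 := dV_comp (h := (ψ : Y → E')) (HolV.chart h5) (hf z)
    rw [← h9]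
    exact dV_eq_chart h4 h2
  have h10 : (ContinuousLinearMap.id ℂ E₀).comp (dV E ζ z) =
      (P z).comp (dV E (φ : X → E) z) := by
    rw [ContinuousLinearMap.id_comp]
    exact dV_eq_chart h4 h3
  have h11 := JP_left e₀ (dM E E' f z) (dV E ζ z) (dV E' (ψ : Y → E') (f z))
    (ContinuousLinearMap.id ℂ E₀)
  rw [h8, h10, JP_comp, det_id', mul_one] at h11
  exact h11

/-- local holomorphy of a relative form given by fibre coordinates and coefficients -/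
theorem hol_of_local {f : X → Y} (hf : ∀ x, HolM E E' f x) {S : Set Y}
    (e₀ : E ≃L[ℂ] (E' × E₀)) {N : ℕ} {𝒜 : Set (Set X)} {κ₀ : Set X → ℕ} {Θ : X → ℂ}
    (h : ∀ x, f x ∉ S → ∀ (T : Finset (Set X)) (e : Set X → X → ℂ), (∀ D, κ₀ D ≠ 0 → D ∈ T) →
      (∀ D ∈ T, IsLocalEq E D (e D) x) → ∃ (ζ : X → E₀) (c : X → ℂ), HolV E ζ x ∧ HolV E c x ∧
      ∀ᶠ z in 𝓝 x, (∀ D ∈ 𝒜, z ∉ D) → ∏ D ∈ T, e D z ^ κ₀ D ≠ 0 →
        Θ z * ∏ D ∈ T, e D z ^ κ₀ D = c z * JP e₀ (dM E E' f z) (dV E ζ z) ^ N)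
    (x₀ x : X) (y₀ : Y) (hx : f x ∉ S) (hx₀ : x ∈ (chartAt E x₀).source)
    (hy₀ : f x ∈ (chartAt E' y₀).source) (T : Finset (Set X)) (e : Set X → X → ℂ)
    (hT : ∀ D, κ₀ D ≠ 0 → D ∈ T) (he : ∀ D ∈ T, IsLocalEq E D (e D) x) :
    ∃ H : X → ℂ, HolV E H x ∧ ∀ᶠ z in 𝓝 x, (∀ D ∈ 𝒜, z ∉ D) → ∏ D ∈ T, e D z ^ κ₀ D ≠ 0 →
        jac E' (chartAt E' y₀) (f z) ^ N * Θ z * ∏ D ∈ T, e D z ^ κ₀ D =
          H z * jac E (chartAt E x₀) z ^ N := by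
  obtain ⟨ζ, c, hζ, hc, hev⟩ := h x hx T e hT he
  obtain ⟨J, hJ, hJe⟩ := JP_local hf e₀ hx₀ hy₀ hζ
  refine ⟨fun z => c z * J z ^ N, hc.mul (hJ.pow N), ?_⟩
  filter_upwards [hev, hJe] with z h1 h2 h3 h4
  have h5 := h1 h3 h4
  calc jac E' (chartAt E' y₀) (f z) ^ N * Θ z * ∏ D ∈ T, e D z ^ κ₀ D
      = jac E' (chartAt E' y₀) (f z) ^ N * (Θ z * ∏ D ∈ T, e D z ^ κ₀ D) := by ring
    _ = c z * (jac E' (chartAt E' y₀) (f z) * JP e₀ (dM E E' f z) (dV E ζ z)) ^ N := by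
        rw [h5]; ring
    _ = c z * J z ^ N * jac E (chartAt E x₀) z ^ N := by rw [← h2]; ring

theorem slice_fderiv {W : Type} [NormedAddCommGroup W] [NormedSpace ℂ W] {q : E₀ → X} {v : E₀}
    (hq : ContMDiffAt 𝓘(ℂ, E₀) 𝓘(ℂ, E) ω q v) {ζ : X → W} (hζ : HolV E ζ (q v)) :
    ContDiffAt ℂ ω (fun z => ζ (q z)) v ∧ fderiv ℂ (fun z => ζ (q z)) v =
      (dV E ζ (q v)).comp (mfderiv 𝓘(ℂ, E₀) 𝓘(ℂ, E) q v : E₀ →L[ℂ] E) := by
  have h1 : ContMDiffAt 𝓘(ℂ, E₀) 𝓘(ℂ, W) ω (ζ ∘ q) v := ContMDiffAt.comp v hζ hq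
  refine ⟨contMDiffAt_iff_contDiffAt.1 h1, ?_⟩
  have h3 := mfderiv_comp v (hζ.mdiff) (hq.mdifferentiableAt (by simp))
  rw [← mfderiv_eq_fderiv]
  exact h3

theorem slice_ker {f : X → Y} (hf : ∀ x, HolM E E' f x) {q : E₀ → X} {v : E₀}
    (hq : ContMDiffAt 𝓘(ℂ, E₀) 𝓘(ℂ, E) ω q v) (hfq : ∀ᶠ z in 𝓝 v, f (q z) = f (q v)) (w : E₀) :
    dM E E' f (q v) ((mfderiv 𝓘(ℂ, E₀) 𝓘(ℂ, E) q v : E₀ →L[ℂ] E) w) = 0 := by
  have h1 : f ∘ q =ᶠ[𝓝 v] fun _ => f (q v) := hfq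
  have h2 := mfderiv_comp v (ContMDiffAt.mdifferentiableAt (hf (q v)) (by simp))
    (hq.mdifferentiableAt (by simp))
  rw [h1.mfderiv_eq, mfderiv_const] at h2
  have h3 := congrArg (fun A : E₀ →L[ℂ] E' => A w) h2
  exact h3.symm

/-- comparison of `JP e₀ (df) (dζ)` with `JP e₀ (df) P` on a slice. -/
theorem JP_slice {f : X → Y} (hf : ∀ x, HolM E E' f x) (e₀ : E ≃L[ℂ] (E' × E₀)) {q : E₀ → X}
    {v : E₀} (hq : ContMDiffAt 𝓘(ℂ, E₀) 𝓘(ℂ, E) ω q v) (hfq : ∀ᶠ z in 𝓝 v, f (q z) = f (q v))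
    {ζ : X → E₀} (hζ : HolV E ζ (q v))
    (hker : ∀ ξ, dM E E' f (q v) ξ = 0 → dV E ζ (q v) ξ = 0 → ξ = 0) {P : E →L[ℂ] E₀}
    (hP : P.comp (mfderiv 𝓘(ℂ, E₀) 𝓘(ℂ, E) q v : E₀ →L[ℂ] E) = ContinuousLinearMap.id ℂ E₀) :
    JP e₀ (dM E E' f (q v)) (dV E ζ (q v)) =
      (fderiv ℂ (fun z => ζ (q z)) v).det * JP e₀ (dM E E' f (q v)) P := by
  set t : E₀ →L[ℂ] E := mfderiv 𝓘(ℂ, E₀) 𝓘(ℂ, E) q v with ht
  set B : E₀ →L[ℂ] E₀ := fderiv ℂ (fun z => ζ (q z)) v with hB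
  have hBt : B = (dV E ζ (q v)).comp t := (slice_fderiv hq hζ).2
  have hAt : ∀ w, dM E E' f (q v) (t w) = 0 := slice_ker hf hq hfq
  have hPt : ∀ w, P (t w) = w := fun w => congrArg (fun L : E₀ →L[ℂ] E₀ => L w) hP
  have hinj : Function.Injective B := by
    rw [injective_iff_map_eq_zero]
    intro w hw
    rw [hBt] at hw
    have h1 := hker (t w) (hAt w) hw
    rw [← hPt w, h1, map_zero]
  have hdet : B.det ≠ 0 := by
    have h1 : LinearMap.ker (B : E₀ →ₗ[ℂ] E₀) = ⊥ := LinearMap.ker_eq_bot.2 hinj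
    intro h2
    exact (LinearMap.bot_lt_ker_of_det_eq_zero h2).ne' h1
  set e := B.toContinuousLinearEquivOfDetNeZero hdet with he
  have he' : (e : E₀ →L[ℂ] E₀) = B := by
    rw [he, ContinuousLinearMap.coe_toContinuousLinearEquivOfDetNeZero]
  set P₁ : E →L[ℂ] E₀ := (e.symm : E₀ →L[ℂ] E₀).comp (dV E ζ (q v)) with hP₁
  have hP₁t : ∀ w, P₁ (t w) = w := by
    intro w
    show e.symm (dV E ζ (q v) (t w)) = w
    rw [e.symm_apply_eq]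
    have h1 : e w = B w := by rw [← he']; rfl
    rw [h1, hBt]
    rfl
  rw [JP_indep e₀ hAt hP₁t hPt |>.symm.symm]
  have h2 := JP_left e₀ (dM E E' f (q v)) P₁ (ContinuousLinearMap.id ℂ E') B
  have h3 : B.comp P₁ = dV E ζ (q v) := by
    rw [← he']
    ext w
    show e (e.symm (dV E ζ (q v) w)) = _
    rw [e.apply_symm_apply]
  rw [h3, det_id', one_mul, ContinuousLinearMap.id_comp] at h2
  exact h2

end Build

end Vale.Agent.P281.H713
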