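import Vale.Agent.P281.H713.GForm

open scoped Manifold ContDiff Topology ENNReal NNReal
open Set Filter Metric Module MeasureTheory

namespace Vale.Agent.P281.H713

open Vale.Agent.P281 Vale.Agent.P281.MF Vale.Agent.P281.ISO Vale.Agent.P281.ELL

set_option linter.unusedSectionVars false

universe u

section Mean

variable {d : ℕ}

theorem poly_sup {r : ℝ} (hr : 0 < r) (A : ℝ≥0) : ∃ M : ℝ, 0 ≤ M ∧
    ∀ (u : (Fin d → ℂ) → ℂ) (v₀ : Fin d → ℂ), DifferentiableOn ℂ u (ball v₀ r) →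
      ∫⁻ v in ball v₀ r, ‖u v‖ₑ ^ 2 ≤ A → ∀ z ∈ ball v₀ (r / 2), ‖u z‖ ≤ M := by
  have hr2 : 0 < r / 2 := by positivity
  set b : ℝ≥0∞ := volume (ball (0 : Fin d → ℂ) (r / 2)) with hb
  have hb0 : b ≠ 0 := (measure_ball_pos volume 0 hr2).ne'
  have hbt : b ≠ ⊤ := measure_ball_lt_top.ne
  refine ⟨Real.sqrt ((A : ℝ≥0∞) / b).toReal, by positivity, fun u v₀ hu hA z hz => ?_⟩
  have hsub : ball z (r / 2) ⊆ ball v₀ r := by
    refine ball_subset_ball' ?_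
    have := mem_ball.1 hz
    linarith
  have h0 := H124.rpow_mul_volume_le (volume : Measure (Fin d → ℂ)) (hu.mono hsub) (p := 2)
    (by norm_num)
  have h1 : ‖u z‖ₑ ^ 2 * volume (ball z (r / 2)) ≤ A := by
    have h2 : ∀ v, ‖u v‖ₑ ^ (2 : ℝ) = ‖u v‖ₑ ^ 2 := fun v => ENNReal.rpow_ofNat _ _
    simp only [h2] at h0
    exact h0.trans ((lintegral_mono_set hsub).trans hA)
  have h2 : volume (ball z (r / 2)) = b := Measure.addHaar_ball_center _ _ _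
  rw [h2] at h1
  have h3 : ‖u z‖ₑ ^ 2 ≤ (A : ℝ≥0∞) / b := by
    rw [ENNReal.le_div_iff_mul_le (Or.inl hb0) (Or.inl hbt)]
    exact h1
  refine Real.le_sqrt_of_sq_le ?_
  have h4 : (‖u z‖ₑ ^ 2).toReal = ‖u z‖ ^ 2 := by
    rw [ENNReal.toReal_pow, toReal_enorm]
  rw [← h4]
  exact ENNReal.toReal_mono (ENNReal.div_ne_top (by simp) hb0) h3

end Mean

section Bound

variable {E E' : Type} [NormedAddCommGroup E] [NormedSpace ℂ E] [FiniteDimensional ℂ E]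
  [NormedAddCommGroup E'] [NormedSpace ℂ E'] [FiniteDimensional ℂ E']
variable {X Y : Type u} [TopologicalSpace X] [ChartedSpace E X] [IsManifold 𝓘(ℂ, E) ω X]
  [TopologicalSpace Y] [ChartedSpace E' Y] [IsManifold 𝓘(ℂ, E') ω Y]
variable {V : Type} [NormedAddCommGroup V] [InnerProductSpace ℂ V] [FiniteDimensional ℂ V]
variable {n g d : ℕ} {Q : (Fin n → ℝ) → (Fin n → ℝ) → ℝ}
variable {f : X → Y} {S : Set Y} {ι : Type u} {U : ι → Set Y}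
  {π : ι → Y → ((Fin n → ℝ) ≃L[ℝ] V)} {α : ι → X → V}

/-- the lift of the map to the torus along a polydisc -/
theorem poly_lift (hC : IsAlbaneseFamily E E' d f S Q U π α) {q : (Fin d → ℂ) → X}
    {v₀ : Fin d → ℂ} {r : ℝ} (hq : IsPolydisc E f q v₀ r) {a : ι} (ha : f (q v₀) ∈ U a) :
    ∃ h : (Fin d → ℂ) → V, DifferentiableOn ℂ h (ball v₀ r) ∧
      (∀ v ∈ ball v₀ r, IsCongr (π a (f (q v₀))) (α a (q v)) (h v)) := by
  obtain ⟨hq1, hq2, hq3⟩ := hq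
  set y' := f (q v₀) with hy'
  obtain ⟨ε, hε, hdis⟩ := lam_discrete (π a y')
  have : CompleteSpace V := FiniteDimensional.complete ℂ V
  obtain ⟨H, hH1, hH2, -⟩ := exists_lift (E := Fin d → ℂ) (p := cls (π a y'))
    (Λ := Lam (π a y')) hε hdis
    (fun w w' => cls_eq) (B := ball v₀ r) isOpen_ball (convex_ball v₀ r)
    (Q := fun v => cls (π a y') (α a (q v)))
    (fun v hv => by
      have hv' : f (q v) ∈ U a := by rw [hq3 v hv]; exact ha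
      obtain ⟨β, h4, h5⟩ := hC.lift a (q v) hv'
      have h6 := hq1 v hv
      refine ⟨fun z => β (q z), (slice_fderiv h6 h4).1, ?_⟩
      filter_upwards [h6.continuousAt.eventually h5, isOpen_ball.mem_nhds hv] with z h7 h8
      rw [hq3 z h8] at h7
      exact (congr_iff_cls.1 h7).symm)
  exact ⟨H, hH1, fun v hv => congr_iff_cls.2 (hH2 v hv).symm⟩

/-- two lifts differ by a constant -/
theorem lift_constG {P : (Fin n → ℝ) ≃L[ℝ] V} {h h' w : (Fin d → ℂ) → V} {v₀ : Fin d → ℂ}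
    (hc : ContinuousAt h v₀) (hc' : ContinuousAt h' v₀)
    (h1 : ∀ᶠ z in 𝓝 v₀, IsCongr P (w z) (h z)) (h2 : ∀ᶠ z in 𝓝 v₀, IsCongr P (w z) (h' z)) :
    h' =ᶠ[𝓝 v₀] fun z => h z + (h' v₀ - h v₀) := by
  obtain ⟨ε, hε, hdis⟩ := lam_discrete P
  refine lift_diff (p := cls P) hε hdis (fun w w' => cls_eq.1) hc hc' ?_
  filter_upwards [h1, h2] with z h3 h4
  rw [← congr_iff_cls.1 h3, ← congr_iff_cls.1 h4]

variable {e : Basis (Fin g) ℂ V} {i₀ : Fin g → Fin d} {l : Fin g → List (Fin (d + 1))}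
  {τ : Tup d g V} {k D : ℕ} {Ψ : ((Fin d → ℂ) → V) → (Fin d → ℂ) → ℂ}
  {π₀ : (Fin n → ℝ) ≃L[ℝ] V} {G₀ : V ≃L[ℂ] V}

/-- the uniform bound -/
theorem form_boundG (hC : IsAlbaneseFamily E E' d f S Q U π α) (hn : 0 < n)
    (e₀ : E ≃L[ℂ] (E' × (Fin d → ℂ))) (hΨ : IsHP D Ψ) (hk : 2 * (n * n + 1) ≤ k)
    (h₀ : IsPol Q π₀ G₀) {Θ : X → ℂ}
    (hΘ : ∀ a x, f x ∈ U a → ∀ β, Lft E f π α a x β → ∀ q v P, SlG E f q v x P →
      Θ x = gval Q π₀ G₀ (tm e i₀ l τ k Ψ) (π a (f x)) (fun t => β (q t)) v *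
        JP e₀ (dM E E' f x) P ^ (k * nk l + D)) {r : ℝ} (hr : 0 < r) :
    ∃ C : ℝ, ∀ (v₀ : Fin d → ℂ) (q : (Fin d → ℂ) → X),
      (∀ v ∈ ball v₀ r, ContMDiffAt 𝓘(ℂ, Fin d → ℂ) 𝓘(ℂ, E) ω q v) → InjOn q (ball v₀ r) →
      (∀ v ∈ ball v₀ r, f (q v) = f (q v₀)) → f (q v₀) ∉ S → ∀ P : E →L[ℂ] (Fin d → ℂ),
      P.comp (mfderiv 𝓘(ℂ, Fin d → ℂ) 𝓘(ℂ, E) q v₀ : (Fin d → ℂ) →L[ℂ] E) =
        ContinuousLinearMap.id ℂ (Fin d → ℂ) →
      ‖Θ (q v₀)‖ ≤ C * ‖JP e₀ (dM E E' f (q v₀)) P ^ (k * nk l + D)‖ := by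
  obtain ⟨A, hA⟩ := hC.volume
  obtain ⟨M, hM0, hM⟩ := poly_sup (d := d) hr A
  have hr2 : 0 < r / 2 := half_pos hr
  obtain ⟨K, hK0, hK⟩ := gval_bound (Q := Q) (π₀ := π₀) (G₀ := G₀) hn hr2 hM0 e i₀ l τ hk hΨ h₀
  refine ⟨K, fun v₀ q h1 h2 h3 h4 P h5 => ?_⟩
  obtain ⟨a, ha⟩ := (hC.cover _).1 h4
  obtain ⟨h, hh1, hh2⟩ := poly_lift hC ⟨h1, h2, h3⟩ ha
  obtain ⟨β, hβ⟩ := hC.lift a (q v₀) ha
  have hβ : Lft E f π α a (q v₀) β := hβ
  obtain ⟨G, hG⟩ : ∃ G, IsPol Q (π a (f (q v₀))) G := hC.polarized a _ ha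
  have hv₀ : v₀ ∈ ball v₀ r := mem_ball_self hr
  have hqc := (h1 v₀ hv₀).continuousAt
  have hslc : SlG E f q v₀ (q v₀) P :=
    ⟨rfl, h1 v₀ hv₀, eventually_of_mem (ball_mem_nhds v₀ hr) h3, h5⟩
  have : CompleteSpace V := FiniteDimensional.complete ℂ V
  have hhan : ∀ v ∈ ball v₀ r, ContDiffAt ℂ ω h v := fun v hv =>
    (MF.analyticAt_of_differentiableOn isOpen_ball hh1 hv).contDiffAt
  have hcv : gval Q π₀ G₀ (tm e i₀ l τ k Ψ) (π a (f (q v₀))) (fun t => β (q t)) v₀ =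
      gval Q π₀ G₀ (tm e i₀ l τ k Ψ) (π a (f (q v₀))) h v₀ := by
    have h6 : (fun t => β (q t)) =ᶠ[𝓝 v₀] fun z => h z + (β (q v₀) - h v₀) := by
      refine lift_constG (P := π a (f (q v₀))) (w := fun z => α a (q z))
        (hh1.continuousOn.continuousAt (ball_mem_nhds v₀ hr))
        (slice_fderiv (h1 v₀ hv₀) hβ.1).1.continuousAt
        (eventually_of_mem (ball_mem_nhds v₀ hr) hh2) ?_
      filter_upwards [hqc.eventually hβ.2, ball_mem_nhds v₀ hr] with z h7 h8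
      rw [h3 z h8] at h7
      exact h7
    rw [gval_congr hΨ h6, gval_shift hΨ _ (hhan v₀ hv₀)]
  rw [hΘ a _ ha β hβ q v₀ P hslc, hcv, norm_mul]
  refine mul_le_mul_of_nonneg_right ?_ (norm_nonneg _)
  have hsub : ball v₀ (r / 2) ⊆ ball v₀ r := ball_subset_ball (by linarith)
  refine hK _ G hG h v₀ (hh1.mono hsub) fun m hm v hv => ?_
  refine hM (minor m fun u => G (h u)) v₀ ?_ (hA a q v₀ r ⟨h1, h2, h3⟩ ha h hh1 hh2 G hG m hm) v hv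
  intro z hz
  have h6 : ContDiffAt ℂ ω (fun u => (G : V →L[ℂ] V) (h u)) z :=
    (G : V →L[ℂ] V).contDiff.contDiffAt.comp z (hhan z hz)
  exact ((minor_contDiffAt m h6).differentiableAt (by simp)).differentiableWithinAt

theorem relFormG (hC : IsAlbaneseFamily E E' d f S Q U π α) (hn : 0 < n)
    (hf : ∀ x, HolM E E' f x) (e₀ : E ≃L[ℂ] (E' × (Fin d → ℂ))) (hΨ : IsHP D Ψ)
    (hk : 2 * (n * n + 1) ≤ k) (h₀ : IsPol Q π₀ G₀) {Θ : X → ℂ}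
    (hΘ : ∀ a x, f x ∈ U a → ∀ β, Lft E f π α a x β → ∀ q v P, SlG E f q v x P →
      Θ x = gval Q π₀ G₀ (tm e i₀ l τ k Ψ) (π a (f x)) (fun t => β (q t)) v *
        JP e₀ (dM E E' f x) P ^ (k * nk l + D)) :
    RelForm f S e₀ (k * nk l + D) ∅ (fun _ => 0) Θ := by
  refine ⟨hol_of_local hf e₀ ?_, ?_⟩
  · intro x hx T eD _ _
    obtain ⟨ζ, hζ, hinj⟩ := hC.coord x hx
    obtain ⟨c, hc, hev⟩ := form_localG hC hn hf e₀ hΨ (by omega) h₀ hΘ hx hζ hinj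
    refine ⟨ζ, c, hζ, hc, ?_⟩
    filter_upwards [hev] with z h4 _ _
    simp only [pow_zero, Finset.prod_const_one, mul_one]
    exact h4
  · intro r hr
    obtain ⟨C, hC'⟩ := form_boundG hC hn e₀ hΨ hk h₀ hΘ hr
    exact ⟨C, fun v₀ q h1 h2 h3 h4 _ P h6 => hC' v₀ q h1 h2 h3 h4 P h6⟩

end Bound

end Vale.Agent.P281.H713
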