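import Mathlib

open scoped Topology ContDiff
open Set Filter Module

namespace Vale.Agent.P281.H713

set_option linter.unusedSectionVars false

section Br

variable {d : ℕ} {W W' : Type*} [NormedAddCommGroup W] [NormedSpace ℂ W] [NormedAddCommGroup W']
  [NormedSpace ℂ W']

/-- value (multiplied by a weight) and derivatives of a function -/
noncomputable def jr (ε : Fin d → W) (w : ℂ) (g : W → ℂ) (p : W) : Fin (d + 1) → ℂ :=
  Fin.cons (w * g p) fun b => fderiv ℂ g p (ε b)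

/-- the bracket of `A` and `g`, of weight `w`, with `g` replacing `A j` -/
noncomputable def brk (ε : Fin d → W) (A : Fin (d + 1) → W → ℂ) (w : ℂ) (j : Fin (d + 1))
    (g : W → ℂ) (p : W) : ℂ :=
  ((Matrix.of fun i => jr ε 1 (A i) p).updateRow j (jr ε w g p)).det

/-- iterated brackets -/
noncomputable def wd (ε : Fin d → W) (A : Fin (d + 1) → W → ℂ) :
    List (Fin (d + 1)) → (W → ℂ) → W → ℂ
  | [], g => g
  | j :: l, g => brk ε A (1 + l.length * (d + 1) : ℕ) j (wd ε A l g)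

theorem jr_congr {ε : Fin d → W} {w : ℂ} {g g' : W → ℂ} {p : W} (h : g =ᶠ[𝓝 p] g') :
    jr ε w g p = jr ε w g' p := by
  unfold jr
  rw [h.fderiv_eq, h.self_of_nhds]

theorem contDiffAt_det {k : ℕ} {M : W → Matrix (Fin k) (Fin k) ℂ} {p : W}
    (h : ∀ i j, ContDiffAt ℂ ω (fun p => M p i j) p) :
    ContDiffAt ℂ ω (fun p => (M p).det) p := by
  have h1 : (fun p => (M p).det) = fun p =>
      ∑ σ : Equiv.Perm (Fin k), ((Equiv.Perm.sign σ : ℤ) : ℂ) * ∏ i, M p (σ i) i := by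
    funext p
    rw [Matrix.det_apply']
  rw [h1]
  exact ContDiffAt.sum fun σ _ => contDiffAt_const.mul (contDiffAt_prod fun i _ => h _ _)

theorem contDiffAt_fd {V : Type*} [NormedAddCommGroup V] [NormedSpace ℂ V] {g : W → V} {p : W}
    (hg : ContDiffAt ℂ ω g p) (v : W) :
    ContDiffAt ℂ ω (fun p => fderiv ℂ g p v) p :=
  (hg.fderiv_right (m := ω) (by simp)).clm_apply contDiffAt_const

theorem contDiffAt_jr {ε : Fin d → W} {w : ℂ} {g : W → ℂ} {p : W} (hg : ContDiffAt ℂ ω g p)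
    (i : Fin (d + 1)) : ContDiffAt ℂ ω (fun p => jr ε w g p i) p := by
  unfold jr
  refine Fin.cases ?_ (fun b => ?_) i
  · exact contDiffAt_const.mul hg
  · exact contDiffAt_fd hg _

theorem contDiffAt_brk {ε : Fin d → W} {A : Fin (d + 1) → W → ℂ} {p : W}
    (hA : ∀ i, ContDiffAt ℂ ω (A i) p) (w : ℂ) (j : Fin (d + 1)) {g : W → ℂ}
    (hg : ContDiffAt ℂ ω g p) : ContDiffAt ℂ ω (brk ε A w j g) p := by
  refine contDiffAt_det fun i k => ?_
  by_cases hij : i = j
  · subst hij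
    simp only [Matrix.updateRow_self]
    exact contDiffAt_jr hg k
  · simp only [Matrix.updateRow_ne hij, Matrix.of_apply]
    exact contDiffAt_jr (hA i) k

theorem contDiffAt_wd {ε : Fin d → W} {A : Fin (d + 1) → W → ℂ} {p : W}
    (hA : ∀ i, ContDiffAt ℂ ω (A i) p) {g : W → ℂ} (hg : ContDiffAt ℂ ω g p)
    (l : List (Fin (d + 1))) : ContDiffAt ℂ ω (wd ε A l g) p := by
  induction l with
  | nil => exact hg
  | cons j l ih => exact contDiffAt_brk hA _ j ih

/-- the matrix of a change of coordinates -/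
noncomputable def tmat (r : Fin d → ℂ) (Ψ : Matrix (Fin d) (Fin d) ℂ) :
    Matrix (Fin (d + 1)) (Fin (d + 1)) ℂ :=
  Matrix.of (Fin.cons (Fin.cons 1 r) fun c => Fin.cons 0 (Ψ c))

theorem det_tmat (r : Fin d → ℂ) (Ψ : Matrix (Fin d) (Fin d) ℂ) : (tmat r Ψ).det = Ψ.det := by
  rw [Matrix.det_succ_column_zero, Fin.sum_univ_succ]
  have h1 : (tmat r Ψ).submatrix (Fin.succAbove 0) Fin.succ = Ψ := by
    ext i j
    simp [tmat]
  have h2 : ∀ i : Fin d, tmat r Ψ i.succ 0 = 0 := fun i => by simp [tmat]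
  have h3 : tmat r Ψ 0 0 = 1 := by simp [tmat]
  rw [h1, h3]
  simp [h2]

theorem vecMul_tmat (r : Fin d → ℂ) (Ψ : Matrix (Fin d) (Fin d) ℂ) (a : ℂ) (x : Fin d → ℂ) :
    Matrix.vecMul (Fin.cons a x : Fin (d + 1) → ℂ) (tmat r Ψ) =
      (Fin.cons a fun b => a * r b + ∑ c, x c * Ψ c b : Fin (d + 1) → ℂ) := by
  funext i
  refine Fin.cases ?_ (fun b => ?_) i
  · simp [Matrix.vecMul, dotProduct, Fin.sum_univ_succ, tmat]
  · simp [Matrix.vecMul, dotProduct, Fin.sum_univ_succ, tmat]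

/-- transformation of the jets -/
theorem jr_transf {ε : Fin d → W} {ε' : Fin d → W'} {g : W → ℂ} {g' : W' → ℂ} {ψ : W' → W}
    {Ψ : Matrix (Fin d) (Fin d) ℂ} {J : W' → ℂ} {c : ℂ} {w : ℕ} {p : W'}
    (hψ : DifferentiableAt ℂ ψ p) (hΨ : ∀ b, fderiv ℂ ψ p (ε' b) = ∑ c, Ψ c b • ε c)
    (hJ : DifferentiableAt ℂ J p) (hJ0 : J p ≠ 0) (hg : DifferentiableAt ℂ g (ψ p))
    (hg' : g' =ᶠ[𝓝 p] fun u => c * J u ^ w * g (ψ u)) :
    jr ε' w g' p = (c * J p ^ w) • Matrix.vecMul (jr ε w g (ψ p))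
      (tmat (fun b => fderiv ℂ J p (ε' b) / J p) Ψ) := by
  rw [jr_congr hg']
  unfold jr
  rw [vecMul_tmat]
  have h1 : HasFDerivAt (fun u => g (ψ u)) ((fderiv ℂ g (ψ p)).comp (fderiv ℂ ψ p)) p :=
    hg.hasFDerivAt.comp p hψ.hasFDerivAt
  have h2 : HasFDerivAt (fun u => c * J u ^ w) (c • ((w * J p ^ (w - 1)) • fderiv ℂ J p)) p := by
    have := (hJ.hasFDerivAt.pow w).const_mul c
    rwa [nsmul_eq_mul] at this
  have h3 : fderiv ℂ (fun u => c * J u ^ w * g (ψ u)) p =
      (c * J p ^ w) • (fderiv ℂ g (ψ p)).comp (fderiv ℂ ψ p) +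
        g (ψ p) • c • (w * J p ^ (w - 1)) • fderiv ℂ J p := (h2.mul h1).fderiv
  funext i
  refine Fin.cases ?_ (fun b => ?_) i
  · simp only [Fin.cons_zero, Pi.smul_apply, smul_eq_mul]
    ring
  · simp only [Fin.cons_succ, Pi.smul_apply, smul_eq_mul]
    rw [h3]
    simp only [add_apply, smul_apply, ContinuousLinearMap.comp_apply, smul_eq_mul, hΨ, map_sum,
      map_smul]
    have h4 : (w : ℂ) * J p ^ (w - 1) * J p = w * J p ^ w := by
      rcases Nat.eq_zero_or_pos w with h0 | h0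
      · simp [h0]
      · rw [mul_assoc, ← pow_succ, Nat.sub_add_cancel h0]
    have h5 : ∀ x, (w : ℂ) * J p ^ (w - 1) * x = w * J p ^ w * (x / J p) := by
      intro x
      rw [← h4]
      field_simp
    rw [mul_add, Finset.mul_sum, Finset.mul_sum]
    have h6 : g (ψ p) * (c * ((w : ℂ) * J p ^ (w - 1) * (fderiv ℂ J p) (ε' b))) =
        c * J p ^ w * (w * g (ψ p) * ((fderiv ℂ J p) (ε' b) / J p)) := by
      rw [h5]
      ring
    rw [h6, add_comm]
    congr 1
    refine Finset.sum_congr rfl fun x _ => ?_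
    ring

theorem det_upd (N : Fin (d + 1) → Fin (d + 1) → ℂ) (R : Fin (d + 1) → ℂ)
    (T : Matrix (Fin (d + 1)) (Fin (d + 1)) ℂ) (a b : ℂ) (j : Fin (d + 1)) :
    ((Matrix.of fun i => a • Matrix.vecMul (N i) T).updateRow j (b • Matrix.vecMul R T)).det =
      a ^ d * b * ((Matrix.of N).updateRow j R).det * T.det := by
  have h1 : (Matrix.of fun i => a • Matrix.vecMul (N i) T).updateRow j (b • Matrix.vecMul R T) =
      Matrix.diagonal (Function.update (fun _ => a) j b) * (((Matrix.of N).updateRow j R) * T) := by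
    ext i k
    rw [Matrix.diagonal_mul]
    by_cases hij : i = j
    · subst hij
      rw [Matrix.updateRow_self, Function.update_self, Matrix.mul_apply_eq_vecMul,
        Matrix.updateRow_self]
      rfl
    · rw [Matrix.updateRow_ne hij, Function.update_of_ne hij, Matrix.mul_apply_eq_vecMul,
        Matrix.updateRow_ne hij]
      rfl
  rw [h1, Matrix.det_mul, Matrix.det_mul, Matrix.det_diagonal,
    Finset.prod_update_of_mem (Finset.mem_univ j)]
  simp only [Finset.prod_const]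
  have h2 : (Finset.univ \ {j} : Finset (Fin (d + 1))).card = d := by
    rw [Finset.card_sdiff_of_subset (Finset.subset_univ _)]
    simp
  rw [h2]
  ring

/-- transformation of the iterated brackets -/
theorem wd_transf {ε : Fin d → W} {ε' : Fin d → W'} {A : Fin (d + 1) → W → ℂ}
    {A' : Fin (d + 1) → W' → ℂ} {g : W → ℂ} {g' : W' → ℂ} {ψ : W' → W}
    {Ψ : W' → Matrix (Fin d) (Fin d) ℂ} {c : ℂ} {p : W'} (hψ : ContDiffAt ℂ ω ψ p)
    (hΨ : ∀ᶠ u in 𝓝 p, ∀ b, fderiv ℂ ψ u (ε' b) = ∑ c, Ψ u c b • ε c)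
    (hJ : ContDiffAt ℂ ω (fun u => (Ψ u).det) p) (hJ0 : (Ψ p).det ≠ 0)
    (hA : ∀ i, ContDiffAt ℂ ω (A i) (ψ p)) (hg : ContDiffAt ℂ ω g (ψ p))
    (hA' : ∀ i, A' i =ᶠ[𝓝 p] fun u => c * (Ψ u).det * A i (ψ u))
    (hg' : g' =ᶠ[𝓝 p] fun u => c * (Ψ u).det * g (ψ u)) (l : List (Fin (d + 1))) :
    wd ε' A' l g' =ᶠ[𝓝 p] fun u => c ^ (1 + l.length * d) *
      (Ψ u).det ^ (1 + l.length * (d + 1)) * wd ε A l g (ψ u) := by
  have hn : (ω : WithTop ℕ∞) ≠ 0 := by simp
  have hA1 : ∀ᶠ u in 𝓝 p, ∀ i, ContDiffAt ℂ ω (A i) (ψ u) :=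
    (Filter.eventually_all).2 fun i =>
      hψ.continuousAt.eventually ((hA i).eventually (by simp))
  have hA'1 : ∀ᶠ u in 𝓝 p, ∀ i, A' i =ᶠ[𝓝 u] fun u => c * (Ψ u).det * A i (ψ u) :=
    (Filter.eventually_all).2 fun i => eventually_eventually_nhds.2 (hA' i)
  induction l with
  | nil =>
    filter_upwards [hg'] with u hu
    simp only [wd, List.length_nil, zero_mul, add_zero, pow_one]
    exact hu
  | cons j l ih =>
    filter_upwards [hψ.eventually (by simp), hΨ, hJ.eventually (by simp),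
      hJ.continuousAt.eventually_ne hJ0, hA1, hA'1,
      hψ.continuousAt.eventually ((contDiffAt_wd hA hg l).eventually (by simp)),
      eventually_eventually_nhds.2 ih] with u h1 h2 h3 h4 h5 h6 h7 h8
    have e1 := jr_transf (g' := wd ε' A' l g') (h1.differentiableAt hn) h2
      (h3.differentiableAt hn) h4 (h7.differentiableAt hn) h8
    have e2 : ∀ i, jr ε' 1 (A' i) u = (c * (Ψ u).det) • Matrix.vecMul (jr ε 1 (A i) (ψ u))
        (tmat (fun b => fderiv ℂ (fun u => (Ψ u).det) u (ε' b) / (Ψ u).det) (Ψ u)) := by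
      intro i
      have := jr_transf (w := 1) (c := c) (g' := A' i) (h1.differentiableAt hn) h2
        (h3.differentiableAt hn) h4 ((h5 i).differentiableAt hn)
        ((h6 i).mono fun z hz => by simp only [pow_one]; exact hz)
      rw [pow_one, Nat.cast_one] at this
      exact this
    show brk ε' A' _ j (wd ε' A' l g') u = _ * brk ε A _ j (wd ε A l g) (ψ u)
    unfold brk
    rw [e1]
    simp only [e2]
    rw [det_upd, det_tmat]
    simp only [List.length_cons]
    ring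

/-- slices -/
theorem wd_slice {P : Type*} [NormedAddCommGroup P] [NormedSpace ℂ P] {ε : Fin d → W}
    {A : Fin (d + 1) → P × W → ℂ} {g : P × W → ℂ} {x : P × W}
    (hA : ∀ i, ContDiffAt ℂ ω (A i) x) (hg : ContDiffAt ℂ ω g x) (l : List (Fin (d + 1))) :
    wd ε (fun i u => A i (x.1, u)) l (fun u => g (x.1, u)) x.2 =
      wd (fun b => ((0 : P), ε b)) A l g x := by
  have hψ : ContDiffAt ℂ ω (fun u : W => (x.1, u)) x.2 := contDiffAt_const.prodMk contDiffAt_id
  have h1 := wd_transf (ε' := ε) (ε := fun b => ((0 : P), ε b)) (A' := fun i u => A i (x.1, u))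
    (g' := fun u => g (x.1, u)) (ψ := fun u => (x.1, u)) (Ψ := fun _ => 1) (c := 1) (p := x.2)
    hψ (Eventually.of_forall fun u b => ?_) (by simpa using contDiffAt_const)
    (by simp) hA hg (fun i => Eventually.of_forall fun u => by simp)
    (Eventually.of_forall fun u => by simp) l
  · have h2 := h1.self_of_nhds
    simpa using h2
  · have h3 : HasFDerivAt (fun u : W => (x.1, u)) (ContinuousLinearMap.inr ℂ P W) u :=
      hasFDerivAt_prodMk_right _ _
    rw [h3.fderiv]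
    simp [Matrix.one_apply]

/-- linearity -/
theorem wd_sum {ε : Fin d → W} {A : Fin (d + 1) → W → ℂ} {p : W}
    (hA : ∀ i, ContDiffAt ℂ ω (A i) p) {ι : Type*} (s : Finset ι) (c : ι → ℂ) {g : ι → W → ℂ}
    (hg : ∀ i ∈ s, ContDiffAt ℂ ω (g i) p) (l : List (Fin (d + 1))) :
    wd ε A l (fun u => ∑ i ∈ s, c i * g i u) =ᶠ[𝓝 p] fun u => ∑ i ∈ s, c i * wd ε A l (g i) u := by
  have hn : (ω : WithTop ℕ∞) ≠ 0 := by simp
  induction l with
  | nil => exact Eventually.of_forall fun u => rfl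
  | cons j l ih =>
    have hw : ∀ᶠ u in 𝓝 p, ∀ i ∈ s, ContDiffAt ℂ ω (wd ε A l (g i)) u :=
      (Finset.eventually_all s).2 fun i hi => (contDiffAt_wd hA (hg i hi) l).eventually (by simp)
    filter_upwards [eventually_eventually_nhds.2 ih, hw] with u h1 h2
    show brk ε A _ j (wd ε A l fun u => ∑ i ∈ s, c i * g i u) u =
      ∑ i ∈ s, c i * brk ε A _ j (wd ε A l (g i)) u
    unfold brk
    rw [jr_congr h1]
    simp only [← Matrix.cramer_transpose_apply]
    have h3 : ∀ w : ℂ, jr ε w (fun u => ∑ i ∈ s, c i * wd ε A l (g i) u) u =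
        ∑ i ∈ s, c i • jr ε w (wd ε A l (g i)) u := by
      intro w
      have h4 : HasFDerivAt (fun u => ∑ i ∈ s, c i * wd ε A l (g i) u)
          (∑ i ∈ s, c i • fderiv ℂ (wd ε A l (g i)) u) u :=
        HasFDerivAt.fun_sum fun i hi => ((h2 i hi).differentiableAt hn).hasFDerivAt.const_mul _
      funext k
      rw [Finset.sum_apply]
      unfold jr
      refine Fin.cases ?_ (fun b => ?_) k
      · simp only [Fin.cons_zero, Pi.smul_apply, smul_eq_mul, Finset.mul_sum]
        exact Finset.sum_congr rfl fun i _ => by ring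
      · simp only [Fin.cons_succ, Pi.smul_apply, smul_eq_mul]
        rw [h4.fderiv, sum_apply]
        rfl
    rw [h3, map_sum, Finset.sum_apply]
    refine Finset.sum_congr rfl fun i _ => ?_
    rw [map_smul]
    rfl

end Br

end Vale.Agent.P281.H713
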