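import Vale.Agent.P281.H713.GBr
import Vale.Agent.P281.MF.Hol

open scoped Topology ContDiff
open Set Filter Module Metric

namespace Vale.Agent.P281.H713

set_option linter.unusedSectionVars false

section Br

variable {d : ℕ}

/-- the coordinate vectors -/
noncomputable def bs (b : Fin d) : Fin d → ℂ := Pi.single b 1

theorem norm_bs (b : Fin d) : ‖(bs b : Fin d → ℂ)‖ = 1 := by
  unfold bs
  rw [Pi.norm_single, norm_one]

theorem sum_bs (w : Fin d → ℂ) : w = ∑ b, w b • bs b := by
  funext i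
  simp [bs, Finset.sum_apply, Pi.single_apply]

theorem fd_sum {V : Type*} [NormedAddCommGroup V] [NormedSpace ℂ V] (L : (Fin d → ℂ) →L[ℂ] V)
    (w : Fin d → ℂ) : L w = ∑ b, w b • L (bs b) := by
  conv_lhs => rw [sum_bs w]
  rw [map_sum]
  exact Finset.sum_congr rfl fun b _ => map_smul _ _ _

theorem brk_expand (A : Fin (d + 1) → (Fin d → ℂ) → ℂ) (w : ℂ) (g : (Fin d → ℂ) → ℂ)
    (u : Fin d → ℂ) (k : Fin (d + 1)) :
    (Matrix.of fun i => jr bs 1 (A i) u).det * jr bs w g u k =
      ∑ j, jr bs 1 (A j) u k * brk bs A w j g u := by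
  have h1 := Matrix.mulVec_cramer (Matrix.of fun i => jr bs 1 (A i) u).transpose (jr bs w g u)
  have h2 := congrFun h1 k
  rw [Matrix.det_transpose, Pi.smul_apply, smul_eq_mul] at h2
  rw [← h2]
  simp only [Matrix.mulVec, dotProduct, Matrix.transpose_apply, Matrix.of_apply]
  refine Finset.sum_congr rfl fun j _ => ?_
  rw [Matrix.cramer_transpose_apply]
  rfl

/-- a function all of whose brackets vanish at a point is zero. -/
theorem wd_zero {A : Fin (d + 1) → (Fin d → ℂ) → ℂ} {g : (Fin d → ℂ) → ℂ} {v : Fin d → ℂ}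
    (hA : ∀ i, ContDiffAt ℂ ω (A i) v) (hdet : (Matrix.of fun i => jr bs 1 (A i) v).det ≠ 0)
    (hg : ContDiffAt ℂ ω g v) (h0 : ∀ l, wd bs A l g v = 0) : ∀ᶠ u in 𝓝 v, g u = 0 := by
  have hn : (ω : WithTop ℕ∞) ≠ 0 := by simp
  -- one variable
  have key : ∀ w : Fin d → ℂ, ∀ᶠ s in 𝓝 (0 : ℂ), g (v + s • w) = 0 := by
    intro w
    set γ : ℂ → Fin d → ℂ := fun s => v + s • w with hγ
    have hγ0 : γ 0 = v := by simp [hγ]
    have hγc : ∀ s, ContDiffAt ℂ ω γ s := fun s =>
      contDiffAt_const.add (contDiffAt_id.smul contDiffAt_const)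
    have hγd : ∀ s, HasDerivAt γ w s := by
      intro s
      have := ((hasDerivAt_id s).smul_const w).const_add v
      rw [one_smul] at this
      exact this
    have hγt : Tendsto γ (𝓝 0) (𝓝 v) := by
      have := (hγc 0).continuousAt.tendsto
      rwa [hγ0] at this
    set D : (Fin d → ℂ) → ℂ := fun u => (Matrix.of fun i => jr bs 1 (A i) u).det with hD
    have hDc : ContDiffAt ℂ ω D v := contDiffAt_det fun i j => contDiffAt_jr (hA i) j
    let C : Fin (d + 1) → ℂ → ℂ := fun j s =>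
      ∑ b, w b * ((D (γ s))⁻¹ * jr bs 1 (A j) (γ s) (Fin.succ b))
    have hCa : ∀ j, AnalyticAt ℂ (C j) 0 := by
      intro j
      have h1 : ContDiffAt ℂ ω (fun u => ∑ b, w b * ((D u)⁻¹ * jr bs 1 (A j) u (Fin.succ b)))
          (γ 0) := by
        rw [hγ0]
        exact ContDiffAt.sum fun b _ => contDiffAt_const.mul
          ((hDc.inv hdet).mul (contDiffAt_jr (hA j) _))
      exact (h1.comp (0 : ℂ) (hγc 0)).analyticAt
    let U : List (Fin (d + 1)) → ℂ → ℂ := fun l s => wd bs A l g (γ s)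
    have hwd : ∀ l, ContDiffAt ℂ ω (wd bs A l g) v := fun l => contDiffAt_wd hA hg l
    have hUa : ∀ l, AnalyticAt ℂ (U l) 0 := by
      intro l
      have h1 : ContDiffAt ℂ ω (wd bs A l g) (γ 0) := by rw [hγ0]; exact hwd l
      exact (h1.comp (0 : ℂ) (hγc 0)).analyticAt
    have hder : ∀ l, deriv (U l) =ᶠ[𝓝 0] fun s => ∑ j, C j s * U (j :: l) s := by
      intro l
      filter_upwards [hγt.eventually ((hwd l).eventually (by simp)),
        hγt.eventually (hDc.continuousAt.eventually_ne hdet)] with s h1 h2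
      have h3 : HasDerivAt (U l) (fderiv ℂ (wd bs A l g) (γ s) w) s :=
        (h1.differentiableAt hn).hasFDerivAt.comp_hasDerivAt s (hγd s)
      rw [h3.deriv, fd_sum]
      have h4 : ∀ b, fderiv ℂ (wd bs A l g) (γ s) (bs b) =
          (D (γ s))⁻¹ * ∑ j, jr bs 1 (A j) (γ s) (Fin.succ b) * U (j :: l) s := by
        intro b
        have h5 := brk_expand A ((1 + l.length * (d + 1) : ℕ) : ℂ) (wd bs A l g) (γ s) (Fin.succ b)
        rw [eq_inv_mul_iff_mul_eq₀ h2]
        exact h5
      simp only [h4, smul_eq_mul, C, Finset.mul_sum, Finset.sum_mul]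
      rw [Finset.sum_comm]
      refine Finset.sum_congr rfl fun j _ => Finset.sum_congr rfl fun b _ => ?_
      ring
    have hord : ∀ n : ℕ, ∀ l, (n : ℕ∞) ≤ analyticOrderAt (U l) 0 := by
      intro n
      induction n with
      | zero => intro l; simp
      | succ n ih =>
        intro l
        have h1 := (hUa l).analyticOrderAt_deriv_add_one
        have h2 : (fun s => U l s - U l 0) = U l := by
          funext s
          have : U l 0 = 0 := by
            show wd bs A l g (γ 0) = 0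
            rw [hγ0]
            exact h0 l
          rw [this, sub_zero]
        rw [h2] at h1
        rw [← h1, Nat.cast_succ]
        gcongr
        rw [analyticOrderAt_congr (hder l)]
        have h3 : ∀ j, ∃ G : ℂ → ℂ, AnalyticAt ℂ G 0 ∧
            ∀ᶠ z in 𝓝 0, U (j :: l) z = (z - 0) ^ n • G z := fun j =>
          (natCast_le_analyticOrderAt (hUa _)).1 (ih (j :: l))
        choose G hG hGe using h3
        refine (natCast_le_analyticOrderAt ?_).2 ⟨fun s => ∑ j, C j s * G j s, ?_, ?_⟩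
        · exact Finset.analyticAt_fun_sum _ fun j _ => (hCa j).mul (hUa _)
        · exact Finset.analyticAt_fun_sum _ fun j _ => (hCa j).mul (hG _)
        · filter_upwards [(Filter.eventually_all).2 hGe] with s hs
          simp only [hs, smul_eq_mul, Finset.mul_sum]
          refine Finset.sum_congr rfl fun j _ => ?_
          ring
    have htop : analyticOrderAt (U []) 0 = ⊤ := by
      rw [ENat.eq_top_iff_forall_ge]
      exact fun n => hord n []
    exact analyticOrderAt_eq_top.1 htop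
  obtain ⟨δ, hδ, hball⟩ := Metric.eventually_nhds_iff_ball.1 (hg.eventually (by simp))
  filter_upwards [ball_mem_nhds v hδ] with u hu
  set w := u - v with hw
  have hconv : Convex ℝ {s : ℂ | v + s • w ∈ ball v δ} := by
    intro s hs t ht a b ha hb hab
    have h1 := (convex_ball v δ) hs ht ha hb hab
    have h2 : v + (a • s + b • t) • w = a • (v + s • w) + b • (v + t • w) := by
      have h3 : (a : ℂ) + b = 1 := by exact_mod_cast hab
      have h4 : v = ((a : ℂ) + b) • v := by rw [h3, one_smul]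
      conv_lhs => rw [h4]
      simp only [← Complex.coe_smul, smul_add, add_smul, smul_smul, smul_eq_mul]
      abel
    show v + (a • s + b • t) • w ∈ ball v δ
    rw [h2]
    exact h1
  have han : AnalyticOnNhd ℂ (fun s : ℂ => g (v + s • w)) {s : ℂ | v + s • w ∈ ball v δ} := by
    intro s hs
    have h1 : ContDiffAt ℂ ω g (v + s • w) := hball _ hs
    have h2 : ContDiffAt ℂ ω (fun s : ℂ => v + s • w) s :=
      contDiffAt_const.add (contDiffAt_id.smul contDiffAt_const)
    exact (h1.comp s h2).analyticAt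
  have h0m : (0 : ℂ) ∈ {s : ℂ | v + s • w ∈ ball v δ} := by
    show v + (0 : ℂ) • w ∈ ball v δ
    simpa using hδ
  have h1m : (1 : ℂ) ∈ {s : ℂ | v + s • w ∈ ball v δ} := by
    show v + (1 : ℂ) • w ∈ ball v δ
    rw [one_smul, hw, add_sub_cancel]
    exact hu
  have h1 := han.eqOn_zero_of_preconnected_of_eventuallyEq_zero hconv.isPreconnected h0m (key w) h1m
  have h2 : g (v + (1 : ℂ) • w) = 0 := h1
  rwa [one_smul, hw, add_sub_cancel] at h2

theorem det_bound {k : ℕ} {B : ℝ} (hB : 0 ≤ B) : ∃ K : ℝ, 0 ≤ K ∧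
    ∀ M : Matrix (Fin k) (Fin k) ℂ, (∀ i j, ‖M i j‖ ≤ B) → ‖M.det‖ ≤ K := by
  refine ⟨∑ _σ : Equiv.Perm (Fin k), B ^ k, by positivity, fun M hM => ?_⟩
  rw [Matrix.det_apply']
  refine norm_sum_le_of_le _ fun σ _ => ?_
  rw [norm_mul, norm_prod]
  have h1 : ‖((Equiv.Perm.sign σ : ℤ) : ℂ)‖ = 1 := by
    rcases Int.units_eq_one_or (Equiv.Perm.sign σ) with h | h <;> rw [h] <;> simp
  rw [h1, one_mul]
  calc ∏ i, ‖M (σ i) i‖ ≤ ∏ _i : Fin k, B :=
        Finset.prod_le_prod (fun _ _ => norm_nonneg _) fun i _ => hM _ _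
    _ = B ^ k := by rw [Finset.prod_const, Finset.card_univ, Fintype.card_fin]

/-- bound for iterated brackets of bounded functions -/
theorem wd_bound {r B : ℝ} (hr : 0 < r) (hB : 0 ≤ B) (l : List (Fin (d + 1))) :
    ∃ K : ℝ, 0 ≤ K ∧ ∀ (A : Fin (d + 1) → (Fin d → ℂ) → ℂ) (g : (Fin d → ℂ) → ℂ) (v₀ : Fin d → ℂ),
      (∀ i, DifferentiableOn ℂ (A i) (ball v₀ r)) → DifferentiableOn ℂ g (ball v₀ r) →
      (∀ i, ∀ v ∈ ball v₀ r, ‖A i v‖ ≤ B) → (∀ v ∈ ball v₀ r, ‖g v‖ ≤ B) →
      ‖wd bs A l g v₀‖ ≤ K := by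
  induction l generalizing r with
  | nil => exact ⟨B, hB, fun A g v₀ _ _ _ h => h v₀ (mem_ball_self hr)⟩
  | cons j l ih =>
    obtain ⟨K₁, hK₁0, hK₁⟩ := ih (half_pos hr)
    set w : ℂ := ((1 + l.length * (d + 1) : ℕ) : ℂ) with hw
    set M : ℝ := B + B / r + ‖w‖ * K₁ + K₁ / (r / 2) with hM
    have hM0 : 0 ≤ M := by positivity
    obtain ⟨K, hK0, hK⟩ := det_bound (k := d + 1) hM0
    refine ⟨K, hK0, fun A g v₀ hA hg hAB hgB => hK _ fun i k => ?_⟩
    have hsub : ∀ u ∈ ball v₀ (r / 2), ball u (r / 2) ⊆ ball v₀ r := by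
      intro u hu
      refine ball_subset_ball' ?_
      have := mem_ball.1 hu
      linarith
    have hf1 : ∀ {F : (Fin d → ℂ) → ℂ} {C ρ : ℝ}, 0 < ρ → 0 ≤ C →
        DifferentiableOn ℂ F (ball v₀ ρ) → (∀ v ∈ ball v₀ ρ, ‖F v‖ ≤ C) → ∀ b,
        ‖fderiv ℂ F v₀ (bs b)‖ ≤ C / ρ := by
      intro F C ρ hρ hC hF hFC b
      have h1 := MF.norm_fderiv_le_of_ball hρ hF hFC
      have h2 := (fderiv ℂ F v₀).le_opNorm (bs b)
      rw [norm_bs, mul_one] at h2
      exact h2.trans h1
    by_cases hij : i = j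
    · subst hij
      rw [Matrix.updateRow_self]
      have hwdd : DifferentiableOn ℂ (wd bs A l g) (ball v₀ (r / 2)) := by
        intro u hu
        have hu' : u ∈ ball v₀ r := ball_subset_ball (by linarith) hu
        exact ((contDiffAt_wd (fun i => (MF.analyticAt_of_differentiableOn isOpen_ball (hA i)
          hu').contDiffAt) (MF.analyticAt_of_differentiableOn isOpen_ball hg
          hu').contDiffAt l).differentiableAt (n := ω) (by simp)).differentiableWithinAt
      have hwdb : ∀ u ∈ ball v₀ (r / 2), ‖wd bs A l g u‖ ≤ K₁ := fun u hu =>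
        hK₁ A g u (fun i => (hA i).mono (hsub u hu)) (hg.mono (hsub u hu))
          (fun i v hv => hAB i v (hsub u hu hv)) fun v hv => hgB v (hsub u hu hv)
      unfold jr
      refine Fin.cases ?_ (fun b => ?_) k
      · rw [Fin.cons_zero, norm_mul]
        have h1 := hwdb v₀ (mem_ball_self (half_pos hr))
        have h2 : ‖w‖ * ‖wd bs A l g v₀‖ ≤ ‖w‖ * K₁ := by gcongr
        have h3 : 0 ≤ B / r := by positivity
        have h4 : 0 ≤ K₁ / (r / 2) := by positivity
        linarith
      · rw [Fin.cons_succ]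
        have h1 := hf1 (half_pos hr) hK₁0 hwdd hwdb b
        have h3 : 0 ≤ B / r := by positivity
        have h4 : 0 ≤ ‖w‖ * K₁ := by positivity
        linarith
    · rw [Matrix.updateRow_ne hij, Matrix.of_apply]
      unfold jr
      refine Fin.cases ?_ (fun b => ?_) k
      · rw [Fin.cons_zero, one_mul]
        have h1 := hAB i v₀ (mem_ball_self hr)
        have h3 : 0 ≤ B / r := by positivity
        have h4 : 0 ≤ K₁ / (r / 2) := by positivity
        have h5 : 0 ≤ ‖w‖ * K₁ := by positivity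
        linarith
      · rw [Fin.cons_succ]
        have h1 := hf1 hr hB (hA i) (hAB i) b
        have h4 : 0 ≤ K₁ / (r / 2) := by positivity
        have h5 : 0 ≤ ‖w‖ * K₁ := by positivity
        linarith

end Br

end Vale.Agent.P281.H713
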