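import Vale.Agent.P281.H713.GVal
import Vale.Agent.P281.H713.CurvBound

open scoped Manifold ContDiff Topology
open Set Filter Metric Module

namespace Vale.Agent.P281.H713

open Vale.Agent.P281 Vale.Agent.P281.MF Vale.Agent.P281.ISO Vale.Agent.P281.ELL

set_option linter.unusedSectionVars false

universe u

section Forms

variable {E E' : Type} [NormedAddCommGroup E] [NormedSpace ℂ E] [FiniteDimensional ℂ E]
  [NormedAddCommGroup E'] [NormedSpace ℂ E'] [FiniteDimensional ℂ E']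
variable {X Y : Type u} [TopologicalSpace X] [ChartedSpace E X] [IsManifold 𝓘(ℂ, E) ω X]
  [TopologicalSpace Y] [ChartedSpace E' Y] [IsManifold 𝓘(ℂ, E') ω Y]
variable {V : Type} [NormedAddCommGroup V] [InnerProductSpace ℂ V] [FiniteDimensional ℂ V]
variable {n g d : ℕ} {Q : (Fin n → ℝ) → (Fin n → ℝ) → ℝ}
variable {f : X → Y} {S : Set Y} {ι : Type u} {U : ι → Set Y}
  {π : ι → Y → ((Fin n → ℝ) ≃L[ℝ] V)} {α : ι → X → V}

/-- slices of the fibres -/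
def SlG (E : Type) [NormedAddCommGroup E] [NormedSpace ℂ E] {X Y : Type u} [TopologicalSpace X]
    [ChartedSpace E X] {d : ℕ} (f : X → Y) (q : (Fin d → ℂ) → X) (v : Fin d → ℂ) (x : X)
    (P : E →L[ℂ] (Fin d → ℂ)) : Prop :=
  q v = x ∧ ContMDiffAt 𝓘(ℂ, Fin d → ℂ) 𝓘(ℂ, E) ω q v ∧ (∀ᶠ z in 𝓝 v, f (q z) = f x) ∧
    P.comp (mfderiv 𝓘(ℂ, Fin d → ℂ) 𝓘(ℂ, E) q v : (Fin d → ℂ) →L[ℂ] E) =
      ContinuousLinearMap.id ℂ (Fin d → ℂ)

/-- two lifts differ by an affine map along the fibre -/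
theorem lift_changeG (hC : IsAlbaneseFamily E E' d f S Q U π α) {a b : ι} {x : X} (ha : f x ∈ U a)
    (hb : f x ∈ U b) {β β' : X → V} (hβ : Lft E f π α a x β) (hβ' : Lft E f π α b x β') :
    ∃ (G : V ≃L[ℂ] V) (c : V), IsPeriodChange Q (π a (f x)) (π b (f x)) G ∧
      ∀ᶠ z in 𝓝 x, f z = f x → β' z = G (β z) + c := by
  obtain ⟨G, c, hG, hGc⟩ := hC.change a b (f x) ⟨ha, hb⟩
  obtain ⟨ε, hε, hdis⟩ := lam_discrete (π b (f x))
  have hlat : ∀ᶠ z in 𝓝 x, f z = f x → β' z - (G (β z) + c) ∈ Lam (π b (f x)) := by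
    filter_upwards [hβ.2, hβ'.2] with z h1 h2 hz
    rw [hz] at h1 h2
    obtain ⟨m₁, hm₁⟩ := h1
    obtain ⟨m₂, hm₂⟩ := h2
    obtain ⟨m₃, hm₃⟩ := hGc z hz
    obtain ⟨m₄, hm₄⟩ := hG.1 m₁
    have h3 : β' z - (G (β z) + c) = (π b (f x) fun i => (m₃ i : ℝ)) +
        (π b (f x) fun i => (m₂ i : ℝ)) - π b (f x) fun i => (m₄ i : ℝ) := by
      rw [hm₂, hm₃, hm₁, map_add, hm₄]
      abel
    rw [h3]
    exact lam_sub (lam_add (mem_lam _) (mem_lam _)) (mem_lam _)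
  have hx0 := hlat.self_of_nhds rfl
  have hcont : ContinuousAt (fun z => β' z - (G (β z) + c) - (β' x - (G (β x) + c))) x :=
    (hβ'.1.continuousAt.sub
      ((G.continuous.continuousAt.comp hβ.1.continuousAt).add continuousAt_const)).sub
      continuousAt_const
  have hsm := hcont.norm.eventually_lt_const (u := ε) (by
    show ‖β' x - (G (β x) + c) - (β' x - (G (β x) + c))‖ < ε
    rw [sub_self, norm_zero]
    exact hε)
  refine ⟨G, c + (β' x - (G (β x) + c)), hG, ?_⟩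
  filter_upwards [hlat, hsm] with z hz hz' hfz
  have h5 := hdis _ (hz hfz) _ hx0 hz'
  rw [← h5]
  abel

variable {e : Basis (Fin g) ℂ V} {i₀ : Fin g → Fin d} {l : Fin g → List (Fin (d + 1))}
  {τ : Tup d g V} {k D : ℕ} {Ψ : ((Fin d → ℂ) → V) → (Fin d → ℂ) → ℂ}
  {π₀ : (Fin n → ℝ) ≃L[ℝ] V} {G₀ : V ≃L[ℂ] V}

/-- the value of the form does not depend on the slice -/
theorem gval_slice (hf : ∀ x, HolM E E' f x) (e₀ : E ≃L[ℂ] (E' × (Fin d → ℂ))) (hΨ : IsHP D Ψ)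
    (Pr : (Fin n → ℝ) ≃L[ℝ] V) {x : X} {ζ : X → (Fin d → ℂ)} (hζ : HolV E ζ x)
    (hinj : ∀ ξ, dM E E' f x ξ = 0 → dV E ζ x ξ = 0 → ξ = 0) {R : E' × (Fin d → ℂ) → X}
    (hR1 : ContMDiffAt 𝓘(ℂ, E' × (Fin d → ℂ)) 𝓘(ℂ, E) ω R (chartAt E' (f x) (f x), ζ x))
    (hR2 : ∀ᶠ z in 𝓝 x, R (chartAt E' (f x) (f z), ζ z) = z)
    {β : X → V} (hβ : HolV E β x) {q : (Fin d → ℂ) → X} {v : Fin d → ℂ}
    {P : E →L[ℂ] (Fin d → ℂ)} (hq : SlG E f q v x P) :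
    gval Q π₀ G₀ (tm e i₀ l τ k Ψ) Pr (fun t => β (q t)) v *
        JP e₀ (dM E E' f x) P ^ (k * nk l + D) =
      gval Q π₀ G₀ (tm e i₀ l τ k Ψ) Pr (fun t => β (R (chartAt E' (f x) (f x), t))) (ζ x) *
        JP e₀ (dM E E' f x) (dV E ζ x) ^ (k * nk l + D) := by
  obtain ⟨hqx, hq1, hq2, hq3⟩ := hq
  subst hqx
  set x := q v with hx
  have hqt : Tendsto q (𝓝 v) (𝓝 x) := hq1.continuousAt
  set h : (Fin d → ℂ) → (Fin d → ℂ) := fun t => ζ (q t) with hh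
  have hhc : ContDiffAt ℂ ω h v := (slice_fderiv hq1 hζ).1
  have hR0 : R (chartAt E' (f x) (f x), ζ x) = x := hR2.self_of_nhds
  set b₀ : (Fin d → ℂ) → V := fun t => β (R (chartAt E' (f x) (f x), t)) with hb₀
  have hb₀c : ContDiffAt ℂ ω b₀ (h v) := by
    have h1 : ContMDiffAt 𝓘(ℂ, Fin d → ℂ) 𝓘(ℂ, E' × (Fin d → ℂ)) ω
        (fun t : Fin d → ℂ => (chartAt E' (f x) (f x), t)) (ζ x) :=
      contMDiffAt_iff_contDiffAt.2 (contDiffAt_const.prodMk contDiffAt_id)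
    have h2 : ContMDiffAt 𝓘(ℂ, Fin d → ℂ) 𝓘(ℂ, E) ω
        (fun t : Fin d → ℂ => R (chartAt E' (f x) (f x), t)) (ζ x) :=
      ContMDiffAt.comp (ζ x) hR1 h1
    have h3 : HolV E β (R (chartAt E' (f x) (f x), ζ x)) := by rw [hR0]; exact hβ
    exact (slice_fderiv h2 h3).1
  have heq : (fun t => β (q t)) =ᶠ[𝓝 v] fun t => b₀ (h t) := by
    filter_upwards [hqt.eventually hR2, hq2] with t h1 h2
    show β (q t) = β (R (chartAt E' (f x) (f x), ζ (q t)))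
    rw [h2] at h1
    rw [h1]
  have h4 := JP_slice hf e₀ hq1 hq2 hζ hinj hq3
  have h5 : (fderiv ℂ h v).det ≠ 0 := by
    intro h0
    apply JP_ne_zero e₀ hinj
    rw [h4, show (fderiv ℂ (fun z => ζ (q z)) v).det = 0 from h0, zero_mul]
  rw [gval_congr hΨ heq, gval_comp hΨ hhc h5 hb₀c, h4, mul_pow]
  ring

/-- the value of the form is well defined -/
theorem gval_indep (hC : IsAlbaneseFamily E E' d f S Q U π α) (hf : ∀ x, HolM E E' f x)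
    (e₀ : E ≃L[ℂ] (E' × (Fin d → ℂ))) (hΨ : IsHP D Ψ) {a b : ι} {x : X}
    (ha : f x ∈ U a) (hb : f x ∈ U b) {β β' : X → V} (hβ : Lft E f π α a x β)
    (hβ' : Lft E f π α b x β') {q q' : (Fin d → ℂ) → X} {v v' : Fin d → ℂ}
    {P P' : E →L[ℂ] (Fin d → ℂ)} (hq : SlG E f q v x P) (hq' : SlG E f q' v' x P') :
    gval Q π₀ G₀ (tm e i₀ l τ k Ψ) (π a (f x)) (fun t => β (q t)) v *
        JP e₀ (dM E E' f x) P ^ (k * nk l + D) =
      gval Q π₀ G₀ (tm e i₀ l τ k Ψ) (π b (f x)) (fun t => β' (q' t)) v' *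
        JP e₀ (dM E E' f x) P' ^ (k * nk l + D) := by
  obtain ⟨G, c, hG, hGc⟩ := lift_changeG hC ha hb hβ hβ'
  obtain ⟨ζ, hζ, hinj⟩ := hC.coord x ((hC.cover _).2 ⟨a, ha⟩)
  obtain ⟨R, hR1, hR2, -⟩ := exists_slices hf e₀ hζ hinj
  rw [gval_slice hf e₀ hΨ _ hζ hinj hR1 hR2 hβ.1 hq]
  rw [← gval_slice hf e₀ hΨ (π a (f x)) hζ hinj hR1 hR2 hβ.1 hq']
  congr 1
  obtain ⟨hq0, hq1, hq2, -⟩ := hq'
  have hbc : ContDiffAt ℂ ω (fun t => β (q' t)) v' := by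
    have h1 : HolV E β (q' v') := by rw [hq0]; exact hβ.1
    exact (slice_fderiv hq1 h1).1
  rw [← gval_affine hΨ hG c hbc]
  refine gval_congr hΨ ?_
  have hqt : Tendsto q' (𝓝 v') (𝓝 x) := by
    have := hq1.continuousAt.tendsto
    rwa [hq0] at this
  filter_upwards [hqt.eventually hGc, hq2] with t h1 h2
  exact (h1 h2).symm

/-- the slices of a product structure -/
theorem slg_near (hf : ∀ x, HolM E E' f x) {x : X} {ζ : X → (Fin d → ℂ)} (hζ : HolV E ζ x)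
    {R : E' × (Fin d → ℂ) → X}
    (hR1 : ContMDiffAt 𝓘(ℂ, E' × (Fin d → ℂ)) 𝓘(ℂ, E) ω R (chartAt E' (f x) (f x), ζ x))
    (hR2 : ∀ᶠ z in 𝓝 x, R (chartAt E' (f x) (f z), ζ z) = z)
    (hR3 : ∀ᶠ p in 𝓝 (chartAt E' (f x) (f x), ζ x), f (R p) ∈ (chartAt E' (f x)).source ∧
        chartAt E' (f x) (f (R p)) = p.1 ∧ ζ (R p) = p.2) :
    ∀ᶠ z in 𝓝 x, SlG E f (fun t => R (chartAt E' (f x) (f z), t)) (ζ z) z (dV E ζ z) := by
  set ψ := chartAt E' (f x) with hψ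
  have hys : f x ∈ ψ.source := mem_chart_source E' (f x)
  have hpair : HolV E (fun z => (ψ (f z), ζ z)) x :=
    (HolV.comp (h := (ψ : Y → E')) (HolV.chart hys) (hf x)).prodMk hζ
  have hpt : Tendsto (fun z => (ψ (f z), ζ z)) (𝓝 x) (𝓝 (ψ (f x), ζ x)) := hpair.continuousAt
  have hR1' : ∀ᶠ p in 𝓝 (ψ (f x), ζ x), ContMDiffAt 𝓘(ℂ, E' × (Fin d → ℂ)) 𝓘(ℂ, E) ω R p :=
    (contMDiffAt_iff_contMDiffAt_nhds (by simp)).1 hR1
  filter_upwards [hpt.eventually hR1', hpt.eventually (eventually_eventually_nhds.2 hR3),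
    eventually_eventually_nhds.2 hR2, hζ.eventually,
    (hf x).continuousAt.eventually (ψ.open_source.mem_nhds hys)] with z h1 h2 h3 h4 h5
  have hq0 : R (ψ (f z), ζ z) = z := h3.self_of_nhds
  have hq1 : ContMDiffAt 𝓘(ℂ, Fin d → ℂ) 𝓘(ℂ, E) ω (fun t : Fin d → ℂ => R (ψ (f z), t))
      (ζ z) := by
    have h6 : ContMDiffAt 𝓘(ℂ, Fin d → ℂ) 𝓘(ℂ, E' × (Fin d → ℂ)) ω
        (fun t : Fin d → ℂ => (ψ (f z), t)) (ζ z) :=
      contMDiffAt_iff_contDiffAt.2 (contDiffAt_const.prodMk contDiffAt_id)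
    exact ContMDiffAt.comp (ζ z) h1 h6
  have htt : Tendsto (fun t : Fin d → ℂ => (ψ (f z), t)) (𝓝 (ζ z)) (𝓝 (ψ (f z), ζ z)) := by
    have : Continuous fun t : Fin d → ℂ => (ψ (f z), t) := by fun_prop
    exact this.tendsto _
  have h7 := htt.eventually h2
  refine ⟨hq0, hq1, ?_, ?_⟩
  · filter_upwards [h7] with t ht
    exact ψ.injOn ht.1 h5 ht.2.1
  · have h8 : HolV E ζ (R (ψ (f z), ζ z)) := by rw [hq0]; exact h4
    have h9 := (slice_fderiv hq1 h8).2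
    rw [hq0] at h9
    rw [← h9]
    have h10 : (fun t => ζ (R (ψ (f z), t))) =ᶠ[𝓝 (ζ z)] fun t => t := by
      filter_upwards [h7] with t ht
      exact ht.2.2
    rw [h10.fderiv_eq]
    exact fderiv_fun_id

/-- the forms -/
theorem exists_formG (hC : IsAlbaneseFamily E E' d f S Q U π α) (hf : ∀ x, HolM E E' f x)
    (e₀ : E ≃L[ℂ] (E' × (Fin d → ℂ))) (hΨ : IsHP D Ψ) :
    ∃ Θ : X → ℂ, ∀ a x, f x ∈ U a → ∀ β, Lft E f π α a x β → ∀ q v P, SlG E f q v x P →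
      Θ x = gval Q π₀ G₀ (tm e i₀ l τ k Ψ) (π a (f x)) (fun t => β (q t)) v *
        JP e₀ (dM E E' f x) P ^ (k * nk l + D) := by
  classical
  have hex : ∀ x, ∃ θ : ℂ, ∀ a, f x ∈ U a → ∀ β, Lft E f π α a x β → ∀ q v P,
      SlG E f q v x P →
      θ = gval Q π₀ G₀ (tm e i₀ l τ k Ψ) (π a (f x)) (fun t => β (q t)) v *
        JP e₀ (dM E E' f x) P ^ (k * nk l + D) := by
    intro x
    by_cases hx : ∃ a, f x ∈ U a
    · obtain ⟨a, ha⟩ := hx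
      obtain ⟨β, hβ⟩ := hC.lift a x ha
      obtain ⟨ζ, hζ, hinj⟩ := hC.coord x ((hC.cover _).2 ⟨a, ha⟩)
      obtain ⟨R, hR1, hR2, hR3⟩ := exists_slices hf e₀ hζ hinj
      have hq := (slg_near hf hζ hR1 hR2 hR3).self_of_nhds
      exact ⟨_, fun b hb β' hβ' q' v' P' hq' => gval_indep hC hf e₀ hΨ ha hb hβ hβ' hq hq'⟩
    · exact ⟨0, fun a ha => absurd ⟨a, ha⟩ hx⟩
  choose Θ hΘ using hex
  exact ⟨Θ, fun a x => hΘ x a⟩

/-- holomorphy of the coefficients -/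
theorem form_localG (hC : IsAlbaneseFamily E E' d f S Q U π α) (hn : 0 < n)
    (hf : ∀ x, HolM E E' f x) (e₀ : E ≃L[ℂ] (E' × (Fin d → ℂ))) (hΨ : IsHP D Ψ)
    (hk : n * n + 1 ≤ k) (h₀ : IsPol Q π₀ G₀) {Θ : X → ℂ}
    (hΘ : ∀ a x, f x ∈ U a → ∀ β, Lft E f π α a x β → ∀ q v P, SlG E f q v x P →
      Θ x = gval Q π₀ G₀ (tm e i₀ l τ k Ψ) (π a (f x)) (fun t => β (q t)) v *
        JP e₀ (dM E E' f x) P ^ (k * nk l + D)) {x : X} (hx : f x ∉ S) {ζ : X → (Fin d → ℂ)}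
    (hζ : HolV E ζ x) (hinj : ∀ ξ, dM E E' f x ξ = 0 → dV E ζ x ξ = 0 → ξ = 0) :
    ∃ (c : X → ℂ), HolV E c x ∧
      ∀ᶠ z in 𝓝 x, Θ z = c z * JP e₀ (dM E E' f z) (dV E ζ z) ^ (k * nk l + D) := by
  obtain ⟨a, ha⟩ := (hC.cover (f x)).1 hx
  obtain ⟨β, hβ⟩ := hC.lift a x ha
  have hβ : Lft E f π α a x β := hβ
  obtain ⟨R, hR1, hR2, hR3⟩ := exists_slices hf e₀ hζ hinj
  set ψ := chartAt E' (f x) with hψ
  have hys : f x ∈ ψ.source := mem_chart_source E' (f x)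
  have hR0 : R (ψ (f x), ζ x) = x := hR2.self_of_nhds
  have hpair : HolV E (fun z => (ψ (f z), ζ z)) x :=
    (HolV.comp (h := (ψ : Y → E')) (HolV.chart hys) (hf x)).prodMk hζ
  have hB : ContDiffAt ℂ ω (fun p => β (R p)) (ψ (f x), ζ x) := by
    have h1 : HolV E β (R (ψ (f x), ζ x)) := by rw [hR0]; exact hβ.1
    exact (slice_fderiv hR1 h1).1
  set U₁ : Set E' := ψ.target ∩ ψ.symm ⁻¹' (U a) with hU₁
  have hU₁o : IsOpen U₁ :=
    ψ.continuousOn_symm.isOpen_inter_preimage ψ.open_target (hC.isOpen a)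
  have hx₁ : ψ (f x) ∈ U₁ := by
    refine ⟨ψ.map_source hys, ?_⟩
    show ψ.symm (ψ (f x)) ∈ U a
    rw [ψ.left_inv hys]
    exact ha
  have hPd : ∀ w, DifferentiableOn ℂ (fun p => π a (ψ.symm p) w) U₁ := by
    intro w p hp
    have h1 : HolV E' (fun y => π a y w) (ψ.symm p) := hC.hol a w _ hp.2
    have h2 := h1.rep (ψ.map_target hp.1)
    rw [ψ.right_inv hp.1] at h2
    exact (h2.differentiableAt (by simp)).differentiableWithinAt
  have hG := gval_analytic (e := e) (i₀ := i₀) (l := l) (τ := τ) (Q := Q) hn hk hΨ h₀ hU₁o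
    (P := fun p => π a (ψ.symm p)) hPd (fun p hp => hC.polarized a _ hp.2)
    (B := fun y => β (R y)) (x₀ := (ψ (f x), ζ x)) hx₁ hB
  refine ⟨fun z => gval Q π₀ G₀ (tm e i₀ l τ k Ψ) (π a (ψ.symm (ψ (f z))))
    (fun t => β (R (ψ (f z), t))) (ζ z), ?_, ?_⟩
  · exact HolV.comp_contDiff (v := fun z => (ψ (f z), ζ z)) hG.contDiffAt hpair
  · filter_upwards [slg_near hf hζ hR1 hR2 hR3, HolV.eventually hβ.1,
      eventually_eventually_nhds.2 hβ.2,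
      (hf x).continuousAt.eventually ((hC.isOpen a).mem_nhds ha),
      (hf x).continuousAt.eventually (ψ.open_source.mem_nhds hys)] with z h1 h2 h3 h4 h5
    rw [ψ.left_inv h5]
    exact hΘ a z h4 β ⟨h2, h3⟩ _ _ _ h1

end Forms

end Vale.Agent.P281.H713
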