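import Vale.Agent.P281.H713.GTerm
import Vale.Agent.P281.H713.TypeI

open scoped Topology ContDiff
open Set Filter Module Metric

namespace Vale.Agent.P281.H713

set_option linter.unusedSectionVars false

section Val

variable {d g n : ℕ} {V : Type} [NormedAddCommGroup V] [InnerProductSpace ℂ V]
  [FiniteDimensional ℂ V] {Q : (Fin n → ℝ) → (Fin n → ℝ) → ℝ}

/-- the normalized inverse of `L_M` -/
noncomputable def LN (π₀ : (Fin n → ℝ) ≃L[ℝ] V) (G₀ : V ≃L[ℂ] V) (P : (Fin n → ℝ) ≃L[ℝ] V)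
    (M : Matrix (Fin n) (Fin n) ℤ) : V →L[ℂ] V :=
  (G₀ : V →L[ℂ] V).comp ((LL π₀ P M).inverse)

theorem LN_facts {π₀ P : (Fin n → ℝ) ≃L[ℝ] V} {G₀ G : V ≃L[ℂ] V} (h₀ : IsPol Q π₀ G₀)
    (h : IsPol Q P G) (M : spq Q) : ∃ D : V →L[ℂ] V, ‖D‖ ≤ 1 ∧
      ‖D.det‖ = (dl π₀ P G₀ G (mx M))⁻¹ ∧ LN π₀ G₀ P (mx M) = D.comp (G : V →L[ℂ] V) := by
  set N := clin (NT π₀ P G₀ G (mx M)) with hN
  have hL : LL π₀ P (mx M) = (G.symm : V →L[ℂ] V).comp (N.comp (G₀ : V →L[ℂ] V)) := by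
    rw [hN, clin_NT]
    ext v
    simp
  have hexp := le_clin_norm (isSymp_NT h₀ h M)
  have hdet : N.det ≠ 0 := by
    intro h1
    have h2 := (expanding _ hexp).1
    rw [← hN, h1, norm_zero] at h2
    linarith
  set e := N.toContinuousLinearEquivOfDetNeZero hdet with he
  have he' : (e : V →L[ℂ] V) = N := by
    rw [he, ContinuousLinearMap.coe_toContinuousLinearEquivOfDetNeZero]
  refine ⟨(e.symm : V →L[ℂ] V), ?_, ?_, ?_⟩
  · refine ContinuousLinearMap.opNorm_le_bound _ zero_le_one fun v => ?_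
    have h4 := hexp (e.symm v)
    rw [← hN, ← he'] at h4
    rw [one_mul]
    simpa using h4
  · rw [det_symm', he', norm_inv]
    rfl
  · unfold LN
    rw [hL, ContinuousLinearMap.inverse_equiv_comp, ContinuousLinearMap.inverse_comp_equiv, ← he',
      ContinuousLinearMap.inverse_equiv]
    ext v
    simp

/-- the coefficient of the forms -/
noncomputable def gval (Q : (Fin n → ℝ) → (Fin n → ℝ) → ℝ) (π₀ : (Fin n → ℝ) ≃L[ℝ] V)
    (G₀ : V ≃L[ℂ] V) (T : ((Fin d → ℂ) → V) → (Fin d → ℂ) → ℂ) (P : (Fin n → ℝ) ≃L[ℝ] V)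
    (b : (Fin d → ℂ) → V) (v : Fin d → ℂ) : ℂ :=
  ∑' M : spq Q, T (fun u => LN π₀ G₀ P (mx M) (b u)) v

variable {e : Basis (Fin g) ℂ V} {i₀ : Fin g → Fin d} {l : Fin g → List (Fin (d + 1))}
  {τ : Tup d g V} {k D : ℕ} {Ψ : ((Fin d → ℂ) → V) → (Fin d → ℂ) → ℂ}
  {π₀ : (Fin n → ℝ) ≃L[ℝ] V} {G₀ : V ≃L[ℂ] V}

theorem gval_congr (hΨ : IsHP D Ψ) {P : (Fin n → ℝ) ≃L[ℝ] V} {b b' : (Fin d → ℂ) → V}
    {v : Fin d → ℂ} (h : b =ᶠ[𝓝 v] b') :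
    gval Q π₀ G₀ (tm e i₀ l τ k Ψ) P b v = gval Q π₀ G₀ (tm e i₀ l τ k Ψ) P b' v := by
  unfold gval
  congr 1
  funext M
  refine tm_congr hΨ ?_
  filter_upwards [h] with u hu
  rw [hu]

theorem gval_comp (hΨ : IsHP D Ψ) {P : (Fin n → ℝ) ≃L[ℝ] V} {b : (Fin d → ℂ) → V}
    {φ : (Fin d → ℂ) → (Fin d → ℂ)} {v : Fin d → ℂ} (hφ : ContDiffAt ℂ ω φ v)
    (hφ0 : (fderiv ℂ φ v).det ≠ 0) (hb : ContDiffAt ℂ ω b (φ v)) :
    gval Q π₀ G₀ (tm e i₀ l τ k Ψ) P (fun u => b (φ u)) v =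
      (fderiv ℂ φ v).det ^ (k * nk l + D) * gval Q π₀ G₀ (tm e i₀ l τ k Ψ) P b (φ v) := by
  unfold gval
  rw [← tsum_mul_left]
  congr 1
  funext M
  exact tm_comp hΨ (h := fun u => LN π₀ G₀ P (mx M) (b u)) hφ hφ0
    ((ContinuousLinearMap.contDiff _).contDiffAt.comp _ hb)

theorem gval_affine (hΨ : IsHP D Ψ) {P P' : (Fin n → ℝ) ≃L[ℝ] V} {G : V ≃L[ℂ] V}
    (hG : IsPeriodChange Q P P' G) (c : V) {b : (Fin d → ℂ) → V} {v : Fin d → ℂ}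
    (hb : ContDiffAt ℂ ω b v) :
    gval Q π₀ G₀ (tm e i₀ l τ k Ψ) P' (fun s => G (b s) + c) v =
      gval Q π₀ G₀ (tm e i₀ l τ k Ψ) P b v := by
  obtain ⟨M', hM'⟩ := IsPeriodChange.exists_mx hG
  unfold gval
  rw [← (Equiv.mulLeft M').tsum_eq]
  congr 1
  funext M
  show tm e i₀ l τ k Ψ (fun u => LN π₀ G₀ P' (mx (M' * M)) (G (b u) + c)) v = _
  have h2 : TT π₀ P' (mx (M' * M)) =
      ((G : V →L[ℂ] V).restrictScalars ℝ).comp (TT π₀ P (mx M)) := by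
    ext v
    show P' (mact (mx (M' * M)) (π₀.symm v)) = G (P (mact (mx M) (π₀.symm v)))
    rw [mx_mul, mact_mul, hM']
  have h3 : LL π₀ P' (mx (M' * M)) = (G : V →L[ℂ] V).comp (LL π₀ P (mx M)) := by
    rw [LL, h2, clin_comp_left, LL]
  have h4 : ∀ w, LN π₀ G₀ P' (mx (M' * M)) (G w) = LN π₀ G₀ P (mx M) w := by
    intro w
    unfold LN
    rw [h3, ContinuousLinearMap.inverse_equiv_comp]
    simp
  have h5 : (fun u => LN π₀ G₀ P' (mx (M' * M)) (G (b u) + c)) =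
      fun u => LN π₀ G₀ P (mx M) (b u) + LN π₀ G₀ P' (mx (M' * M)) c := by
    funext u
    rw [map_add, h4]
  rw [h5]
  exact tm_shift hΨ ((ContinuousLinearMap.contDiff _).contDiffAt.comp _ hb) _

theorem gval_shift (hΨ : IsHP D Ψ) {P : (Fin n → ℝ) ≃L[ℝ] V} (c : V) {b : (Fin d → ℂ) → V}
    {v : Fin d → ℂ} (hb : ContDiffAt ℂ ω b v) :
    gval Q π₀ G₀ (tm e i₀ l τ k Ψ) P (fun s => b s + c) v =
      gval Q π₀ G₀ (tm e i₀ l τ k Ψ) P b v := by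
  unfold gval
  congr 1
  funext M
  have h5 : (fun u => LN π₀ G₀ P (mx M) (b u + c)) =
      fun u => LN π₀ G₀ P (mx M) (b u) + LN π₀ G₀ P (mx M) c := by
    funext u
    rw [map_add]
  rw [h5]
  exact tm_shift hΨ ((ContinuousLinearMap.contDiff _).contDiffAt.comp _ hb) _

/-- bound of a term -/
theorem term_bound {r R : ℝ} (hr : 0 < r) (hR : 0 ≤ R) (e : Basis (Fin g) ℂ V)
    (i₀ : Fin g → Fin d) (l : Fin g → List (Fin (d + 1))) (τ : Tup d g V) (k : ℕ)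
    (hΨ : IsHP D Ψ) (h₀ : IsPol Q π₀ G₀) :
    ∃ K : ℝ, 0 ≤ K ∧ ∀ (P : (Fin n → ℝ) ≃L[ℝ] V) (G : V ≃L[ℂ] V), IsPol Q P G →
      ∀ (b : (Fin d → ℂ) → V) (v₀ : Fin d → ℂ),
      DifferentiableOn ℂ b (ball v₀ r) → (∀ m : Fin d → (V →L[ℂ] ℂ), (∀ a, ‖m a‖ ≤ 1) →
        ∀ v ∈ ball v₀ r, ‖minor m (fun u => G (b u)) v‖ ≤ R) → ∀ M : spq Q,
      ‖tm e i₀ l τ k Ψ (fun u => LN π₀ G₀ P (mx M) (b u)) v₀‖ ≤
        K * (dl π₀ P G₀ G (mx M))⁻¹ ^ k := by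
  obtain ⟨K, hK0, hK⟩ := tm_bound (R₀ := ‖τ‖) hr hR e i₀ l k hΨ
  refine ⟨K, hK0, fun P G hG b v₀ hb hm M => ?_⟩
  obtain ⟨C, hC1, hC2, hC3⟩ := LN_facts h₀ hG M
  have h1 : (fun u => LN π₀ G₀ P (mx M) (b u)) = fun u => C (G (b u)) := by
    funext u
    rw [hC3]
    rfl
  rw [h1, ← hC2]
  exact hK τ le_rfl C hC1 (fun u => G (b u)) v₀
    ((G : V →L[ℂ] V).differentiable.comp_differentiableOn hb) hm

theorem gval_bound (hn : 0 < n) {r R : ℝ} (hr : 0 < r) (hR : 0 ≤ R) (e : Basis (Fin g) ℂ V)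
    (i₀ : Fin g → Fin d) (l : Fin g → List (Fin (d + 1))) (τ : Tup d g V) {k : ℕ}
    (hk : 2 * (n * n + 1) ≤ k) (hΨ : IsHP D Ψ) (h₀ : IsPol Q π₀ G₀) :
    ∃ K : ℝ, 0 ≤ K ∧ ∀ (P : (Fin n → ℝ) ≃L[ℝ] V) (G : V ≃L[ℂ] V), IsPol Q P G →
      ∀ (b : (Fin d → ℂ) → V) (v₀ : Fin d → ℂ),
      DifferentiableOn ℂ b (ball v₀ r) → (∀ m : Fin d → (V →L[ℂ] ℂ), (∀ a, ‖m a‖ ≤ 1) →
        ∀ v ∈ ball v₀ r, ‖minor m (fun u => G (b u)) v‖ ≤ R) →
      ‖gval Q π₀ G₀ (tm e i₀ l τ k Ψ) P b v₀‖ ≤ K := by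
  obtain ⟨K, hK0, hK⟩ := term_bound (Q := Q) hr hR e i₀ l τ k hΨ h₀
  refine ⟨K * |CP Q π₀ G₀|, by positivity, fun P G hG b v₀ hb hm => ?_⟩
  have h1 := dl_sum hn (Nat.lt_succ_self (n * n)) h₀ hG
  have h2 : ∀ M : spq Q, ‖tm e i₀ l τ k Ψ (fun u => LN π₀ G₀ P (mx M) (b u)) v₀‖ ≤
      K * (dl π₀ P G₀ G (mx M))⁻¹ ^ (2 * (n * n + 1)) := fun M =>
    (hK P G hG b v₀ hb hm M).trans (mul_le_mul_of_nonneg_left (dl_pow_le h₀ hG hk M) hK0)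
  have h3 := h1.1.mul_left K
  have h4 : Summable (fun M : spq Q =>
      ‖tm e i₀ l τ k Ψ (fun u => LN π₀ G₀ P (mx M) (b u)) v₀‖) :=
    Summable.of_nonneg_of_le (fun M => norm_nonneg _) h2 h3
  refine (norm_tsum_le_tsum_norm h4).trans ?_
  calc ∑' M : spq Q, ‖tm e i₀ l τ k Ψ (fun u => LN π₀ G₀ P (mx M) (b u)) v₀‖
      ≤ ∑' M : spq Q, K * (dl π₀ P G₀ G (mx M))⁻¹ ^ (2 * (n * n + 1)) :=
        h4.tsum_le_tsum h2 h3
    _ = K * ∑' M : spq Q, (dl π₀ P G₀ G (mx M))⁻¹ ^ (2 * (n * n + 1)) := tsum_mul_left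
    _ ≤ K * |CP Q π₀ G₀| := mul_le_mul_of_nonneg_left (h1.2.trans (le_abs_self _)) hK0

/-- the derivatives bound the minors -/
theorem minor_le {C L : ℝ} (hC : 0 ≤ C) (hL : 0 ≤ L) : ∃ K : ℝ, 0 ≤ K ∧
    ∀ (m : Fin d → (V →L[ℂ] ℂ)) (h : (Fin d → ℂ) → V) (v : Fin d → ℂ), (∀ a, ‖m a‖ ≤ C) →
      ‖fderiv ℂ h v‖ ≤ L → ‖minor m h v‖ ≤ K := by
  obtain ⟨K, hK0, hK⟩ := det_bound (k := d) (mul_nonneg hC hL)
  refine ⟨K, hK0, fun m h v hm hv => hK _ fun i j => ?_⟩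
  rw [Matrix.of_apply]
  refine ((m i).le_opNorm _).trans ?_
  have h1 : ‖fderiv ℂ h v (Pi.single j 1)‖ ≤ L := by
    have h2 := (fderiv ℂ h v).le_opNorm (bs j)
    rw [norm_bs, mul_one] at h2
    exact h2.trans hv
  exact mul_le_mul (hm i) h1 (norm_nonneg _) hC

variable {E : Type} [NormedAddCommGroup E] [NormedSpace ℂ E] [FiniteDimensional ℂ E]

theorem LN_contDiffAt {U : Set E} (hU : IsOpen U) {P : E → ((Fin n → ℝ) ≃L[ℝ] V)}
    (hP : ∀ x, DifferentiableOn ℂ (fun z => P z x) U) {M : Matrix (Fin n) (Fin n) ℤ} {z : E}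
    (hz : z ∈ U) (hdet : (LL π₀ (P z) M).det ≠ 0) :
    ContDiffAt ℂ ω (fun z => LN π₀ G₀ (P z) M) z := by
  have : CompleteSpace V := FiniteDimensional.complete ℂ V
  have hL : ContDiffAt ℂ ω (fun z => LL π₀ (P z) M) z :=
    (LL_diff hU hP M).contDiffAt (hU.mem_nhds hz)
  set e := (LL π₀ (P z) M).toContinuousLinearEquivOfDetNeZero hdet with he
  have he' : (e : V →L[ℂ] V) = LL π₀ (P z) M := by
    rw [he, ContinuousLinearMap.coe_toContinuousLinearEquivOfDetNeZero]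
  have hinv : ContDiffAt ℂ ω (fun z => (LL π₀ (P z) M).inverse) z := by
    have h1 : ContDiffAt ℂ ω (ContinuousLinearMap.inverse (R := ℂ) (M := V) (M₂ := V))
        (LL π₀ (P z) M) := by
      rw [← he']
      exact contDiffAt_map_inverse e
    exact h1.comp z hL
  exact contDiffAt_const.clm_comp hinv

/-- The series is holomorphic. -/
theorem gval_analytic (hn : 0 < n) (hk : n * n + 1 ≤ k) (hΨ : IsHP D Ψ) (h₀ : IsPol Q π₀ G₀)
    {U : Set E} (hU : IsOpen U) {P : E → ((Fin n → ℝ) ≃L[ℝ] V)}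
    (hP : ∀ x, DifferentiableOn ℂ (fun z => P z x) U) (hpol : ∀ z ∈ U, ∃ G, IsPol Q (P z) G)
    {B : E × (Fin d → ℂ) → V} {x₀ : E × (Fin d → ℂ)} (hx₀ : x₀.1 ∈ U)
    (hB : ContDiffAt ℂ ω B x₀) :
    AnalyticAt ℂ (fun x : E × (Fin d → ℂ) =>
      gval Q π₀ G₀ (tm e i₀ l τ k Ψ) (P x.1) (fun u => B (x.1, u)) x.2) x₀ := by
  have hcP : ContinuousAt (fun z => (P z : (Fin n → ℝ) →L[ℝ] V)) x₀.1 :=
    contAt_of_pointwise hU hP hx₀
  obtain ⟨C, hC0, hC⟩ := loc_bound h₀ hcP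
  -- a ball on which `B` is analytic with bounded derivative
  have hfdc : ContinuousAt (fderiv ℂ B) x₀ :=
    (hB.fderiv_right (m := ω) (by simp)).continuousAt
  have hev : ∀ᶠ x in 𝓝 x₀, ContDiffAt ℂ ω B x ∧ ‖fderiv ℂ B x‖ < ‖fderiv ℂ B x₀‖ + 1 :=
    (hB.eventually (by simp)).and (hfdc.norm.eventually_lt_const (by linarith))
  obtain ⟨δ, hδ, hball⟩ := Metric.eventually_nhds_iff_ball.1 hev
  set ρ := δ / 2 with hρ
  have hρ0 : 0 < ρ := by positivity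
  set L : ℝ := ‖fderiv ℂ B x₀‖ + 1 with hL
  have hL0 : 0 ≤ L := by positivity
  obtain ⟨R, hR0, hR⟩ := minor_le (d := d) (V := V) hC0 hL0
  obtain ⟨K, hK0, hK⟩ := term_bound (Q := Q) (π₀ := π₀) (G₀ := G₀) hρ0 hR0 e i₀ l τ k hΨ h₀
  set g₀ : ℝ := C0 π₀ G₀ * C with hg₀
  have hC00 : 0 ≤ C0 π₀ G₀ := by unfold C0; positivity
  -- the neighbourhood
  have hnear : ∀ᶠ x : E × (Fin d → ℂ) in 𝓝 x₀, x ∈ ball x₀ ρ ∧ x.1 ∈ U ∧
      ∀ G : V ≃L[ℂ] V, IsPol Q (P x.1) G →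
      ‖(G : V →L[ℂ] V)‖ ≤ C ∧ ‖(G : V →L[ℂ] V).det‖ ≤ C ∧ dl π₀ (P x.1) G₀ G 1 ≤ C := by
    filter_upwards [ball_mem_nhds x₀ hρ0, continuousAt_fst.eventually (hU.mem_nhds hx₀),
      continuousAt_fst.eventually hC] with x h1 h2 h3 using ⟨h1, h2, h3⟩
  obtain ⟨U', hU'1, hU'2, hU'3⟩ := _root_.eventually_nhds_iff.1 hnear
  have hpair : ∀ x ∈ U', ∀ u ∈ ball x.2 ρ, (x.1, u) ∈ ball x₀ δ := by
    intro x hx u hu
    have h1 := mem_ball.1 (hU'1 x hx).1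
    have h2 := mem_ball.1 hu
    rw [mem_ball]
    have h3 : dist (x.1, u) x ≤ dist u x.2 := by
      rw [Prod.dist_eq]
      simp
    have h4 := dist_triangle (x.1, u) x x₀
    linarith
  have hslice : ∀ x ∈ U', ∀ u ∈ ball x.2 ρ, HasFDerivAt (fun u => B (x.1, u))
      ((fderiv ℂ B (x.1, u)).comp (ContinuousLinearMap.inr ℂ E (Fin d → ℂ))) u := by
    intro x hx u hu
    have h2 : HasFDerivAt (fun u : Fin d → ℂ => (x.1, u))
        (ContinuousLinearMap.inr ℂ E (Fin d → ℂ)) u := hasFDerivAt_prodMk_right _ _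
    have h4 : HasFDerivAt B (fderiv ℂ B (x.1, u)) (x.1, u) :=
      ((hball _ (hpair x hx u hu)).1.differentiableAt (by simp)).hasFDerivAt
    exact h4.comp u h2
  refine analyticAt_tsum (U := U') (u := fun M : spq Q => K * (g₀ * ‖mact (mx M)‖⁻¹) ^ k)
    (hU'2.mem_nhds hU'3) (fun M x hx => ?_) ?_ (fun M x hx => ?_)
  · obtain ⟨G, hG⟩ := hpol x.1 (hU'1 x hx).2.1
    have h1 : ContDiffAt ℂ ω (fun z => LN π₀ G₀ (P z) (mx M)) x.1 :=
      LN_contDiffAt hU hP (hU'1 x hx).2.1 (dl_ne h₀ hG M)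
    have h2 : ContDiffAt ℂ ω B x := by
      have := (hball _ (hpair x hx x.2 (mem_ball_self hρ0))).1
      exact this
    have h3 : ContDiffAt ℂ ω (fun y : E × (Fin d → ℂ) =>
        LN π₀ G₀ (P y.1) (mx M) (B y)) x :=
      (h1.comp x contDiffAt_fst).clm_apply h2
    exact ((tm_joint (e := e) (i₀ := i₀) (l := l) (τ := τ) (k := k) hΨ h3).differentiableAt
      (by simp)).differentiableWithinAt
  · have h1 : (fun M : spq Q => K * (g₀ * ‖mact (mx M)‖⁻¹) ^ k) =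
        fun M : spq Q => (K * g₀ ^ k) * ‖mact (mx M)‖⁻¹ ^ k := by
      funext M
      rw [mul_pow, mul_assoc]
    rw [h1]
    exact (summable_mx hn (by omega)).mul_left _
  · obtain ⟨G, hG⟩ := hpol x.1 (hU'1 x hx).2.1
    obtain ⟨hG1, hG2, hG3⟩ := (hU'1 x hx).2.2 G hG
    have h1 := hK (P x.1) G hG (fun u => B (x.1, u)) x.2
      (fun u hu => (hslice x hx u hu).differentiableAt.differentiableWithinAt)
      (fun m hm u hu => by
        rw [show (fun u => G (B (x.1, u))) = fun u => (G : V →L[ℂ] V) (B (x.1, u)) from rfl,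
          minor_map' m (hslice x hx u hu).differentiableAt]
        refine hR _ _ _ (fun a => ?_) ?_
        · exact ((m a).opNorm_comp_le _).trans
            ((mul_le_mul (hm a) hG1 (norm_nonneg _) zero_le_one).trans (by rw [one_mul]))
        · rw [(hslice x hx u hu).fderiv]
          refine (ContinuousLinearMap.opNorm_comp_le _ _).trans ?_
          have h2 : ‖ContinuousLinearMap.inr ℂ E (Fin d → ℂ)‖ ≤ 1 :=
            ContinuousLinearMap.norm_inr_le_one ℂ E (Fin d → ℂ)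
          have h3 := (hball _ (hpair x hx u hu)).2.le
          calc _ ≤ L * 1 := mul_le_mul h3 h2 (norm_nonneg _) hL0
            _ = L := mul_one _) M
    refine h1.trans (mul_le_mul_of_nonneg_left ?_ hK0)
    have h2 := mact_le h₀ hG 1 M
    rw [inv_one, one_mul, mx_one] at h2
    have h3 := one_le_dl h₀ hG M
    have h4 := mact_mx_pos hn M
    have h7 : 0 ≤ (dl π₀ (P x.1) G₀ G (mx M))⁻¹ := inv_nonneg.2 (norm_nonneg _)
    refine pow_le_pow_left₀ h7 ?_ k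
    rw [← div_eq_mul_inv, inv_eq_one_div, div_le_div_iff₀ (by linarith) h4, one_mul]
    refine h2.trans ?_
    rw [hg₀, mul_assoc]
    gcongr

end Val

end Vale.Agent.P281.H713
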