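import Vale.Agent.P281.H713.GNV
import Vale.Agent.P281.H713.GVal
import Vale.Agent.P281.H713.PhiL

open scoped Topology ContDiff
open Set Filter Module Metric

namespace Vale.Agent.P281.H713

set_option linter.unusedSectionVars false

section Unit

variable {n : ℕ} {V : Type} [NormedAddCommGroup V] [InnerProductSpace ℂ V]
  [FiniteDimensional ℂ V] {Q : (Fin n → ℝ) → (Fin n → ℝ) → ℝ}
  {π₀ : (Fin n → ℝ) ≃L[ℝ] V} {G₀ : V ≃L[ℂ] V}

/-- orders of the automorphisms -/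
theorem exists_order (hn : 0 < n) (h₀ : IsPol Q π₀ G₀) :
    ∃ m : ℕ, 0 < m ∧ ∀ M ∈ unitF hn h₀, M ^ m = 1 := by
  classical
  have hpow : ∀ M ∈ unitF hn h₀, ∀ j : ℕ, M ^ j ∈ unitF hn h₀ := by
    intro M hM j
    induction j with
    | zero => rw [pow_zero]; exact one_mem_unitF hn h₀
    | succ j ih => rw [pow_succ]; exact mul_mem_unitF hn h₀ ih hM
  have hord : ∀ M ∈ unitF hn h₀, ∃ o : ℕ, 0 < o ∧ M ^ o = 1 := by
    intro M hM
    have hfin : (Set.range fun j : ℕ => M ^ j).Finite :=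
      (unitF hn h₀).finite_toSet.subset (by
        rintro _ ⟨j, rfl⟩
        exact hpow M hM j)
    have h1 : ¬ Function.Injective fun j : ℕ => M ^ j := fun hinj =>
      Set.infinite_range_of_injective hinj hfin
    rw [Function.Injective] at h1
    push Not at h1
    obtain ⟨a, b, hab, hne⟩ := h1
    have hab : M ^ a = M ^ b := hab
    have key : ∀ a b : ℕ, a < b → M ^ a = M ^ b → ∃ o : ℕ, 0 < o ∧ M ^ o = 1 := by
      intro a b hlt hab
      refine ⟨b - a, by omega, ?_⟩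
      have h3 : M ^ a * M ^ (b - a) = M ^ a * 1 := by
        rw [← pow_add, mul_one, hab]
        congr 1
        omega
      exact mul_left_cancel h3
    rcases lt_or_gt_of_ne hne with h | h
    · exact key a b h hab
    · exact key b a h hab.symm
  choose! o ho ho' using hord
  refine ⟨∏ M ∈ unitF hn h₀, o M, Finset.prod_pos fun M hM => ho M hM, fun M hM => ?_⟩
  obtain ⟨c, hc⟩ := Finset.dvd_prod_of_mem o hM
  rw [hc, pow_mul, ho' M hM, one_pow]

/-- the contractions at the base point -/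
noncomputable def Cc (π₀ : (Fin n → ℝ) ≃L[ℝ] V) (G₀ : V ≃L[ℂ] V) (M : spq Q) : V →L[ℂ] V :=
  (LN π₀ G₀ π₀ (mx M)).comp (G₀.symm : V →L[ℂ] V)

theorem LN_eq (M : spq Q) (w : V) : LN π₀ G₀ π₀ (mx M) w = Cc π₀ G₀ M (G₀ w) := by
  unfold Cc
  simp

theorem Cc_norm (h₀ : IsPol Q π₀ G₀) (M : spq Q) : ‖Cc π₀ G₀ M‖ ≤ 1 := by
  obtain ⟨D, hD1, -, hD3⟩ := LN_facts h₀ h₀ M
  have h1 : Cc π₀ G₀ M = D := by
    unfold Cc
    rw [hD3]
    ext v
    simp
  rw [h1]; exact hD1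

theorem Cc_det (h₀ : IsPol Q π₀ G₀) (M : spq Q) :
    ‖(Cc π₀ G₀ M).det‖ = ‖(LL π₀ π₀ (mx M)).det‖⁻¹ := by
  obtain ⟨D, -, hD2, hD3⟩ := LN_facts h₀ h₀ M
  have h1 : Cc π₀ G₀ M = D := by
    unfold Cc
    rw [hD3]
    ext v
    simp
  rw [h1, hD2, dl_self]

theorem Cc_one : Cc π₀ G₀ (1 : spq Q) = ContinuousLinearMap.id ℂ V := by
  unfold Cc LN
  rw [mx_one, LL_one, ContinuousLinearMap.inverse_id]
  ext v
  simp

theorem Cc_mul (h₀ : IsPol Q π₀ G₀) {N : spq Q} (hN : ‖(LL π₀ π₀ (mx N)).det‖ = 1)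
    (M : spq Q) : Cc π₀ G₀ (N * M) = (Cc π₀ G₀ M).comp (Cc π₀ G₀ N) := by
  ext v
  unfold Cc LN
  have h1 := LI_mul h₀ hN M (G₀.symm v)
  unfold LI at h1
  simp only [ContinuousLinearMap.comp_apply, ContinuousLinearEquiv.coe_coe,
    ContinuousLinearEquiv.symm_apply_apply]
  rw [h1]

/-- growth outside of the automorphisms -/
theorem nonunit_bound (hn : 0 < n) (h₀ : IsPol Q π₀ G₀) :
    ∃ (k' : ℕ) (c : ℝ), 0 < k' ∧ 1 < c ∧ ∀ M : spq Q, M ∉ unitF hn h₀ → ∀ j : ℕ,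
      (c * ‖(LL π₀ π₀ (mx M)).det‖⁻¹) ^ (2 * k' * j) ≤
        ‖(LL π₀ π₀ (mx M)).det‖⁻¹ ^ (k' * j) := by
  classical
  have h1 := (errT_tendsto hn h₀).eventually (gt_mem_nhds (show (0 : ℝ) < 1 / 2 by norm_num))
  obtain ⟨k', hk'1, hk'2⟩ := (h1.and (eventually_ge_atTop (2 * (n * n + 1)))).exists
  have hk'0 : 0 < k' := by omega
  have hsumE : Summable fun M : spq Q =>
      (if M ∈ unitF hn h₀ then 0 else ‖(LL π₀ π₀ (mx M)).det‖⁻¹ ^ k') := by
    have h1 := (dl_sum hn (Nat.lt_succ_self (n * n)) h₀ h₀).1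
    refine Summable.of_nonneg_of_le (fun M => by split_ifs <;> positivity) (fun M => ?_) h1
    by_cases hM : M ∈ unitF hn h₀
    · simp only [if_pos hM]
      have := one_le_dl h₀ h₀ M
      positivity
    · simp only [if_neg hM]
      rw [dl_self]
      exact pow_le_pow_of_le_one (by positivity) (inv_le_one_of_one_le₀ (one_le_det h₀ M)) hk'2
  obtain ⟨c, hc1, hc2⟩ : ∃ c : ℝ, 1 < c ∧ c ^ (2 * k') < 2 := by
    have h2 : ContinuousAt (fun c : ℝ => c ^ (2 * k')) 1 := (continuous_pow _).continuousAt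
    have h3 : ∀ᶠ c in 𝓝 (1 : ℝ), c ^ (2 * k') < 2 :=
      h2.eventually_lt_const (by simp only [one_pow]; norm_num)
    have h4 : ∀ᶠ c in 𝓝[>] (1 : ℝ), c ^ (2 * k') < 2 := h3.filter_mono nhdsWithin_le_nhds
    obtain ⟨c, h5, h6⟩ := (h4.and self_mem_nhdsWithin).exists
    exact ⟨c, h6, h5⟩
  refine ⟨k', c, hk'0, hc1, fun M hM j => ?_⟩
  set δ : ℝ := ‖(LL π₀ π₀ (mx M)).det‖⁻¹ with hδ
  have hδ0 : 0 ≤ δ := by positivity
  have hδk : δ ^ k' ≤ 1 / 2 := by
    have h2 := hsumE.le_tsum M (fun N _ => by split_ifs <;> positivity)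
    simp only [if_neg hM] at h2
    exact h2.trans hk'1.le
  rw [mul_assoc, pow_mul, mul_comm k' j, mul_comm j k', pow_mul _ k' j, pow_mul δ k' j]
  refine pow_le_pow_left₀ (by positivity) ?_ j
  rw [← pow_mul, mul_pow]
  calc c ^ (2 * k') * δ ^ (2 * k') ≤ 2 * (δ ^ k' * δ ^ k') := by
        rw [two_mul k', pow_add δ]
        rw [two_mul k'] at hc2
        have : 0 ≤ δ ^ k' * δ ^ k' := by positivity
        exact mul_le_mul_of_nonneg_right hc2.le this
    _ ≤ 2 * (1 / 2 * δ ^ k') := by gcongr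
    _ = δ ^ k' := by ring

/-- comparison of a series with its finite part -/
theorem tsum_sub_le (hn : 0 < n) (h₀ : IsPol Q π₀ G₀) {F : spq Q → ℂ} {K : ℝ} {k : ℕ} (hk : 2 * (n * n + 1) ≤ k)
    (hF : ∀ M, M ∉ unitF hn h₀ → ‖F M‖ ≤ K * ‖(LL π₀ π₀ (mx M)).det‖⁻¹ ^ k) :
    ‖∑' M, F M - ∑ M ∈ unitF hn h₀, F M‖ ≤ K * errT hn h₀ k := by
  classical
  have hsumE : Summable fun M : spq Q =>
      (if M ∈ unitF hn h₀ then 0 else ‖(LL π₀ π₀ (mx M)).det‖⁻¹ ^ k) := by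
    have h1 := (dl_sum hn (Nat.lt_succ_self (n * n)) h₀ h₀).1
    refine Summable.of_nonneg_of_le (fun M => by split_ifs <;> positivity) (fun M => ?_) h1
    by_cases hM : M ∈ unitF hn h₀
    · simp only [if_pos hM]
      have := one_le_dl h₀ h₀ M
      positivity
    · simp only [if_neg hM]
      rw [dl_self]
      exact pow_le_pow_of_le_one (by positivity) (inv_le_one_of_one_le₀ (one_le_det h₀ M)) hk
  have hKE := hsumE.mul_left K
  have hdom : ∀ M : spq Q, ‖if M ∈ unitF hn h₀ then 0 else F M‖ ≤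
      K * (if M ∈ unitF hn h₀ then 0 else ‖(LL π₀ π₀ (mx M)).det‖⁻¹ ^ k) := by
    intro M
    by_cases hM : M ∈ unitF hn h₀
    · simp [hM]
    · simp only [if_neg hM]
      exact hF M hM
  have h8 : Summable fun M : spq Q => ‖if M ∈ unitF hn h₀ then 0 else F M‖ :=
    Summable.of_nonneg_of_le (fun M => norm_nonneg _) hdom hKE
  have h3 : Summable fun M : spq Q => if M ∈ unitF hn h₀ then F M else 0 :=
    summable_of_ne_finset_zero (s := unitF hn h₀) fun M hM => by simp [hM]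
  have h5 : (fun M => F M) = fun M : spq Q => (if M ∈ unitF hn h₀ then 0 else F M) +
      (if M ∈ unitF hn h₀ then F M else 0) := by
    funext M
    by_cases hM : M ∈ unitF hn h₀ <;> simp [hM]
  have h4 : ∑ M ∈ unitF hn h₀, F M = ∑' M : spq Q, if M ∈ unitF hn h₀ then F M else 0 := by
    rw [tsum_eq_sum (s := unitF hn h₀) (fun M hM => by simp [hM])]
    exact Finset.sum_congr rfl fun M hM => by simp [hM]
  have h6 : ∑' M, F M = (∑' M : spq Q, if M ∈ unitF hn h₀ then 0 else F M) +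
      ∑' M : spq Q, if M ∈ unitF hn h₀ then F M else 0 := by
    rw [← h8.of_norm.tsum_add h3]
    exact congrArg tsum h5
  rw [h6, h4, add_sub_cancel_right]
  refine (norm_tsum_le_tsum_norm h8).trans ?_
  have hE : errT hn h₀ k = ∑' M : spq Q,
      (if M ∈ unitF hn h₀ then 0 else ‖(LL π₀ π₀ (mx M)).det‖⁻¹ ^ k) := rfl
  rw [hE, ← tsum_mul_left]
  exact h8.tsum_le_tsum hdom hKE

end Unit

section Jets

variable {d : ℕ} {W : Type*} [NormedAddCommGroup W] [NormedSpace ℂ W]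

theorem ratio_indep {u : Fin (d + 1) → W → ℂ} {v : W} (hu : ∀ j, DifferentiableAt ℂ (u j) v)
    (h0 : u 0 v ≠ 0)
    (hind : LinearIndependent ℂ fun j => ((u j v, fderiv ℂ (u j) v) : ℂ × (W →L[ℂ] ℂ)))
    (c : Fin d → ℂ) (hc : ∀ ξ, ∑ j, c j * fderiv ℂ (fun w => u j.succ w / u 0 w) v ξ = 0) :
    c = 0 := by
  have h1 : ∀ (j : Fin d) (ξ : W), fderiv ℂ (u j.succ) v ξ =
      u j.succ v / u 0 v * fderiv ℂ (u 0) v ξ +
        u 0 v * fderiv ℂ (fun w => u j.succ w / u 0 w) v ξ := by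
    intro j ξ
    have h2 : DifferentiableAt ℂ (fun w => u j.succ w / u 0 w) v := by
      have h3 : (fun w => u j.succ w / u 0 w) = fun w => u j.succ w * (u 0 w)⁻¹ := by
        funext w
        rw [div_eq_mul_inv]
      rw [h3]
      exact (hu j.succ).mul ((hu 0).inv h0)
    have h3 : u j.succ =ᶠ[𝓝 v] fun w => (u j.succ w / u 0 w) * u 0 w := by
      filter_upwards [(hu 0).continuousAt.eventually_ne h0] with w hw
      rw [div_mul_cancel₀ _ hw]
    have h4 : fderiv ℂ (fun w => (u j.succ w / u 0 w) * u 0 w) v =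
        (u j.succ v / u 0 v) • fderiv ℂ (u 0) v +
          u 0 v • fderiv ℂ (fun w => u j.succ w / u 0 w) v :=
      (h2.hasFDerivAt.mul (hu 0).hasFDerivAt).fderiv
    rw [h3.fderiv_eq, h4]
    rfl
  have h5 : ∀ ξ, ∑ j : Fin d, (c j * u 0 v * fderiv ℂ (u j.succ) v ξ -
      c j * u j.succ v * fderiv ℂ (u 0) v ξ) = 0 := by
    intro ξ
    have h6 := congrArg (fun t => u 0 v ^ 2 * t) (hc ξ)
    simp only [mul_zero, Finset.mul_sum] at h6
    rw [← h6]
    refine Finset.sum_congr rfl fun j _ => ?_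
    rw [h1 j ξ]
    field_simp
    ring
  rw [Fintype.linearIndependent_iff] at hind
  have h7 := hind (Fin.cons (-∑ j, c j * u j.succ v) fun j => c j * u 0 v) (by
    rw [Fin.sum_univ_succ]
    simp only [Fin.cons_zero, Fin.cons_succ]
    refine Prod.ext ?_ ?_
    · simp only [Prod.fst_add, Prod.smul_fst, Prod.fst_sum, Prod.fst_zero, smul_eq_mul]
      rw [neg_mul, Finset.sum_mul, neg_add_eq_zero]
      refine Finset.sum_congr rfl fun j _ => ?_
      ring
    · refine ContinuousLinearMap.ext fun ξ => ?_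
      simp only [Prod.snd_add, Prod.smul_snd, Prod.snd_sum, Prod.snd_zero]
      have h8 := h5 ξ
      rw [Finset.sum_sub_distrib, ← Finset.sum_mul] at h8
      rw [add_apply, sum_apply]
      show -(∑ j, c j * u j.succ v) * fderiv ℂ (u 0) v ξ +
        ∑ j : Fin d, (c j * u 0 v) * fderiv ℂ (u j.succ) v ξ = 0
      linear_combination h8)
  funext j
  have h6 := h7 j.succ
  rw [Fin.cons_succ] at h6
  exact (mul_eq_zero.1 h6).resolve_right h0

theorem frame_indep {a : Fin (d + 1) → (Fin d → ℂ) → ℂ} {v : Fin d → ℂ}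
    (hdet : (Matrix.of fun j => jr bs 1 (a j) v).det ≠ 0)
    (ha : ∀ j, DifferentiableAt ℂ (a j) v) {Φ : (Fin d → ℂ) → ℂ} (hΦ : DifferentiableAt ℂ Φ v)
    (hΦ0 : Φ v ≠ 0) : LinearIndependent ℂ fun j =>
      ((a j v * Φ v, fderiv ℂ (fun w => a j w * Φ w) v) : ℂ × ((Fin d → ℂ) →L[ℂ] ℂ)) := by
  have hrows : LinearIndependent ℂ fun j => jr bs 1 (a j) v :=
    Matrix.linearIndependent_rows_iff_isUnit.2
      ((Matrix.isUnit_iff_isUnit_det (Matrix.of fun j => jr bs 1 (a j) v)).2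
        (isUnit_iff_ne_zero.2 hdet))
  rw [Fintype.linearIndependent_iff] at hrows ⊢
  intro c hc
  refine hrows c ?_
  have h1 := congrArg Prod.fst hc
  have h2 : ∀ ξ, ∑ j, c j * fderiv ℂ (fun w => a j w * Φ w) v ξ = 0 := by
    intro ξ
    have h3 := congrArg (fun x : ℂ × ((Fin d → ℂ) →L[ℂ] ℂ) => x.2 ξ) hc
    simp only [Prod.snd_sum, sum_apply] at h3
    exact h3
  simp only [Prod.smul_fst, Prod.fst_sum, Prod.fst_zero, smul_eq_mul] at h1
  have h3 : ∑ j, c j * a j v = 0 := by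
    have h4 : (∑ j, c j * a j v) * Φ v = 0 := by
      rw [Finset.sum_mul, ← h1]
      exact Finset.sum_congr rfl fun j _ => by ring
    exact (mul_eq_zero.1 h4).resolve_right hΦ0
  have h5 : ∀ j ξ, fderiv ℂ (fun w => a j w * Φ w) v ξ =
      a j v * fderiv ℂ Φ v ξ + Φ v * fderiv ℂ (a j) v ξ := by
    intro j ξ
    have h6 : fderiv ℂ (fun w => a j w * Φ w) v =
        a j v • fderiv ℂ Φ v + Φ v • fderiv ℂ (a j) v :=
      ((ha j).hasFDerivAt.mul hΦ.hasFDerivAt).fderiv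
    rw [h6]
    rfl
  have h6 : ∀ ξ, ∑ j, c j * fderiv ℂ (a j) v ξ = 0 := by
    intro ξ
    have h7 := h2 ξ
    simp only [h5] at h7
    have h8 : ∑ j, c j * (a j v * fderiv ℂ Φ v ξ + Φ v * fderiv ℂ (a j) v ξ) =
        (∑ j, c j * a j v) * fderiv ℂ Φ v ξ + Φ v * ∑ j, c j * fderiv ℂ (a j) v ξ := by
      rw [Finset.sum_mul, Finset.mul_sum, ← Finset.sum_add_distrib]
      exact Finset.sum_congr rfl fun j _ => by ring
    rw [h8, h3, zero_mul, zero_add] at h7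
    exact (mul_eq_zero.1 h7).resolve_left hΦ0
  funext k
  rw [Finset.sum_apply]
  refine Fin.cases ?_ (fun b => ?_) k
  · simp only [jr, Pi.smul_apply, Fin.cons_zero, smul_eq_mul, one_mul, Pi.zero_apply]
    exact h3
  · simp only [jr, Pi.smul_apply, Fin.cons_succ, smul_eq_mul, Pi.zero_apply]
    exact h6 (bs b)

theorem jet_sq {A B : W → ℂ} {v : W} (hA : DifferentiableAt ℂ A v) (hB : DifferentiableAt ℂ B v)
    (hB0 : B v = 0) : HasFDerivAt (fun w => A w * B w ^ 2) (0 : W →L[ℂ] ℂ) v := by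
  have h1 := hA.hasFDerivAt.mul (hB.hasFDerivAt.pow 2)
  have h2 : (A v • ((2 • B v ^ (2 - 1)) • fderiv ℂ B v) + (B v ^ 2) • fderiv ℂ A v :
      W →L[ℂ] ℂ) = 0 := by
    refine ContinuousLinearMap.ext fun ξ => ?_
    show A v * ((2 • B v ^ (2 - 1)) * fderiv ℂ B v ξ) + (B v ^ 2) * fderiv ℂ A v ξ = 0
    rw [hB0]
    simp
  rw [← h2]
  exact h1

theorem slice_cd {F : (Fin d → ℂ) → ℂ} {v : Fin d → ℂ}
    (h : ContDiffAt ℂ ω (fun x : ℂ × (Fin d → ℂ) => F x.2) (0, v)) : ContDiffAt ℂ ω F v :=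
  h.comp v (contDiffAt_const.prodMk contDiffAt_id)

end Jets

end Vale.Agent.P281.H713
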