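import Vale.Agent.P281.H713.GNC

open scoped Topology ContDiff
open Set Filter Module Metric

namespace Vale.Agent.P281.H713

set_option linter.unusedSectionVars false

section Fix

variable {d g n : ℕ} {V : Type} [NormedAddCommGroup V] [InnerProductSpace ℂ V]
  [FiniteDimensional ℂ V] {Q : (Fin n → ℝ) → (Fin n → ℝ) → ℝ}
  {π₀ : (Fin n → ℝ) ≃L[ℝ] V} {G₀ : V ≃L[ℂ] V}

/-- the quadratic relations -/
noncomputable def qrel (C : V →L[ℂ] V) (h : (Fin d → ℂ) → V)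
    (i : (Fin d → (V →L[ℂ] ℂ)) × (Fin d → (V →L[ℂ] ℂ))) (v : Fin d → ℂ) : ℂ :=
  minor i.1 (fun u => C (h u)) v * minor i.2 h v - minor i.2 (fun u => C (h u)) v * minor i.1 h v

theorem unit_fix (hn : 0 < n) (h₀ : IsPol Q π₀ G₀) {h : (Fin d → ℂ) → V} {v₁ : Fin d → ℂ}
    (hh : ContDiffAt ℂ ω h v₁) {t₀ : Fin d → (V →L[ℂ] ℂ)} (ht₀ : minor t₀ h v₁ ≠ 0)
    {M : spq Q} (hM : M ∈ unitF hn h₀) {o : ℕ} (ho : 0 < o) (hMo : M ^ o = 1)
    (hfix : ∀ᶠ w in 𝓝 v₁, ∀ i, qrel (Cc π₀ G₀ M) h i w = 0) :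
    ∃ β : ℂ, β ^ o = 1 ∧ ∀ᶠ w in 𝓝 v₁, ∀ m, minor m (fun u => Cc π₀ G₀ M (h u)) w =
      β * minor m h w := by
  have hn' : (ω : WithTop ℕ∞) ≠ 0 := by simp
  set b : (Fin d → ℂ) → ℂ := fun w =>
    minor t₀ (fun u => Cc π₀ G₀ M (h u)) w / minor t₀ h w with hb
  have hev : ∀ᶠ w in 𝓝 v₁, (∀ m, minor m (fun u => Cc π₀ G₀ M (h u)) w = b w * minor m h w) ∧
      minor t₀ h w ≠ 0 ∧ DifferentiableAt ℂ h w := by
    filter_upwards [hfix, (minor_contDiffAt t₀ hh).continuousAt.eventually_ne ht₀,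
      hh.eventually (by simp)] with w h1 h2 h3
    refine ⟨fun m => ?_, h2, h3.differentiableAt hn'⟩
    have h4 := h1 (m, t₀)
    unfold qrel at h4
    rw [hb]
    field_simp
    linear_combination h4
  have hU : ‖(LL π₀ π₀ (mx M)).det‖ = 1 := (mem_unitF hn h₀).1 hM
  have hroot : ∀ᶠ w in 𝓝 v₁, b w ^ o = 1 := by
    filter_upwards [hev] with w hw
    obtain ⟨h1, h2, h3⟩ := hw
    have hpow : ∀ j : ℕ, ∀ m, minor m (fun u => Cc π₀ G₀ (M ^ j) (h u)) w =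
        b w ^ j * minor m h w := by
      intro j
      induction j with
      | zero =>
        intro m
        rw [pow_zero, pow_zero, one_mul, Cc_one]
        rfl
      | succ j ih =>
        intro m
        have h4 : (fun u => Cc π₀ G₀ (M ^ (j + 1)) (h u)) =
            fun u => Cc π₀ G₀ (M ^ j) (Cc π₀ G₀ M (h u)) := by
          funext u
          rw [pow_succ', Cc_mul h₀ hU]
          rfl
        have h5 : DifferentiableAt ℂ (fun u => Cc π₀ G₀ M (h u)) w :=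
          (Cc π₀ G₀ M).differentiableAt.comp w h3
        rw [h4, minor_map' m h5, h1, ← minor_map' m h3, ih, pow_succ]
        ring
    have h4 := hpow o t₀
    rw [hMo, Cc_one] at h4
    have h5 : minor t₀ (fun u => (ContinuousLinearMap.id ℂ V) (h u)) w = minor t₀ h w := rfl
    rw [h5] at h4
    have h6 : (b w ^ o - 1) * minor t₀ h w = 0 := by linear_combination -h4
    exact sub_eq_zero.1 ((mul_eq_zero.1 h6).resolve_right h2)
  have hbc : ContinuousAt b v₁ := by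
    have h1 : ContDiffAt ℂ ω (fun u => Cc π₀ G₀ M (h u)) v₁ :=
      (Cc π₀ G₀ M).contDiff.contDiffAt.comp v₁ hh
    exact (minor_contDiffAt t₀ h1).continuousAt.div (minor_contDiffAt t₀ hh).continuousAt ht₀
  have hfin : {z : ℂ | z ^ o = 1}.Finite := by
    have h1 : {z : ℂ | z ^ o = 1} = ((Polynomial.nthRoots o (1 : ℂ)).toFinset : Set ℂ) := by
      ext z
      simp [Polynomial.mem_nthRoots ho]
    rw [h1]
    exact Finset.finite_toSet _
  have hconst : ∀ᶠ w in 𝓝 v₁, b w = b v₁ := by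
    have h1 : IsClosed ({z : ℂ | z ^ o = 1} \ {b v₁}) := (hfin.subset sdiff_subset).isClosed
    have h2 : ∀ᶠ w in 𝓝 v₁, b w ∉ {z : ℂ | z ^ o = 1} \ {b v₁} :=
      hbc.eventually (h1.isOpen_compl.mem_nhds fun h => h.2 rfl)
    filter_upwards [h2, hroot] with w h3 h4
    by_contra h5
    exact h3 ⟨h4, h5⟩
  refine ⟨b v₁, hroot.self_of_nhds, ?_⟩
  filter_upwards [hev, hconst] with w h1 h2 m
  rw [← h2]
  exact h1.1 m

variable {e : Basis (Fin g) ℂ V} {i₀ : Fin g → Fin d} {l : Fin g → List (Fin (d + 1))}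
  {τ : Tup d g V} {k D : ℕ} {Ψ : ((Fin d → ℂ) → V) → (Fin d → ℂ) → ℂ}

theorem tm_fix (hΨ : IsHP D Ψ) {h h' : (Fin d → ℂ) → V} {v : Fin d → ℂ}
    (hh : ContDiffAt ℂ ω h v) {β : ℂ} {o : ℕ} (hβ : β ^ o = 1) (hk : o ∣ k) (hD : o ∣ D)
    (hfix : ∀ᶠ w in 𝓝 v, ∀ m, minor m h' w = β * minor m h w) :
    tm e i₀ l τ k Ψ h' v = tm e i₀ l τ k Ψ h v := by
  have hid : ContDiffAt ℂ ω (fun u : Fin d → ℂ => u) v := contDiffAt_id
  have hdet : ∀ v, (fderiv ℂ (fun u : Fin d → ℂ => u) v).det = 1 := fun v => by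
    rw [fderiv_fun_id]
    exact LinearMap.det_id
  have h1 := KK_transf (e := e) (i₀ := i₀) (l := l) τ (h' := h') (h := h) (φ := fun u => u)
    (c := β) hid (by rw [hdet]; exact one_ne_zero) hh (fun m => by
      filter_upwards [hfix] with u hu
      rw [hdet, mul_one]
      exact hu m)
  unfold tm
  rw [h1, hdet, one_pow, mul_one, hΨ.scale h h' v v β hfix.self_of_nhds, mul_pow, ← pow_mul]
  obtain ⟨a, ha⟩ := hk
  obtain ⟨a', ha'⟩ := hD
  have h2 : β ^ ((∑ i, (1 + (l i).length * d)) * k) = 1 := by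
    rw [ha, show (∑ i, (1 + (l i).length * d)) * (o * a) = o * ((∑ i, (1 + (l i).length * d)) * a)
      by ring, pow_mul, hβ, one_pow]
  have h3 : β ^ D = 1 := by rw [ha', pow_mul, hβ, one_pow]
  rw [h2, h3, one_mul, one_mul]

theorem KK_cd {h : (Fin d → ℂ) → V} {v : Fin d → ℂ} (hh : ContDiffAt ℂ ω h v)
    (τ : Tup d g V) : ContDiffAt ℂ ω (fun x : Tup d g V × (Fin d → ℂ) =>
      KK e i₀ l x.1 h x.2) (τ, v) :=
  KK_joint (P := Tup d g V) (τ := fun τ => τ) (B := fun x => h x.2) (x₀ := (τ, v))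
    contDiffAt_id (ContDiffAt.comp (f := Prod.snd) (τ, v) hh contDiffAt_snd)

theorem KK_cd' {h : (Fin d → ℂ) → V} {v : Fin d → ℂ} (hh : ContDiffAt ℂ ω h v)
    (τ : Tup d g V) : ContDiffAt ℂ ω (fun u => KK e i₀ l τ h u) v :=
  (KK_cd (e := e) (i₀ := i₀) (l := l) hh τ).comp v (contDiffAt_const.prodMk contDiffAt_id)

theorem tm_cd (hΨ : IsHP D Ψ) {h : (Fin d → ℂ) → V} {v : Fin d → ℂ} (hh : ContDiffAt ℂ ω h v) :
    ContDiffAt ℂ ω (fun u => tm e i₀ l τ k Ψ h u) v :=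
  slice_cd (tm_joint (P := ℂ) (B := fun x => h x.2) (x₀ := ((0 : ℂ), v)) hΨ
    (ContDiffAt.comp (f := Prod.snd) ((0 : ℂ), v) hh contDiffAt_snd))

theorem hp_cd (hΨ : IsHP D Ψ) {h : (Fin d → ℂ) → V} {v : Fin d → ℂ} (hh : ContDiffAt ℂ ω h v) :
    ContDiffAt ℂ ω (fun u => Ψ h u) v :=
  slice_cd (hΨ.joint (P := ℂ) (fun x => h x.2) ((0 : ℂ), v)
    (ContDiffAt.comp (f := Prod.snd) ((0 : ℂ), v) hh contDiffAt_snd))

theorem cd_map {h : (Fin d → ℂ) → V} {v : Fin d → ℂ} (hh : ContDiffAt ℂ ω h v) (C : V →L[ℂ] V) :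
    ContDiffAt ℂ ω (fun u => C (h u)) v := C.contDiff.contDiffAt.comp v hh

/-- the maximum dominates nearby -/
theorem tube {h : (Fin d → ℂ) → V} {v₁ : Fin d → ℂ} (hh : ContDiffAt ℂ ω h v₁) {R₀ : ℝ}
    (hτ0 : KK e i₀ l τ h v₁ ≠ 0)
    (hmax : ∀ τ' : Tup d g V, ‖τ'‖ ≤ R₀ → ‖KK e i₀ l τ' h v₁‖ ≤ ‖KK e i₀ l τ h v₁‖) {c : ℝ}
    (hc : 1 < c) : ∀ᶠ v in 𝓝 v₁, ∀ τ' : Tup d g V, ‖τ'‖ ≤ R₀ →
      ‖KK e i₀ l τ' h v‖ ≤ c * ‖KK e i₀ l τ h v‖ := by
  have : ProperSpace (Tup d g V) := FiniteDimensional.proper ℂ (Tup d g V)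
  have hK : IsCompact (closedBall (0 : Tup d g V) R₀) := isCompact_closedBall _ _
  have h1 := hK.eventually_forall_of_forall_eventually (x₀ := v₁)
    (P := fun v τ' => ‖KK e i₀ l τ' h v‖ ≤ c * ‖KK e i₀ l τ h v‖) (fun τ' hτ' => by
      have h2 : ContinuousAt (fun x : (Fin d → ℂ) × Tup d g V => ‖KK e i₀ l x.2 h x.1‖)
          (v₁, τ') := by
        have h3 := (KK_cd (e := e) (i₀ := i₀) (l := l) hh τ').continuousAt
        have h4 : ContinuousAt (fun x : (Fin d → ℂ) × Tup d g V => (x.2, x.1)) (v₁, τ') :=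
          continuous_swap.continuousAt
        exact (ContinuousAt.comp (f := fun x : (Fin d → ℂ) × Tup d g V => (x.2, x.1)) h3 h4).norm
      have h5 : ContinuousAt (fun x : (Fin d → ℂ) × Tup d g V => c * ‖KK e i₀ l τ h x.1‖)
          (v₁, τ') := by
        have h6 := (KK_cd' (e := e) (i₀ := i₀) (l := l) hh τ).continuousAt
        exact (ContinuousAt.comp (f := Prod.fst) (x := (v₁, τ')) h6 continuousAt_fst).norm.const_mul c
      have h7 : ‖KK e i₀ l τ' h v₁‖ < c * ‖KK e i₀ l τ h v₁‖ := by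
        have h8 := hmax τ' (mem_closedBall_zero_iff.1 hτ')
        have h9 : 0 < ‖KK e i₀ l τ h v₁‖ := norm_pos_iff.2 hτ0
        nlinarith
      exact (h2.eventually_lt h5 h7).mono fun x hx => hx.le)
  filter_upwards [h1] with v hv τ' hτ'
  exact hv τ' (mem_closedBall_zero_iff.2 hτ')

theorem nondeg_map {b : (Fin d → ℂ) → V} {v₀ : Fin d → ℂ} (hb : ContDiffAt ℂ ω b v₀)
    (hnd : IsNondeg b v₀) (G : V ≃L[ℂ] V) : IsNondeg (fun v => G (b v)) v₀ := by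
  have hm : ∀ m, minor m (fun v => G (b v)) =ᶠ[𝓝 v₀]
      minor (fun a => (m a).comp (G : V →L[ℂ] V)) b := by
    intro m
    filter_upwards [hb.eventually (by simp)] with u hu
    exact minor_map' m (hu.differentiableAt (n := ω) (by simp)) (G : V →L[ℂ] V)
  refine ⟨fun c ξ hc => hnd.1 c ξ fun m => ?_, fun l hl => ?_⟩
  · have h1 := hc fun a => (m a).comp (G.symm : V →L[ℂ] V)
    rw [(hm _).fderiv_eq, (hm _).self_of_nhds] at h1
    have h2 : (fun a => ((m a).comp (G.symm : V →L[ℂ] V)).comp (G : V →L[ℂ] V)) = m := by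
      funext a
      ext v
      simp
    rw [h2] at h1
    exact h1
  · have h1 := hnd.2 (l.comp (G : V →L[ℂ] V)) hl
    ext v
    have h2 := congrArg (fun T : V →L[ℂ] ℂ => T (G.symm v)) h1
    simpa using h2

/-- the choice of the point -/
theorem nc_prep (hn : 0 < n) (h₀ : IsPol Q π₀ G₀) {h : (Fin d → ℂ) → V} {v₀ : Fin d → ℂ}
    (hh : ContDiffAt ℂ ω h v₀) (hnd : IsNondeg h v₀) (e : Basis (Fin g) ℂ V)
    {good : (Fin d → ℂ) → Prop} (hgood : ∀ᶠ v in 𝓝 v₀, good v) :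
    ∃ v₁, good v₁ ∧ ContDiffAt ℂ ω h v₁ ∧ ∃ t : Fin (d + 1) → Fin d → (V →L[ℂ] ℂ),
      (Matrix.of fun j => jr bs 1 (minor (t j) h) v₁).det ≠ 0 ∧ minor (t 0) h v₁ ≠ 0 ∧
      (∀ M ∈ unitF hn h₀, (∀ᶠ w in 𝓝 v₁, ∀ i, qrel (Cc π₀ G₀ M) h i w = 0) ∨
        ∃ i, qrel (Cc π₀ G₀ M) h i v₁ ≠ 0) ∧
      ∃ (i₀ : Fin g → Fin d) (l : Fin g → List (Fin (d + 1))) (R₀ : ℝ) (τ : Tup d g V),
        ‖τ‖ ≤ R₀ ∧ KK e i₀ l τ h v₁ ≠ 0 ∧
        ∀ τ' : Tup d g V, ‖τ'‖ ≤ R₀ → ‖KK e i₀ l τ' h v₁‖ ≤ ‖KK e i₀ l τ h v₁‖ := by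
  have hn' : (ω : WithTop ℕ∞) ≠ 0 := by simp
  obtain ⟨t, ht, ht0⟩ := exists_frame hnd
  have hdc : ContinuousAt (fun v => (Matrix.of fun j => jr bs 1 (minor (t j) h) v).det) v₀ :=
    (contDiffAt_det fun i j => contDiffAt_jr (minor_contDiffAt _ hh) j).continuousAt
  obtain ⟨δ, hδ, hball⟩ := Metric.eventually_nhds_iff_ball.1 (hh.eventually (by simp))
  obtain ⟨O, hO1, hO2, hO3⟩ := _root_.eventually_nhds_iff.1 (((hgood.and
    (ball_mem_nhds v₀ hδ)).and (hdc.eventually_ne ht)).and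
    ((minor_contDiffAt (t 0) hh).continuousAt.eventually_ne ht0))
  have hOb : ∀ v ∈ O, v ∈ ball v₀ δ := fun v hv => (hO1 v hv).1.1.2
  -- nondegeneracy
  have hnd2 : ∀ v₁ ∈ ball v₀ δ, ∀ L : V →L[ℂ] ℂ,
      (∀ᶠ v in 𝓝 v₁, ∀ ξ, L (fderiv ℂ h v ξ) = 0) → L = 0 := by
    intro v₁ hv₁ L hL
    have hfd : ∀ v ∈ ball v₀ δ, HasFDerivAt (fun u => L (h u)) (L.comp (fderiv ℂ h v)) v :=
      fun v hv => L.hasFDerivAt.comp v (((hball v hv).differentiableAt hn').hasFDerivAt)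
    have han : AnalyticOnNhd ℂ (fun v => L.comp (fderiv ℂ h v)) (ball v₀ δ) := by
      intro v hv
      have h1 : ContDiffAt ℂ ω (fderiv ℂ h) v := (hball v hv).fderiv_right (by simp)
      exact (contDiffAt_const.clm_comp h1).analyticAt
    have hz : ∀ v ∈ ball v₀ δ, L.comp (fderiv ℂ h v) = 0 := by
      have h1 := han.eqOn_zero_of_preconnected_of_eventuallyEq_zero
        (convex_ball v₀ δ).isPreconnected hv₁ (by
          filter_upwards [hL] with v hv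
          exact ContinuousLinearMap.ext hv)
      exact fun v hv => h1 hv
    refine hnd.2 L (eventually_of_mem (ball_mem_nhds v₀ hδ) fun v hv => ?_)
    refine isOpen_ball.is_const_of_fderiv_eq_zero (𝕜 := ℂ) (f := fun u => L (h u))
      (convex_ball v₀ δ).isPreconnected ?_ ?_ hv (mem_ball_self hδ)
    · exact fun u hu => (hfd u hu).differentiableAt.differentiableWithinAt
    · intro u hu
      rw [(hfd u hu).fderiv]
      exact hz u hu
  obtain ⟨v₁, hv₁, hgen⟩ := exists_generic (unitF hn h₀)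
    (F := fun M i v => qrel (Cc π₀ G₀ M) h i v) hO2 ⟨v₀, hO3⟩ (fun M i v hv => by
      have h1 : ContDiffAt ℂ ω h v := hball v (hOb v hv)
      have h2 := cd_map h1 (Cc π₀ G₀ M)
      exact (((minor_contDiffAt i.1 h2).continuousAt.mul (minor_contDiffAt i.2 h1).continuousAt).sub
        ((minor_contDiffAt i.2 h2).continuousAt.mul
          (minor_contDiffAt i.1 h1).continuousAt)).continuousWithinAt)
  obtain ⟨⟨⟨hg1, hg2⟩, hg3⟩, hg4⟩ := hO1 v₁ hv₁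
  have hh₁ : ContDiffAt ℂ ω h v₁ := hball v₁ hg2
  obtain ⟨i₀, l, m, hKK⟩ := KK_ne e hh₁ hg3 hg4 (hnd2 v₁ hg2)
  have : ProperSpace (Tup d g V) := FiniteDimensional.proper ℂ (Tup d g V)
  set R₀ : ℝ := ‖((t, m) : Tup d g V)‖ with hR₀
  have hcont : ContinuousOn (fun τ' : Tup d g V => ‖KK e i₀ l τ' h v₁‖)
      (closedBall (0 : Tup d g V) R₀) := by
    intro τ' _
    have h1 := (KK_cd (e := e) (i₀ := i₀) (l := l) hh₁ τ').continuousAt
    have h2 : ContinuousAt (fun τ' : Tup d g V => (τ', v₁)) τ' := by fun_prop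
    exact (ContinuousAt.comp (f := fun τ' : Tup d g V => (τ', v₁)) h1 h2).norm.continuousWithinAt
  obtain ⟨τ, hτ, hmax⟩ := (isCompact_closedBall (0 : Tup d g V) R₀).exists_isMaxOn
    ⟨(t, m), by rw [mem_closedBall_zero_iff]⟩ hcont
  have hmax' : ∀ τ' : Tup d g V, ‖τ'‖ ≤ R₀ → ‖KK e i₀ l τ' h v₁‖ ≤ ‖KK e i₀ l τ h v₁‖ :=
    fun τ' hτ' => hmax (mem_closedBall_zero_iff.2 hτ')
  refine ⟨v₁, hg1, hh₁, t, hg3, hg4, hgen, i₀, l, R₀, τ, mem_closedBall_zero_iff.1 hτ, ?_, hmax'⟩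
  intro h0
  have h1 := hmax' (t, m) le_rfl
  rw [h0, norm_zero] at h1
  exact hKK (norm_le_zero_iff.1 h1)

end Fix

end Vale.Agent.P281.H713
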