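import Vale.Agent.P281.H713.GNC2

open scoped Topology ContDiff
open Set Filter Module Metric

namespace Vale.Agent.P281.H713

set_option linter.unusedSectionVars false

section Limit

variable {d g n : ℕ} {V : Type} [NormedAddCommGroup V] [InnerProductSpace ℂ V]
  [FiniteDimensional ℂ V] {Q : (Fin n → ℝ) → (Fin n → ℝ) → ℝ}
  {π₀ : (Fin n → ℝ) ≃L[ℝ] V} {G₀ : V ≃L[ℂ] V}
  {e : Basis (Fin g) ℂ V} {i₀ : Fin g → Fin d} {l : Fin g → List (Fin (d + 1))}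
  {τ : Tup d g V} {k D : ℕ} {Ψ : ((Fin d → ℂ) → V) → (Fin d → ℂ) → ℂ}

/-- the tail of the series -/
theorem tail_bound (hn : 0 < n) (h₀ : IsPol Q π₀ G₀) {h : (Fin d → ℂ) → V} {v : Fin d → ℂ}
    (hh : ContDiffAt ℂ ω h v) {R₀ c : ℝ} (hτ : ‖τ‖ ≤ R₀)
    (htube : ∀ τ' : Tup d g V, ‖τ'‖ ≤ R₀ → ‖KK e i₀ l τ' h v‖ ≤ c * ‖KK e i₀ l τ h v‖)
    {R K : ℝ} (hR : ∀ m : Fin d → (V →L[ℂ] ℂ), (∀ a, ‖m a‖ ≤ 1) → ‖minor m h v‖ ≤ R)
    (hK : ∀ (h : (Fin d → ℂ) → V) (v : Fin d → ℂ),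
      (∀ m : Fin d → (V →L[ℂ] ℂ), (∀ a, ‖m a‖ ≤ 1) → ‖minor m h v‖ ≤ R) → ‖Ψ h v‖ ≤ K)
    {k' j : ℕ} (hc : 0 ≤ c) (hnu : ∀ M : spq Q, M ∉ unitF hn h₀ → ∀ j : ℕ,
      (c * ‖(LL π₀ π₀ (mx M)).det‖⁻¹) ^ (2 * k' * j) ≤
        ‖(LL π₀ π₀ (mx M)).det‖⁻¹ ^ (k' * j)) (hj : 2 * (n * n + 1) ≤ k' * j) :
    ‖∑' M : spq Q, tm e i₀ l τ (2 * k' * j) Ψ (fun u => Cc π₀ G₀ M (h u)) v -
      ∑ M ∈ unitF hn h₀, tm e i₀ l τ (2 * k' * j) Ψ (fun u => Cc π₀ G₀ M (h u)) v‖ ≤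
      K * ‖KK e i₀ l τ h v‖ ^ (2 * k' * j) * errT hn h₀ (k' * j) := by
  have hd : DifferentiableAt ℂ h v := hh.differentiableAt (by simp)
  have hK0 : 0 ≤ K := (norm_nonneg _).trans (hK h v hR)
  refine tsum_sub_le hn h₀ hj fun M hM => ?_
  unfold tm
  rw [norm_mul, norm_pow, KK_map τ hh, norm_mul, Cc_det h₀]
  have h1 := htube (tcomp τ (Cc π₀ G₀ M)) ((norm_tcomp_le (Cc_norm h₀ M)).trans hτ)
  have h2 := hK (fun u => Cc π₀ G₀ M (h u)) v fun m hm => minor_contr hd hR (Cc_norm h₀ M) m hm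
  set δ := ‖(LL π₀ π₀ (mx M)).det‖⁻¹ with hδ
  have hδ0 : 0 ≤ δ := by positivity
  calc (δ * ‖KK e i₀ l (tcomp τ (Cc π₀ G₀ M)) h v‖) ^ (2 * k' * j) *
        ‖Ψ (fun u => Cc π₀ G₀ M (h u)) v‖
      ≤ (δ * (c * ‖KK e i₀ l τ h v‖)) ^ (2 * k' * j) * K := by gcongr
    _ = K * ‖KK e i₀ l τ h v‖ ^ (2 * k' * j) * (c * δ) ^ (2 * k' * j) := by
        rw [mul_pow, mul_pow, mul_pow]
        ring
    _ ≤ K * ‖KK e i₀ l τ h v‖ ^ (2 * k' * j) * δ ^ (k' * j) := by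
        gcongr
        exact hnu M hM j

/-- the factors of the forms -/
theorem psi_exists (hn : 0 < n) (h₀ : IsPol Q π₀ G₀) {h : (Fin d → ℂ) → V} {v₁ : Fin d → ℂ}
    (hh : ContDiffAt ℂ ω h v₁) {t₀ : Fin d → (V →L[ℂ] ℂ)} (ht0 : minor t₀ h v₁ ≠ 0)
    (hgen : ∀ M ∈ unitF hn h₀, (∀ᶠ w in 𝓝 v₁, ∀ i, qrel (Cc π₀ G₀ M) h i w = 0) ∨
        ∃ i, qrel (Cc π₀ G₀ M) h i v₁ ≠ 0) {o : ℕ} (ho : 0 < o) :
    ∃ (D : ℕ) (Φ : ((Fin d → ℂ) → V) → (Fin d → ℂ) → ℂ), 0 < D ∧ o ∣ D ∧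
      (∀ m : Fin d → (V →L[ℂ] ℂ), IsHP D (fun H v => minor m H v * Φ H v)) ∧ Φ h v₁ ≠ 0 ∧
      ContDiffAt ℂ ω (fun v => Φ h v) v₁ ∧
      ∀ M ∈ unitF hn h₀, ¬ (∀ᶠ w in 𝓝 v₁, ∀ i, qrel (Cc π₀ G₀ M) h i w = 0) →
        ∃ A B : (Fin d → ℂ) → ℂ, ContDiffAt ℂ ω A v₁ ∧ ContDiffAt ℂ ω B v₁ ∧ B v₁ = 0 ∧
          ∀ v, Φ (fun u => Cc π₀ G₀ M (h u)) v = A v * B v ^ 2 := by
  classical
  set 𝒰 : Finset (spq Q) := (unitF hn h₀).filter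
    (fun M => ¬ ∀ᶠ w in 𝓝 v₁, ∀ i, qrel (Cc π₀ G₀ M) h i w = 0) with h𝒰
  have hex : ∀ M : spq Q, ∃ i, M ∈ 𝒰 → qrel (Cc π₀ G₀ M) h i v₁ ≠ 0 := by
    intro M
    by_cases hM : M ∈ 𝒰
    · obtain ⟨h1, h2⟩ := Finset.mem_filter.1 hM
      obtain ⟨i, hi⟩ := (hgen M h1).resolve_left h2
      exact ⟨i, fun _ => hi⟩
    · exact ⟨(t₀, t₀), fun h => absurd h hM⟩
  choose iM hiM using hex
  let Fn : spq Q → ((Fin d → ℂ) → V) → (Fin d → ℂ) → ℂ := fun M H v =>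
    minor (iM M).2 (fun u => Cc π₀ G₀ M (h u)) v₁ * minor (iM M).1 H v -
      minor (iM M).1 (fun u => Cc π₀ G₀ M (h u)) v₁ * minor (iM M).2 H v
  have hFn : ∀ M, IsHP 1 (Fn M) := fun M =>
    (((IsHP.const _).mul (IsHP.minor (iM M).1)).sub
      ((IsHP.const _).mul (IsHP.minor (iM M).2))).congr (by norm_num) fun b v => rfl
  have hFn0 : ∀ M, Fn M (fun u => Cc π₀ G₀ M (h u)) v₁ = 0 := by
    intro M
    simp only [Fn]
    ring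
  have hFn1 : ∀ M ∈ 𝒰, Fn M h v₁ ≠ 0 := by
    intro M hM h1
    apply hiM M hM
    simp only [Fn] at h1
    unfold qrel
    linear_combination -h1
  set q := 𝒰.card with hq
  obtain ⟨p, hp⟩ : ∃ p, o = p + 1 := ⟨o - 1, by omega⟩
  refine ⟨o * (1 + 2 * q), fun H v => minor t₀ H v ^ (p * (1 + 2 * q)) *
    (∏ M ∈ 𝒰, Fn M H v) ^ 2, by positivity, dvd_mul_right _ _, fun m => ?_, ?_, ?_, ?_⟩
  · exact ((IsHP.minor m).mul (((IsHP.minor t₀).pow (p * (1 + 2 * q))).mul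
      ((IsHP.prod 𝒰 hFn).pow 2))).congr (by rw [hp, ← hq]; ring) fun b v => rfl
  · exact mul_ne_zero (pow_ne_zero _ ht0) (pow_ne_zero _ (Finset.prod_ne_zero_iff.2 hFn1))
  · exact ((minor_contDiffAt t₀ hh).pow _).mul ((contDiffAt_prod fun M _ =>
      hp_cd (hFn M) hh).pow 2)
  · intro M hM hM'
    have hM𝒰 : M ∈ 𝒰 := Finset.mem_filter.2 ⟨hM, hM'⟩
    have hhM : ContDiffAt ℂ ω (fun u => Cc π₀ G₀ M (h u)) v₁ := cd_map hh _
    refine ⟨fun v => minor t₀ (fun u => Cc π₀ G₀ M (h u)) v ^ (p * (1 + 2 * q)),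
      fun v => ∏ M' ∈ 𝒰, Fn M' (fun u => Cc π₀ G₀ M (h u)) v,
      (minor_contDiffAt t₀ hhM).pow _, contDiffAt_prod fun M' _ => hp_cd (hFn M') hhM,
      Finset.prod_eq_zero hM𝒰 (hFn0 M), fun v => rfl⟩

/-- the series is holomorphic at the base point -/
theorem s_cd (hn : 0 < n) (hk : n * n + 1 ≤ k) (hΨ : IsHP D Ψ) (h₀ : IsPol Q π₀ G₀)
    {h : (Fin d → ℂ) → V} {v : Fin d → ℂ} (hh : ContDiffAt ℂ ω h v) :
    ContDiffAt ℂ ω (fun v => ∑' M : spq Q,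
      tm e i₀ l τ k Ψ (fun u => Cc π₀ G₀ M (h u)) v) v := by
  have hb : ContDiffAt ℂ ω (fun x : ℂ × (Fin d → ℂ) => (G₀.symm : V →L[ℂ] V) (h x.2))
      ((0 : ℂ), v) :=
    ContDiffAt.comp (f := Prod.snd) (g := fun u => (G₀.symm : V →L[ℂ] V) (h u)) ((0 : ℂ), v)
      (cd_map hh _) contDiffAt_snd
  have h1 := gval_analytic (e := e) (i₀ := i₀) (l := l) (τ := τ) (Q := Q) (E := ℂ) hn hk hΨ h₀
    (U := univ) isOpen_univ (P := fun _ => π₀) (fun x => differentiableOn_const _)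
    (fun z _ => ⟨G₀, h₀⟩) (B := fun x => (G₀.symm : V →L[ℂ] V) (h x.2)) (x₀ := ((0 : ℂ), v))
    (mem_univ _) hb
  have h2 : (fun v => ∑' M : spq Q, tm e i₀ l τ k Ψ (fun u => Cc π₀ G₀ M (h u)) v) =
      fun v => gval Q π₀ G₀ (tm e i₀ l τ k Ψ) π₀ (fun u => (G₀.symm : V →L[ℂ] V) (h u)) v := by
    funext v
    unfold gval
    refine tsum_congr fun M => ?_
    have h3 : (fun u => LN π₀ G₀ π₀ (mx M) ((G₀.symm : V →L[ℂ] V) (h u))) =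
        fun u => Cc π₀ G₀ M (h u) := by
      funext u
      rfl
    rw [h3]
  rw [h2]
  exact slice_cd h1.contDiffAt

theorem indep_near {X₀ : Fin (d + 1) → ℂ × ((Fin d → ℂ) →L[ℂ] ℂ)}
    (hX : LinearIndependent ℂ X₀) : ∃ ε : ℝ, 0 < ε ∧
    ∀ X : Fin (d + 1) → ℂ × ((Fin d → ℂ) →L[ℂ] ℂ), (∀ j, ‖X j - X₀ j‖ < ε) →
      LinearIndependent ℂ X := by
  obtain ⟨ε, hε, h1⟩ := Metric.eventually_nhds_iff.1 hX.eventually
  refine ⟨ε, hε, fun X h2 => h1 ?_⟩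
  rw [dist_pi_lt_iff hε]
  intro j
  rw [dist_eq_norm]
  exact h2 j

/-- the main asymptotic statement -/
theorem nc_limit (hn : 0 < n) (h₀ : IsPol Q π₀ G₀) {h : (Fin d → ℂ) → V} {v₁ : Fin d → ℂ}
    (hh : ContDiffAt ℂ ω h v₁) {t : Fin (d + 1) → Fin d → (V →L[ℂ] ℂ)}
    (ht : (Matrix.of fun j => jr bs 1 (minor (t j) h) v₁).det ≠ 0) (ht0 : minor (t 0) h v₁ ≠ 0)
    (hgen : ∀ M ∈ unitF hn h₀, (∀ᶠ w in 𝓝 v₁, ∀ i, qrel (Cc π₀ G₀ M) h i w = 0) ∨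
        ∃ i, qrel (Cc π₀ G₀ M) h i v₁ ≠ 0) {R₀ : ℝ} (hτ : ‖τ‖ ≤ R₀)
    (hτ0 : KK e i₀ l τ h v₁ ≠ 0)
    (hmax : ∀ τ' : Tup d g V, ‖τ'‖ ≤ R₀ → ‖KK e i₀ l τ' h v₁‖ ≤ ‖KK e i₀ l τ h v₁‖) :
    ∃ (k D : ℕ) (Ψ : Fin (d + 1) → ((Fin d → ℂ) → V) → (Fin d → ℂ) → ℂ),
      (∀ j, IsHP D (Ψ j)) ∧ 0 < D ∧ 2 * (n * n + 1) ≤ k ∧
      ∑' M : spq Q, tm e i₀ l τ k (Ψ 0) (fun u => Cc π₀ G₀ M (h u)) v₁ ≠ 0 ∧
      ∀ c : Fin d → ℂ, (∀ ξ, ∑ j, c j * fderiv ℂ (fun w =>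
        (∑' M : spq Q, tm e i₀ l τ k (Ψ j.succ) (fun u => Cc π₀ G₀ M (h u)) w) /
          ∑' M : spq Q, tm e i₀ l τ k (Ψ 0) (fun u => Cc π₀ G₀ M (h u)) w) v₁ ξ = 0) → c = 0 := by
  classical
  have hn' : (ω : WithTop ℕ∞) ≠ 0 := by simp
  obtain ⟨o, ho, hord⟩ := exists_order hn h₀
  obtain ⟨k', c, hk'0, hc1, hnu⟩ := nonunit_bound hn h₀
  obtain ⟨D, Φ, hD0, hoD, hΦ, hΦ0, hΦc, hfac⟩ := psi_exists hn h₀ hh ht0 hgen ho
  set Ψ : Fin (d + 1) → ((Fin d → ℂ) → V) → (Fin d → ℂ) → ℂ := fun j H v =>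
    minor (t j) H v * Φ H v with hΨdef
  have hΨ : ∀ j, IsHP D (Ψ j) := fun j => hΦ (t j)
  set 𝒰₁ : Finset (spq Q) := (unitF hn h₀).filter
    (fun M => ∀ᶠ w in 𝓝 v₁, ∀ i, qrel (Cc π₀ G₀ M) h i w = 0) with h𝒰₁
  set 𝒰₂ : Finset (spq Q) := (unitF hn h₀).filter
    (fun M => ¬ ∀ᶠ w in 𝓝 v₁, ∀ i, qrel (Cc π₀ G₀ M) h i w = 0) with h𝒰₂
  have hβ : ∀ M : spq Q, ∃ β : ℂ, M ∈ 𝒰₁ → β ^ o = 1 ∧ ∀ᶠ w in 𝓝 v₁, ∀ m,
      minor m (fun u => Cc π₀ G₀ M (h u)) w = β * minor m h w := by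
    intro M
    by_cases hM : M ∈ 𝒰₁
    · obtain ⟨h1, h2⟩ := Finset.mem_filter.1 hM
      obtain ⟨β, h3, h4⟩ := unit_fix hn h₀ hh ht0 h1 ho (hord M h1) h2
      exact ⟨β, fun _ => ⟨h3, h4⟩⟩
    · exact ⟨1, fun h => absurd h hM⟩
  choose β hβ using hβ
  set N₁ : ℂ := (𝒰₁.card : ℂ) with hN₁
  have hN₁0 : N₁ ≠ 0 := by
    have h1 : (1 : spq Q) ∈ 𝒰₁ := by
      refine Finset.mem_filter.2 ⟨one_mem_unitF hn h₀, Eventually.of_forall fun w i => ?_⟩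
      unfold qrel
      rw [Cc_one]
      show minor i.1 h w * minor i.2 h w - minor i.2 h w * minor i.1 h w = 0
      ring
    have : 0 < 𝒰₁.card := Finset.card_pos.2 ⟨1, h1⟩
    rw [hN₁]
    exact_mod_cast this.ne'
  -- the limit jets
  set X₀ : Fin (d + 1) → ℂ × ((Fin d → ℂ) →L[ℂ] ℂ) := fun j =>
    (minor (t j) h v₁ * (Φ h v₁ * N₁), fderiv ℂ (fun w => minor (t j) h w * (Φ h w * N₁)) v₁)
    with hX₀
  have hX₀i : LinearIndependent ℂ X₀ :=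
    frame_indep (a := fun j => minor (t j) h) (Φ := fun w => Φ h w * N₁) ht
      (fun j => (minor_contDiffAt (t j) hh).differentiableAt hn')
      ((hΦc.differentiableAt hn').mul_const N₁) (mul_ne_zero hΦ0 hN₁0)
  obtain ⟨ε₁, hε₁, hind⟩ := indep_near hX₀i
  have hx0 : 0 < ‖minor (t 0) h v₁ * (Φ h v₁ * N₁)‖ :=
    norm_pos_iff.2 (mul_ne_zero ht0 (mul_ne_zero hΦ0 hN₁0))
  set ε : ℝ := min ε₁ ‖minor (t 0) h v₁ * (Φ h v₁ * N₁)‖ with hε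
  have hε0 : 0 < ε := lt_min hε₁ hx0
  -- the neighbourhood
  set L : ℝ := ‖fderiv ℂ h v₁‖ + 1 with hL
  have hfdc : ContinuousAt (fderiv ℂ h) v₁ := (hh.fderiv_right (m := ω) (by simp)).continuousAt
  have hKc := KK_cd' (e := e) (i₀ := i₀) (l := l) hh τ
  obtain ⟨ρ, hρ, hball⟩ := Metric.eventually_nhds_iff_ball.1
    ((hh.eventually (by simp)).and ((hKc.continuousAt.eventually_ne hτ0).and
    ((tube (e := e) (i₀ := i₀) (l := l) hh hτ0 hmax hc1).and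
    ((hfdc.norm.eventually_lt_const (show ‖fderiv ℂ h v₁‖ < L by rw [hL]; linarith)).and
    ((Finset.eventually_all 𝒰₁).2 fun M hM => eventually_eventually_nhds.2 (hβ M hM).2)))))
  obtain ⟨R, hR0, hR⟩ := minor_le (d := d) (V := V) zero_le_one (show 0 ≤ L by positivity)
  choose K hK0 hK using fun j => (hΨ j).bdd R
  set K₃ : ℝ := ∑ j, K j with hK₃
  have hKK₃ : ∀ j, K j ≤ K₃ := fun j =>
    Finset.single_le_sum (f := K) (fun i _ => hK0 i) (Finset.mem_univ j)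
  have hK₃0 : 0 ≤ K₃ := Finset.sum_nonneg fun i _ => hK0 i
  -- the exponent
  obtain ⟨j, hj1, hj2⟩ : ∃ j : ℕ, 2 * (n * n + 1) ≤ j ∧
      K₃ * errT hn h₀ (k' * (o * j)) * (1 + ρ⁻¹) < ε := by
    have h1 : Tendsto (fun j => k' * (o * j)) atTop atTop :=
      (tendsto_id.const_mul_atTop' ho).const_mul_atTop' hk'0
    have h2 := (((errT_tendsto hn h₀).comp h1).const_mul K₃).mul_const (1 + ρ⁻¹)
    rw [mul_zero, zero_mul] at h2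
    obtain ⟨j, h3, h4⟩ := ((eventually_ge_atTop (2 * (n * n + 1))).and
      (h2.eventually (gt_mem_nhds hε0))).exists
    exact ⟨j, h3, h4⟩
  set N := k' * (o * j) with hN
  set k := 2 * k' * (o * j) with hk
  have hjN : j ≤ N := by
    rw [hN, ← mul_assoc]
    exact Nat.le_mul_of_pos_left _ (Nat.mul_pos hk'0 ho)
  have hN2 : 2 * (n * n + 1) ≤ N := hj1.trans hjN
  have hkN : k = 2 * N := by rw [hk, hN]; ring
  have hk2 : 2 * (n * n + 1) ≤ k := by omega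
  have hok : o ∣ k := ⟨2 * k' * j, by rw [hk]; ring⟩
  set η : ℝ := K₃ * errT hn h₀ N with hη
  have hη0 : 0 ≤ η := by
    refine mul_nonneg hK₃0 (tsum_nonneg fun M => ?_)
    split_ifs <;> positivity
  set s : Fin (d + 1) → (Fin d → ℂ) → ℂ := fun j v =>
    ∑' M : spq Q, tm e i₀ l τ k (Ψ j) (fun u => Cc π₀ G₀ M (h u)) v with hs
  set κ : (Fin d → ℂ) → ℂ := fun v => KK e i₀ l τ h v with hκ
  set Er : Fin (d + 1) → (Fin d → ℂ) → ℂ := fun j v =>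
    ∑ M ∈ 𝒰₂, tm e i₀ l τ k (Ψ j) (fun u => Cc π₀ G₀ M (h u)) v / κ v ^ k with hEr
  set Rr : Fin (d + 1) → (Fin d → ℂ) → ℂ := fun j v =>
    s j v / κ v ^ k - (minor (t j) h v * (Φ h v * N₁) + Er j v) with hRr
  have hb1 : ∀ v ∈ ball v₁ ρ, ContDiffAt ℂ ω h v := fun v hv => (hball v hv).1
  have hb2 : ∀ v ∈ ball v₁ ρ, κ v ≠ 0 := fun v hv => (hball v hv).2.1
  have hκc : ∀ v ∈ ball v₁ ρ, ContDiffAt ℂ ω κ v := fun v hv =>
    KK_cd' (e := e) (i₀ := i₀) (l := l) (hb1 v hv) τ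
  have hκk : ∀ v ∈ ball v₁ ρ, ContDiffAt ℂ ω (fun v => (κ v ^ k)⁻¹) v := fun v hv =>
    ((hκc v hv).pow k).inv (pow_ne_zero _ (hb2 v hv))
  have hsc : ∀ j, ∀ v ∈ ball v₁ ρ, ContDiffAt ℂ ω (s j) v := fun j v hv =>
    s_cd hn (by omega) (hΨ j) h₀ (hb1 v hv)
  have hΦcc : ∀ v ∈ ball v₁ ρ, ∀ j, ContDiffAt ℂ ω (fun v => minor (t j) h v * Φ h v) v :=
    fun v hv j => hp_cd (hΨ j) (hb1 v hv)
  have hErc : ∀ j, ∀ v ∈ ball v₁ ρ, ContDiffAt ℂ ω (Er j) v := by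
    intro j v hv
    refine ContDiffAt.sum fun M _ => ?_
    have h1 := (tm_cd (e := e) (i₀ := i₀) (l := l) (τ := τ) (k := k) (hΨ j)
      (cd_map (hb1 v hv) (Cc π₀ G₀ M))).mul (hκk v hv)
    simpa only [div_eq_mul_inv] using h1
  have hRrc : ∀ j, ∀ v ∈ ball v₁ ρ, ContDiffAt ℂ ω (Rr j) v := by
    intro j v hv
    have h1 := (hsc j v hv).mul (hκk v hv)
    have h2 : ContDiffAt ℂ ω (fun v => minor (t j) h v * (Φ h v * N₁)) v := by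
      have h3 := (hΦcc v hv j).mul (contDiffAt_const (c := N₁))
      simpa only [mul_assoc] using h3
    have h3 := h1.sub (h2.add (hErc j v hv))
    simpa only [hRr, div_eq_mul_inv] using h3
  -- the remainder
  have hRb : ∀ j, ∀ v ∈ ball v₁ ρ, ‖Rr j v‖ ≤ η := by
    intro j v hv
    obtain ⟨g1, g2, g3, g4, g5⟩ := hball v hv
    have h1 := tail_bound (e := e) (i₀ := i₀) (l := l) (τ := τ) (Ψ := Ψ j) (k' := k')
      (j := o * _) hn h₀ g1 hτ g3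
      (fun m hm => hR m h v hm g4.le) (hK j) (by linarith) hnu hN2
    have hκ0 : κ v ^ k ≠ 0 := pow_ne_zero _ g2
    have h2 : ∑ M ∈ unitF hn h₀, tm e i₀ l τ k (Ψ j) (fun u => Cc π₀ G₀ M (h u)) v =
        κ v ^ k * (minor (t j) h v * (Φ h v * N₁) + Er j v) := by
      rw [← Finset.sum_filter_add_sum_filter_not (unitF hn h₀)
        (fun M => ∀ᶠ w in 𝓝 v₁, ∀ i, qrel (Cc π₀ G₀ M) h i w = 0), mul_add]
      congr 1
      · have h3 : ∀ M ∈ 𝒰₁, tm e i₀ l τ k (Ψ j) (fun u => Cc π₀ G₀ M (h u)) v =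
            tm e i₀ l τ k (Ψ j) h v := fun M hM =>
          tm_fix (hΨ j) g1 (hβ M hM).1 hok hoD (g5 M hM)
        rw [Finset.sum_congr rfl h3, Finset.sum_const, nsmul_eq_mul]
        show N₁ * (κ v ^ k * (minor (t j) h v * Φ h v)) = _
        ring
      · rw [hEr]
        simp only [Finset.mul_sum]
        refine Finset.sum_congr rfl fun M _ => ?_
        field_simp
    rw [← hk, h2] at h1
    have h3 : Rr j v = (s j v - κ v ^ k * (minor (t j) h v * (Φ h v * N₁) + Er j v)) / κ v ^ k := by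
      rw [hRr]
      field_simp
    rw [h3, norm_div, div_le_iff₀ (norm_pos_iff.2 hκ0)]
    refine h1.trans ?_
    rw [hη, norm_pow]
    have h4 : 0 ≤ errT hn h₀ N := tsum_nonneg fun M => by split_ifs <;> positivity
    have h5 : 0 ≤ ‖κ v‖ ^ k := by positivity
    calc K j * ‖κ v‖ ^ k * errT hn h₀ N ≤ K₃ * ‖κ v‖ ^ k * errT hn h₀ N := by
          gcongr
          exact hKK₃ j
      _ = K₃ * errT hn h₀ N * ‖κ v‖ ^ k := by ring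
  have hv₁ : v₁ ∈ ball v₁ ρ := mem_ball_self hρ
  have hRd : ∀ j, ‖fderiv ℂ (Rr j) v₁‖ ≤ η / ρ := fun j =>
    MF.norm_fderiv_le_of_ball hρ (fun v hv =>
      ((hRrc j v hv).differentiableAt hn').differentiableWithinAt) (hRb j)
  -- the units which move the point
  have hE0 : ∀ j, HasFDerivAt (Er j) (0 : (Fin d → ℂ) →L[ℂ] ℂ) v₁ ∧ Er j v₁ = 0 := by
    intro j
    have h1 : ∀ M ∈ 𝒰₂, ∃ A B : (Fin d → ℂ) → ℂ, ContDiffAt ℂ ω A v₁ ∧ ContDiffAt ℂ ω B v₁ ∧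
        B v₁ = 0 ∧ ∀ v, tm e i₀ l τ k (Ψ j) (fun u => Cc π₀ G₀ M (h u)) v / κ v ^ k =
          A v * B v ^ 2 := by
      intro M hM
      obtain ⟨h2, h3⟩ := Finset.mem_filter.1 hM
      obtain ⟨A, B, hA, hB, hB0, hAB⟩ := hfac M h2 h3
      have hhM := cd_map hh (Cc π₀ G₀ M)
      refine ⟨fun v => KK e i₀ l τ (fun u => Cc π₀ G₀ M (h u)) v ^ k *
        minor (t j) (fun u => Cc π₀ G₀ M (h u)) v * (κ v ^ k)⁻¹ * A v, B, ?_, hB, hB0,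
        fun v => ?_⟩
      · exact ((((KK_cd' (e := e) (i₀ := i₀) (l := l) hhM τ).pow k).mul
          (minor_contDiffAt (t j) hhM)).mul (hκk v₁ hv₁)).mul hA
      · unfold tm
        show KK e i₀ l τ (fun u => Cc π₀ G₀ M (h u)) v ^ k *
          (minor (t j) (fun u => Cc π₀ G₀ M (h u)) v * Φ (fun u => Cc π₀ G₀ M (h u)) v) /
          κ v ^ k = _
        rw [hAB v, div_eq_mul_inv]
        ring
    constructor
    · have h2 : HasFDerivAt (Er j) (∑ M ∈ 𝒰₂, (0 : (Fin d → ℂ) →L[ℂ] ℂ)) v₁ := by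
        refine HasFDerivAt.fun_sum fun M hM => ?_
        obtain ⟨A, B, hA, hB, hB0, hAB⟩ := h1 M hM
        have h3 := jet_sq (hA.differentiableAt hn') (hB.differentiableAt hn') hB0
        have h4 : (fun v => tm e i₀ l τ k (Ψ j) (fun u => Cc π₀ G₀ M (h u)) v / κ v ^ k) =
            fun v => A v * B v ^ 2 := funext hAB
        rw [h4]
        exact h3
      rwa [Finset.sum_const_zero] at h2
    · refine Finset.sum_eq_zero fun M hM => ?_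
      obtain ⟨A, B, hA, hB, hB0, hAB⟩ := h1 M hM
      show tm e i₀ l τ k (Ψ j) (fun u => Cc π₀ G₀ M (h u)) v₁ / κ v₁ ^ k = 0
      rw [hAB v₁, hB0]
      simp
  -- the normalized series
  set u : Fin (d + 1) → (Fin d → ℂ) → ℂ := fun j v => s j v / κ v ^ k with hu
  have hud : ∀ j, DifferentiableAt ℂ (u j) v₁ := by
    intro j
    have h1 := (hsc j v₁ hv₁).mul (hκk v₁ hv₁)
    have h2 : ContDiffAt ℂ ω (u j) v₁ := by simpa only [hu, div_eq_mul_inv] using h1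
    exact h2.differentiableAt hn'
  have hmain : ∀ j, DifferentiableAt ℂ (fun w => minor (t j) h w * (Φ h w * N₁)) v₁ := by
    intro j
    have h3 := (hΦcc v₁ hv₁ j).mul (contDiffAt_const (c := N₁))
    have h4 : ContDiffAt ℂ ω (fun w => minor (t j) h w * (Φ h w * N₁)) v₁ := by
      simpa only [mul_assoc] using h3
    exact h4.differentiableAt hn'
  have hu0 : ∀ j, u j v₁ = minor (t j) h v₁ * (Φ h v₁ * N₁) + Rr j v₁ := by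
    intro j
    rw [hRr]
    show s j v₁ / κ v₁ ^ k = minor (t j) h v₁ * (Φ h v₁ * N₁) + (s j v₁ / κ v₁ ^ k -
      (minor (t j) h v₁ * (Φ h v₁ * N₁) + Er j v₁))
    rw [(hE0 j).2]
    ring
  have hufd : ∀ j, fderiv ℂ (u j) v₁ =
      fderiv ℂ (fun w => minor (t j) h w * (Φ h w * N₁)) v₁ + fderiv ℂ (Rr j) v₁ := by
    intro j
    have h1 : u j = fun w => minor (t j) h w * (Φ h w * N₁) + Er j w + Rr j w := by
      funext w
      rw [hRr]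
      ring
    have h2 : HasFDerivAt (fun w => minor (t j) h w * (Φ h w * N₁) + Er j w + Rr j w)
        (fderiv ℂ (fun w => minor (t j) h w * (Φ h w * N₁)) v₁ + 0 + fderiv ℂ (Rr j) v₁) v₁ :=
      ((hmain j).hasFDerivAt.add (hE0 j).1).add
        ((hRrc j v₁ hv₁).differentiableAt hn').hasFDerivAt
    rw [h1, h2.fderiv, add_zero]
  have hηρ : η < ε ∧ η / ρ < ε := by
    have h1 : 0 ≤ η * ρ⁻¹ := by positivity
    rw [mul_add, mul_one] at hj2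
    rw [div_eq_mul_inv]
    constructor <;> linarith
  have hXi : LinearIndependent ℂ fun j =>
      ((u j v₁, fderiv ℂ (u j) v₁) : ℂ × ((Fin d → ℂ) →L[ℂ] ℂ)) := by
    refine hind _ fun j => ?_
    have h1 : ((u j v₁, fderiv ℂ (u j) v₁) : ℂ × ((Fin d → ℂ) →L[ℂ] ℂ)) - X₀ j =
        (Rr j v₁, fderiv ℂ (Rr j) v₁) := by
      rw [hX₀]
      refine Prod.ext ?_ ?_
      · show u j v₁ - minor (t j) h v₁ * (Φ h v₁ * N₁) = Rr j v₁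
        rw [hu0]
        ring
      · show fderiv ℂ (u j) v₁ - fderiv ℂ (fun w => minor (t j) h w * (Φ h w * N₁)) v₁ = _
        rw [hufd, add_sub_cancel_left]
    rw [h1]
    refine max_lt ?_ ?_
    · exact ((hRb j v₁ hv₁).trans_lt hηρ.1).trans_le (min_le_left _ _)
    · exact ((hRd j).trans_lt hηρ.2).trans_le (min_le_left _ _)
  have hu00 : u 0 v₁ ≠ 0 := by
    intro h0
    have h1 := hu0 0
    rw [h0] at h1
    have h2 : ‖minor (t 0) h v₁ * (Φ h v₁ * N₁)‖ = ‖Rr 0 v₁‖ := by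
      rw [eq_neg_of_add_eq_zero_left h1.symm, norm_neg]
    have h3 := (hRb 0 v₁ hv₁).trans_lt hηρ.1
    have h4 := min_le_right ε₁ ‖minor (t 0) h v₁ * (Φ h v₁ * N₁)‖
    rw [← hε] at h4
    linarith
  have hs0 : s 0 v₁ ≠ 0 := by
    intro h0
    apply hu00
    show s 0 v₁ / κ v₁ ^ k = 0
    rw [h0, zero_div]
  refine ⟨k, D, Ψ, hΨ, hD0, hk2, hs0, fun c hc => ratio_indep hud hu00 hXi c fun ξ => ?_⟩
  rw [← hc ξ]
  refine Finset.sum_congr rfl fun i _ => ?_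
  congr 1
  have h1 : (fun w => u i.succ w / u 0 w) =ᶠ[𝓝 v₁] fun w => s i.succ w / s 0 w := by
    filter_upwards [ball_mem_nhds v₁ hρ] with w hw
    show (s i.succ w / κ w ^ k) / (s 0 w / κ w ^ k) = s i.succ w / s 0 w
    rw [div_div_div_cancel_right₀ (pow_ne_zero _ (hb2 w hw))]
  rw [h1.fderiv_eq]

end Limit

end Vale.Agent.P281.H713
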