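import Vale.Agent.P281.H713.TorFib

open scoped Manifold ContDiff Topology
open Set Filter Metric Module

namespace Vale.Agent.P281.H713

open Vale.Agent.P281 Vale.Agent.P281.MF Vale.Agent.P281.ISO Vale.Agent.P281.ELL

set_option linter.unusedSectionVars false

universe u

section Main

variable {E E' V : Type} [NormedAddCommGroup E] [NormedSpace ℂ E] [FiniteDimensional ℂ E]
  [NormedAddCommGroup E'] [NormedSpace ℂ E'] [FiniteDimensional ℂ E']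
  [NormedAddCommGroup V] [InnerProductSpace ℂ V] [FiniteDimensional ℂ V]
variable {X Z Y F : Type u} [TopologicalSpace X] [ChartedSpace E X] [IsManifold 𝓘(ℂ, E) ω X]
  [TopologicalSpace Z] [ChartedSpace E Z] [IsManifold 𝓘(ℂ, E) ω Z]
  [TopologicalSpace Y] [ChartedSpace E' Y] [IsManifold 𝓘(ℂ, E') ω Y]
  [TopologicalSpace F] [ChartedSpace V F] [IsManifold 𝓘(ℂ, V) ω F]

/-- fibre coordinates give submersions -/
theorem surj_of_coord {E E' E₀ : Type} [NormedAddCommGroup E] [NormedSpace ℂ E]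
    [FiniteDimensional ℂ E] [NormedAddCommGroup E'] [NormedSpace ℂ E'] [FiniteDimensional ℂ E']
    [NormedAddCommGroup E₀] [NormedSpace ℂ E₀] [FiniteDimensional ℂ E₀]
    (hE : finrank ℂ E = finrank ℂ E' + finrank ℂ E₀) {A : E →L[ℂ] E'} {P : E →L[ℂ] E₀}
    (h : ∀ ξ, A ξ = 0 → P ξ = 0 → ξ = 0) : Function.Surjective A := by
  let T : E →ₗ[ℂ] (E' × E₀) := (A.prod P : E →L[ℂ] (E' × E₀))
  have h1 : Function.Injective T := by
    rw [injective_iff_map_eq_zero]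
    intro v hv
    exact h v (Prod.mk.inj hv).1 (Prod.mk.inj hv).2
  have h2 : finrank ℂ E = finrank ℂ (E' × E₀) := by
    rw [hE, Module.finrank_prod]
  have h3 : Function.Surjective T :=
    (LinearMap.injective_iff_surjective_of_finrank_eq_finrank h2).1 h1
  intro w
  obtain ⟨v, hv⟩ := h3 (w, 0)
  exact ⟨v, (Prod.mk.inj hv).1⟩

/-- families of polarized complex tori -/
theorem main_torus [Nonempty X] (hE : finrank ℂ E = finrank ℂ E' + finrank ℂ V)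
    (j : Z → X) (hj : J.IsBigOpen E j) (f : Z → Y) (hf : ContMDiff 𝓘(ℂ, E) 𝓘(ℂ, E') ω f)
    (𝒢 : Set (Set Y)) (h𝒢 : J.IsDivisorial E E' f 𝒢)
    {n : ℕ} (hn : 0 < n) {Q : (Fin n → ℝ) → (Fin n → ℝ) → ℝ} {ι : Type u} (U : ι → Set Y)
    (π : ι → Y → ((Fin n → ℝ) ≃L[ℝ] V)) (u : ι → Y → V → Z)
    (hT : IsTorusFamily E E' f (⋃₀ 𝒢) Q U π u)
    (Δ : Set X → ℝ) (hsnc : J.IsSNC E Δ) (Δ' : Set Z → ℝ) (hsnc' : J.IsSNC E Δ')
    (hΔ : J.IsRestriction j Δ Δ') (hBS : ∀ G, J.orbBase' E E' f Δ' G ≠ 0 → G ∈ 𝒢)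
    {n₀ : ℕ} {P : (Fin n₀ → ℝ) ≃L[ℝ] V} {p : V → F} (hF : IsTorus P p) :
    J.kod V (fun (C : Set F) p g => J.IsLocalEq V C g p) 0 +
      J.kod E' (fun (G : Set Y) z g => J.IsLocalEq E' G g z) (J.orbBase' E E' f Δ') ≤
      J.kod E (fun (D : Set X) z g => J.IsLocalEq E D g z) Δ := by
  rw [JB.kod_eq, JB.kod_eq, JB.kod_eq]
  let e₀ : E ≃L[ℂ] (E' × V) := ContinuousLinearEquiv.ofFinrankEq (by
    rw [hE, Module.finrank_prod])
  have hs' := JB.snc hsnc'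
  obtain ⟨hF1, hF2, hF3⟩ := hF
  refine kod_add_le fun j₁ j₂ h₁ h₂ => ?_
  have hj₁ : j₁ = 0 := kodGE_torus P hF1 (fun w => (hF2 w).1) (fun w => (hF2 w).2)
    (fun w m => ((hF3 _ _).2 ⟨m, rfl⟩).symm) (fun i => rfl) h₁
  rw [hj₁, zero_add]
  exact kodGE_of_forms (r := 0) j hj f hf 𝒢 h𝒢 (fun x hx => by
      obtain ⟨a, ha⟩ := (hT.cover _).1 hx
      obtain ⟨ζ, -, -, h1⟩ := hT.coord a x ha
      exact surj_of_coord hE (P := (mfderiv 𝓘(ℂ, E) 𝓘(ℂ, V) ζ x : E →L[ℂ] V)) h1)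
    e₀ Δ hsnc Δ' hsnc' hΔ hBS
    (fun y hy => hasForms_torus hn hT (fun x => hf x) e₀ (fun D => (snc01 hs' D).1) hy) h₂

end Main

end Vale.Agent.P281.H713
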