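import Vale.Agent.P281.H713.CurvBound
import Vale.Agent.P281.H713.CurvNC
import Vale.Agent.P281.H713.MainA

open scoped Manifold ContDiff Topology
open Set Filter Metric Module

namespace Vale.Agent.P281.H713

open Vale.Agent.P281 Vale.Agent.P281.MF Vale.Agent.P281.ISO Vale.Agent.P281.ELL

set_option linter.unusedSectionVars false

universe u

section Forms

variable {E E' : Type} [NormedAddCommGroup E] [NormedSpace ℂ E] [FiniteDimensional ℂ E]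
  [NormedAddCommGroup E'] [NormedSpace ℂ E'] [FiniteDimensional ℂ E']
variable {X Y : Type u} [TopologicalSpace X] [ChartedSpace E X] [IsManifold 𝓘(ℂ, E) ω X]
  [TopologicalSpace Y] [ChartedSpace E' Y] [IsManifold 𝓘(ℂ, E') ω Y]
variable {V : Type} [NormedAddCommGroup V] [InnerProductSpace ℂ V] [FiniteDimensional ℂ V]
variable {n g : ℕ} {Q : (Fin n → ℝ) → (Fin n → ℝ) → ℝ}
variable {f : X → Y} {S : Set Y} {ι : Type u} {U : ι → Set Y}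
  {π : ι → Y → ((Fin n → ℝ) ≃L[ℝ] V)} {α : ι → X → V}

theorem pos_of_period (P : (Fin n → ℝ) ≃L[ℝ] V) (hV : 0 < finrank ℂ V) : 0 < n := by
  rcases Nat.eq_zero_or_pos n with h | h
  · exfalso
    subst h
    have h1 : Subsingleton V := P.symm.injective.subsingleton
    have h2 := finrank_zero_of_subsingleton (R := ℂ) (M := V)
    omega
  · exact h

theorem relForm_curve (hC : IsCurveFamily E E' f S Q U π α) (hn : 0 < n)
    (hf : ∀ x, HolM E E' f x) (e₀ : E ≃L[ℂ] (E' × ℂ)) {φ : V → ℂ} {d : ℕ}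
    (hφd : Differentiable ℂ φ) {A : ℝ} (hA : 0 ≤ A) (hφA : ∀ v, ‖φ v‖ ≤ A * ‖v‖ ^ d)
    {k : ℕ} (hk : 2 * (n * n + 1) ≤ k) {π₀ : (Fin n → ℝ) ≃L[ℝ] V} {G₀ : V ≃L[ℂ] V}
    (h₀ : IsPol Q π₀ G₀) (e : Basis (Fin g) ℂ V) {Θ : X → ℂ}
    (hΘ : ∀ a x, f x ∈ U a → ∀ β, Lft E f π α a x β → ∀ q v P, Slc E f q v x P →
      Θ x = cval Q φ k π₀ e (π a (f x)) (fun t => β (q t)) v *
        JP e₀ (dM E E' f x) P ^ (d + k * gg g)) :
    RelForm f S e₀ (d + k * gg g) ∅ (fun _ => 0) Θ := by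
  refine ⟨hol_of_local hf e₀ ?_, ?_⟩
  · intro x hx T eD _ _
    obtain ⟨ζ, hζ, hinj⟩ := hC.coord x hx
    obtain ⟨c, hc, hev⟩ := form_local' hC hn hf e₀ hφd hA hφA (by omega) h₀ e hΘ hx hζ hinj
    refine ⟨ζ, c, hζ, hc, ?_⟩
    filter_upwards [hev] with z h4 _ _
    simp only [pow_zero, Finset.prod_const_one, mul_one]
    exact h4
  · intro r hr
    obtain ⟨C, hC'⟩ := form_bound hC hn e₀ hA hφA hk h₀ e hΘ hr
    exact ⟨C, fun v₀ q h1 h2 h3 h4 _ P h6 => hC' v₀ q h1 h2 h3 h4 P h6⟩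

theorem hasForms_curve (hC : IsCurveFamily E E' f S Q U π α) (hg : 2 ≤ finrank ℂ V)
    (hf : ∀ x, HolM E E' f x) (e₀ : E ≃L[ℂ] (E' × ℂ)) {Δ : Set X → ℝ} (hΔ : ∀ D, 0 ≤ Δ D)
    {y : Y} (hy : y ∉ S) : HasForms f S e₀ Δ 1 y := by
  classical
  obtain ⟨a₀, ha₀⟩ := (hC.cover y).1 hy
  have hn : 0 < n := pos_of_period (π a₀ y) (by omega)
  obtain ⟨G₀, h₀⟩ : ∃ G₀, IsPol Q (π a₀ y) G₀ := hC.polarized a₀ y ha₀
  set e : Basis (Fin (finrank ℂ V)) ℂ V := finBasis ℂ V with he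
  obtain ⟨l₀, l₁, k, hk, hnc⟩ := curve_nc hC hn hf e₀ hg e ha₀ h₀
  obtain ⟨A₀, hA₀, hφA₀⟩ := phiL_bound hn h₀ l₀
  obtain ⟨A₁, hA₁, hφA₁⟩ := phiL_bound hn h₀ l₁
  obtain ⟨Θ, hΘ⟩ := exists_form hC hf e₀ (phiL_smul hn h₀ l₀) k (π a₀ y) e
  obtain ⟨Ξ, hΞ⟩ := exists_form hC hf e₀ (phiL_smul hn h₀ l₁) k (π a₀ y) e
  obtain ⟨x, hx, h1, h2, ξ, hξ, h3⟩ := hnc Θ Ξ hΘ hΞ
  have hcard : 0 < (unitF hn h₀).card := Finset.card_pos.2 ⟨1, one_mem_unitF hn h₀⟩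
  refine ⟨(unitF hn h₀).card + k * gg (finrank ℂ V), ∅, fun _ => 0, Θ, fun _ => Ξ, by omega,
    Set.finite_empty, fun D hD => absurd hD (Set.notMem_empty D),
    relForm_curve hC hn hf e₀ (phiL_diff hn h₀ l₀) hA₀ hφA₀ hk h₀ e hΘ,
    fun _ => relForm_curve hC hn hf e₀ (phiL_diff hn h₀ l₁) hA₁ hφA₁ hk h₀ e hΞ, ?_,
    x, hx, h1, fun _ => h2, ?_⟩
  · intro D
    have := hΔ D
    rw [Nat.cast_zero]
    positivity
  · intro c hc b
    have h4 := hc ξ hξ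
    rw [Fin.sum_univ_one] at h4
    have h5 : b = 0 := Subsingleton.elim _ _
    rw [h5]
    exact (mul_eq_zero.1 h4).resolve_right h3

end Forms

theorem kodGE_pred' {E : Type} [NormedAddCommGroup E] [NormedSpace ℂ E] {X : Type u}
    [TopologicalSpace X] [ChartedSpace E X] {ι : Type u} {eqn : ι → X → (X → ℂ) → Prop}
    {c : ι → ℝ} {j : ℕ} (h : KodGE E eqn c (j + 1)) : KodGE E eqn c j := by
  obtain ⟨m, k, s, z, hm, hk, hs, hz, hs0, hind⟩ := h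
  refine ⟨m, k, fun b => s b.castSucc, z, hm, hk, fun b => hs _, hz, hs0, ?_⟩
  exact hind.comp Fin.castSucc (Fin.castSucc_injective j)

section Main

variable {E E' E₀ V : Type} [NormedAddCommGroup E] [NormedSpace ℂ E] [FiniteDimensional ℂ E]
  [NormedAddCommGroup E'] [NormedSpace ℂ E'] [FiniteDimensional ℂ E']
  [NormedAddCommGroup E₀] [NormedSpace ℂ E₀] [FiniteDimensional ℂ E₀]
  [NormedAddCommGroup V] [InnerProductSpace ℂ V] [FiniteDimensional ℂ V]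
variable {X Z Y F : Type u} [TopologicalSpace X] [ChartedSpace E X] [IsManifold 𝓘(ℂ, E) ω X]
  [TopologicalSpace Z] [ChartedSpace E Z] [IsManifold 𝓘(ℂ, E) ω Z]
  [TopologicalSpace Y] [ChartedSpace E' Y] [IsManifold 𝓘(ℂ, E') ω Y]
  [TopologicalSpace F] [ChartedSpace E₀ F] [IsManifold 𝓘(ℂ, E₀) ω F]

/-- families of curves of genus at least two -/
theorem main_curve [Nonempty X] (hE : finrank ℂ E = finrank ℂ E' + 1)
    (hE₀ : finrank ℂ E₀ = 1)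
    (j : Z → X) (hj : J.IsBigOpen E j) (f : Z → Y) (hf : ContMDiff 𝓘(ℂ, E) 𝓘(ℂ, E') ω f)
    (𝒢 : Set (Set Y)) (h𝒢 : J.IsDivisorial E E' f 𝒢)
    {n : ℕ} {Q : (Fin n → ℝ) → (Fin n → ℝ) → ℝ} {ι : Type u} (U : ι → Set Y)
    (π : ι → Y → ((Fin n → ℝ) ≃L[ℝ] V)) (α : ι → Z → V)
    (hC : IsCurveFamily E E' f (⋃₀ 𝒢) Q U π α) (hg : 2 ≤ finrank ℂ V)
    (Δ : Set X → ℝ) (hsnc : J.IsSNC E Δ) (Δ' : Set Z → ℝ) (hsnc' : J.IsSNC E Δ')
    (hΔ : J.IsRestriction j Δ Δ') (hBS : ∀ G, J.orbBase' E E' f Δ' G ≠ 0 → G ∈ 𝒢)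
    (ΔF : Set F → ℝ) :
    J.kod E₀ (fun (C : Set F) p g => J.IsLocalEq E₀ C g p) ΔF +
      J.kod E' (fun (G : Set Y) z g => J.IsLocalEq E' G g z) (J.orbBase' E E' f Δ') ≤
      J.kod E (fun (D : Set X) z g => J.IsLocalEq E D g z) Δ := by
  rw [JB.kod_eq, JB.kod_eq, JB.kod_eq]
  let e₀ : E ≃L[ℂ] (E' × ℂ) := ContinuousLinearEquiv.ofFinrankEq (by
    rw [hE, Module.finrank_prod, Module.finrank_self])
  have hs' := JB.snc hsnc'
  refine kod_add_le fun j₁ j₂ h₁ h₂ => ?_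
  have hj₁ : j₁ ≤ 1 := by
    have := kodGE_le h₁
    rwa [hE₀] at this
  have hmain := kodGE_of_forms (r := 1) j hj f hf 𝒢 h𝒢 (fun x hx => by
      obtain ⟨ζ, -, h1⟩ := hC.coord x hx
      exact surj_of_coord (E₀ := ℂ) (by rw [hE, Module.finrank_self]) h1)
    e₀ Δ hsnc Δ' hsnc' hΔ hBS
    (fun y hy => hasForms_curve hC hg (fun x => hf x) e₀ (fun D => (snc01 hs' D).1) hy) h₂
  rcases Nat.eq_zero_or_pos j₁ with h0 | h0
  · rw [h0, zero_add]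
    exact kodGE_pred' hmain
  · have h1 : j₁ = 1 := by omega
    rw [h1, add_comm]
    exact hmain

end Main

end Vale.Agent.P281.H713
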