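import Vale.Agent.P281.H713.GNC3
import Vale.Agent.P281.H713.GBound
import Vale.Agent.P281.H713.MainB

open scoped Manifold ContDiff Topology
open Set Filter Metric Module

namespace Vale.Agent.P281.H713

open Vale.Agent.P281 Vale.Agent.P281.MF Vale.Agent.P281.ISO Vale.Agent.P281.ELL

set_option linter.unusedSectionVars false

universe u

section Lin

variable {d : ℕ} {V : Type} [NormedAddCommGroup V] [InnerProductSpace ℂ V]
  [FiniteDimensional ℂ V]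

theorem inj_of_minor {m : Fin d → (V →L[ℂ] ℂ)} {h : (Fin d → ℂ) → V} {v : Fin d → ℂ}
    (hm : minor m h v ≠ 0) {ξ : Fin d → ℂ} (hξ : fderiv ℂ h v ξ = 0) : ξ = 0 := by
  refine Matrix.eq_zero_of_mulVec_eq_zero hm ?_
  funext a
  have h1 : (Matrix.of fun a b => m a (fderiv ℂ h v (Pi.single b 1))).mulVec ξ a =
      m a (fderiv ℂ h v ξ) := by
    rw [fd_sum, map_sum]
    simp only [Matrix.mulVec, dotProduct, Matrix.of_apply, map_smul, smul_eq_mul]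
    refine Finset.sum_congr rfl fun b _ => ?_
    rw [mul_comm]
    rfl
  rw [h1, hξ, map_zero]
  rfl

theorem finrank_pos_of_minor (hd : 0 < d) {m : Fin d → (V →L[ℂ] ℂ)} {h : (Fin d → ℂ) → V}
    {v : Fin d → ℂ} (hm : minor m h v ≠ 0) : 0 < finrank ℂ V := by
  by_contra h0
  have h1 : finrank ℂ V = 0 := by omega
  have h2 : Subsingleton V := finrank_zero_iff.1 h1
  have h3 : (bs (⟨0, hd⟩ : Fin d) : Fin d → ℂ) = 0 := inj_of_minor hm (Subsingleton.elim _ _)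
  have h4 := norm_bs (⟨0, hd⟩ : Fin d)
  rw [h3, norm_zero] at h4
  exact zero_ne_one h4

theorem exists_leftInv {E : Type} [NormedAddCommGroup E] [NormedSpace ℂ E]
    [FiniteDimensional ℂ E] (T : (Fin d → ℂ) →L[ℂ] E) (hT : ∀ ξ, T ξ = 0 → ξ = 0) :
    ∃ P : E →L[ℂ] (Fin d → ℂ), P.comp T = ContinuousLinearMap.id ℂ (Fin d → ℂ) := by
  have hker : LinearMap.ker (T : (Fin d → ℂ) →ₗ[ℂ] E) = ⊥ := by
    rw [LinearMap.ker_eq_bot']
    exact hT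
  obtain ⟨P, hP⟩ := (T : (Fin d → ℂ) →ₗ[ℂ] E).exists_leftInverse_of_injective hker
  refine ⟨LinearMap.toContinuousLinearMap P, ?_⟩
  ext1 ξ
  exact LinearMap.congr_fun hP ξ

end Lin

section Forms

variable {E E' : Type} [NormedAddCommGroup E] [NormedSpace ℂ E] [FiniteDimensional ℂ E]
  [NormedAddCommGroup E'] [NormedSpace ℂ E'] [FiniteDimensional ℂ E']
variable {X Y : Type u} [TopologicalSpace X] [ChartedSpace E X] [IsManifold 𝓘(ℂ, E) ω X]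
  [TopologicalSpace Y] [ChartedSpace E' Y] [IsManifold 𝓘(ℂ, E') ω Y]
variable {V : Type} [NormedAddCommGroup V] [InnerProductSpace ℂ V] [FiniteDimensional ℂ V]
variable {n d : ℕ} {Q : (Fin n → ℝ) → (Fin n → ℝ) → ℝ}
variable {f : X → Y} {S : Set Y} {ι : Type u} {U : ι → Set Y}
  {π : ι → Y → ((Fin n → ℝ) ≃L[ℝ] V)} {α : ι → X → V}

theorem slice_leftInv {q : (Fin d → ℂ) → X} {v : Fin d → ℂ}
    (hq : ContMDiffAt 𝓘(ℂ, Fin d → ℂ) 𝓘(ℂ, E) ω q v) {β : X → V} (hβ : HolV E β (q v))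
    {m : Fin d → (V →L[ℂ] ℂ)} (hm : minor m (fun z => β (q z)) v ≠ 0) :
    ∃ P : E →L[ℂ] (Fin d → ℂ),
      P.comp (mfderiv 𝓘(ℂ, Fin d → ℂ) 𝓘(ℂ, E) q v : (Fin d → ℂ) →L[ℂ] E) =
        ContinuousLinearMap.id ℂ (Fin d → ℂ) := by
  set T : (Fin d → ℂ) →L[ℂ] E := mfderiv 𝓘(ℂ, Fin d → ℂ) 𝓘(ℂ, E) q v with hT
  have h7 : fderiv ℂ (fun z => β (q z)) v = (dV E β (q v)).comp T := (slice_fderiv hq hβ).2
  refine exists_leftInv T fun ξ hξ => inj_of_minor hm ?_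
  rw [h7]
  show (dV E β (q v)) (T ξ) = 0
  rw [hξ, map_zero]

theorem hasForms_alb (hC : IsAlbaneseFamily E E' d f S Q U π α) (hd : 0 < d)
    (hf : ∀ x, HolM E E' f x) (e₀ : E ≃L[ℂ] (E' × (Fin d → ℂ))) {Δ : Set X → ℝ}
    (hΔ : ∀ D, 0 ≤ Δ D) {y : Y} (hy : y ∉ S) : HasForms f S e₀ Δ d y := by
  classical
  have hn' : (ω : WithTop ℕ∞) ≠ 0 := by simp
  obtain ⟨a₀, ha₀⟩ := (hC.cover y).1 hy
  obtain ⟨G₀, h₀⟩ : ∃ G₀, IsPol Q (π a₀ y) G₀ := hC.polarized a₀ y ha₀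
  obtain ⟨q, v₀, hq, hfq, hnd⟩ := hC.nondeg a₀ y ha₀
  have hfx₀ : f (q v₀) = y := hfq.self_of_nhds
  have hfa : f (q v₀) ∈ U a₀ := by rw [hfx₀]; exact ha₀
  obtain ⟨β, hβ⟩ := hC.lift a₀ (q v₀) hfa
  have hβ : Lft E f π α a₀ (q v₀) β := hβ
  set b : (Fin d → ℂ) → V := fun v => β (q v) with hb
  have hbc : ContDiffAt ℂ ω b v₀ := (slice_fderiv hq hβ.1).1
  have hqt : Tendsto q (𝓝 v₀) (𝓝 (q v₀)) := hq.continuousAt
  have hcongr : ∀ᶠ v in 𝓝 v₀, IsCongr (π a₀ y) (α a₀ (q v)) (b v) := by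
    filter_upwards [hqt.eventually hβ.2, hfq] with v h1 h2
    rw [h2] at h1
    exact h1
  have hndb : IsNondeg b v₀ := hnd b hbc hcongr
  obtain ⟨t', -, ht'⟩ := exists_frame hndb
  have hn : 0 < n := pos_of_period (π a₀ y) (finrank_pos_of_minor hd ht')
  -- good points
  have hq' : ∀ᶠ v in 𝓝 v₀, ContMDiffAt 𝓘(ℂ, Fin d → ℂ) 𝓘(ℂ, E) ω q v :=
    (contMDiffAt_iff_contMDiffAt_nhds (by simp)).1 hq
  have hgood : ∀ᶠ v in 𝓝 v₀, (∃ P, SlG E f q v (q v) P) ∧ Lft E f π α a₀ (q v) β ∧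
      f (q v) = y ∧ ContDiffAt ℂ ω b v := by
    filter_upwards [hq', eventually_eventually_nhds.2 hfq, hqt.eventually (HolV.eventually hβ.1),
      hqt.eventually (eventually_eventually_nhds.2 hβ.2),
      (minor_contDiffAt (t' 0) hbc).continuousAt.eventually_ne ht',
      hbc.eventually (by simp)] with v h1 h2 h3 h4 h5 h6
    obtain ⟨P, hP⟩ := slice_leftInv h1 h3 h5
    have h8 : f (q v) = y := h2.self_of_nhds
    refine ⟨⟨P, rfl, h1, ?_, hP⟩, ⟨h3, h4⟩, h8, h6⟩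
    filter_upwards [h2] with z hz
    rw [hz, h8]
  set e : Basis (Fin (finrank ℂ V)) ℂ V := finBasis ℂ V with he
  set h : (Fin d → ℂ) → V := fun v => G₀ (b v) with hh
  obtain ⟨v₁, hg₁, hhv₁, t, ht, ht0, hgen, i₀, l, R₀, τ, hτ, hτ0, hmax⟩ :=
    nc_prep hn h₀ (cd_map hbc (G₀ : V →L[ℂ] V)) (nondeg_map hbc hndb G₀) e
      (eventually_eventually_nhds.2 hgood)
  obtain ⟨k, D, Ψ, hΨ, hD, hk, hs0, hind⟩ := nc_limit hn h₀ hhv₁ ht ht0 hgen hτ hτ0 hmax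
  choose Θ hΘ using fun j => exists_formG (l := l) (τ := τ) (i₀ := i₀) (e := e) (k := k)
    (π₀ := π a₀ y) (G₀ := G₀) hC hf e₀ (hΨ j)
  have hrel : ∀ j, RelForm f S e₀ (k * nk l + D) ∅ (fun _ => 0) (Θ j) := fun j =>
    relFormG hC hn hf e₀ (hΨ j) hk h₀ (hΘ j)
  obtain ⟨⟨P₁, hP₁⟩, hL₁, hy₁, -⟩ := hg₁.self_of_nhds
  set x₁ := q v₁ with hx₁
  have hxS : f x₁ ∉ S := by rw [hy₁]; exact hy
  obtain ⟨ζ, hζ, hinj⟩ := hC.coord x₁ hxS
  -- the values along the slice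
  set s : Fin (d + 1) → (Fin d → ℂ) → ℂ := fun j v =>
    ∑' M : spq Q, tm e i₀ l τ k (Ψ j) (fun u => Cc (π a₀ y) G₀ M (h u)) v with hs
  have hgs : ∀ j v, gval Q (π a₀ y) G₀ (tm e i₀ l τ k (Ψ j)) (π a₀ y) b v = s j v := by
    intro j v
    unfold gval
    refine tsum_congr fun M => ?_
    have h3 : (fun u => LN (π a₀ y) G₀ (π a₀ y) (mx M) (b u)) =
        fun u => Cc (π a₀ y) G₀ M (h u) := by
      funext u
      exact LN_eq M (b u)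
    rw [h3]
  have hval : ∀ᶠ v in 𝓝 v₁, ∃ J : ℂ, J ≠ 0 ∧ ∀ j, Θ j (q v) = s j v * J := by
    filter_upwards [hg₁] with v hv
    obtain ⟨⟨P, hP⟩, hL, hyv, -⟩ := hv
    obtain ⟨ζ', hζ', hinj'⟩ := hC.coord (q v) (by rw [hyv]; exact hy)
    refine ⟨JP e₀ (dM E E' f (q v)) P ^ (k * nk l + D), ?_, fun j => ?_⟩
    · have h8 := JP_slice hf e₀ hP.2.1 hP.2.2.1 hζ' hinj' hP.2.2.2
      have h9 : JP e₀ (dM E E' f (q v)) (dV E ζ' (q v)) ≠ 0 := JP_ne_zero e₀ hinj'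
      refine pow_ne_zero _ fun h0 => h9 ?_
      rw [h8, h0, mul_zero]
    · have h1 := hΘ j a₀ (q v) (by rw [hyv]; exact ha₀) β hL q v P hP
      rw [h1, hyv]
      have h2 := hgs j v
      rw [← h2]
  obtain ⟨J₁, hJ₁, hΘ₁⟩ := hval.self_of_nhds
  have hΘ0 : Θ 0 x₁ ≠ 0 := by
    show Θ 0 (q v₁) ≠ 0
    rw [hΘ₁ 0]
    exact mul_ne_zero hs0 hJ₁
  -- local expressions
  choose c hc hce using fun j => form_localG hC hn hf e₀ (hΨ j) (by omega) h₀ (hΘ j) hxS hζ hinj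
  have hc0 : c 0 x₁ ≠ 0 := by
    intro h0
    apply hΘ0
    rw [(hce 0).self_of_nhds, h0, zero_mul]
  have hev : ∀ᶠ z in 𝓝 x₁, Θ 0 z ≠ 0 ∧ ∀ j, Θ j z / Θ 0 z = c j z / c 0 z := by
    filter_upwards [(Filter.eventually_all).2 hce, (hc 0).continuousAt.eventually_ne hc0,
      ker_eventually hf e₀ hζ hinj] with z h1 h2 h3
    have h5 := pow_ne_zero (k * nk l + D) (JP_ne_zero e₀ h3)
    refine ⟨by rw [h1 0]; exact mul_ne_zero h2 h5, fun j => ?_⟩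
    rw [h1 j, h1 0]
    exact mul_div_mul_right _ _ h5
  have hratio : ∀ j, HolV E (fun z => Θ j z / Θ 0 z) x₁ := fun j =>
    ((hc j).div (hc 0) hc0).congr (hev.mono fun z hz => hz.2 j)
  refine ⟨k * nk l + D, ∅, fun _ => 0, Θ 0, fun j => Θ j.succ, by omega,
    Set.finite_empty, fun D hD => absurd hD (Set.notMem_empty D), hrel 0,
    fun j => hrel j.succ, ?_, x₁, hy₁, hev.mono fun z hz => hz.1, fun j => hratio j.succ, ?_⟩
  · intro D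
    have := hΔ D
    rw [Nat.cast_zero]
    positivity
  · intro a ha
    have h1 := hind a fun ξ => ?_
    · exact fun j => congrFun h1 j
    · have hqv : ContMDiffAt 𝓘(ℂ, Fin d → ℂ) 𝓘(ℂ, E) ω q v₁ := hP₁.2.1
      have h2 := ha ((mfderiv 𝓘(ℂ, Fin d → ℂ) 𝓘(ℂ, E) q v₁ : (Fin d → ℂ) →L[ℂ] E) ξ)
        (slice_ker hf hqv hP₁.2.2.1 ξ)
      rw [← h2]
      refine Finset.sum_congr rfl fun j _ => ?_
      congr 1
      have h3 : (fun w => s j.succ w / s 0 w) =ᶠ[𝓝 v₁]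
          fun w => Θ j.succ (q w) / Θ 0 (q w) := by
        filter_upwards [hval] with w hw
        obtain ⟨J, hJ, hJe⟩ := hw
        rw [hJe, hJe, mul_div_mul_right _ _ hJ]
      have h4 := (slice_fderiv hqv (hratio j.succ)).2
      have h5 := h3.fderiv_eq (𝕜 := ℂ)
      rw [h4] at h5
      exact congrArg (fun L : (Fin d → ℂ) →L[ℂ] ℂ => L ξ) h5

end Forms

theorem kodGE_le_of {E : Type} [NormedAddCommGroup E] [NormedSpace ℂ E] {X : Type u}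
    [TopologicalSpace X] [ChartedSpace E X] {ι : Type u} {eqn : ι → X → (X → ℂ) → Prop}
    {c : ι → ℝ} {j i : ℕ} (h : KodGE E eqn c j) (hij : i ≤ j) : KodGE E eqn c i := by
  induction j with
  | zero =>
    have : i = 0 := by omega
    rw [this]; exact h
  | succ j ih =>
    rcases Nat.eq_or_lt_of_le hij with h1 | h1
    · rw [h1]; exact h
    · exact ih (kodGE_pred' h) (by omega)

section Main

variable {E E' E₀ V : Type} [NormedAddCommGroup E] [NormedSpace ℂ E] [FiniteDimensional ℂ E]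
  [NormedAddCommGroup E'] [NormedSpace ℂ E'] [FiniteDimensional ℂ E']
  [NormedAddCommGroup E₀] [NormedSpace ℂ E₀] [FiniteDimensional ℂ E₀]
  [NormedAddCommGroup V] [InnerProductSpace ℂ V] [FiniteDimensional ℂ V]
variable {X Z Y F : Type u} [TopologicalSpace X] [ChartedSpace E X] [IsManifold 𝓘(ℂ, E) ω X]
  [TopologicalSpace Z] [ChartedSpace E Z] [IsManifold 𝓘(ℂ, E) ω Z]
  [TopologicalSpace Y] [ChartedSpace E' Y] [IsManifold 𝓘(ℂ, E') ω Y]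
  [TopologicalSpace F] [ChartedSpace E₀ F] [IsManifold 𝓘(ℂ, E₀) ω F]

/-- families of manifolds with nondegenerate maps to tori -/
theorem main_alb [Nonempty X] {d : ℕ} (hd : 0 < d) (hE : finrank ℂ E = finrank ℂ E' + d)
    (hE₀ : finrank ℂ E₀ = d)
    (j : Z → X) (hj : J.IsBigOpen E j) (f : Z → Y) (hf : ContMDiff 𝓘(ℂ, E) 𝓘(ℂ, E') ω f)
    (𝒢 : Set (Set Y)) (h𝒢 : J.IsDivisorial E E' f 𝒢)
    {n : ℕ} {Q : (Fin n → ℝ) → (Fin n → ℝ) → ℝ} {ι : Type u} (U : ι → Set Y)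
    (π : ι → Y → ((Fin n → ℝ) ≃L[ℝ] V)) (α : ι → Z → V)
    (hC : IsAlbaneseFamily E E' d f (⋃₀ 𝒢) Q U π α)
    (Δ : Set X → ℝ) (hsnc : J.IsSNC E Δ) (Δ' : Set Z → ℝ) (hsnc' : J.IsSNC E Δ')
    (hΔ : J.IsRestriction j Δ Δ') (hBS : ∀ G, J.orbBase' E E' f Δ' G ≠ 0 → G ∈ 𝒢)
    (ΔF : Set F → ℝ) :
    J.kod E₀ (fun (C : Set F) p g => J.IsLocalEq E₀ C g p) ΔF +
      J.kod E' (fun (G : Set Y) z g => J.IsLocalEq E' G g z) (J.orbBase' E E' f Δ') ≤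
      J.kod E (fun (D : Set X) z g => J.IsLocalEq E D g z) Δ := by
  rw [JB.kod_eq, JB.kod_eq, JB.kod_eq]
  let e₀ : E ≃L[ℂ] (E' × (Fin d → ℂ)) := ContinuousLinearEquiv.ofFinrankEq (by
    rw [hE, Module.finrank_prod, Module.finrank_fin_fun])
  have hs' := JB.snc hsnc'
  refine kod_add_le fun j₁ j₂ h₁ h₂ => ?_
  have hj₁ : j₁ ≤ d := by
    have := kodGE_le h₁
    rwa [hE₀] at this
  have hmain := kodGE_of_forms (r := d) j hj f hf 𝒢 h𝒢 (fun x hx => by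
      obtain ⟨ζ, -, h1⟩ := hC.coord x hx
      exact surj_of_coord (E₀ := Fin d → ℂ) (by rw [hE, Module.finrank_fin_fun]) h1)
    e₀ Δ hsnc Δ' hsnc' hΔ hBS
    (fun y hy => hasForms_alb hC hd (fun x => hf x) e₀ (fun D => (snc01 hs' D).1) hy) h₂
  exact kodGE_le_of hmain (by omega)

end Main

end Vale.Agent.P281.H713
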