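import Vale.Agent.P281.H713.GTerm

open scoped Topology ContDiff
open Set Filter Module Metric

namespace Vale.Agent.P281.H713

set_option linter.unusedSectionVars false

section Lin

theorem exists_det_ne {κ : Type*} {N : ℕ} (R : κ → Fin N → ℂ)
    (h : ∀ c : Fin N → ℂ, (∀ i, ∑ k, c k * R i k = 0) → c = 0) :
    ∃ t : Fin N → κ, (Matrix.of fun j => R (t j)).det ≠ 0 := by
  classical
  have hspan : Submodule.span ℂ (Set.range R) = ⊤ := by
    by_contra hne
    obtain ⟨f, hf, hker⟩ := Submodule.exists_le_ker_of_lt_top _ (lt_top_iff_ne_top.2 hne)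
    apply hf
    have h1 : (fun k => f (Pi.single k 1)) = 0 := by
      refine h _ fun i => ?_
      have h2 : f (R i) = 0 := LinearMap.mem_ker.1 (hker (Submodule.subset_span ⟨i, rfl⟩))
      have h3 : R i = ∑ k, R i k • (Pi.single k 1 : Fin N → ℂ) := by
        funext k
        simp [Finset.sum_apply, Pi.single_apply]
      rw [h3, map_sum] at h2
      rw [← h2]
      refine Finset.sum_congr rfl fun k _ => ?_
      rw [map_smul, smul_eq_mul, mul_comm]
    refine (Pi.basisFun ℂ (Fin N)).ext fun k => ?_
    rw [Pi.basisFun_apply]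
    exact congrFun h1 k
  obtain ⟨F, hF, -, hind⟩ := Submodule.exists_fun_fin_finrank_span_eq ℂ (Set.range R)
  have hN : finrank ℂ (Submodule.span ℂ (Set.range R)) = N := by
    rw [hspan, finrank_top, finrank_fin_fun]
  choose t ht using hF
  refine ⟨fun j => t (Fin.cast hN.symm j), ?_⟩
  have h1 : LinearIndependent ℂ fun j : Fin N => R (t (Fin.cast hN.symm j)) := by
    have h2 := hind.comp (Fin.cast hN.symm) (Fin.cast_injective _)
    have h3 : (F ∘ Fin.cast hN.symm) = fun j : Fin N => R (t (Fin.cast hN.symm j)) := by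
      funext j
      exact (ht _).symm
    rwa [h3] at h2
  have h4 : IsUnit (Matrix.of fun j => R (t (Fin.cast hN.symm j))) :=
    Matrix.linearIndependent_rows_iff_isUnit.1 h1
  exact ((Matrix.isUnit_iff_isUnit_det _).1 h4).ne_zero

/-- generic points -/
theorem exists_generic {W : Type*} [TopologicalSpace W] {κ ι' : Type*} (s : Finset κ)
    {F : κ → ι' → W → ℂ} {O : Set W} (hO : IsOpen O) (hne : O.Nonempty)
    (hF : ∀ u i, ContinuousOn (F u i) O) :
    ∃ v ∈ O, ∀ u ∈ s, (∀ᶠ w in 𝓝 v, ∀ i, F u i w = 0) ∨ ∃ i, F u i v ≠ 0 := by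
  classical
  have key : ∃ O' : Set W, IsOpen O' ∧ O'.Nonempty ∧ O' ⊆ O ∧
      ∀ u ∈ s, (∀ w ∈ O', ∀ i, F u i w = 0) ∨ ∃ i, ∀ w ∈ O', F u i w ≠ 0 := by
    induction s using Finset.induction_on with
    | empty => exact ⟨O, hO, hne, subset_rfl, fun u hu => absurd hu (Finset.notMem_empty u)⟩
    | insert a s ha ih =>
      obtain ⟨O', h1, h2, h3, h4⟩ := ih
      by_cases h5 : ∀ w ∈ O', ∀ i, F a i w = 0
      · refine ⟨O', h1, h2, h3, fun u hu => ?_⟩
        rcases Finset.mem_insert.1 hu with rfl | hu
        · exact Or.inl h5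
        · exact h4 u hu
      · push Not at h5
        obtain ⟨w, hw, i, hi⟩ := h5
        have h6 : IsOpen (O' ∩ {w | F a i w ≠ 0}) := by
          have h7 := ((hF a i).mono h3).isOpen_inter_preimage h1 isOpen_compl_singleton (t := {0}ᶜ)
          exact h7
        refine ⟨O' ∩ {w | F a i w ≠ 0}, h6, ⟨w, hw, hi⟩, inter_subset_left.trans h3,
          fun u hu => ?_⟩
        rcases Finset.mem_insert.1 hu with rfl | hu
        · exact Or.inr ⟨i, fun w hw => hw.2⟩
        · rcases h4 u hu with h8 | ⟨i', h8⟩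
          · exact Or.inl fun w hw => h8 w hw.1
          · exact Or.inr ⟨i', fun w hw => h8 w hw.1⟩
  obtain ⟨O', h1, ⟨v, hv⟩, h3, h4⟩ := key
  refine ⟨v, h3 hv, fun u hu => ?_⟩
  rcases h4 u hu with h5 | ⟨i, h5⟩
  · exact Or.inl (eventually_of_mem (h1.mem_nhds hv) h5)
  · exact Or.inr ⟨i, h5 v hv⟩

end Lin

section NV

variable {d g : ℕ} {V : Type} [NormedAddCommGroup V] [InnerProductSpace ℂ V]
  [FiniteDimensional ℂ V]

theorem exists_frame {h : (Fin d → ℂ) → V} {v₀ : Fin d → ℂ} (hnd : IsNondeg h v₀) :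
    ∃ t : Fin (d + 1) → Fin d → (V →L[ℂ] ℂ),
      (Matrix.of fun j => jr bs 1 (minor (t j) h) v₀).det ≠ 0 ∧ minor (t 0) h v₀ ≠ 0 := by
  obtain ⟨t, ht⟩ := exists_det_ne (fun m : Fin d → (V →L[ℂ] ℂ) => jr bs 1 (minor m h) v₀)
    (fun c hc => by
      have h1 := hnd.1 (c 0) (fun b => c b.succ) fun m => by
        have h2 := hc m
        rw [Fin.sum_univ_succ] at h2
        rw [← h2]
        congr 1
        · unfold jr
          rw [Fin.cons_zero, one_mul]
        · rw [fd_sum]
          refine Finset.sum_congr rfl fun b _ => ?_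
          unfold jr
          rw [Fin.cons_succ, smul_eq_mul]
      funext i
      refine Fin.cases ?_ (fun b => ?_) i
      · exact h1.1
      · exact congrFun h1.2 b)
  have h2 : ∃ j, minor (t j) h v₀ ≠ 0 := by
    by_contra hcon
    push Not at hcon
    apply ht
    refine Matrix.det_eq_zero_of_column_eq_zero 0 fun j => ?_
    show jr bs 1 (minor (t j) h) v₀ 0 = 0
    unfold jr
    rw [Fin.cons_zero, hcon, mul_zero]
  obtain ⟨j, hj⟩ := h2
  refine ⟨fun i => t (Equiv.swap 0 j i), ?_, ?_⟩
  · have h3 := Matrix.det_permute (Equiv.swap 0 j) (Matrix.of fun j => jr bs 1 (minor (t j) h) v₀)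
    intro h4
    apply ht
    have h5 : ((Matrix.of fun j => jr bs 1 (minor (t j) h) v₀).submatrix (Equiv.swap 0 j) id).det =
        0 := h4
    rw [h5] at h3
    rcases mul_eq_zero.1 h3.symm with h6 | h6
    · exfalso
      rcases Int.units_eq_one_or (Equiv.Perm.sign (Equiv.swap 0 j)) with h7 | h7 <;>
        rw [h7] at h6 <;> simp at h6
    · exact h6
  · simp only [Equiv.swap_apply_left]
    exact hj

/-- nonvanishing of the generalized Wronskian -/
theorem KK_ne (e : Basis (Fin g) ℂ V) {h : (Fin d → ℂ) → V} {v₁ : Fin d → ℂ}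
    (hh : ContDiffAt ℂ ω h v₁) {t : Fin (d + 1) → Fin d → (V →L[ℂ] ℂ)}
    (ht : (Matrix.of fun j => jr bs 1 (minor (t j) h) v₁).det ≠ 0)
    (ht0 : minor (t 0) h v₁ ≠ 0)
    (hnd : ∀ l : V →L[ℂ] ℂ, (∀ᶠ v in 𝓝 v₁, ∀ ξ, l (fderiv ℂ h v ξ) = 0) → l = 0) :
    ∃ (i₀ : Fin g → Fin d) (l : Fin g → List (Fin (d + 1))) (m : Fin g → Fin d → (V →L[ℂ] ℂ)),
      KK e i₀ l (t, m) h v₁ ≠ 0 := by
  obtain ⟨T, hT⟩ := exists_det_ne
    (fun (x : List (Fin (d + 1)) × Fin d × (Fin d → (V →L[ℂ] ℂ))) (s : Fin g) =>
      wd bs (fun j => minor (t j) h) x.1 (minor (Function.update x.2.2 x.2.1 (cL e s)) h) v₁)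
    (fun c hc => by
      set L : V →L[ℂ] ℂ := ∑ s, c s • cL e s with hL
      have h1 : ∀ a, ∀ᶠ v in 𝓝 v₁, minor (Function.update (t 0) a L) h v = 0 := by
        intro a
        refine wd_zero (A := fun j => minor (t j) h) (fun j => minor_contDiffAt _ hh) ht
          (minor_contDiffAt _ hh) fun l => ?_
        have h2 : (minor (Function.update (t 0) a L) h) =
            fun u => ∑ s, c s * minor (Function.update (t 0) a (cL e s)) h u := by
          funext u
          exact minor_update_sum (t 0) a Finset.univ c (fun s => cL e s) h u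
        rw [h2, (wd_sum (fun j => minor_contDiffAt _ hh) Finset.univ c
          (fun s _ => minor_contDiffAt _ hh) l).self_of_nhds]
        exact hc (l, a, t 0)
      have h3 : L = 0 := by
        refine hnd L ?_
        filter_upwards [(Filter.eventually_all).2 h1,
          (minor_contDiffAt (t 0) hh).continuousAt.eventually_ne ht0] with v h4 h5 ξ
        set N : Matrix (Fin d) (Fin d) ℂ := Matrix.of fun a b => t 0 a (fderiv ℂ h v (bs b)) with hN
        have h6 : Matrix.cramer N.transpose (fun b => L (fderiv ℂ h v (bs b))) = 0 := by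
          funext a
          rw [Matrix.cramer_transpose_apply]
          have h7 : N.updateRow a (fun b => L (fderiv ℂ h v (bs b))) =
              Matrix.of fun a' b => (Function.update (t 0) a L) a' (fderiv ℂ h v (bs b)) := by
            ext a' b
            by_cases haa : a' = a
            · subst haa
              rw [Matrix.updateRow_self, Matrix.of_apply, Function.update_self]
            · rw [Matrix.updateRow_ne haa, Matrix.of_apply, Function.update_of_ne haa, hN,
                Matrix.of_apply]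
          rw [h7]
          exact h4 a
        have h8 := Matrix.mulVec_cramer N.transpose (fun b => L (fderiv ℂ h v (bs b)))
        rw [h6, Matrix.mulVec_zero, Matrix.det_transpose] at h8
        have h9 : ∀ b, L (fderiv ℂ h v (bs b)) = 0 := by
          intro b
          have h10 := congrFun h8 b
          rw [Pi.zero_apply, Pi.smul_apply, smul_eq_mul] at h10
          exact (mul_eq_zero.1 h10.symm).resolve_left h5
        rw [fd_sum, map_sum]
        refine Finset.sum_eq_zero fun b _ => ?_
        rw [map_smul, h9, smul_zero]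
      funext s
      have h4 := congrArg (fun F : V →L[ℂ] ℂ => F (e s)) h3
      simp only [hL, sum_apply, smul_apply, zero_apply, smul_eq_mul] at h4
      have h5 : ∀ s', cL e s' (e s) = if s' = s then 1 else 0 := by
        intro s'
        show e.coord s' (e s) = _
        rw [Basis.coord_apply, Basis.repr_self, Finsupp.single_apply]
        simp only [eq_comm]
      simp only [h5, mul_ite, mul_one, mul_zero, Finset.sum_ite_eq', Finset.mem_univ,
        if_true] at h4
      exact h4)
  exact ⟨fun i => (T i).2.1, fun i => (T i).1, fun i => (T i).2.2, hT⟩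

end NV

end Vale.Agent.P281.H713
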