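import Vale.Agent.P281.MF.Hol

open scoped Topology ContDiff
open Set Filter Metric Module

namespace Vale.Agent.P281.H713

set_option linter.unusedSectionVars false

section

variable {E F : Type*} [NormedAddCommGroup E] [NormedSpace ℂ E]
  [NormedAddCommGroup F] [NormedSpace ℂ F] [CompleteSpace F]

/-- uniformly dominated series of holomorphic functions -/
theorem differentiableOn_tsum {ι : Type*} {f : ι → E → F} {z₀ : E} {r : ℝ} (hr : 0 < r)
    (hf : ∀ i, DifferentiableOn ℂ (f i) (ball z₀ r)) {u : ι → ℝ} (hu : Summable u)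
    (hb : ∀ i, ∀ z ∈ ball z₀ r, ‖f i z‖ ≤ u i) :
    DifferentiableOn ℂ (fun z => ∑' i, f i z) (ball z₀ (r / 2)) := by
  have hsub : ∀ x ∈ ball z₀ (r / 2), ball x (r / 2) ⊆ ball z₀ r := by
    intro x hx
    apply ball_subset_ball'
    rw [mem_ball] at hx
    linarith
  have hsub' : ball z₀ (r / 2) ⊆ ball z₀ r := ball_subset_ball (by linarith)
  have hd : ∀ i, ∀ x ∈ ball z₀ (r / 2), HasFDerivAt (f i) (fderiv ℂ (f i) x) x := fun i x hx =>
    ((hf i).differentiableAt (isOpen_ball.mem_nhds (hsub' hx))).hasFDerivAt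
  have hbd : ∀ i, ∀ x ∈ ball z₀ (r / 2), ‖fderiv ℂ (f i) x‖ ≤ u i / (r / 2) := by
    intro i x hx
    exact MF.norm_fderiv_le_of_ball (by positivity) ((hf i).mono (hsub x hx))
      fun y hy => hb i y (hsub x hx hy)
  have hu' : Summable fun i => u i / (r / 2) := hu.div_const _
  have hconn : IsPreconnected (ball z₀ (r / 2)) := by
    have : NormedSpace ℝ E := NormedSpace.restrictScalars ℝ ℂ E
    exact (convex_ball z₀ (r / 2)).isPreconnected
  have hz₀ : z₀ ∈ ball z₀ (r / 2) := mem_ball_self (by positivity)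
  have h0 : Summable fun i => f i z₀ :=
    Summable.of_norm_bounded hu fun i => hb i z₀ (mem_ball_self hr)
  intro x hx
  exact (hasFDerivAt_tsum_of_isPreconnected hu' isOpen_ball hconn hd hbd hz₀ h0
    hx).differentiableAt.differentiableWithinAt

theorem analyticAt_tsum [FiniteDimensional ℂ E] {ι : Type*} {f : ι → E → F} {z₀ : E}
    {U : Set E} (hU : U ∈ 𝓝 z₀) (hf : ∀ i, DifferentiableOn ℂ (f i) U) {u : ι → ℝ}
    (hu : Summable u) (hb : ∀ i, ∀ z ∈ U, ‖f i z‖ ≤ u i) :
    AnalyticAt ℂ (fun z => ∑' i, f i z) z₀ := by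
  obtain ⟨r, hr, hrU⟩ := Metric.mem_nhds_iff.1 hU
  have h := differentiableOn_tsum hr (fun i => (hf i).mono hrU) hu
    fun i z hz => hb i z (hrU hz)
  exact MF.analyticAt_of_differentiableOn isOpen_ball h (mem_ball_self (by positivity))

variable {V : Type*} [NormedAddCommGroup V] [NormedSpace ℂ V] [FiniteDimensional ℂ V]

theorem contDiff_det' : ContDiff ℂ ω (fun A : V →L[ℂ] V => A.det) := by
  classical
  let b := Module.finBasis ℂ V
  have h : (fun A : V →L[ℂ] V => A.det) =
      fun A : V →L[ℂ] V => ∑ σ : Equiv.Perm (Fin (Module.finrank ℂ V)),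
        ((Equiv.Perm.sign σ : ℤ) : ℂ) *
          ∏ i, (LinearMap.toMatrix b b (A : V →ₗ[ℂ] V)) (σ i) i := by
    funext A
    rw [ContinuousLinearMap.det, ← LinearMap.det_toMatrix b, Matrix.det_apply']
  rw [h]
  refine ContDiff.sum fun σ _ => contDiff_const.mul (contDiff_prod fun i _ => ?_)
  have h2 : (fun A : V →L[ℂ] V => (LinearMap.toMatrix b b (A : V →ₗ[ℂ] V)) (σ i) i) =
      fun A : V →L[ℂ] V => (b.coord (σ i)).toContinuousLinearMap (A (b i)) := by
    funext A
    rw [LinearMap.toMatrix_apply]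
    rfl
  rw [h2]
  exact (ContinuousLinearMap.contDiff _).comp (ContinuousLinearMap.apply ℂ V (b i)).contDiff

end

end Vale.Agent.P281.H713
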