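import Vale.Agent.P281.H713.GBr2
import Vale.Agent.P281.H713.DefsG
import Vale.Agent.P281.H713.TsumHol

open scoped Topology ContDiff
open Set Filter Module Metric

namespace Vale.Agent.P281.H713

set_option linter.unusedSectionVars false

section Minor

variable {d : ℕ} {V : Type} [NormedAddCommGroup V] [InnerProductSpace ℂ V] [FiniteDimensional ℂ V]

theorem minor_eq (m : Fin d → (V →L[ℂ] ℂ)) (h : (Fin d → ℂ) → V) (v : Fin d → ℂ) :
    minor m h v = (Matrix.of fun a b => m a (fderiv ℂ h v (bs b))).det := rfl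

theorem minor_contDiffAt (m : Fin d → (V →L[ℂ] ℂ)) {h : (Fin d → ℂ) → V} {v : Fin d → ℂ}
    (hh : ContDiffAt ℂ ω h v) : ContDiffAt ℂ ω (minor m h) v :=
  contDiffAt_det fun i j => (m i).contDiff.contDiffAt.comp v (contDiffAt_fd hh (bs j))

theorem minor_map (m : Fin d → (V →L[ℂ] ℂ)) {h : (Fin d → ℂ) → V} {v : Fin d → ℂ}
    (hh : DifferentiableAt ℂ h v) (C : V →L[ℂ] V) (c : V) :
    minor m (fun u => C (h u) + c) v = minor (fun a => (m a).comp C) h v := by
  rw [minor_eq, minor_eq]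
  have h1 : HasFDerivAt (fun u => C (h u) + c) (C.comp (fderiv ℂ h v)) v :=
    (C.hasFDerivAt.comp v hh.hasFDerivAt).add_const c
  rw [h1.fderiv]
  rfl

theorem minor_map' (m : Fin d → (V →L[ℂ] ℂ)) {h : (Fin d → ℂ) → V} {v : Fin d → ℂ}
    (hh : DifferentiableAt ℂ h v) (C : V →L[ℂ] V) :
    minor m (fun u => C (h u)) v = minor (fun a => (m a).comp C) h v := by
  have := minor_map m hh C 0
  simpa using this

theorem det_fd (L : (Fin d → ℂ) →L[ℂ] (Fin d → ℂ)) :
    (Matrix.of fun c b => L (bs b) c).det = L.det := by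
  have h1 : (Matrix.of fun c b => L (bs b) c) = LinearMap.toMatrix' (L : (Fin d → ℂ) →ₗ[ℂ] _) := by
    ext i j
    rw [LinearMap.toMatrix'_apply, Matrix.of_apply]
    congr 1
  rw [h1, LinearMap.det_toMatrix']

theorem minor_comp (m : Fin d → (V →L[ℂ] ℂ)) {h : (Fin d → ℂ) → V}
    {φ : (Fin d → ℂ) → (Fin d → ℂ)} {v : Fin d → ℂ} (hh : DifferentiableAt ℂ h (φ v))
    (hφ : DifferentiableAt ℂ φ v) :
    minor m (fun u => h (φ u)) v = (fderiv ℂ φ v).det * minor m h (φ v) := by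
  rw [minor_eq, minor_eq, ← det_fd (fderiv ℂ φ v), mul_comm, ← Matrix.det_mul]
  congr 1
  have h1 : HasFDerivAt (fun u => h (φ u)) ((fderiv ℂ h (φ v)).comp (fderiv ℂ φ v)) v :=
    hh.hasFDerivAt.comp v hφ.hasFDerivAt
  ext a b
  rw [Matrix.of_apply, h1.fderiv, Matrix.mul_apply, ContinuousLinearMap.comp_apply, fd_sum,
    map_sum]
  refine Finset.sum_congr rfl fun c _ => ?_
  rw [map_smul, smul_eq_mul, mul_comm]
  rfl

theorem minor_congr (m : Fin d → (V →L[ℂ] ℂ)) {h h' : (Fin d → ℂ) → V} {v : Fin d → ℂ}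
    (hh : h =ᶠ[𝓝 v] h') : minor m h v = minor m h' v := by
  rw [minor_eq, minor_eq, hh.fderiv_eq]

theorem minor_update_sum (m : Fin d → (V →L[ℂ] ℂ)) (a : Fin d) {κ : Type*} (s : Finset κ)
    (c : κ → ℂ) (f : κ → (V →L[ℂ] ℂ)) (h : (Fin d → ℂ) → V) (v : Fin d → ℂ) :
    minor (Function.update m a (∑ i ∈ s, c i • f i)) h v =
      ∑ i ∈ s, c i * minor (Function.update m a (f i)) h v := by
  have h1 : ∀ l : V →L[ℂ] ℂ, minor (Function.update m a l) h v =
      Matrix.cramer (Matrix.of fun a b => m a (fderiv ℂ h v (bs b))).transpose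
        (fun b => l (fderiv ℂ h v (bs b))) a := by
    intro l
    rw [Matrix.cramer_transpose_apply, minor_eq]
    congr 1
    ext a' b
    by_cases haa : a' = a
    · subst haa
      rw [Matrix.updateRow_self, Matrix.of_apply, Function.update_self]
    · rw [Matrix.updateRow_ne haa, Matrix.of_apply, Function.update_of_ne haa, Matrix.of_apply]
  simp only [h1]
  have h2 : (fun b => (∑ i ∈ s, c i • f i) (fderiv ℂ h v (bs b))) =
      ∑ i ∈ s, c i • fun b => f i (fderiv ℂ h v (bs b)) := by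
    funext b
    simp [Finset.sum_apply]
  rw [h2, map_sum, Finset.sum_apply]
  refine Finset.sum_congr rfl fun i _ => ?_
  rw [map_smul]
  rfl

theorem minor_joint {P : Type*} [NormedAddCommGroup P] [NormedSpace ℂ P]
    {μ : P → Fin d → (V →L[ℂ] ℂ)} {B : P × (Fin d → ℂ) → V} {x₀ : P × (Fin d → ℂ)}
    (hμ : ContDiffAt ℂ ω μ x₀.1) (hB : ContDiffAt ℂ ω B x₀) :
    ContDiffAt ℂ ω (fun x : P × (Fin d → ℂ) => minor (μ x.1) (fun u => B (x.1, u)) x.2) x₀ := by
  have h1 : (fun x : P × (Fin d → ℂ) => minor (μ x.1) (fun u => B (x.1, u)) x.2) =ᶠ[𝓝 x₀]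
      fun x => (Matrix.of fun a b => μ x.1 a (fderiv ℂ B x ((0 : P), bs b))).det := by
    filter_upwards [hB.eventually (by simp)] with x hx
    rw [minor_eq]
    have h2 : HasFDerivAt (fun u : Fin d → ℂ => (x.1, u))
        (ContinuousLinearMap.inr ℂ P (Fin d → ℂ)) x.2 := hasFDerivAt_prodMk_right _ _
    have h3 : HasFDerivAt (fun u : Fin d → ℂ => B (x.1, u))
        ((fderiv ℂ B x).comp (ContinuousLinearMap.inr ℂ P (Fin d → ℂ))) x.2 := by
      have h4 : HasFDerivAt B (fderiv ℂ B x) (x.1, x.2) :=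
        (hx.differentiableAt (by simp)).hasFDerivAt
      exact h4.comp x.2 h2
    rw [h3.fderiv]
    rfl
  refine ContDiffAt.congr_of_eventuallyEq ?_ h1
  refine contDiffAt_det fun a b => ?_
  have h5 : ContDiffAt ℂ ω (fun x : P × (Fin d → ℂ) => μ x.1 a) x₀ := by
    have h6 : ContDiffAt ℂ ω (fun x : P × (Fin d → ℂ) => μ x.1) x₀ := hμ.comp x₀ contDiffAt_fst
    exact (contDiffAt_pi.1 h6) a
  exact h5.clm_apply (contDiffAt_fd hB _)

theorem minor_scale {m : Fin d → (V →L[ℂ] ℂ)} {h : (Fin d → ℂ) → V} {v : Fin d → ℂ} {R B : ℝ}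
    (hR : 0 < R) (hm : ∀ a, ‖m a‖ ≤ R)
    (hB : ∀ m : Fin d → (V →L[ℂ] ℂ), (∀ a, ‖m a‖ ≤ 1) → ‖minor m h v‖ ≤ B) :
    ‖minor m h v‖ ≤ R ^ d * B := by
  have h1 : minor m h v = (R : ℂ) ^ d * minor (fun a => (R : ℂ)⁻¹ • m a) h v := by
    have h2 := Matrix.det_smul (Matrix.of fun a b => ((R : ℂ)⁻¹ • m a) (fderiv ℂ h v (bs b))) (R : ℂ)
    rw [Fintype.card_fin] at h2
    rw [minor_eq, minor_eq, ← h2]
    congr 1
    ext a b
    have hR' : (R : ℂ) ≠ 0 := by exact_mod_cast hR.ne'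
    simp only [Matrix.smul_apply, Matrix.of_apply, smul_apply, smul_eq_mul]
    field_simp
  rw [h1, norm_mul, norm_pow, Complex.norm_real, Real.norm_of_nonneg hR.le]
  refine mul_le_mul_of_nonneg_left (hB _ fun a => ?_) (by positivity)
  rw [norm_smul, norm_inv, Complex.norm_real, Real.norm_of_nonneg hR.le, inv_mul_le_iff₀ hR,
    mul_one]
  exact hm a

theorem wd_congr {W : Type*} [NormedAddCommGroup W] [NormedSpace ℂ W] {ε : Fin d → W}
    {A A' : Fin (d + 1) → W → ℂ} {g g' : W → ℂ} {p : W} (hA : ∀ i, A i =ᶠ[𝓝 p] A' i)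
    (hg : g =ᶠ[𝓝 p] g') (l : List (Fin (d + 1))) : wd ε A l g =ᶠ[𝓝 p] wd ε A' l g' := by
  induction l with
  | nil => exact hg
  | cons j l ih =>
    filter_upwards [eventually_eventually_nhds.2 ih,
      (Filter.eventually_all).2 fun i => eventually_eventually_nhds.2 (hA i)] with u h1 h2
    show brk ε A _ j (wd ε A l g) u = brk ε A' _ j (wd ε A' l g') u
    unfold brk
    rw [jr_congr h1]
    congr 2
    ext i k
    rw [Matrix.of_apply, Matrix.of_apply, jr_congr (h2 i)]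

end Minor

section KK

variable {d g : ℕ} {V : Type} [NormedAddCommGroup V] [InnerProductSpace ℂ V]
  [FiniteDimensional ℂ V]

/-- parameters -/
abbrev Tup (d g : ℕ) (V : Type) [NormedAddCommGroup V] [InnerProductSpace ℂ V] : Type :=
  (Fin (d + 1) → Fin d → (V →L[ℂ] ℂ)) × (Fin g → Fin d → (V →L[ℂ] ℂ))

/-- coordinates -/
noncomputable def cL (e : Basis (Fin g) ℂ V) (s : Fin g) : V →L[ℂ] ℂ :=
  LinearMap.toContinuousLinearMap (e.coord s)

/-- The generalized Wronskian. -/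
noncomputable def KK (e : Basis (Fin g) ℂ V) (i₀ : Fin g → Fin d)
    (l : Fin g → List (Fin (d + 1))) (τ : Tup d g V) (h : (Fin d → ℂ) → V) (v : Fin d → ℂ) : ℂ :=
  (Matrix.of fun i s => wd bs (fun j => minor (τ.1 j) h) (l i)
    (minor (Function.update (τ.2 i) (i₀ i) (cL e s)) h) v).det

/-- composition of the parameters with a linear map -/
noncomputable def tcomp (τ : Tup d g V) (C : V →L[ℂ] V) : Tup d g V :=
  (fun j a => (τ.1 j a).comp C, fun i a => (τ.2 i a).comp C)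

variable {e : Basis (Fin g) ℂ V} {i₀ : Fin g → Fin d} {l : Fin g → List (Fin (d + 1))}

theorem KK_transf (τ : Tup d g V) {h h' : (Fin d → ℂ) → V} {φ : (Fin d → ℂ) → (Fin d → ℂ)}
    {v : Fin d → ℂ} {c : ℂ} (hφ : ContDiffAt ℂ ω φ v) (hφ0 : (fderiv ℂ φ v).det ≠ 0)
    (hh : ContDiffAt ℂ ω h (φ v)) (ht : ∀ m, minor m h' =ᶠ[𝓝 v] fun u =>
      c * (fderiv ℂ φ u).det * minor m h (φ u)) :
    KK e i₀ l τ h' v = c ^ (∑ i, (1 + (l i).length * d)) *
      (fderiv ℂ φ v).det ^ (∑ i, (1 + (l i).length * (d + 1))) * KK e i₀ l τ h (φ v) := by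
  have hdet : ∀ u, (Matrix.of fun c b => fderiv ℂ φ u (bs b) c).det = (fderiv ℂ φ u).det :=
    fun u => det_fd _
  have h1 : ∀ i s, wd bs (fun j => minor (τ.1 j) h') (l i)
      (minor (Function.update (τ.2 i) (i₀ i) (cL e s)) h') v =
      (c ^ (1 + (l i).length * d) * (fderiv ℂ φ v).det ^ (1 + (l i).length * (d + 1))) *
      wd bs (fun j => minor (τ.1 j) h) (l i)
        (minor (Function.update (τ.2 i) (i₀ i) (cL e s)) h) (φ v) := by
    intro i s
    have h2 := wd_transf (ε := bs) (ε' := bs) (A := fun j => minor (τ.1 j) h)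
      (A' := fun j => minor (τ.1 j) h') (g := minor (Function.update (τ.2 i) (i₀ i) (cL e s)) h)
      (g' := minor (Function.update (τ.2 i) (i₀ i) (cL e s)) h') (ψ := φ)
      (Ψ := fun u => Matrix.of fun c b => fderiv ℂ φ u (bs b) c) (c := c) (p := v) hφ
      (Eventually.of_forall fun u b => sum_bs _)
      (contDiffAt_det fun i j => (contDiffAt_pi.1 (contDiffAt_fd hφ (bs j))) i)
      (by rw [hdet]; exact hφ0) (fun j => minor_contDiffAt _ hh) (minor_contDiffAt _ hh)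
      (fun j => by simp only [hdet]; exact ht _) (by simp only [hdet]; exact ht _) (l i)
    have h3 := h2.self_of_nhds
    simp only [hdet] at h3
    exact h3
  unfold KK
  simp only [h1]
  refine (Matrix.det_mul_column (fun i => c ^ (1 + (l i).length * d) *
    (fderiv ℂ φ v).det ^ (1 + (l i).length * (d + 1)))
    (Matrix.of fun i s => wd bs (fun j => minor (τ.1 j) h) (l i)
        (minor (Function.update (τ.2 i) (i₀ i) (cL e s)) h) (φ v))).trans ?_
  rw [Finset.prod_mul_distrib, Finset.prod_pow_eq_pow_sum, Finset.prod_pow_eq_pow_sum]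

theorem KK_map (τ : Tup d g V) {h : (Fin d → ℂ) → V} {v : Fin d → ℂ} (hh : ContDiffAt ℂ ω h v)
    (C : V →L[ℂ] V) : KK e i₀ l τ (fun u => C (h u)) v = C.det * KK e i₀ l (tcomp τ C) h v := by
  have hn : (ω : WithTop ℕ∞) ≠ 0 := by simp
  have hm : ∀ m, minor m (fun u => C (h u)) =ᶠ[𝓝 v] minor (fun a => (m a).comp C) h := by
    intro m
    filter_upwards [hh.eventually (by simp)] with u hu
    exact minor_map' m (hu.differentiableAt hn) C
  set T := LinearMap.toMatrix e e (C : V →ₗ[ℂ] V) with hT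
  have hcL : ∀ s, (cL e s).comp C = ∑ s', T s s' • cL e s' := by
    intro s
    have h1 : ∀ v, cL e s v = e.repr v s := fun v => rfl
    refine ContinuousLinearMap.ext fun x => ?_
    rw [ContinuousLinearMap.comp_apply, sum_apply, h1]
    have h2 := LinearMap.toMatrix_mulVec_repr e e (C : V →ₗ[ℂ] V) x
    have h3 := congrFun h2 s
    rw [Matrix.mulVec, dotProduct] at h3
    exact h3.symm
  have key : ∀ i s, wd bs (fun j => minor (τ.1 j) fun u => C (h u)) (l i)
      (minor (Function.update (τ.2 i) (i₀ i) (cL e s)) fun u => C (h u)) v =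
      ∑ s', T s s' * wd bs (fun j => minor ((tcomp τ C).1 j) h) (l i)
        (minor (Function.update ((tcomp τ C).2 i) (i₀ i) (cL e s')) h) v := by
    intro i s
    have h1 : minor (Function.update (τ.2 i) (i₀ i) (cL e s)) (fun u => C (h u)) =ᶠ[𝓝 v]
        fun u => ∑ s', T s s' *
          minor (Function.update ((tcomp τ C).2 i) (i₀ i) (cL e s')) h u := by
      filter_upwards [hm (Function.update (τ.2 i) (i₀ i) (cL e s))] with u hu
      rw [hu]
      rw [← minor_update_sum]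
      congr 1
      funext a
      by_cases ha : a = i₀ i
      · subst ha
        rw [Function.update_self, Function.update_self, hcL]
      · rw [Function.update_of_ne ha, Function.update_of_ne ha]
        rfl
    have h2 := (wd_congr (ε := bs) (A' := fun j => minor ((tcomp τ C).1 j) h)
      (fun j => hm (τ.1 j)) h1 (l i)).self_of_nhds
    rw [h2]
    exact (wd_sum (fun j => minor_contDiffAt _ hh) Finset.univ _
      (fun s' _ => minor_contDiffAt _ hh) (l i)).self_of_nhds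
  have h3 : (Matrix.of fun i s => wd bs (fun j => minor (τ.1 j) fun u => C (h u)) (l i)
      (minor (Function.update (τ.2 i) (i₀ i) (cL e s)) fun u => C (h u)) v) =
      (Matrix.of fun i s => wd bs (fun j => minor ((tcomp τ C).1 j) h) (l i)
        (minor (Function.update ((tcomp τ C).2 i) (i₀ i) (cL e s)) h) v) * T.transpose := by
    ext i s
    rw [Matrix.of_apply, key, Matrix.mul_apply]
    refine Finset.sum_congr rfl fun s' _ => ?_
    rw [Matrix.transpose_apply, Matrix.of_apply, mul_comm]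
  unfold KK
  rw [h3, Matrix.det_mul, Matrix.det_transpose, mul_comm, hT, LinearMap.det_toMatrix]

theorem KK_joint {P : Type*} [NormedAddCommGroup P] [NormedSpace ℂ P] {τ : P → Tup d g V}
    {B : P × (Fin d → ℂ) → V} {x₀ : P × (Fin d → ℂ)} (hτ : ContDiffAt ℂ ω τ x₀.1)
    (hB : ContDiffAt ℂ ω B x₀) :
    ContDiffAt ℂ ω (fun x : P × (Fin d → ℂ) =>
      KK e i₀ l (τ x.1) (fun u => B (x.1, u)) x.2) x₀ := by
  let A : Fin (d + 1) → P × (Fin d → ℂ) → ℂ := fun j x =>
    minor ((τ x.1).1 j) (fun u => B (x.1, u)) x.2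
  let G : Fin g → Fin g → P × (Fin d → ℂ) → ℂ := fun i s x =>
    minor (Function.update ((τ x.1).2 i) (i₀ i) (cL e s)) (fun u => B (x.1, u)) x.2
  have hA : ∀ j, ContDiffAt ℂ ω (A j) x₀ := fun j =>
    minor_joint (μ := fun p => (τ p).1 j) ((contDiffAt_pi.1 hτ.fst) j) hB
  have hG : ∀ i s, ContDiffAt ℂ ω (G i s) x₀ := by
    intro i s
    refine minor_joint (μ := fun p => Function.update ((τ p).2 i) (i₀ i) (cL e s)) ?_ hB
    refine contDiffAt_pi.2 fun a => ?_
    by_cases ha : a = i₀ i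
    · subst ha
      simp only [Function.update_self]
      exact contDiffAt_const
    · simp only [Function.update_of_ne ha]
      exact contDiffAt_pi.1 ((contDiffAt_pi.1 hτ.snd) i) a
  have h1 : (fun x : P × (Fin d → ℂ) => KK e i₀ l (τ x.1) (fun u => B (x.1, u)) x.2) =ᶠ[𝓝 x₀]
      fun x => (Matrix.of fun i s => wd (fun b => ((0 : P), bs b)) A (l i) (G i s) x).det := by
    filter_upwards [(Filter.eventually_all).2 fun j => (hA j).eventually (by simp),
      (Filter.eventually_all).2 fun i => (Filter.eventually_all).2 fun s =>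
        (hG i s).eventually (by simp)] with x hx hx'
    unfold KK
    congr 1
    ext i s
    exact wd_slice hx (hx' i s) (l i)
  refine ContDiffAt.congr_of_eventuallyEq ?_ h1
  exact contDiffAt_det fun i s => contDiffAt_wd hA (hG i s) (l i)

theorem KK_bound {r R₀ R : ℝ} (hr : 0 < r) (hR : 0 ≤ R) (e : Basis (Fin g) ℂ V)
    (i₀ : Fin g → Fin d) (l : Fin g → List (Fin (d + 1))) : ∃ K : ℝ, 0 ≤ K ∧
    ∀ (τ : Tup d g V), ‖τ‖ ≤ R₀ → ∀ (h : (Fin d → ℂ) → V) (v₀ : Fin d → ℂ),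
      DifferentiableOn ℂ h (ball v₀ r) → (∀ m : Fin d → (V →L[ℂ] ℂ), (∀ a, ‖m a‖ ≤ 1) →
        ∀ v ∈ ball v₀ r, ‖minor m h v‖ ≤ R) → ‖KK e i₀ l τ h v₀‖ ≤ K := by
  set R₁ : ℝ := |R₀| + ∑ s, ‖cL e s‖ + 1 with hR₁
  have hs0 : 0 ≤ ∑ s, ‖cL e s‖ := Finset.sum_nonneg fun _ _ => norm_nonneg _
  have hR₁0 : 0 < R₁ := by positivity
  have hB0 : 0 ≤ R₁ ^ d * R := by positivity
  choose K₁ hK₁0 hK₁ using fun i : Fin g => wd_bound (d := d) hr hB0 (l i)
  set K₂ : ℝ := ∑ i, K₁ i with hK₂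
  have hK₂0 : 0 ≤ K₂ := Finset.sum_nonneg fun i _ => hK₁0 i
  obtain ⟨K, hK0, hK⟩ := det_bound (k := g) hK₂0
  refine ⟨K, hK0, fun τ hτ h v₀ hh hb => hK _ fun i s => ?_⟩
  have : CompleteSpace V := FiniteDimensional.complete ℂ V
  have han : ∀ v ∈ ball v₀ r, ContDiffAt ℂ ω h v := fun v hv =>
    (MF.analyticAt_of_differentiableOn isOpen_ball hh hv).contDiffAt
  have hmd : ∀ m, DifferentiableOn ℂ (minor m h) (ball v₀ r) := fun m v hv =>
    ((minor_contDiffAt m (han v hv)).differentiableAt (by simp)).differentiableWithinAt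
  have hmb : ∀ m : Fin d → (V →L[ℂ] ℂ), (∀ a, ‖m a‖ ≤ R₁) → ∀ v ∈ ball v₀ r,
      ‖minor m h v‖ ≤ R₁ ^ d * R := fun m hm v hv =>
    minor_scale hR₁0 hm fun m hm => hb m hm v hv
  have h1 : R₀ ≤ R₁ := by
    have := le_abs_self R₀
    linarith
  have hτ1 : ∀ j a, ‖τ.1 j a‖ ≤ R₁ := fun j a =>
    ((norm_le_pi_norm (τ.1 j) a).trans (norm_le_pi_norm τ.1 j)).trans
      ((norm_fst_le τ).trans (hτ.trans h1))
  have hτ2 : ∀ i a, ‖τ.2 i a‖ ≤ R₁ := fun i a =>
    ((norm_le_pi_norm (τ.2 i) a).trans (norm_le_pi_norm τ.2 i)).trans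
      ((norm_snd_le τ).trans (hτ.trans h1))
  have hc : ‖cL e s‖ ≤ R₁ := by
    have h2 : ‖cL e s‖ ≤ ∑ s, ‖cL e s‖ :=
      Finset.single_le_sum (f := fun s => ‖cL e s‖) (fun _ _ => norm_nonneg _) (Finset.mem_univ s)
    have := abs_nonneg R₀
    linarith
  refine (hK₁ i _ _ v₀ (fun j => hmd _) (hmd _) (fun j v hv => hmb _ (hτ1 j) v hv)
    fun v hv => hmb _ (fun a => ?_) v hv).trans ?_
  · by_cases ha : a = i₀ i
    · subst ha
      rw [Function.update_self]
      exact hc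
    · rw [Function.update_of_ne ha]
      exact hτ2 i a
  · exact Finset.single_le_sum (f := K₁) (fun i _ => hK₁0 i) (Finset.mem_univ i)

theorem norm_tcomp_le {τ : Tup d g V} {C : V →L[ℂ] V} (hC : ‖C‖ ≤ 1) : ‖tcomp τ C‖ ≤ ‖τ‖ := by
  have h1 : ∀ l : V →L[ℂ] ℂ, ‖l.comp C‖ ≤ ‖l‖ := fun l =>
    (l.opNorm_comp_le C).trans (mul_le_of_le_one_right (norm_nonneg _) hC)
  refine max_le ?_ ?_
  · refine (pi_norm_le_iff_of_nonneg (norm_nonneg _)).2 fun j =>
      (pi_norm_le_iff_of_nonneg (norm_nonneg _)).2 fun a => ?_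
    exact (h1 _).trans (((norm_le_pi_norm (τ.1 j) a).trans (norm_le_pi_norm τ.1 j)).trans
      (norm_fst_le τ))
  · refine (pi_norm_le_iff_of_nonneg (norm_nonneg _)).2 fun j =>
      (pi_norm_le_iff_of_nonneg (norm_nonneg _)).2 fun a => ?_
    exact (h1 _).trans (((norm_le_pi_norm (τ.2 j) a).trans (norm_le_pi_norm τ.2 j)).trans
      (norm_snd_le τ))

end KK

end Vale.Agent.P281.H713
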