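import Vale.Agent.P281.H713.GPl
import Vale.Agent.P281.H713.Poinc4

open scoped Topology ContDiff
open Set Filter Module Metric

namespace Vale.Agent.P281.H713

set_option linter.unusedSectionVars false

section HP

variable {d : ℕ} {V : Type} [NormedAddCommGroup V] [InnerProductSpace ℂ V] [FiniteDimensional ℂ V]

/-- homogeneous polynomials in the minors -/
structure IsHP (D : ℕ) (Ψ : ((Fin d → ℂ) → V) → (Fin d → ℂ) → ℂ) : Prop where
  scale : ∀ (h h' : (Fin d → ℂ) → V) (v v' : Fin d → ℂ) (c : ℂ),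
    (∀ m, minor m h' v' = c * minor m h v) → Ψ h' v' = c ^ D * Ψ h v
  joint : ∀ {P : Type} [NormedAddCommGroup P] [NormedSpace ℂ P] (B : P × (Fin d → ℂ) → V)
    (x₀ : P × (Fin d → ℂ)), ContDiffAt ℂ ω B x₀ →
    ContDiffAt ℂ ω (fun x : P × (Fin d → ℂ) => Ψ (fun u => B (x.1, u)) x.2) x₀
  bdd : ∀ R : ℝ, ∃ K : ℝ, 0 ≤ K ∧ ∀ (h : (Fin d → ℂ) → V) (v : Fin d → ℂ),
    (∀ m : Fin d → (V →L[ℂ] ℂ), (∀ a, ‖m a‖ ≤ 1) → ‖minor m h v‖ ≤ R) → ‖Ψ h v‖ ≤ K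

theorem IsHP.minor (m : Fin d → (V →L[ℂ] ℂ)) : IsHP 1 (minor m) where
  scale h h' v v' c hc := by rw [hc, pow_one]
  joint B x₀ hB := minor_joint (μ := fun _ => m) contDiffAt_const hB
  bdd R := by
    have h1 : 0 < ‖m‖ + 1 := by positivity
    refine ⟨(‖m‖ + 1) ^ d * |R|, by positivity, fun h v hv => ?_⟩
    exact minor_scale h1 (fun a => (norm_le_pi_norm m a).trans (by linarith))
      fun m hm => (hv m hm).trans (le_abs_self R)

theorem IsHP.const (c : ℂ) : IsHP 0 (fun (_ : (Fin d → ℂ) → V) (_ : Fin d → ℂ) => c) where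
  scale h h' v v' c hc := by rw [pow_zero, one_mul]
  joint B x₀ hB := contDiffAt_const
  bdd R := ⟨‖c‖, norm_nonneg _, fun h v _ => le_rfl⟩

theorem IsHP.mul {D D' : ℕ} {Ψ Ψ' : ((Fin d → ℂ) → V) → (Fin d → ℂ) → ℂ} (h : IsHP D Ψ)
    (h' : IsHP D' Ψ') : IsHP (D + D') (fun b v => Ψ b v * Ψ' b v) where
  scale b b' v v' c hc := by
    rw [h.scale b b' v v' c hc, h'.scale b b' v v' c hc]
    ring
  joint B x₀ hB := (h.joint B x₀ hB).mul (h'.joint B x₀ hB)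
  bdd R := by
    obtain ⟨K, hK0, hK⟩ := h.bdd R
    obtain ⟨K', hK'0, hK'⟩ := h'.bdd R
    refine ⟨K * K', by positivity, fun b v hb => ?_⟩
    rw [norm_mul]
    exact mul_le_mul (hK b v hb) (hK' b v hb) (norm_nonneg _) hK0

theorem IsHP.sub {D : ℕ} {Ψ Ψ' : ((Fin d → ℂ) → V) → (Fin d → ℂ) → ℂ} (h : IsHP D Ψ)
    (h' : IsHP D Ψ') : IsHP D (fun b v => Ψ b v - Ψ' b v) where
  scale b b' v v' c hc := by
    rw [h.scale b b' v v' c hc, h'.scale b b' v v' c hc]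
    ring
  joint B x₀ hB := (h.joint B x₀ hB).sub (h'.joint B x₀ hB)
  bdd R := by
    obtain ⟨K, hK0, hK⟩ := h.bdd R
    obtain ⟨K', hK'0, hK'⟩ := h'.bdd R
    refine ⟨K + K', by positivity, fun b v hb => ?_⟩
    exact (norm_sub_le _ _).trans (add_le_add (hK b v hb) (hK' b v hb))

theorem IsHP.pow {D : ℕ} {Ψ : ((Fin d → ℂ) → V) → (Fin d → ℂ) → ℂ} (h : IsHP D Ψ) (k : ℕ) :
    IsHP (k * D) (fun b v => Ψ b v ^ k) := by
  induction k with
  | zero =>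
    rw [zero_mul]
    simp only [pow_zero]
    exact IsHP.const 1
  | succ k ih =>
    have := ih.mul h
    rw [Nat.succ_mul]
    simpa only [pow_succ] using this

theorem IsHP.prod {D : ℕ} {κ : Type*} (s : Finset κ)
    {Ψ : κ → ((Fin d → ℂ) → V) → (Fin d → ℂ) → ℂ} (h : ∀ i, IsHP D (Ψ i)) :
    IsHP (s.card * D) (fun b v => ∏ i ∈ s, Ψ i b v) := by
  classical
  induction s using Finset.induction_on with
  | empty =>
    rw [Finset.card_empty, zero_mul]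
    simp only [Finset.prod_empty]
    exact IsHP.const 1
  | insert a s ha ih =>
    have := (h a).mul ih
    rw [Finset.card_insert_of_notMem ha, Nat.succ_mul, add_comm]
    simpa only [Finset.prod_insert ha] using this

theorem IsHP.congr {D D' : ℕ} {Ψ Ψ' : ((Fin d → ℂ) → V) → (Fin d → ℂ) → ℂ} (h : IsHP D Ψ)
    (hD : D = D') (hΨ : ∀ b v, Ψ b v = Ψ' b v) : IsHP D' Ψ' := by
  have h1 : Ψ = Ψ' := funext fun b => funext fun v => hΨ b v
  rw [← hD, ← h1]; exact h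

end HP

section Term

variable {d g : ℕ} {V : Type} [NormedAddCommGroup V] [InnerProductSpace ℂ V]
  [FiniteDimensional ℂ V]

/-- the weight of the generalized Wronskian -/
def nk (l : Fin g → List (Fin (d + 1))) : ℕ := ∑ i, (1 + (l i).length * (d + 1))

/-- the terms of the series -/
noncomputable def tm (e : Basis (Fin g) ℂ V) (i₀ : Fin g → Fin d)
    (l : Fin g → List (Fin (d + 1))) (τ : Tup d g V) (k : ℕ)
    (Ψ : ((Fin d → ℂ) → V) → (Fin d → ℂ) → ℂ) (h : (Fin d → ℂ) → V) (v : Fin d → ℂ) : ℂ :=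
  KK e i₀ l τ h v ^ k * Ψ h v

variable {e : Basis (Fin g) ℂ V} {i₀ : Fin g → Fin d} {l : Fin g → List (Fin (d + 1))}
  {τ : Tup d g V} {k D : ℕ} {Ψ : ((Fin d → ℂ) → V) → (Fin d → ℂ) → ℂ}

theorem tm_transf (hΨ : IsHP D Ψ) {h h' : (Fin d → ℂ) → V} {φ : (Fin d → ℂ) → (Fin d → ℂ)}
    {v : Fin d → ℂ} (hφ : ContDiffAt ℂ ω φ v) (hφ0 : (fderiv ℂ φ v).det ≠ 0)
    (hh : ContDiffAt ℂ ω h (φ v)) (ht : ∀ m, minor m h' =ᶠ[𝓝 v] fun u =>
      (fderiv ℂ φ u).det * minor m h (φ u)) :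
    tm e i₀ l τ k Ψ h' v = (fderiv ℂ φ v).det ^ (k * nk l + D) * tm e i₀ l τ k Ψ h (φ v) := by
  unfold tm
  rw [KK_transf (c := 1) τ hφ hφ0 hh (fun m => by simpa using ht m),
    hΨ.scale h h' (φ v) v _ fun m => (ht m).self_of_nhds, one_pow, one_mul, mul_pow, ← pow_mul,
    mul_comm (∑ i, _) k, pow_add]
  unfold nk
  ring

theorem KK_congr {h h' : (Fin d → ℂ) → V} {v : Fin d → ℂ} (hh : h =ᶠ[𝓝 v] h') :
    KK e i₀ l τ h v = KK e i₀ l τ h' v := by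
  have hm : ∀ m, minor m h =ᶠ[𝓝 v] minor m h' := by
    intro m
    filter_upwards [eventually_eventually_nhds.2 hh] with u hu
    exact minor_congr m hu
  unfold KK
  congr 1
  ext i s
  exact (wd_congr (fun j => hm _) (hm _) (l i)).self_of_nhds

theorem tm_congr (hΨ : IsHP D Ψ) {h h' : (Fin d → ℂ) → V} {v : Fin d → ℂ} (hh : h =ᶠ[𝓝 v] h') :
    tm e i₀ l τ k Ψ h v = tm e i₀ l τ k Ψ h' v := by
  unfold tm
  rw [KK_congr hh, hΨ.scale h' h v v 1 fun m => by rw [one_mul]; exact minor_congr m hh,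
    one_pow, one_mul]

theorem tm_comp (hΨ : IsHP D Ψ) {h : (Fin d → ℂ) → V} {φ : (Fin d → ℂ) → (Fin d → ℂ)}
    {v : Fin d → ℂ} (hφ : ContDiffAt ℂ ω φ v) (hφ0 : (fderiv ℂ φ v).det ≠ 0)
    (hh : ContDiffAt ℂ ω h (φ v)) :
    tm e i₀ l τ k Ψ (fun u => h (φ u)) v =
      (fderiv ℂ φ v).det ^ (k * nk l + D) * tm e i₀ l τ k Ψ h (φ v) := by
  refine tm_transf hΨ hφ hφ0 hh fun m => ?_
  filter_upwards [hφ.eventually (by simp),
    hφ.continuousAt.eventually (hh.eventually (by simp))] with u h1 h2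
  exact minor_comp m (h2.differentiableAt (by simp)) (h1.differentiableAt (by simp))

theorem tm_shift (hΨ : IsHP D Ψ) {h : (Fin d → ℂ) → V} {v : Fin d → ℂ}
    (hh : ContDiffAt ℂ ω h v) (c : V) :
    tm e i₀ l τ k Ψ (fun u => h u + c) v = tm e i₀ l τ k Ψ h v := by
  have hid : ContDiffAt ℂ ω (fun u : Fin d → ℂ => u) v := contDiffAt_id
  have hdet : ∀ v, (fderiv ℂ (fun u : Fin d → ℂ => u) v).det = 1 := fun v => by
    rw [fderiv_fun_id]
    exact LinearMap.det_id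
  have h1 := tm_transf (e := e) (i₀ := i₀) (l := l) (τ := τ) (k := k) hΨ
    (h' := fun u => h u + c) (h := h) (φ := fun u => u)
    hid (by rw [hdet]; exact one_ne_zero) hh (fun m => by
      filter_upwards [hh.eventually (by simp)] with u hu
      have := minor_map m (hu.differentiableAt (n := ω) (by simp)) (ContinuousLinearMap.id ℂ V) c
      rw [hdet, one_mul]
      exact this)
  rw [h1, hdet, one_pow, one_mul]

theorem tm_joint (hΨ : IsHP D Ψ) {P : Type} [NormedAddCommGroup P] [NormedSpace ℂ P]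
    {B : P × (Fin d → ℂ) → V} {x₀ : P × (Fin d → ℂ)} (hB : ContDiffAt ℂ ω B x₀) :
    ContDiffAt ℂ ω (fun x : P × (Fin d → ℂ) =>
      tm e i₀ l τ k Ψ (fun u => B (x.1, u)) x.2) x₀ :=
  ((KK_joint (τ := fun _ => τ) contDiffAt_const hB).pow k).mul (hΨ.joint B x₀ hB)

theorem minor_contr {R : ℝ} {h : (Fin d → ℂ) → V} {v : Fin d → ℂ}
    (hh : DifferentiableAt ℂ h v) (hb : ∀ m : Fin d → (V →L[ℂ] ℂ), (∀ a, ‖m a‖ ≤ 1) →
      ‖minor m h v‖ ≤ R) {C : V →L[ℂ] V} (hC : ‖C‖ ≤ 1) (m : Fin d → (V →L[ℂ] ℂ))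
    (hm : ∀ a, ‖m a‖ ≤ 1) : ‖minor m (fun u => C (h u)) v‖ ≤ R := by
  rw [minor_map' m hh C]
  exact hb _ fun a => ((m a).opNorm_comp_le C).trans (mul_le_one₀ (hm a) (norm_nonneg _) hC)

theorem tm_bound {r R₀ R : ℝ} (hr : 0 < r) (hR : 0 ≤ R) (e : Basis (Fin g) ℂ V)
    (i₀ : Fin g → Fin d) (l : Fin g → List (Fin (d + 1))) (k : ℕ) (hΨ : IsHP D Ψ) :
    ∃ K : ℝ, 0 ≤ K ∧ ∀ (τ : Tup d g V), ‖τ‖ ≤ R₀ → ∀ (C : V →L[ℂ] V), ‖C‖ ≤ 1 →
      ∀ (h : (Fin d → ℂ) → V) (v₀ : Fin d → ℂ),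
      DifferentiableOn ℂ h (ball v₀ r) → (∀ m : Fin d → (V →L[ℂ] ℂ), (∀ a, ‖m a‖ ≤ 1) →
        ∀ v ∈ ball v₀ r, ‖minor m h v‖ ≤ R) →
      ‖tm e i₀ l τ k Ψ (fun u => C (h u)) v₀‖ ≤ K * ‖C.det‖ ^ k := by
  obtain ⟨K₁, hK₁0, hK₁⟩ := KK_bound (R₀ := R₀) hr hR e i₀ l
  obtain ⟨K₂, hK₂0, hK₂⟩ := hΨ.bdd R
  refine ⟨K₁ ^ k * K₂, by positivity, fun τ hτ C hC h v₀ hh hb => ?_⟩
  have : CompleteSpace V := FiniteDimensional.complete ℂ V
  have hv₀ : v₀ ∈ ball v₀ r := mem_ball_self hr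
  have han : ContDiffAt ℂ ω h v₀ :=
    (MF.analyticAt_of_differentiableOn isOpen_ball hh hv₀).contDiffAt
  unfold tm
  rw [KK_map τ han C, norm_mul, norm_pow, norm_mul]
  have h1 := hK₁ (tcomp τ C) ((norm_tcomp_le hC).trans hτ) h v₀ hh hb
  have h2 := hK₂ (fun u => C (h u)) v₀ fun m hm =>
    minor_contr (han.differentiableAt (by simp)) (fun m hm => hb m hm v₀ hv₀) hC m hm
  calc (‖C.det‖ * ‖KK e i₀ l (tcomp τ C) h v₀‖) ^ k * ‖Ψ (fun u => C (h u)) v₀‖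
      ≤ (‖C.det‖ * K₁) ^ k * K₂ := by gcongr
    _ = K₁ ^ k * K₂ * ‖C.det‖ ^ k := by ring

end Term

end Vale.Agent.P281.H713
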