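import Mathlib

open Set Filter Complex Module

namespace Vale.Agent.P281.H713

set_option linter.unusedSectionVars false

/-! ### Positive planes in a quadratic space -/

section Plane

variable {W : Type*} [AddCommGroup W] [Module ℝ W]

/-- the plane spanned by `a`, `b` is positive, and the form is negative on the complement of
`a`, `b`, `w`. -/
structure Pl (β : LinearMap.BilinForm ℝ W) (w a b : W) : Prop where
  symm : ∀ x y, β x y = β y x
  pos : 0 < β a a
  eq : β b b = β a a
  ab : β a b = 0
  aw : β a w = 0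
  bw : β b w = 0
  wz : w = 0 ∨ β w w ≠ 0
  neg : ∀ x, β x a = 0 → β x b = 0 → β x w = 0 → x ≠ 0 → β x x < 0

/-- the positive part of the majorant -/
noncomputable def pp (β : LinearMap.BilinForm ℝ W) (w a b x y : W) : ℝ :=
  (β x a * β y a + β x b * β y b) / β a a + β x w * β y w / β w w

/-- the negative part of the majorant -/
noncomputable def np (β : LinearMap.BilinForm ℝ W) (w a b x y : W) : ℝ :=
  pp β w a b x y - β x y

/-- the majorant -/
noncomputable def mj (β : LinearMap.BilinForm ℝ W) (w a b x : W) : ℝ :=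
  pp β w a b x x + np β w a b x x

variable {β : LinearMap.BilinForm ℝ W} {w a b : W}

/-- the negative component -/
noncomputable def nc (β : LinearMap.BilinForm ℝ W) (w a b x : W) : W :=
  x - (β x a / β a a) • a - (β x b / β a a) • b - (β x w / β w w) • w

theorem Pl.nc_a (h : Pl β w a b) (x : W) : β (nc β w a b x) a = 0 := by
  have h1 := h.pos
  have h2 : β b a = 0 := by rw [h.symm, h.ab]
  have h3 : β w a = 0 := by rw [h.symm, h.aw]
  simp only [nc, map_sub, map_smul, LinearMap.sub_apply, LinearMap.smul_apply, smul_eq_mul, h2, h3]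
  field_simp
  ring

theorem Pl.nc_b (h : Pl β w a b) (x : W) : β (nc β w a b x) b = 0 := by
  have h1 := h.pos
  have h3 : β w b = 0 := by rw [h.symm, h.bw]
  simp only [nc, map_sub, map_smul, LinearMap.sub_apply, LinearMap.smul_apply, smul_eq_mul, h.ab,
    h3, h.eq]
  field_simp
  ring

theorem Pl.nc_w (h : Pl β w a b) (x : W) : β (nc β w a b x) w = 0 := by
  rcases h.wz with h0 | h0
  · subst h0
    simp
  · simp only [nc, map_sub, map_smul, LinearMap.sub_apply, LinearMap.smul_apply, smul_eq_mul, h.aw,
      h.bw]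
    field_simp
    ring

theorem Pl.nc_self (h : Pl β w a b) (x : W) :
    β (nc β w a b x) (nc β w a b x) = -np β w a b x x := by
  have h0 : ∀ z, β z (nc β w a b x) = β z x - (β x a / β a a) * β z a -
      (β x b / β a a) * β z b - (β x w / β w w) * β z w := by
    intro z
    simp only [nc, map_sub, map_smul, smul_eq_mul]
  have h1 : β (nc β w a b x) (nc β w a b x) = β (nc β w a b x) x := by
    rw [h0, h.nc_a, h.nc_b, h.nc_w]
    ring
  have h2 := h.pos
  rw [h1]
  simp only [nc, np, pp, map_sub, map_smul, LinearMap.sub_apply, LinearMap.smul_apply, smul_eq_mul]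
  rw [h.symm a x, h.symm b x, h.symm w x]
  ring

theorem Pl.np_nonneg (h : Pl β w a b) (x : W) : 0 ≤ np β w a b x x := by
  by_cases h0 : nc β w a b x = 0
  · have h1 := h.nc_self x
    rw [h0, map_zero] at h1
    linarith
  · have h1 := h.neg _ (h.nc_a x) (h.nc_b x) (h.nc_w x) h0
    rw [h.nc_self] at h1
    linarith

theorem Pl.ww (h : Pl β w a b) (hw : w = 0 ∨ 0 < β w w) : 0 ≤ β w w := by
  rcases hw with h0 | h0
  · subst h0; simp
  · exact h0.le

theorem Pl.pp_nonneg (h : Pl β w a b) (hw : 0 ≤ β w w) (x : W) : 0 ≤ pp β w a b x x := by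
  have h1 := h.pos
  unfold pp
  have h2 : 0 ≤ β x a * β x a + β x b * β x b := by nlinarith [sq_nonneg (β x a), sq_nonneg (β x b)]
  have h3 : 0 ≤ β x w * β x w := mul_self_nonneg _
  positivity

theorem Pl.mj_pos (h : Pl β w a b) (hw : 0 ≤ β w w) {x : W} (hx : x ≠ 0) :
    0 < mj β w a b x := by
  have h1 := h.np_nonneg x
  have h2 := h.pp_nonneg hw x
  have hc := h.pos
  unfold mj
  by_contra hcon
  have h3 : np β w a b x x = 0 := by linarith
  have h4 : pp β w a b x x = 0 := by linarith
  have h5 : 0 ≤ (β x a * β x a + β x b * β x b) / β a a := by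
    have : 0 ≤ β x a * β x a + β x b * β x b := by
      nlinarith [sq_nonneg (β x a), sq_nonneg (β x b)]
    positivity
  have h6 : 0 ≤ β x w * β x w / β w w := by
    have : 0 ≤ β x w * β x w := mul_self_nonneg _
    positivity
  unfold pp at h4
  have h7 : (β x a * β x a + β x b * β x b) / β a a = 0 := by linarith
  have h8 : β x w * β x w / β w w = 0 := by linarith
  have h9 : β x a * β x a + β x b * β x b = 0 := by
    rcases div_eq_zero_iff.1 h7 with h | h
    · exact h
    · linarith
  have ha : β x a = 0 := by nlinarith [sq_nonneg (β x a), sq_nonneg (β x b)]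
  have hb : β x b = 0 := by nlinarith [sq_nonneg (β x a), sq_nonneg (β x b)]
  have hw' : β x w = 0 := by
    rcases h.wz with h0 | h0
    · rw [h0, map_zero]
    · rcases div_eq_zero_iff.1 h8 with h | h
      · exact mul_self_eq_zero.1 h
      · exact absurd h h0
  have h10 := h.neg x ha hb hw' hx
  have h11 : np β w a b x x = - β x x := by
    unfold np pp
    rw [ha, hb, hw']
    ring
  linarith

/-- the negative part is a bilinear form -/
noncomputable def npF (β : LinearMap.BilinForm ℝ W) (w a b : W) : LinearMap.BilinForm ℝ W :=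
  LinearMap.mk₂ ℝ (fun x y => np β w a b x y)
    (fun x x' y => by
      simp only [np, pp, map_add, LinearMap.add_apply]
      ring)
    (fun c x y => by
      simp only [np, pp, map_smul, LinearMap.smul_apply, smul_eq_mul]
      ring)
    (fun x y y' => by
      simp only [np, pp, map_add, LinearMap.add_apply]
      ring)
    (fun c x y => by
      simp only [np, pp, map_smul, LinearMap.smul_apply, smul_eq_mul]
      ring)

theorem npF_apply (x y : W) : npF β w a b x y = np β w a b x y := rfl

theorem Pl.np_sq_le (h : Pl β w a b) (x y : W) :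
    np β w a b x y ^ 2 ≤ np β w a b x x * np β w a b y y := by
  refine LinearMap.BilinForm.apply_sq_le_of_symm (npF β w a b) (fun x => h.np_nonneg x)
    ⟨fun x y => ?_⟩ x y
  simp only [npF_apply, np, pp, RingHom.id_apply]
  rw [h.symm x y]
  ring

/-- the entries of the matrix comparing two planes -/
noncomputable def SS (β : LinearMap.BilinForm ℝ W) (a b a' b' : W) : ℝ :=
  β a a' ^ 2 + β a b' ^ 2 + β b a' ^ 2 + β b b' ^ 2

/-- its determinant -/
noncomputable def DD (β : LinearMap.BilinForm ℝ W) (a b a' b' : W) : ℝ :=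
  β a a' * β b b' - β a b' * β b a'

theorem psd2 {E F G : ℝ} (hE : 0 ≤ E) (hF : 0 ≤ F)
    (hq : ∀ s t : ℝ, 0 ≤ E * s ^ 2 + 2 * G * (s * t) + F * t ^ 2) : G ^ 2 ≤ E * F := by
  rcases hE.eq_or_lt with h2 | h2
  · have h5 : G = 0 := by
      by_contra hne
      have h6 := hq (-(F + 1)) G
      rw [← h2] at h6
      have h7 : 0 < G ^ 2 := by positivity
      nlinarith
    rw [h5, ← h2]
    simp
  · have h3 := hq (-G) E
    have h4 : 0 ≤ E * (E * F - G ^ 2) := by nlinarith
    have h5 := nonneg_of_mul_nonneg_right h4 h2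
    linarith

theorem det_sq_le {A B C D κ : ℝ} (hκ : 0 < κ) (e1 : κ ≤ A ^ 2 + B ^ 2) (e2 : κ ≤ C ^ 2 + D ^ 2)
    (hg : (A * C + B * D) ^ 2 ≤ (A ^ 2 + B ^ 2 - κ) * (C ^ 2 + D ^ 2 - κ)) :
    κ ≤ |A * D - C * B| := by
  have h1 : κ ^ 2 ≤ (A * D - C * B) ^ 2 := by
    have h2 : (A * D - C * B) ^ 2 = (A ^ 2 + B ^ 2) * (C ^ 2 + D ^ 2) - (A * C + B * D) ^ 2 := by
      ring
    rw [h2]
    nlinarith
  have h2 := sq_le_sq.1 h1
  rwa [abs_of_pos hκ] at h2

/-- comparison of two planes -/
theorem plane_bounds {a' b' : W} (h : Pl β w a b) (h' : Pl β w a' b') :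
    2 * (β a a * β a' a') ≤ SS β a b a' b' ∧ β a a * β a' a' ≤ |DD β a b a' b'| := by
  have hc := h.pos
  have hc' := h'.pos
  have key : ∀ s t : ℝ, β a a * β a' a' * (s ^ 2 + t ^ 2) ≤
      (s * β a a' + t * β a b') ^ 2 + (s * β b a' + t * β b b') ^ 2 := by
    intro s t
    have h1 := h.np_nonneg (s • a' + t • b')
    have h2 : β (s • a' + t • b') w = 0 := by
      simp only [map_add, map_smul, LinearMap.add_apply, LinearMap.smul_apply, smul_eq_mul, h'.aw,
        h'.bw]
      ring
    have h3 : β (s • a' + t • b') (s • a' + t • b') = β a' a' * (s ^ 2 + t ^ 2) := by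
      simp only [map_add, map_smul, LinearMap.add_apply, LinearMap.smul_apply, smul_eq_mul, h'.ab,
        h'.symm b' a', h'.eq]
      ring
    unfold np pp at h1
    rw [h2, h3] at h1
    simp only [map_add, map_smul, LinearMap.add_apply, LinearMap.smul_apply, smul_eq_mul] at h1
    rw [zero_mul, zero_div, add_zero, sub_nonneg, le_div_iff₀ hc, h.symm a' a, h.symm b' a,
      h.symm a' b, h.symm b' b] at h1
    linarith
  have e1 := key 1 0
  have e2 := key 0 1
  simp only [one_mul, zero_mul, one_pow, add_zero, zero_add, mul_one, ne_eq,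
    OfNat.ofNat_ne_zero, not_false_eq_true, zero_pow] at e1 e2
  constructor
  · unfold SS
    linarith
  · refine det_sq_le (mul_pos hc hc') e1 e2 ?_
    refine psd2 (by linarith) (by linarith) fun s t => ?_
    have := key s t
    nlinarith

theorem sq_add_le (s t : ℝ) : (s - t) ^ 2 ≤ 2 * s ^ 2 + 2 * t ^ 2 := by nlinarith [sq_nonneg (s + t)]

/-- bound for one vector -/
theorem Pl.beta_sq_le (h : Pl β w a b) (hw : 0 ≤ β w w) {u : W} (huw : β u w = 0)
    (huu : 0 ≤ β u u) (x : W) :
    β x u ^ 2 ≤ 2 * ((β a u ^ 2 + β b u ^ 2) / β a a) * mj β w a b x := by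
  have hc := h.pos
  have h1 : β x u = pp β w a b x u - np β w a b x u := by unfold np; ring
  have h2 : pp β w a b x u = (β x a * β a u + β x b * β b u) / β a a := by
    unfold pp
    rw [huw, h.symm u a, h.symm u b]
    simp
  have h3 := h.np_sq_le x u
  have h4 : np β w a b u u = (β a u ^ 2 + β b u ^ 2) / β a a - β u u := by
    unfold np pp
    rw [huw, h.symm u a, h.symm u b]
    simp only [mul_zero, zero_div, add_zero]
    ring
  have h5 : (β x a * β a u + β x b * β b u) ^ 2 ≤
      (β x a ^ 2 + β x b ^ 2) * (β a u ^ 2 + β b u ^ 2) := by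
    nlinarith [sq_nonneg (β x a * β b u - β x b * β a u)]
  set Su := (β a u ^ 2 + β b u ^ 2) / β a a with hSu
  have hSu0 : 0 ≤ Su := by positivity
  set P1 := (β x a ^ 2 + β x b ^ 2) / β a a with hP1
  have h6 : pp β w a b x u ^ 2 ≤ P1 * Su := by
    rw [h2, hP1, hSu, div_pow, div_mul_div_comm, ← sq]
    gcongr
  have h7 : np β w a b x u ^ 2 ≤ np β w a b x x * Su := by
    refine h3.trans ?_
    have := h.np_nonneg x
    gcongr
    rw [h4]
    linarith
  have h8 : P1 + np β w a b x x ≤ mj β w a b x := by
    have h9 : pp β w a b x x = P1 + β x w * β x w / β w w := by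
      unfold pp
      rw [hP1]
      ring
    have h10 : 0 ≤ β x w * β x w / β w w := by
      have : 0 ≤ β x w * β x w := mul_self_nonneg _
      positivity
    unfold mj
    rw [h9]
    linarith
  calc β x u ^ 2 ≤ 2 * pp β w a b x u ^ 2 + 2 * np β w a b x u ^ 2 := by
        rw [h1]; exact sq_add_le _ _
    _ ≤ 2 * Su * (P1 + np β w a b x x) := by nlinarith
    _ ≤ _ := by gcongr

/-- comparison of the majorants -/
theorem mj_le {u v : W} (h : Pl β w a b) (hw : 0 ≤ β w w) (h' : Pl β w u v) (x : W) :
    mj β w u v x ≤ (4 * (SS β a b u v / (β a a * β u u)) + 1) * mj β w a b x := by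
  have hc := h.pos
  have hc' := h'.pos
  have h1 := h.beta_sq_le hw h'.aw hc'.le x
  have h2 := h.beta_sq_le hw h'.bw (by rw [h'.eq]; exact hc'.le) x
  have h3 : mj β w u v x = 2 * ((β x u ^ 2 + β x v ^ 2) / β u u) +
      (2 * (β x w * β x w / β w w) - β x x) := by
    unfold mj np pp
    ring
  have h4 : 2 * (β x w * β x w / β w w) - β x x ≤ mj β w a b x := by
    have h5 : mj β w a b x = 2 * ((β x a ^ 2 + β x b ^ 2) / β a a) +
      (2 * (β x w * β x w / β w w) - β x x) := by
      unfold mj np pp
      ring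
    have : 0 ≤ (β x a ^ 2 + β x b ^ 2) / β a a := by positivity
    rw [h5]
    linarith
  rw [h3, add_mul, one_mul]
  refine add_le_add ?_ h4
  have h6 : β x u ^ 2 + β x v ^ 2 ≤ 2 * (SS β a b u v / β a a) * mj β w a b x := by
    have h7 : SS β a b u v / β a a = (β a u ^ 2 + β b u ^ 2) / β a a +
        (β a v ^ 2 + β b v ^ 2) / β a a := by
      unfold SS
      ring
    rw [h7]
    linarith
  calc 2 * ((β x u ^ 2 + β x v ^ 2) / β u u)
      ≤ 2 * ((2 * (SS β a b u v / β a a) * mj β w a b x) / β u u) := by gcongr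
    _ = _ := by field_simp; ring

/-- the case of equality -/
theorem plane_eq {u v : W} (h : Pl β w a b) (h' : Pl β w u v)
    (hD : 0 < DD β a b u v) (hS : SS β a b u v + 2 * DD β a b u v ≤ 4 * (β a a * β u u)) :
    β a u = β b v ∧ β a v = - β b u ∧ u = (β a u / β a a) • a + (β b u / β a a) • b ∧
      v = (β a v / β a a) • a + (β b v / β a a) • b := by
  have hc := h.pos
  have hc' := h'.pos
  obtain ⟨h1, h2⟩ := plane_bounds h h'
  rw [abs_of_pos hD] at h2
  have h3 : SS β a b u v = 2 * (β a a * β u u) := by linarith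
  have h4 : DD β a b u v = β a a * β u u := by linarith
  have h5 : (β a u - β b v) ^ 2 + (β a v + β b u) ^ 2 = 0 := by
    have h6 : (β a u - β b v) ^ 2 + (β a v + β b u) ^ 2 = SS β a b u v - 2 * DD β a b u v := by
      unfold SS DD
      ring
    rw [h6]
    linarith
  have e1 : β a u - β b v = 0 := by nlinarith [sq_nonneg (β a u - β b v), sq_nonneg (β a v + β b u)]
  have e2 : β a v + β b u = 0 := by nlinarith [sq_nonneg (β a u - β b v), sq_nonneg (β a v + β b u)]
  have e1' : β a u = β b v := by linarith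
  have e2' : β a v = - β b u := by linarith
  -- the projections
  have hproj : ∀ z : W, β z w = 0 → β z z = β u u → β a z ^ 2 + β b z ^ 2 = β a a * β u u →
      z = (β a z / β a a) • a + (β b z / β a a) • b := by
    intro z hzw hzz hz
    have h6 : np β w a b z z = 0 := by
      unfold np pp
      rw [hzw, hzz, h.symm z a, h.symm z b]
      have : (β a z * β a z + β b z * β b z) = β a a * β u u := by rw [← hz]; ring
      rw [this]
      field_simp
      ring
    have h7 := h.nc_self z
    rw [h6, neg_zero] at h7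
    have h8 : nc β w a b z = 0 := by
      by_contra hne
      have := h.neg _ (h.nc_a z) (h.nc_b z) (h.nc_w z) hne
      linarith
    unfold nc at h8
    rw [hzw, zero_div, zero_smul, sub_zero, h.symm z a, h.symm z b, sub_sub, sub_eq_zero] at h8
    exact h8
  have hS' : β a u ^ 2 + β b u ^ 2 = β a a * β u u := by
    have : SS β a b u v = 2 * (β a u ^ 2 + β b u ^ 2) := by
      unfold SS
      rw [e2', ← e1']
      ring
    linarith
  refine ⟨e1', e2', hproj u h'.aw rfl hS', hproj v h'.bw h'.eq ?_⟩
  rw [e2', ← e1', neg_sq, ← hS']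
  ring

end Plane

end Vale.Agent.P281.H713
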