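import Vale.Agent.P281.H713.Symp

open scoped Topology
open Set Filter Complex Module

namespace Vale.Agent.P281.H713

set_option linter.unusedSectionVars false

section Det

variable {V : Type*} [NormedAddCommGroup V] [InnerProductSpace ℂ V] [FiniteDimensional ℂ V]

/-- the symplectic form -/
noncomputable def sform (V : Type*) [NormedAddCommGroup V] [InnerProductSpace ℂ V] :
    LinearMap.BilinForm ℝ V :=
  LinearMap.mk₂ ℝ (fun u v : V => (inner ℂ u v).im)
    (fun a b c => by simp)
    (fun r a b => by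
      show (inner ℂ (((r : ℝ) : ℂ) • a) b).im = _
      rw [inner_smul_left]; simp)
    (fun a b c => by simp)
    (fun r a b => by
      show (inner ℂ a (((r : ℝ) : ℂ) • b)).im = _
      rw [inner_smul_right]; simp)

theorem sform_apply (u v : V) : sform V u v = (inner ℂ u v).im := rfl

theorem sform_nondeg : (sform V).Nondegenerate := by
  constructor
  · intro u hu
    have h1 := hu (I • u)
    rw [sform_apply, inner_I_im] at h1
    have h2 : (inner ℂ u u).re = ‖u‖ ^ 2 := by
      have := inner_self_eq_norm_sq (𝕜 := ℂ) u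
      exact_mod_cast this
    rw [h2] at h1
    exact norm_eq_zero.1 (pow_eq_zero_iff (two_ne_zero)|>.1 h1)
  · intro v hv
    have h1 := hv (I • v)
    rw [sform_apply, inner_smul_left] at h1
    have h2 : (inner ℂ v v).re = ‖v‖ ^ 2 := by
      have := inner_self_eq_norm_sq (𝕜 := ℂ) v
      exact_mod_cast this
    have h3 : (starRingEnd ℂ I * inner ℂ v v).im = -(inner ℂ v v).re := by
      rw [conj_I, neg_mul, neg_im, I_mul_im]
    rw [h3, h2] at h1
    exact norm_eq_zero.1 (pow_eq_zero_iff (two_ne_zero)|>.1 (neg_eq_zero.1 h1))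

theorem abs_det_symp {T : V →L[ℝ] V} (hT : IsSymp T) : |T.det| = 1 := by
  classical
  have : FiniteDimensional ℝ V := FiniteDimensional.complexToReal V
  let b := Module.finBasis ℝ V
  have h1 : (sform V).comp (T : V →ₗ[ℝ] V) (T : V →ₗ[ℝ] V) = sform V := by
    refine LinearMap.ext₂ fun u v => ?_
    exact hT u v
  have h2 := LinearMap.BilinForm.toMatrix_comp b b (sform V) (T : V →ₗ[ℝ] V) (T : V →ₗ[ℝ] V)
  rw [h1] at h2
  have h3 := congrArg Matrix.det h2
  rw [Matrix.det_mul, Matrix.det_mul, Matrix.det_transpose, LinearMap.det_toMatrix] at h3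
  have h4 := (LinearMap.BilinForm.nondegenerate_iff_det_ne_zero b).1 (sform_nondeg (V := V))
  have h5 : (T : V →ₗ[ℝ] V).det * (T : V →ₗ[ℝ] V).det = 1 := by
    have h6 : ((T : V →ₗ[ℝ] V).det * (T : V →ₗ[ℝ] V).det - 1) * (LinearMap.BilinForm.toMatrix b (sform V)).det = 0 := by
      linear_combination -h3
    rcases mul_eq_zero.1 h6 with h7 | h7
    · linarith
    · exact absurd h7 h4
  show |(T : V →ₗ[ℝ] V).det| = 1
  rcases mul_self_eq_one_iff.1 h5 with h | h <;> rw [h] <;> simp

theorem det_real_of_complex (L : V →L[ℂ] V) : (L.restrictScalars ℝ).det = ‖L.det‖ ^ 2 := by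
  have h1 := LinearMap.det_restrictScalars (R := ℝ) (S := ℂ) (f := (L : V →ₗ[ℂ] V))
  have h2 : (L.restrictScalars ℝ).det = ((L : V →ₗ[ℂ] V).restrictScalars ℝ).det := rfl
  rw [h2, h1, Algebra.norm_complex_apply, Complex.normSq_eq_norm_sq]

end Det

end Vale.Agent.P281.H713
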