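import Vale.Agent.P281.H713.Latt
import Vale.Agent.P281.H713.SympDet
import Vale.Agent.P281.MF.Hol

open scoped Topology
open Set Filter Complex Module

namespace Vale.Agent.P281.H713

set_option linter.unusedSectionVars false

section Sum

variable {n : ℕ}

/-- abbreviation for the underlying matrix -/
noncomputable def mx {Γ : Subgroup (GL (Fin n) ℤ)} (M : Γ) : Matrix (Fin n) (Fin n) ℤ :=
  ((M : GL (Fin n) ℤ) : Matrix (Fin n) (Fin n) ℤ)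

theorem mx_mul {Γ : Subgroup (GL (Fin n) ℤ)} (M N : Γ) : mx (M * N) = mx M * mx N := by
  simp only [mx, Subgroup.coe_mul, Units.val_mul]

theorem mx_one {Γ : Subgroup (GL (Fin n) ℤ)} : mx (1 : Γ) = 1 := by
  simp only [mx, Subgroup.coe_one, Units.val_one]

theorem summable_mx {Γ : Subgroup (GL (Fin n) ℤ)} (hn : 0 < n) {l : ℕ} (hl : n * n < l) :
    Summable fun M : Γ => ‖mact (mx M)‖⁻¹ ^ l :=
  (summable_mact hn hl).comp_injective Subtype.val_injective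

theorem mact_mx_pos {Γ : Subgroup (GL (Fin n) ℤ)} (hn : 0 < n) (M : Γ) : 0 < ‖mact (mx M)‖ :=
  mact_pos hn _

theorem sum_bound {Γ : Subgroup (GL (Fin n) ℤ)} (hn : 0 < n) {l : ℕ} (hl : n * n < l)
    {δ : Γ → ℝ} (h1 : ∀ M, 1 ≤ δ M) {C₀ : ℝ}
    (h2 : ∀ M₁ M₂ : Γ, ‖mact (mx (M₁⁻¹ * M₂))‖ ≤ C₀ * (δ M₁ * δ M₂)) :
    Summable (fun M => (δ M)⁻¹ ^ (2 * l)) ∧
      ∑' M, (δ M)⁻¹ ^ (2 * l) ≤ C₀ ^ l * ∑' M : Γ, ‖mact (mx M)‖⁻¹ ^ l := by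
  classical
  have hs := summable_mx (Γ := Γ) hn hl
  have hδ : ∀ M, 0 < δ M := fun M => zero_lt_one.trans_le (h1 M)
  have hC₀ : 0 < C₀ := by
    have h3 := h2 1 1
    have h4 := (mact_mx_pos hn ((1 : Γ)⁻¹ * 1)).trans_le h3
    exact pos_of_mul_pos_left h4 (mul_nonneg (hδ _).le (hδ _).le)
  have key : ∀ s : Finset Γ, ∑ M ∈ s, (δ M)⁻¹ ^ (2 * l) ≤ C₀ ^ l * ∑' M : Γ, ‖mact (mx M)‖⁻¹ ^ l := by
    intro s
    rcases s.eq_empty_or_nonempty with rfl | hne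
    · rw [Finset.sum_empty]
      exact mul_nonneg (by positivity) (tsum_nonneg fun M => by positivity)
    obtain ⟨M₁, hM₁, hmin⟩ := s.exists_min_image δ hne
    have h3 : ∀ M ∈ s, (δ M)⁻¹ ^ (2 * l) ≤ C₀ ^ l * ‖mact (mx (M₁⁻¹ * M))‖⁻¹ ^ l := by
      intro M hM
      have h4 := h2 M₁ M
      have h5 := hmin M hM
      have h6 : ‖mact (mx (M₁⁻¹ * M))‖ ≤ C₀ * (δ M) ^ 2 := by
        refine h4.trans ?_
        have := hδ M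
        have := hδ M₁
        rw [sq]
        gcongr
      rw [← mul_pow, pow_mul]
      refine pow_le_pow_left₀ (by positivity) ?_ l
      have h7 := mact_mx_pos hn (M₁⁻¹ * M)
      have h8 : 0 < (δ M) ^ 2 := by have := hδ M; positivity
      rw [inv_pow, inv_le_comm₀ h8 (by positivity), mul_inv, inv_inv, ← div_eq_inv_mul,
        div_le_iff₀ hC₀]
      linarith
    calc ∑ M ∈ s, (δ M)⁻¹ ^ (2 * l) ≤ ∑ M ∈ s, C₀ ^ l * ‖mact (mx (M₁⁻¹ * M))‖⁻¹ ^ l :=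
          Finset.sum_le_sum h3
      _ = C₀ ^ l * ∑ M ∈ s, ‖mact (mx (M₁⁻¹ * M))‖⁻¹ ^ l := by rw [Finset.mul_sum]
      _ ≤ C₀ ^ l * ∑' M : Γ, ‖mact (mx (M₁⁻¹ * M))‖⁻¹ ^ l := by
          gcongr
          have h9 : Summable fun M : Γ => ‖mact (mx (M₁⁻¹ * M))‖⁻¹ ^ l :=
            hs.comp_injective (mul_right_injective M₁⁻¹)
          exact h9.sum_le_tsum s fun M _ => by positivity
      _ = _ := by
          congr 1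
          exact (Equiv.mulLeft M₁⁻¹).tsum_eq fun M : Γ => ‖mact (mx M)‖⁻¹ ^ l
  have hnn : ∀ M, 0 ≤ (δ M)⁻¹ ^ (2 * l) := fun M => by
    have := hδ M
    positivity
  have hsum := summable_of_sum_le hnn key
  exact ⟨hsum, hsum.tsum_le_of_sum_le key⟩

end Sum

section Pol

variable {V : Type*} [NormedAddCommGroup V] [InnerProductSpace ℂ V] [FiniteDimensional ℂ V]
variable {n : ℕ} {Q : (Fin n → ℝ) → (Fin n → ℝ) → ℝ}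

/-- `Q` is the imaginary part of the Hermitian form `⟨G ·, G ·⟩` on the periods `π`. -/
def IsPol (Q : (Fin n → ℝ) → (Fin n → ℝ) → ℝ) (π : (Fin n → ℝ) ≃L[ℝ] V) (G : V ≃L[ℂ] V) : Prop :=
  ∀ x x', (inner ℂ (G (π x)) (G (π x'))).im = Q x x'

/-- `π M π₀⁻¹` -/
noncomputable def TT (π₀ π : (Fin n → ℝ) ≃L[ℝ] V) (M : Matrix (Fin n) (Fin n) ℤ) : V →L[ℝ] V :=
  (π : (Fin n → ℝ) →L[ℝ] V).comp ((mact M).comp (π₀.symm : V →L[ℝ] (Fin n → ℝ)))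

theorem TT_apply (π₀ π : (Fin n → ℝ) ≃L[ℝ] V) (M : Matrix (Fin n) (Fin n) ℤ) (v : V) :
    TT π₀ π M v = π (mact M (π₀.symm v)) := rfl

/-- its complex linear part -/
noncomputable def LL (π₀ π : (Fin n → ℝ) ≃L[ℝ] V) (M : Matrix (Fin n) (Fin n) ℤ) : V →L[ℂ] V :=
  clin (TT π₀ π M)

/-- normalized version -/
noncomputable def NT (π₀ π : (Fin n → ℝ) ≃L[ℝ] V) (G₀ G : V ≃L[ℂ] V)
    (M : Matrix (Fin n) (Fin n) ℤ) : V →L[ℝ] V :=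
  ((G : V →L[ℂ] V).restrictScalars ℝ).comp ((TT π₀ π M).comp
    ((G₀.symm : V →L[ℂ] V).restrictScalars ℝ))

theorem NT_apply (π₀ π : (Fin n → ℝ) ≃L[ℝ] V) (G₀ G : V ≃L[ℂ] V)
    (M : Matrix (Fin n) (Fin n) ℤ) (v : V) :
    NT π₀ π G₀ G M v = G (π (mact M (π₀.symm (G₀.symm v)))) := rfl

theorem clin_NT (π₀ π : (Fin n → ℝ) ≃L[ℝ] V) (G₀ G : V ≃L[ℂ] V)
    (M : Matrix (Fin n) (Fin n) ℤ) : clin (NT π₀ π G₀ G M) =
      (G : V →L[ℂ] V).comp ((LL π₀ π M).comp (G₀.symm : V →L[ℂ] V)) := by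
  rw [NT, clin_comp_left, clin_comp_right, LL]

theorem isSymp_NT {π₀ π : (Fin n → ℝ) ≃L[ℝ] V} {G₀ G : V ≃L[ℂ] V} (h₀ : IsPol Q π₀ G₀)
    (h : IsPol Q π G) (M : spq Q) : IsSymp (NT π₀ π G₀ G (mx M)) := by
  intro u v
  rw [NT_apply, NT_apply, h]
  have h1 := mact_mem M (π₀.symm (G₀.symm u)) (π₀.symm (G₀.symm v))
  rw [mx, h1, ← h₀, π₀.apply_symm_apply, π₀.apply_symm_apply, G₀.apply_symm_apply,
    G₀.apply_symm_apply]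

theorem det_comp (A B : V →L[ℂ] V) : (A.comp B).det = A.det * B.det :=
  LinearMap.det_comp (A : V →ₗ[ℂ] V) (B : V →ₗ[ℂ] V)

theorem det_id'' : (ContinuousLinearMap.id ℂ V).det = 1 := LinearMap.det_id

theorem det_symm (G : V ≃L[ℂ] V) : (G : V →L[ℂ] V).det * (G.symm : V →L[ℂ] V).det = 1 := by
  rw [← det_comp, ← det_id'' (V := V)]
  congr 1
  ext v
  simp

theorem det_equiv_ne (G : V ≃L[ℂ] V) : (G : V →L[ℂ] V).det ≠ 0 :=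
  left_ne_zero_of_mul (by rw [det_symm G]; exact one_ne_zero)

theorem det_symm' (G : V ≃L[ℂ] V) : (G.symm : V →L[ℂ] V).det = ((G : V →L[ℂ] V).det)⁻¹ :=
  eq_inv_of_mul_eq_one_right (det_symm G)

/-- the normalized determinant -/
noncomputable def dl (π₀ π : (Fin n → ℝ) ≃L[ℝ] V) (G₀ G : V ≃L[ℂ] V)
    (M : Matrix (Fin n) (Fin n) ℤ) : ℝ := ‖(clin (NT π₀ π G₀ G M)).det‖

theorem dl_eq (π₀ π : (Fin n → ℝ) ≃L[ℝ] V) (G₀ G : V ≃L[ℂ] V)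
    (M : Matrix (Fin n) (Fin n) ℤ) : dl π₀ π G₀ G M =
      ‖(G : V →L[ℂ] V).det‖ * ‖(LL π₀ π M).det‖ * ‖(G₀ : V →L[ℂ] V).det‖⁻¹ := by
  rw [dl, clin_NT, det_comp, det_comp, det_symm', norm_mul, norm_mul, norm_inv, mul_assoc]

variable {π₀ π : (Fin n → ℝ) ≃L[ℝ] V} {G₀ G : V ≃L[ℂ] V}

theorem one_le_dl (h₀ : IsPol Q π₀ G₀) (h : IsPol Q π G) (M : spq Q) :
    1 ≤ dl π₀ π G₀ G (mx M) :=
  (expanding _ (le_clin_norm (isSymp_NT h₀ h M))).1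

theorem NT_le (h₀ : IsPol Q π₀ G₀) (h : IsPol Q π G) (M : spq Q) (u : V) :
    ‖NT π₀ π G₀ G (mx M) u‖ ≤ 2 * dl π₀ π G₀ G (mx M) * ‖u‖ := by
  have h1 := norm_le_clin (isSymp_NT h₀ h M) u
  have h2 := (expanding _ (le_clin_norm (isSymp_NT h₀ h M))).2.1 u
  rw [← dl] at h2
  linarith

/-- comparison constant -/
noncomputable def C0 (π₀ : (Fin n → ℝ) ≃L[ℝ] V) (G₀ : V ≃L[ℂ] V) : ℝ :=
  4 * (‖(π₀.symm : V →L[ℝ] (Fin n → ℝ))‖ * ‖(G₀.symm : V →L[ℂ] V)‖ * ‖(G₀ : V →L[ℂ] V)‖ *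
    ‖(π₀ : (Fin n → ℝ) →L[ℝ] V)‖)

theorem mact_le (h₀ : IsPol Q π₀ G₀) (h : IsPol Q π G) (M₁ M₂ : spq Q) :
    ‖mact (mx (M₁⁻¹ * M₂))‖ ≤ C0 π₀ G₀ *
      (dl π₀ π G₀ G (mx M₁) * dl π₀ π G₀ G (mx M₂)) := by
  set δ₁ := dl π₀ π G₀ G (mx M₁)
  set δ₂ := dl π₀ π G₀ G (mx M₂)
  have hδ₁ : 1 ≤ δ₁ := one_le_dl h₀ h M₁
  have hδ₂ : 1 ≤ δ₂ := one_le_dl h₀ h M₂
  refine ContinuousLinearMap.opNorm_le_bound _ (by unfold C0; positivity) fun x => ?_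
  set u : V := G₀ (π₀ x) with hu
  set w : V := G₀ (π₀ (mact (mx (M₁⁻¹ * M₂)) x)) with hw
  have h1 : NT π₀ π G₀ G (mx M₁) w = NT π₀ π G₀ G (mx M₂) u := by
    rw [NT_apply, NT_apply, hw, hu, G₀.symm_apply_apply, π₀.symm_apply_apply,
      G₀.symm_apply_apply, π₀.symm_apply_apply, ← mact_mul, ← mx_mul, mul_inv_cancel_left]
  have h2 := norm_le_of_symp (isSymp_NT h₀ h M₁) (NT_le h₀ h M₁) w
  rw [h1] at h2
  have h3 := NT_le h₀ h M₂ u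
  have h4 : ‖w‖ ≤ 4 * (δ₁ * δ₂) * ‖u‖ := by
    refine h2.trans ?_
    calc 2 * δ₁ * ‖NT π₀ π G₀ G (mx M₂) u‖ ≤ 2 * δ₁ * (2 * δ₂ * ‖u‖) := by gcongr
      _ = _ := by ring
  have h5 : mact (mx (M₁⁻¹ * M₂)) x = π₀.symm (G₀.symm w) := by
    rw [hw, G₀.symm_apply_apply, π₀.symm_apply_apply]
  have h6 : ‖π₀.symm (G₀.symm w)‖ ≤ ‖(π₀.symm : V →L[ℝ] (Fin n → ℝ))‖ *
      (‖(G₀.symm : V →L[ℂ] V)‖ * ‖w‖) := by
    refine ((π₀.symm : V →L[ℝ] (Fin n → ℝ)).le_opNorm _).trans ?_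
    gcongr
    exact (G₀.symm : V →L[ℂ] V).le_opNorm _
  have h7 : ‖u‖ ≤ ‖(G₀ : V →L[ℂ] V)‖ * (‖(π₀ : (Fin n → ℝ) →L[ℝ] V)‖ * ‖x‖) := by
    refine ((G₀ : V →L[ℂ] V).le_opNorm _).trans ?_
    gcongr
    exact (π₀ : (Fin n → ℝ) →L[ℝ] V).le_opNorm _
  rw [h5]
  calc _ ≤ _ := h6
    _ ≤ ‖(π₀.symm : V →L[ℝ] (Fin n → ℝ))‖ * (‖(G₀.symm : V →L[ℂ] V)‖ *
        (4 * (δ₁ * δ₂) * (‖(G₀ : V →L[ℂ] V)‖ * (‖(π₀ : (Fin n → ℝ) →L[ℝ] V)‖ * ‖x‖)))) := by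
        gcongr
        exact h4.trans (by gcongr)
    _ = _ := by unfold C0; ring

theorem dl_sum (hn : 0 < n) {l : ℕ} (hl : n * n < l) (h₀ : IsPol Q π₀ G₀) (h : IsPol Q π G) :
    Summable (fun M : spq Q => (dl π₀ π G₀ G (mx M))⁻¹ ^ (2 * l)) ∧
      ∑' M : spq Q, (dl π₀ π G₀ G (mx M))⁻¹ ^ (2 * l) ≤
        C0 π₀ G₀ ^ l * ∑' M : spq Q, ‖mact (mx M)‖⁻¹ ^ l :=
  sum_bound hn hl (one_le_dl h₀ h) (mact_le h₀ h)

end Pol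

end Vale.Agent.P281.H713
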