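import Vale.Agent.P281.H713.KA
import Vale.Agent.P281.H713.DefsK
import Vale.Agent.P281.H713.Poinc

open scoped Topology
open Set Filter Complex Module Metric

namespace Vale.Agent.P281.H713

set_option linter.unusedSectionVars false

section Coord

variable {n : ℕ} {B : Matrix (Fin n) (Fin n) ℝ} {w : Fin n → ℝ}

/-- the real bilinear form -/
noncomputable def rb (B : Matrix (Fin n) (Fin n) ℝ) : LinearMap.BilinForm ℝ (Fin n → ℝ) :=
  LinearMap.mk₂ ℝ (fun x y => ∑ i, ∑ j, B i j * x i * y j)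
    (fun x x' y => by
      simp only [Pi.add_apply, ← Finset.sum_add_distrib]
      refine Finset.sum_congr rfl fun i _ => Finset.sum_congr rfl fun j _ => ?_
      ring)
    (fun c x y => by
      simp only [Pi.smul_apply, smul_eq_mul, Finset.mul_sum]
      refine Finset.sum_congr rfl fun i _ => Finset.sum_congr rfl fun j _ => ?_
      ring)
    (fun x y y' => by
      simp only [Pi.add_apply, ← Finset.sum_add_distrib]
      refine Finset.sum_congr rfl fun i _ => Finset.sum_congr rfl fun j _ => ?_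
      ring)
    (fun c x y => by
      simp only [Pi.smul_apply, smul_eq_mul, Finset.mul_sum]
      refine Finset.sum_congr rfl fun i _ => Finset.sum_congr rfl fun j _ => ?_
      ring)

theorem rb_apply (x y : Fin n → ℝ) : rb B x y = ∑ i, ∑ j, B i j * x i * y j := rfl

theorem rb_symm (h : B.IsSymm) (x y : Fin n → ℝ) : rb B x y = rb B y x := by
  rw [rb_apply, rb_apply, Finset.sum_comm]
  refine Finset.sum_congr rfl fun i _ => Finset.sum_congr rfl fun j _ => ?_
  rw [h.apply i j]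
  ring

/-- real and imaginary parts -/
noncomputable def vr (p : Fin n → ℂ) : Fin n → ℝ := fun i => (p i).re
noncomputable def vi (p : Fin n → ℂ) : Fin n → ℝ := fun i => (p i).im

theorem bil_eq (p q : Fin n → ℂ) : bil B p q =
    ((rb B (vr p) (vr q) - rb B (vi p) (vi q) : ℝ) : ℂ) +
      ((rb B (vr p) (vi q) + rb B (vi p) (vr q) : ℝ) : ℂ) * I := by
  simp only [rb_apply, bil, vr, vi, ← Finset.sum_sub_distrib, ← Finset.sum_add_distrib]
  push_cast
  simp only [Finset.sum_mul, ← Finset.sum_add_distrib]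
  refine Finset.sum_congr rfl fun i _ => Finset.sum_congr rfl fun j _ => ?_
  conv_lhs => rw [← Complex.re_add_im (p i), ← Complex.re_add_im (q j)]
  have := I_mul_I
  linear_combination ((B i j : ℂ) * (p i).im * (q j).im) * this

theorem vr_star (p : Fin n → ℂ) : vr (star p) = vr p := by
  funext i
  simp [vr]

theorem vi_star (p : Fin n → ℂ) : vi (star p) = - vi p := by
  funext i
  simp [vi]

theorem vr_real (x : Fin n → ℝ) : vr (fun i => (x i : ℂ)) = x := by
  funext i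
  simp [vr]

theorem vi_real (x : Fin n → ℝ) : vi (fun i => (x i : ℂ)) = 0 := by
  funext i
  simp [vi]

theorem bil_re (p q : Fin n → ℂ) :
    (bil B p q).re = rb B (vr p) (vr q) - rb B (vi p) (vi q) := by
  rw [bil_eq]
  simp

theorem bil_im (p q : Fin n → ℂ) :
    (bil B p q).im = rb B (vr p) (vi q) + rb B (vi p) (vr q) := by
  rw [bil_eq]
  simp

/-- the norm of a period -/
noncomputable def nrm (B : Matrix (Fin n) (Fin n) ℝ) (p : Fin n → ℂ) : ℝ := (bil B p (star p)).re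

theorem nrm_eq (p : Fin n → ℂ) : nrm B p = rb B (vr p) (vr p) + rb B (vi p) (vi p) := by
  rw [nrm, bil_re, vr_star, vi_star, map_neg]
  ring

theorem IsK3Period.pl {p : Fin n → ℂ} (h : IsK3Period B w p) : Pl (rb B) w (vr p) (vi p) := by
  have hs := rb_symm h.symm
  have h1 := congrArg Complex.re h.isotropic
  have h2 := congrArg Complex.im h.isotropic
  have h3 := congrArg Complex.re h.orth
  have h4 := congrArg Complex.im h.orth
  have h5 : 0 < nrm B p := h.pos
  rw [bil_re, Complex.zero_re] at h1 h3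
  rw [bil_im, Complex.zero_im] at h2 h4
  rw [vr_real, vi_real, map_zero, sub_zero] at h3
  rw [vr_real, vi_real, map_zero, zero_add] at h4
  rw [nrm_eq] at h5
  rw [hs (vi p) (vr p)] at h2
  have e1 : rb B (vi p) (vi p) = rb B (vr p) (vr p) := by linarith
  refine ⟨hs, by linarith, e1, by linarith, h3, h4, ?_, ?_⟩
  · rcases h.wpos with h0 | h0
    · exact Or.inl h0
    · rw [bil_re, vr_real, vi_real, map_zero, sub_zero] at h0
      exact Or.inr h0.ne'
  · intro x ha hb hw hx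
    have h6 := h.neg x hx (by
      rw [bil_eq, vr_real, vi_real, ha, hb]
      simp) (by
      rw [bil_eq, vr_real, vi_real, vr_real, vi_real, hw]
      simp)
    rw [bil_re, vr_real, vi_real, map_zero, sub_zero] at h6
    exact h6

theorem IsK3Period.ww {p : Fin n → ℂ} (h : IsK3Period B w p) : 0 ≤ rb B w w := by
  refine h.pl.ww ?_
  rcases h.wpos with h0 | h0
  · exact Or.inl h0
  · rw [bil_re, vr_real, vi_real, map_zero, sub_zero] at h0
    exact Or.inr h0

theorem IsK3Period.nrm_eq2 {p : Fin n → ℂ} (h : IsK3Period B w p) :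
    nrm B p = 2 * rb B (vr p) (vr p) := by
  rw [nrm_eq, h.pl.eq]
  ring

/-- the action on complex vectors -/
noncomputable def cact (M : Matrix (Fin n) (Fin n) ℤ) (p : Fin n → ℂ) : Fin n → ℂ :=
  (M.map (Int.cast : ℤ → ℂ)).mulVec p

theorem cact_apply (M : Matrix (Fin n) (Fin n) ℤ) (p : Fin n → ℂ) (i : Fin n) :
    cact M p i = ∑ j, (M i j : ℂ) * p j := rfl

theorem mact_apply' (M : Matrix (Fin n) (Fin n) ℤ) (x : Fin n → ℝ) (i : Fin n) :
    mact M x i = ∑ j, (M i j : ℝ) * x j := rfl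

theorem vr_cact (M : Matrix (Fin n) (Fin n) ℤ) (p : Fin n → ℂ) :
    vr (cact M p) = mact M (vr p) := by
  funext i
  rw [mact_apply', vr, cact_apply, Complex.re_sum]
  refine Finset.sum_congr rfl fun j _ => ?_
  rw [← Complex.ofReal_intCast, Complex.re_ofReal_mul]
  rfl

theorem vi_cact (M : Matrix (Fin n) (Fin n) ℤ) (p : Fin n → ℂ) :
    vi (cact M p) = mact M (vi p) := by
  funext i
  rw [mact_apply', vi, cact_apply, Complex.im_sum]
  refine Finset.sum_congr rfl fun j _ => ?_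
  rw [← Complex.ofReal_intCast, Complex.im_ofReal_mul]
  rfl

theorem cact_smul (M : Matrix (Fin n) (Fin n) ℤ) (c : ℂ) (p : Fin n → ℂ) :
    cact M (c • p) = c • cact M p := Matrix.mulVec_smul _ _ _

theorem cact_mul (M N : Matrix (Fin n) (Fin n) ℤ) (p : Fin n → ℂ) :
    cact (M * N) p = cact M (cact N p) := by
  have h : (M * N).map (Int.cast : ℤ → ℂ) = M.map (Int.cast : ℤ → ℂ) * N.map (Int.cast : ℤ → ℂ) := by
    have := Matrix.map_mul (L := M) (M := N) (f := Int.castRingHom ℂ)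
    exact this
  rw [cact, cact, cact, h, Matrix.mulVec_mulVec]

/-- the group -/
noncomputable def ogr (B : Matrix (Fin n) (Fin n) ℝ) (w : Fin n → ℝ) : Subgroup (GL (Fin n) ℤ) where
  carrier := {M | (∀ x x', rb B (mact (M : Matrix (Fin n) (Fin n) ℤ) x)
    (mact (M : Matrix (Fin n) (Fin n) ℤ) x') = rb B x x') ∧
    mact (M : Matrix (Fin n) (Fin n) ℤ) w = w}
  mul_mem' := by
    intro M N hM hN
    refine ⟨fun x x' => ?_, ?_⟩
    · rw [Units.val_mul, mact_mul, mact_mul, hM.1, hN.1]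
    · rw [Units.val_mul, mact_mul, hN.2, hM.2]
  one_mem' := by
    refine ⟨fun x x' => ?_, ?_⟩
    · rw [Units.val_one, mact_one, mact_one]
    · rw [Units.val_one, mact_one]
  inv_mem' := by
    intro M hM
    have h1 : ∀ x, mact (M : Matrix (Fin n) (Fin n) ℤ)
        (mact ((M⁻¹ : GL (Fin n) ℤ) : Matrix (Fin n) (Fin n) ℤ) x) = x := by
      intro x
      rw [← mact_mul, ← Units.val_mul, mul_inv_cancel, Units.val_one, mact_one]
    have h2 : ∀ x, mact ((M⁻¹ : GL (Fin n) ℤ) : Matrix (Fin n) (Fin n) ℤ)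
        (mact (M : Matrix (Fin n) (Fin n) ℤ) x) = x := by
      intro x
      rw [← mact_mul, ← Units.val_mul, inv_mul_cancel, Units.val_one, mact_one]
    refine ⟨fun x x' => ?_, ?_⟩
    · rw [← hM.1, h1, h1]
    · conv_lhs => rw [← hM.2]
      rw [h2]

theorem ogr_rb (M : ogr B w) (x x' : Fin n → ℝ) :
    rb B (mact (mx M) x) (mact (mx M) x') = rb B x x' := M.2.1 x x'

theorem ogr_w (M : ogr B w) : mact (mx M) w = w := M.2.2

theorem ogr_rbw (M : ogr B w) (x : Fin n → ℝ) : rb B (mact (mx M) x) w = rb B x w := by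
  have h := ogr_rb M x w
  rwa [ogr_w] at h

theorem mact_inv (M : ogr B w) (x : Fin n → ℝ) : mact (mx M⁻¹) (mact (mx M) x) = x := by
  rw [← mact_mul, ← mx_mul, inv_mul_cancel, mx_one, mact_one]

theorem mact_inv' (M : ogr B w) (x : Fin n → ℝ) : mact (mx M) (mact (mx M⁻¹) x) = x := by
  rw [← mact_mul, ← mx_mul, mul_inv_cancel, mx_one, mact_one]

theorem rb_move (M : ogr B w) (x y : Fin n → ℝ) :
    rb B (mact (mx M) x) y = rb B x (mact (mx M⁻¹) y) := by
  rw [← ogr_rb M x, mact_inv']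

theorem Pl.map {a b : Fin n → ℝ} (h : Pl (rb B) w a b) (M : ogr B w) :
    Pl (rb B) w (mact (mx M) a) (mact (mx M) b) := by
  have hx : ∀ x c, rb B x (mact (mx M) c) = rb B (mact (mx M⁻¹) x) c := by
    intro x c
    rw [rb_move, inv_inv]
  refine ⟨h.symm, ?_, ?_, ?_, ?_, ?_, h.wz, ?_⟩
  · rw [ogr_rb]; exact h.pos
  · rw [ogr_rb, ogr_rb]; exact h.eq
  · rw [ogr_rb]; exact h.ab
  · rw [ogr_rbw]; exact h.aw
  · rw [ogr_rbw]; exact h.bw
  · intro x ha hb hw hx0
    rw [hx] at ha hb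
    have h1 : rb B (mact (mx M⁻¹) x) w = 0 := by
      rw [← hx, ogr_w]; exact hw
    have h2 : mact (mx M⁻¹) x ≠ 0 := by
      intro h0
      apply hx0
      rw [← mact_inv' M x, h0, map_zero]
    have h3 := h.neg _ ha hb h1 h2
    rw [← ogr_rb M, mact_inv'] at h3
    exact h3

theorem mj_mact {a b : Fin n → ℝ} (M : ogr B w) (x : Fin n → ℝ) :
    mj (rb B) w (mact (mx M) a) (mact (mx M) b) (mact (mx M) x) = mj (rb B) w a b x := by
  have h1 : rb B (mact (mx M) x) w = rb B x w := ogr_rbw M x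
  unfold mj np pp
  rw [ogr_rb, ogr_rb, ogr_rb, ogr_rb, h1]

end Coord

section Quad

theorem quad_equiv {n : ℕ} (hn : 0 < n) (N : (Fin n → ℝ) → ℝ) (hc : Continuous N)
    (hhom : ∀ (t : ℝ) x, N (t • x) = t ^ 2 * N x) (hpos : ∀ x, x ≠ 0 → 0 < N x) :
    ∃ c₁ c₂ : ℝ, 0 < c₁ ∧ 0 < c₂ ∧ ∀ x, c₁ * ‖x‖ ^ 2 ≤ N x ∧ N x ≤ c₂ * ‖x‖ ^ 2 := by
  have hK : IsCompact (sphere (0 : Fin n → ℝ) 1) := isCompact_sphere 0 1
  have : Nonempty (Fin n) := ⟨⟨0, hn⟩⟩
  have hne : (sphere (0 : Fin n → ℝ) 1).Nonempty := NormedSpace.sphere_nonempty.2 zero_le_one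
  obtain ⟨x₁, hx₁, h1⟩ := hK.exists_isMinOn hne hc.continuousOn
  obtain ⟨x₂, hx₂, h2⟩ := hK.exists_isMaxOn hne hc.continuousOn
  have hx₁0 : x₁ ≠ 0 := by
    rintro rfl
    simp at hx₁
  have hx₂0 : x₂ ≠ 0 := by
    rintro rfl
    simp at hx₂
  refine ⟨N x₁, N x₂, hpos _ hx₁0, hpos _ hx₂0, fun x => ?_⟩
  rcases eq_or_ne x 0 with rfl | hx
  · have h3 : N 0 = 0 := by
      have := hhom 0 0
      simpa using this
    rw [h3, norm_zero]
    simp
  · have hx' : 0 < ‖x‖ := norm_pos_iff.2 hx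
    have h3 : ‖x‖⁻¹ • x ∈ sphere (0 : Fin n → ℝ) 1 := by
      rw [mem_sphere_zero_iff_norm, norm_smul, norm_inv, norm_norm, inv_mul_cancel₀ hx'.ne']
    have h4 : N x = ‖x‖ ^ 2 * N (‖x‖⁻¹ • x) := by
      rw [hhom]
      field_simp
    have h5 : N x₁ ≤ N (‖x‖⁻¹ • x) := h1 h3
    have h6 : N (‖x‖⁻¹ • x) ≤ N x₂ := h2 h3
    rw [h4]
    constructor
    · nlinarith [sq_nonneg ‖x‖]
    · nlinarith [sq_nonneg ‖x‖]

end Quad

end Vale.Agent.P281.H713
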