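import Vale.Agent.P281.H713.KB

open scoped Topology
open Set Filter Complex Module Metric

namespace Vale.Agent.P281.H713

set_option linter.unusedSectionVars false

section Series

variable {n : ℕ} {B : Matrix (Fin n) (Fin n) ℝ} {w : Fin n → ℝ} {p₀ p : Fin n → ℂ}

/-- the factor of automorphy -/
noncomputable def AA (B : Matrix (Fin n) (Fin n) ℝ) (p₀ p : Fin n → ℂ)
    (M : Matrix (Fin n) (Fin n) ℤ) : ℂ := bil B p (star (cact M p₀))

/-- the sum of the squares -/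
noncomputable def dS (B : Matrix (Fin n) (Fin n) ℝ) (p₀ p : Fin n → ℂ)
    (M : Matrix (Fin n) (Fin n) ℤ) : ℝ :=
  SS (rb B) (vr p) (vi p) (mact M (vr p₀)) (mact M (vi p₀))

/-- the determinant -/
noncomputable def dD (B : Matrix (Fin n) (Fin n) ℝ) (p₀ p : Fin n → ℂ)
    (M : Matrix (Fin n) (Fin n) ℤ) : ℝ :=
  DD (rb B) (vr p) (vi p) (mact M (vr p₀)) (mact M (vi p₀))

theorem norm_AA (M : Matrix (Fin n) (Fin n) ℤ) :
    ‖AA B p₀ p M‖ ^ 2 = dS B p₀ p M + 2 * dD B p₀ p M := by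
  rw [← Complex.normSq_eq_norm_sq, Complex.normSq_apply, AA, bil_re, bil_im, vr_star, vi_star,
    vr_cact, vi_cact]
  simp only [map_neg]
  unfold dS dD SS DD
  ring

/-- normalized size -/
noncomputable def dk (B : Matrix (Fin n) (Fin n) ℝ) (p₀ p : Fin n → ℂ)
    (M : Matrix (Fin n) (Fin n) ℤ) : ℝ :=
  Real.sqrt ((dS B p₀ p M + 2 * |dD B p₀ p M|) / (nrm B p * nrm B p₀))

theorem nrm_pos (h : IsK3Period B w p) : 0 < nrm B p := h.pos

theorem SD_bounds (h₀ : IsK3Period B w p₀) (h : IsK3Period B w p) (M : ogr B w) :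
    nrm B p * nrm B p₀ ≤ 2 * dS B p₀ p (mx M) ∧
      nrm B p * nrm B p₀ ≤ 4 * |dD B p₀ p (mx M)| := by
  obtain ⟨h1, h2⟩ := plane_bounds h.pl (h₀.pl.map M)
  rw [ogr_rb] at h1 h2
  rw [h.nrm_eq2, h₀.nrm_eq2]
  constructor
  · have : dS B p₀ p (mx M) = SS (rb B) (vr p) (vi p) (mact (mx M) (vr p₀))
      (mact (mx M) (vi p₀)) := rfl
    rw [this]
    linarith
  · have : dD B p₀ p (mx M) = DD (rb B) (vr p) (vi p) (mact (mx M) (vr p₀))
      (mact (mx M) (vi p₀)) := rfl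
    rw [this]
    linarith

theorem one_le_dk (h₀ : IsK3Period B w p₀) (h : IsK3Period B w p) (M : ogr B w) :
    1 ≤ dk B p₀ p (mx M) := by
  obtain ⟨h1, h2⟩ := SD_bounds h₀ h M
  have h3 : 0 < nrm B p * nrm B p₀ := mul_pos (nrm_pos h) (nrm_pos h₀)
  unfold dk
  rw [Real.one_le_sqrt, one_le_div h3]
  linarith

theorem dk_sq (h₀ : IsK3Period B w p₀) (h : IsK3Period B w p) (M : ogr B w) :
    dk B p₀ p (mx M) ^ 2 = (dS B p₀ p (mx M) + 2 * |dD B p₀ p (mx M)|) /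
      (nrm B p * nrm B p₀) := by
  obtain ⟨h1, h2⟩ := SD_bounds h₀ h M
  have h3 : 0 < nrm B p * nrm B p₀ := mul_pos (nrm_pos h) (nrm_pos h₀)
  unfold dk
  rw [Real.sq_sqrt (div_nonneg (by linarith) h3.le)]

theorem dD_ne (h₀ : IsK3Period B w p₀) (h : IsK3Period B w p) (M : ogr B w) :
    dD B p₀ p (mx M) ≠ 0 := by
  obtain ⟨h1, h2⟩ := SD_bounds h₀ h M
  have h3 : 0 < nrm B p * nrm B p₀ := mul_pos (nrm_pos h) (nrm_pos h₀)
  intro h4
  rw [h4, abs_zero] at h2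
  linarith

/-- comparison of the majorants -/
theorem mj_mact_le (h₀ : IsK3Period B w p₀) (h : IsK3Period B w p) (M : ogr B w)
    (x : Fin n → ℝ) :
    mj (rb B) w (vr p) (vi p) (mact (mx M) x) ≤
      17 * dk B p₀ p (mx M) ^ 2 * mj (rb B) w (vr p₀) (vi p₀) x ∧
    mj (rb B) w (vr p₀) (vi p₀) (mact (mx M⁻¹) x) ≤
      17 * dk B p₀ p (mx M) ^ 2 * mj (rb B) w (vr p) (vi p) x := by
  have hs := rb_symm h.symm
  obtain ⟨h1, h2⟩ := SD_bounds h₀ h M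
  have h3 : 0 < nrm B p * nrm B p₀ := mul_pos (nrm_pos h) (nrm_pos h₀)
  have hd := one_le_dk h₀ h M
  have hd2 := dk_sq h₀ h M
  have hcc : nrm B p * nrm B p₀ = 4 * (rb B (vr p) (vr p) * rb B (vr p₀) (vr p₀)) := by
    rw [h.nrm_eq2, h₀.nrm_eq2]
    ring
  have hfac : 4 * (dS B p₀ p (mx M) / (rb B (vr p) (vr p) * rb B (vr p₀) (vr p₀))) + 1 ≤
      17 * dk B p₀ p (mx M) ^ 2 := by
    have h4 : 4 * (dS B p₀ p (mx M) / (rb B (vr p) (vr p) * rb B (vr p₀) (vr p₀))) =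
        16 * (dS B p₀ p (mx M) / (nrm B p * nrm B p₀)) := by
      rw [hcc]
      have h5 := h.pl.pos
      have h6 := h₀.pl.pos
      field_simp
      ring
    have h7 : dS B p₀ p (mx M) / (nrm B p * nrm B p₀) ≤ dk B p₀ p (mx M) ^ 2 := by
      rw [hd2]
      gcongr
      have := abs_nonneg (dD B p₀ p (mx M))
      linarith
    have h8 : 1 ≤ dk B p₀ p (mx M) ^ 2 := one_le_pow₀ hd
    rw [h4]
    linarith
  constructor
  · have h4 := mj_le h₀.pl h₀.ww (h.pl.map M⁻¹) x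
    rw [ogr_rb] at h4
    have h5 : mj (rb B) w (mact (mx M⁻¹) (vr p)) (mact (mx M⁻¹) (vi p)) x =
        mj (rb B) w (vr p) (vi p) (mact (mx M) x) := by
      have h6 := mj_mact (a := mact (mx M⁻¹) (vr p)) (b := mact (mx M⁻¹) (vi p)) M x
      rw [mact_inv', mact_inv'] at h6
      exact h6.symm
    have h7 : SS (rb B) (vr p₀) (vi p₀) (mact (mx M⁻¹) (vr p)) (mact (mx M⁻¹) (vi p)) =
        dS B p₀ p (mx M) := by
      unfold dS SS
      rw [← rb_move, ← rb_move, ← rb_move, ← rb_move, hs _ (vr p), hs _ (vi p), hs _ (vr p),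
        hs _ (vi p)]
      ring
    rw [h5, h7, mul_comm (rb B (vr p₀) (vr p₀))] at h4
    refine h4.trans ?_
    have h8 : 0 ≤ mj (rb B) w (vr p₀) (vi p₀) x :=
      add_nonneg (h₀.pl.pp_nonneg h₀.ww x) (h₀.pl.np_nonneg x)
    gcongr
  · have h4 := mj_le h.pl h.ww (h₀.pl.map M) x
    rw [ogr_rb] at h4
    have h5 : mj (rb B) w (mact (mx M) (vr p₀)) (mact (mx M) (vi p₀)) x =
        mj (rb B) w (vr p₀) (vi p₀) (mact (mx M⁻¹) x) := by
      have h6 := mj_mact (a := vr p₀) (b := vi p₀) M (mact (mx M⁻¹) x)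
      rw [mact_inv'] at h6
      exact h6
    rw [h5] at h4
    refine h4.trans ?_
    have h8 : 0 ≤ mj (rb B) w (vr p) (vi p) x :=
      add_nonneg (h.pl.pp_nonneg h.ww x) (h.pl.np_nonneg x)
    gcongr
    exact hfac

theorem mj_cont (a b : Fin n → ℝ) : Continuous (mj (rb B) w a b) := by
  have h1 : ∀ y, Continuous fun x => rb B x y := fun y => by
    have : (fun x => rb B x y) = fun x : Fin n → ℝ => ∑ i, ∑ j, B i j * x i * y j := rfl
    rw [this]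
    fun_prop
  have h2 : Continuous fun x => rb B x x := by
    have : (fun x => rb B x x) = fun x : Fin n → ℝ => ∑ i, ∑ j, B i j * x i * x j := rfl
    rw [this]
    fun_prop
  unfold mj np pp
  have ha := h1 a
  have hb := h1 b
  have hw := h1 w
  fun_prop

theorem mj_hom (a b : Fin n → ℝ) (t : ℝ) (x : Fin n → ℝ) :
    mj (rb B) w a b (t • x) = t ^ 2 * mj (rb B) w a b x := by
  unfold mj np pp
  simp only [map_smul, LinearMap.smul_apply, smul_eq_mul]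
  ring

/-- the comparison needed for the convergence -/
theorem mact_le_dk (hn : 0 < n) (h₀ : IsK3Period B w p₀) : ∃ C₀ : ℝ, ∀ p, IsK3Period B w p →
    ∀ M₁ M₂ : ogr B w, ‖mact (mx (M₁⁻¹ * M₂))‖ ≤ C₀ * (dk B p₀ p (mx M₁) * dk B p₀ p (mx M₂)) := by
  obtain ⟨c₁, c₂, hc₁, hc₂, hq⟩ := quad_equiv hn (mj (rb B) w (vr p₀) (vi p₀)) (mj_cont _ _)
    (mj_hom _ _) fun x hx => h₀.pl.mj_pos h₀.ww hx
  refine ⟨17 * Real.sqrt (c₂ / c₁), fun p h M₁ M₂ => ?_⟩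
  set δ₁ := dk B p₀ p (mx M₁) with hδ₁
  set δ₂ := dk B p₀ p (mx M₂) with hδ₂
  have h1 : 1 ≤ δ₁ := one_le_dk h₀ h M₁
  have h2 : 1 ≤ δ₂ := one_le_dk h₀ h M₂
  refine ContinuousLinearMap.opNorm_le_bound _ (by positivity) fun x => ?_
  have h3 := (mj_mact_le h₀ h M₂ x).1
  have h4 := (mj_mact_le h₀ h M₁ (mact (mx M₂) x)).2
  have h5 : mact (mx M₁⁻¹) (mact (mx M₂) x) = mact (mx (M₁⁻¹ * M₂)) x := by
    rw [mx_mul, mact_mul]
  rw [h5] at h4
  have h6 : c₁ * ‖mact (mx (M₁⁻¹ * M₂)) x‖ ^ 2 ≤ 17 * δ₁ ^ 2 * (17 * δ₂ ^ 2 * (c₂ * ‖x‖ ^ 2)) := by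
    refine (hq _).1.trans (h4.trans ?_)
    have h7 := (hq x).2
    gcongr
    exact h3.trans (by gcongr)
  have h7 : ‖mact (mx (M₁⁻¹ * M₂)) x‖ ^ 2 ≤ (17 * Real.sqrt (c₂ / c₁) * (δ₁ * δ₂) * ‖x‖) ^ 2 := by
    rw [mul_pow, mul_pow, mul_pow, Real.sq_sqrt (by positivity)]
    have h8 : ‖mact (mx (M₁⁻¹ * M₂)) x‖ ^ 2 = c₁ * ‖mact (mx (M₁⁻¹ * M₂)) x‖ ^ 2 / c₁ := by
      field_simp
    rw [h8, div_le_iff₀ hc₁]
    refine h6.trans (le_of_eq ?_)
    field_simp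
  exact (sq_le_sq₀ (norm_nonneg _) (by positivity)).1 h7

theorem dk_sum (hn : 0 < n) (h₀ : IsK3Period B w p₀) {l : ℕ} (hl : n * n < l) : ∃ C : ℝ, 0 ≤ C ∧
    ∀ p, IsK3Period B w p → Summable (fun M : ogr B w => (dk B p₀ p (mx M))⁻¹ ^ (2 * l)) ∧
      ∑' M : ogr B w, (dk B p₀ p (mx M))⁻¹ ^ (2 * l) ≤ C := by
  obtain ⟨C₀, hC₀⟩ := mact_le_dk hn h₀
  refine ⟨|C₀ ^ l * ∑' M : ogr B w, ‖mact (mx M)‖⁻¹ ^ l|, abs_nonneg _, fun p h => ?_⟩
  obtain ⟨h1, h2⟩ := sum_bound hn hl (one_le_dk h₀ h) (hC₀ p h)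
  exact ⟨h1, h2.trans (le_abs_self _)⟩

/-- the terms of the series -/
noncomputable def kterm (B : Matrix (Fin n) (Fin n) ℝ) (k : ℕ) (p₀ p : Fin n → ℂ)
    (M : Matrix (Fin n) (Fin n) ℤ) : ℂ :=
  open scoped Classical in if 0 < dD B p₀ p M then (AA B p₀ p M)⁻¹ ^ k else 0

/-- the Poincaré series of type IV -/
noncomputable def KP (B : Matrix (Fin n) (Fin n) ℝ) (w : Fin n → ℝ) (k : ℕ) (p₀ p : Fin n → ℂ) :
    ℂ :=
  ∑' M : ogr B w, kterm B k p₀ p (mx M)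

theorem AA_norm (h₀ : IsK3Period B w p₀) (h : IsK3Period B w p) (M : ogr B w)
    (hD : 0 < dD B p₀ p (mx M)) :
    ‖AA B p₀ p (mx M)‖ = dk B p₀ p (mx M) * Real.sqrt (nrm B p * nrm B p₀) := by
  have h3 : 0 < nrm B p * nrm B p₀ := mul_pos (nrm_pos h) (nrm_pos h₀)
  have h1 : ‖AA B p₀ p (mx M)‖ ^ 2 = (dk B p₀ p (mx M) * Real.sqrt (nrm B p * nrm B p₀)) ^ 2 := by
    rw [norm_AA, mul_pow, dk_sq h₀ h, Real.sq_sqrt h3.le, abs_of_pos hD,
      div_mul_cancel₀ _ h3.ne']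
  have h2 := one_le_dk h₀ h M
  exact (sq_eq_sq₀ (norm_nonneg _) (by positivity)).1 h1

theorem kterm_le (k : ℕ) (h₀ : IsK3Period B w p₀) (h : IsK3Period B w p) (M : ogr B w) :
    ‖kterm B k p₀ p (mx M)‖ ≤ (Real.sqrt (nrm B p * nrm B p₀))⁻¹ ^ k *
      (dk B p₀ p (mx M))⁻¹ ^ k := by
  classical
  have h2 := one_le_dk h₀ h M
  unfold kterm
  split_ifs with hD
  · rw [norm_pow, norm_inv, AA_norm h₀ h M hD, mul_inv, mul_pow, mul_comm]
  · rw [norm_zero]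
    positivity

theorem dk_pow_le (h₀ : IsK3Period B w p₀) (h : IsK3Period B w p) {k l : ℕ} (hkl : l ≤ k)
    (M : ogr B w) : (dk B p₀ p (mx M))⁻¹ ^ k ≤ (dk B p₀ p (mx M))⁻¹ ^ l := by
  have h2 := one_le_dk h₀ h M
  exact pow_le_pow_of_le_one (by positivity) (inv_le_one_of_one_le₀ h2) hkl

/-- the uniform bound -/
theorem KP_bound (hn : 0 < n) (h₀ : IsK3Period B w p₀) : ∃ C : ℝ, 0 ≤ C ∧ ∀ k,
    2 * (n * n + 1) ≤ k → ∀ p, IsK3Period B w p →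
    Summable (fun M : ogr B w => ‖kterm B k p₀ p (mx M)‖) ∧
    ∑' M : ogr B w, ‖kterm B k p₀ p (mx M)‖ ≤ (Real.sqrt (nrm B p * nrm B p₀))⁻¹ ^ k * C ∧
    ‖KP B w k p₀ p‖ ≤ (Real.sqrt (nrm B p * nrm B p₀))⁻¹ ^ k * C := by
  obtain ⟨C, hC0, hC⟩ := dk_sum hn h₀ (Nat.lt_succ_self (n * n))
  refine ⟨C, hC0, fun k hk p h => ?_⟩
  obtain ⟨h1, h2⟩ := hC p h
  set K : ℝ := (Real.sqrt (nrm B p * nrm B p₀))⁻¹ ^ k with hK
  have hK0 : 0 ≤ K := by positivity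
  have h3 : ∀ M : ogr B w, ‖kterm B k p₀ p (mx M)‖ ≤ K * (dk B p₀ p (mx M))⁻¹ ^ (2 * (n * n + 1)) :=
    fun M => (kterm_le k h₀ h M).trans (mul_le_mul_of_nonneg_left (dk_pow_le h₀ h hk M) hK0)
  have h4 := h1.mul_left K
  have h5 : Summable (fun M : ogr B w => ‖kterm B k p₀ p (mx M)‖) :=
    Summable.of_nonneg_of_le (fun M => norm_nonneg _) h3 h4
  have h6 : ∑' M : ogr B w, ‖kterm B k p₀ p (mx M)‖ ≤ K * C :=
    calc ∑' M : ogr B w, ‖kterm B k p₀ p (mx M)‖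
        ≤ ∑' M : ogr B w, K * (dk B p₀ p (mx M))⁻¹ ^ (2 * (n * n + 1)) := h5.tsum_le_tsum h3 h4
      _ = K * ∑' M : ogr B w, (dk B p₀ p (mx M))⁻¹ ^ (2 * (n * n + 1)) := tsum_mul_left
      _ ≤ K * C := mul_le_mul_of_nonneg_left h2 hK0
  exact ⟨h5, h6, (norm_tsum_le_tsum_norm h5).trans h6⟩

theorem bil_smul (c : ℂ) (p q : Fin n → ℂ) : bil B (c • p) q = c * bil B p q := by
  unfold bil
  simp only [Pi.smul_apply, smul_eq_mul, Finset.mul_sum]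
  refine Finset.sum_congr rfl fun i _ => Finset.sum_congr rfl fun j _ => ?_
  ring

theorem bil_cact (M : ogr B w) (p q : Fin n → ℂ) :
    bil B (cact (mx M) p) (star (cact (mx M) q)) = bil B p (star q) := by
  rw [bil_eq, bil_eq, vr_star, vi_star, vr_star, vi_star, vr_cact, vi_cact, vr_cact, vi_cact]
  simp only [map_neg, ogr_rb]

theorem dD_change (M N : ogr B w) (χ : ℂ) :
    dD B p₀ (χ • cact (mx N) p) (mx (N * M)) = ‖χ‖ ^ 2 * dD B p₀ p (mx M) := by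
  have h1 : vr (χ • cact (mx N) p) = χ.re • mact (mx N) (vr p) - χ.im • mact (mx N) (vi p) := by
    rw [← vr_cact, ← vi_cact]
    funext i
    simp [vr, vi]
  have h2 : vi (χ • cact (mx N) p) = χ.im • mact (mx N) (vr p) + χ.re • mact (mx N) (vi p) := by
    rw [← vr_cact, ← vi_cact]
    funext i
    simp [vr, vi]
    ring
  unfold dD DD
  rw [h1, h2, mx_mul, mact_mul, mact_mul, ← Complex.normSq_eq_norm_sq, Complex.normSq_apply]
  simp only [map_add, map_sub, map_smul, LinearMap.add_apply, LinearMap.sub_apply,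
    LinearMap.smul_apply, smul_eq_mul, ogr_rb]
  ring

/-- change of periods -/
theorem KP_change (k : ℕ) (N : ogr B w) {χ : ℂ} (hχ : χ ≠ 0) :
    KP B w k p₀ (χ • cact (mx N) p) = χ⁻¹ ^ k * KP B w k p₀ p := by
  classical
  have h1 : ∀ M : ogr B w, kterm B k p₀ (χ • cact (mx N) p) (mx (N * M)) =
      χ⁻¹ ^ k * kterm B k p₀ p (mx M) := by
    intro M
    have h2 : AA B p₀ (χ • cact (mx N) p) (mx (N * M)) = χ * AA B p₀ p (mx M) := by
      unfold AA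
      rw [bil_smul, mx_mul, cact_mul, bil_cact]
    have h3 : 0 < dD B p₀ (χ • cact (mx N) p) (mx (N * M)) ↔ 0 < dD B p₀ p (mx M) := by
      rw [dD_change]
      have : 0 < ‖χ‖ ^ 2 := by positivity
      exact mul_pos_iff_of_pos_left this
    unfold kterm
    by_cases h4 : 0 < dD B p₀ p (mx M)
    · rw [if_pos h4, if_pos (h3.2 h4), h2, mul_inv, mul_pow]
    · rw [if_neg h4, if_neg (fun h => h4 (h3.1 h)), mul_zero]
  unfold KP
  rw [← (Equiv.mulLeft N).tsum_eq]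
  show ∑' M : ogr B w, kterm B k p₀ (χ • cact (mx N) p) (mx (N * M)) = _
  simp_rw [h1]
  rw [tsum_mul_left]

end Series

end Vale.Agent.P281.H713
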