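import Vale.Agent.P281.H713.KC

open scoped Topology
open Set Filter Complex Module Metric

namespace Vale.Agent.P281.H713

set_option linter.unusedSectionVars false

section Limit

variable {n : ℕ} {B : Matrix (Fin n) (Fin n) ℝ} {w : Fin n → ℝ} {p₀ p : Fin n → ℂ}

/-- automorphisms of the period -/
def isU (B : Matrix (Fin n) (Fin n) ℝ) (w : Fin n → ℝ) (p₀ : Fin n → ℂ) (M : ogr B w) : Prop :=
  ∃ c : ℂ, ‖c‖ = 1 ∧ cact (mx M) p₀ = c • p₀

theorem vr_smul (c : ℂ) (p : Fin n → ℂ) : vr (c • p) = c.re • vr p - c.im • vi p := by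
  funext i
  simp [vr, vi]

theorem vi_smul (c : ℂ) (p : Fin n → ℂ) : vi (c • p) = c.im • vr p + c.re • vi p := by
  funext i
  simp [vr, vi]
  ring

theorem isU_facts (h₀ : IsK3Period B w p₀) {M : ogr B w} {c : ℂ} (hc : ‖c‖ = 1)
    (hM : cact (mx M) p₀ = c • p₀) : 0 < dD B p₀ p₀ (mx M) ∧ dk B p₀ p₀ (mx M) = 1 ∧
      AA B p₀ p₀ (mx M) = star c * nrm B p₀ := by
  have hP := h₀.pl
  have h1 : mact (mx M) (vr p₀) = c.re • vr p₀ - c.im • vi p₀ := by
    rw [← vr_cact, hM, vr_smul]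
  have h2 : mact (mx M) (vi p₀) = c.im • vr p₀ + c.re • vi p₀ := by
    rw [← vi_cact, hM, vi_smul]
  have hc2 : c.re ^ 2 + c.im ^ 2 = 1 := by
    have h3 := Complex.normSq_eq_norm_sq c
    rw [hc, Complex.normSq_apply] at h3
    linarith
  have hba : rb B (vi p₀) (vr p₀) = 0 := by rw [hP.symm]; exact hP.ab
  have hD : dD B p₀ p₀ (mx M) = rb B (vr p₀) (vr p₀) ^ 2 := by
    unfold dD DD
    rw [h1, h2]
    simp only [map_add, map_sub, map_smul, smul_eq_mul, hP.ab, hba, hP.eq]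
    linear_combination (rb B (vr p₀) (vr p₀) ^ 2) * hc2
  have hS : dS B p₀ p₀ (mx M) = 2 * rb B (vr p₀) (vr p₀) ^ 2 := by
    unfold dS SS
    rw [h1, h2]
    simp only [map_add, map_sub, map_smul, smul_eq_mul, hP.ab, hba, hP.eq]
    linear_combination (2 * rb B (vr p₀) (vr p₀) ^ 2) * hc2
  have hpos := hP.pos
  have hD0 : 0 < dD B p₀ p₀ (mx M) := by rw [hD]; positivity
  refine ⟨hD0, ?_, ?_⟩
  · have h3 := dk_sq h₀ h₀ M
    rw [abs_of_pos hD0, hD, hS, h₀.nrm_eq2] at h3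
    have h4 : (2 * rb B (vr p₀) (vr p₀) ^ 2 + 2 * rb B (vr p₀) (vr p₀) ^ 2) /
        (2 * rb B (vr p₀) (vr p₀) * (2 * rb B (vr p₀) (vr p₀))) = 1 := by
      field_simp
      ring
    rw [h4] at h3
    have h5 := one_le_dk h₀ h₀ M
    nlinarith
  · unfold AA
    rw [hM, bil_eq, vr_star, vi_star, vr_smul, vi_smul, h₀.nrm_eq2]
    simp only [map_add, map_sub, map_smul, map_neg, smul_eq_mul, hP.ab, hba, hP.eq]
    have h6 : star c = (c.re : ℂ) - c.im * I := by
      apply Complex.ext <;> simp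
    rw [h6]
    push_cast
    ring

theorem isU_of (h₀ : IsK3Period B w p₀) {M : ogr B w} (hD : 0 < dD B p₀ p₀ (mx M))
    (hdk : dk B p₀ p₀ (mx M) ≤ 1) : isU B w p₀ M := by
  have hP := h₀.pl
  have hpos := hP.pos
  have h1 := one_le_dk h₀ h₀ M
  have h2 : dk B p₀ p₀ (mx M) = 1 := le_antisymm hdk h1
  have h3 := dk_sq h₀ h₀ M
  rw [h2, one_pow, abs_of_pos hD, h₀.nrm_eq2, eq_div_iff (by positivity), one_mul] at h3
  obtain ⟨e1, e2, e3, e4⟩ := plane_eq h₀.pl (h₀.pl.map M) hD (by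
    rw [ogr_rb]
    show dS B p₀ p₀ (mx M) + 2 * dD B p₀ p₀ (mx M) ≤ _
    rw [← h3]
    linarith)
  set u := mact (mx M) (vr p₀) with hu
  set v := mact (mx M) (vi p₀) with hv
  set s := rb B (vr p₀) u with hs
  set t := rb B (vi p₀) u with ht
  set c := rb B (vr p₀) (vr p₀) with hc
  have h4 : cact (mx M) p₀ = (((s / c : ℝ) : ℂ) - ((t / c : ℝ) : ℂ) * I) • p₀ := by
    have h5 : vr (cact (mx M) p₀) = (s / c) • vr p₀ + (t / c) • vi p₀ := by
      rw [vr_cact, ← hu, e3]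
    have h6 : vi (cact (mx M) p₀) = (-t / c) • vr p₀ + (s / c) • vi p₀ := by
      rw [vi_cact, ← hv, e4, e2, ← e1]
    funext i
    apply Complex.ext
    · have h7 := congrFun h5 i
      simp only [vr, vi, Pi.add_apply, Pi.smul_apply, smul_eq_mul] at h7
      rw [h7]
      simp
    · have h7 := congrFun h6 i
      simp only [vr, vi, Pi.add_apply, Pi.smul_apply, smul_eq_mul] at h7
      rw [h7]
      simp
      ring
  refine ⟨_, ?_, h4⟩
  have h7 : (s / c) ^ 2 + (t / c) ^ 2 = 1 := by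
    have h8 : dD B p₀ p₀ (mx M) = s ^ 2 + t ^ 2 := by
      unfold dD DD
      rw [← hu, ← hv, e2, ← e1]
      ring
    have h9 : dS B p₀ p₀ (mx M) = 2 * (s ^ 2 + t ^ 2) := by
      unfold dS SS
      rw [← hu, ← hv, e2, ← e1]
      ring
    rw [h8, h9] at h3
    field_simp
    linarith
  have h8 : ‖((s / c : ℝ) : ℂ) - ((t / c : ℝ) : ℂ) * I‖ ^ 2 = 1 := by
    rw [← Complex.normSq_eq_norm_sq, Complex.normSq_apply]
    simp only [sub_re, sub_im, ofReal_re, ofReal_im, mul_re, mul_im, I_re, I_im]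
    linarith
  have h9 := norm_nonneg (((s / c : ℝ) : ℂ) - ((t / c : ℝ) : ℂ) * I)
  nlinarith

theorem isU_mul {M N : ogr B w} (hM : isU B w p₀ M) (hN : isU B w p₀ N) :
    isU B w p₀ (M * N) := by
  obtain ⟨c, hc, h1⟩ := hM
  obtain ⟨c', hc', h2⟩ := hN
  refine ⟨c' * c, by rw [norm_mul, hc, hc', one_mul], ?_⟩
  rw [mx_mul, cact_mul, h2, cact_smul, h1, smul_smul]

theorem cact_one (p : Fin n → ℂ) : cact (1 : Matrix (Fin n) (Fin n) ℤ) p = p := by
  funext i
  rw [cact_apply]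
  simp [Matrix.one_apply]

theorem isU_one : isU B w p₀ 1 := ⟨1, norm_one, by rw [mx_one, cact_one, one_smul]⟩

theorem isU_pow {M : ogr B w} {c : ℂ} (h1 : cact (mx M) p₀ = c • p₀) (j : ℕ) :
    cact (mx (M ^ j)) p₀ = c ^ j • p₀ := by
  induction j with
  | zero => rw [pow_zero, pow_zero, mx_one, cact_one, one_smul]
  | succ j ih => rw [pow_succ, mx_mul, cact_mul, h1, cact_smul, ih, smul_smul, pow_succ, mul_comm]

theorem isU_finite (hn : 0 < n) (h₀ : IsK3Period B w p₀) : {M : ogr B w | isU B w p₀ M}.Finite := by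
  obtain ⟨C, -, hC⟩ := dk_sum hn h₀ (Nat.lt_succ_self (n * n))
  have h1 := ((hC p₀ h₀).1.tendsto_cofinite_zero).eventually (gt_mem_nhds (zero_lt_one))
  refine (eventually_cofinite.1 h1).subset ?_
  rintro M ⟨c, hc, hM⟩
  have h2 := (isU_facts h₀ hc hM).2.1
  show ¬ (dk B p₀ p₀ (mx M))⁻¹ ^ (2 * (n * n + 1)) < 1
  rw [h2]
  simp

theorem p_ne_zero (h₀ : IsK3Period B w p₀) : p₀ ≠ 0 := by
  rintro rfl
  have h1 := h₀.pos
  have h2 : bil B (0 : Fin n → ℂ) (star 0) = 0 := by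
    unfold bil
    simp
  rw [h2, Complex.zero_re] at h1
  exact lt_irrefl _ h1

/-- common order of the eigenvalues -/
theorem isU_order (hn : 0 < n) (h₀ : IsK3Period B w p₀) : ∃ o : ℕ, 0 < o ∧
    ∀ (M : ogr B w) (c : ℂ), ‖c‖ = 1 → cact (mx M) p₀ = c • p₀ → c ^ o = 1 := by
  classical
  set F := (isU_finite hn h₀).toFinset with hF
  have key : ∀ M ∈ F, ∃ o : ℕ, 0 < o ∧ M ^ o = 1 := by
    intro M hM
    have hM' : isU B w p₀ M := by
      rw [hF, Set.Finite.mem_toFinset] at hM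
      exact hM
    obtain ⟨c, hc, h1⟩ := hM'
    have hfin : (Set.range fun j : ℕ => M ^ j).Finite := by
      refine (isU_finite hn h₀).subset ?_
      rintro _ ⟨j, rfl⟩
      exact ⟨c ^ j, by rw [norm_pow, hc, one_pow], isU_pow h1 j⟩
    have h2 : ¬ Function.Injective fun j : ℕ => M ^ j := fun hinj =>
      Set.infinite_range_of_injective hinj hfin
    rw [Function.Injective] at h2
    push Not at h2
    obtain ⟨a, b, hab, hne⟩ := h2
    have hab : M ^ a = M ^ b := hab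
    have key : ∀ a b : ℕ, a < b → M ^ a = M ^ b → ∃ o : ℕ, 0 < o ∧ M ^ o = 1 := by
      intro a b hlt hab
      refine ⟨b - a, by omega, ?_⟩
      have h3 : M ^ a * M ^ (b - a) = M ^ a * 1 := by
        rw [← pow_add, mul_one, hab]
        congr 1
        omega
      exact mul_left_cancel h3
    rcases lt_or_gt_of_ne hne with h | h
    · exact key a b h hab
    · exact key b a h hab.symm
  choose! o ho ho' using key
  refine ⟨∏ M ∈ F, o M, Finset.prod_pos fun M hM => ho M hM, fun M c hc hM => ?_⟩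
  have hMF : M ∈ F := by
    rw [hF, Set.Finite.mem_toFinset]
    exact ⟨c, hc, hM⟩
  obtain ⟨q, hq⟩ := Finset.dvd_prod_of_mem o hMF
  have h3 := isU_pow hM (o M)
  rw [ho' M hMF, mx_one, cact_one] at h3
  have h4 : c ^ o M = 1 := by
    have hp := p_ne_zero h₀
    obtain ⟨i, hi⟩ := Function.ne_iff.1 hp
    have h5 := congrFun h3 i
    rw [Pi.smul_apply, smul_eq_mul] at h5
    have hi' : p₀ i ≠ 0 := hi
    have h6 : (c ^ o M - 1) * p₀ i = 0 := by linear_combination -h5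
    exact sub_eq_zero.1 ((mul_eq_zero.1 h6).resolve_right hi')
  rw [hq, pow_mul, h4, one_pow]

/-- the error -/
noncomputable def kerr (B : Matrix (Fin n) (Fin n) ℝ) (w : Fin n → ℝ) (p₀ : Fin n → ℂ) (k : ℕ) :
    ℝ :=
  open scoped Classical in
  ∑' M : ogr B w, if isU B w p₀ M ∨ ¬ 0 < dD B p₀ p₀ (mx M) then 0
    else (dk B p₀ p₀ (mx M))⁻¹ ^ k

theorem kerr_tendsto (hn : 0 < n) (h₀ : IsK3Period B w p₀) :
    Tendsto (kerr B w p₀) atTop (𝓝 0) := by
  classical
  obtain ⟨C, -, hC⟩ := dk_sum hn h₀ (Nat.lt_succ_self (n * n))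
  have h2 := (hC p₀ h₀).1
  have h3 : Tendsto (fun k : ℕ => ∑' M : ogr B w,
      if isU B w p₀ M ∨ ¬ 0 < dD B p₀ p₀ (mx M) then 0 else (dk B p₀ p₀ (mx M))⁻¹ ^ k) atTop
      (𝓝 (∑' M : ogr B w, (0 : ℝ))) := by
    refine tendsto_tsum_of_dominated_convergence h2 (fun M => ?_) ?_
    · by_cases hM : isU B w p₀ M ∨ ¬ 0 < dD B p₀ p₀ (mx M)
      · simp only [if_pos hM]
        exact tendsto_const_nhds
      · simp only [if_neg hM]
        have h4 := one_le_dk h₀ h₀ M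
        refine tendsto_pow_atTop_nhds_zero_of_lt_one (by positivity) ?_
        push Not at hM
        have h5 : 1 < dk B p₀ p₀ (mx M) := by
          by_contra h6
          exact hM.1 (isU_of h₀ hM.2 (not_lt.1 h6))
        exact inv_lt_one_of_one_lt₀ h5
    · filter_upwards [eventually_ge_atTop (2 * (n * n + 1))] with k hk M
      have h4 := one_le_dk h₀ h₀ M
      by_cases hM : isU B w p₀ M ∨ ¬ 0 < dD B p₀ p₀ (mx M)
      · simp only [if_pos hM, norm_zero]
        positivity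
      · simp only [if_neg hM]
        rw [Real.norm_of_nonneg (by positivity)]
        exact dk_pow_le h₀ h₀ hk M
  rw [tsum_zero] at h3
  exact h3

/-- nonvanishing at the base point -/
theorem KP_ne (hn : 0 < n) (h₀ : IsK3Period B w p₀) : ∃ o : ℕ, 0 < o ∧ ∀ᶠ k in atTop,
    KP B w (o * k) p₀ p₀ ≠ 0 := by
  classical
  obtain ⟨o, ho, hord⟩ := isU_order hn h₀
  refine ⟨o, ho, ?_⟩
  have h1 : Tendsto (fun k : ℕ => o * k) atTop atTop := tendsto_id.const_mul_atTop' ho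
  filter_upwards [((kerr_tendsto hn h₀).comp h1).eventually (gt_mem_nhds zero_lt_one),
    eventually_ge_atTop (2 * (n * n + 1))] with k' hk1 hk2
  have hk1 : kerr B w p₀ (o * k') < 1 := hk1
  set k := o * k' with hk
  have hk3 : 2 * (n * n + 1) ≤ k := by
    refine hk2.trans ?_
    rw [hk]
    exact Nat.le_mul_of_pos_left _ ho
  obtain ⟨C, -, hC⟩ := dk_sum hn h₀ (Nat.lt_succ_self (n * n))
  obtain ⟨C', -, hC'⟩ := KP_bound hn h₀
  have hs := (hC' k hk3 p₀ h₀).1
  have hnp := nrm_pos h₀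
  set F := (isU_finite hn h₀).toFinset with hF
  have hmF : ∀ M, M ∈ F ↔ isU B w p₀ M := fun M => by
    rw [hF, Set.Finite.mem_toFinset]
    rfl
  have hsq : Real.sqrt (nrm B p₀ * nrm B p₀) = nrm B p₀ := Real.sqrt_mul_self hnp.le
  have hU : ∀ M ∈ F, (nrm B p₀ : ℂ) ^ k * kterm B k p₀ p₀ (mx M) = 1 := by
    intro M hM
    obtain ⟨c, hc, h2⟩ := (hmF M).1 hM
    obtain ⟨h3, -, h4⟩ := isU_facts h₀ hc h2
    have h5 := hord M c hc h2
    unfold kterm
    rw [if_pos h3, h4, mul_inv, mul_pow]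
    have h6 : (star c) ^ k = 1 := by
      rw [hk, pow_mul, ← star_pow, h5, star_one, one_pow]
    have h7 : ((star c)⁻¹) ^ k = 1 := by rw [inv_pow, h6, inv_one]
    have h8 : (nrm B p₀ : ℂ) ≠ 0 := by exact_mod_cast hnp.ne'
    rw [h7, one_mul, ← mul_pow, mul_inv_cancel₀ h8, one_pow]
  have hNU : ∀ M, M ∉ F → ‖(nrm B p₀ : ℂ) ^ k * kterm B k p₀ p₀ (mx M)‖ ≤
      if isU B w p₀ M ∨ ¬ 0 < dD B p₀ p₀ (mx M) then 0 else (dk B p₀ p₀ (mx M))⁻¹ ^ k := by
    intro M hM
    rw [hmF] at hM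
    by_cases hD : 0 < dD B p₀ p₀ (mx M)
    · rw [if_neg (by push Not; exact ⟨hM, hD⟩), norm_mul, norm_pow, Complex.norm_real,
        Real.norm_of_nonneg hnp.le]
      have h2 := kterm_le k h₀ h₀ M
      rw [hsq] at h2
      calc nrm B p₀ ^ k * ‖kterm B k p₀ p₀ (mx M)‖
          ≤ nrm B p₀ ^ k * ((nrm B p₀)⁻¹ ^ k * (dk B p₀ p₀ (mx M))⁻¹ ^ k) := by gcongr
        _ = _ := by
            rw [← mul_assoc, ← mul_pow, mul_inv_cancel₀ hnp.ne', one_pow, one_mul]
    · rw [if_pos (Or.inr hD)]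
      unfold kterm
      rw [if_neg hD, mul_zero, norm_zero]
  have hsE : Summable fun M : ogr B w => if isU B w p₀ M ∨ ¬ 0 < dD B p₀ p₀ (mx M) then (0 : ℝ)
      else (dk B p₀ p₀ (mx M))⁻¹ ^ k := by
    refine Summable.of_nonneg_of_le (fun M => ?_) (fun M => ?_) (hC p₀ h₀).1
    · have h4 := one_le_dk h₀ h₀ M
      split_ifs <;> positivity
    · have h4 := one_le_dk h₀ h₀ M
      split_ifs
      · positivity
      · exact dk_pow_le h₀ h₀ hk3 M
  -- the decomposition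
  set g : ogr B w → ℂ := fun M => (nrm B p₀ : ℂ) ^ k * kterm B k p₀ p₀ (mx M) with hg
  have hgs : Summable fun M => ‖g M‖ := by
    have h2 := hs.mul_left (‖(nrm B p₀ : ℂ) ^ k‖)
    refine h2.congr fun M => ?_
    rw [hg]
    simp only [norm_mul]
  have h2 : (nrm B p₀ : ℂ) ^ k * KP B w k p₀ p₀ = ∑' M, g M := by
    unfold KP
    rw [tsum_mul_left]
  have h3 : ∑' M, g M = ∑ M ∈ F, g M + ∑' M, if M ∈ F then 0 else g M := by
    have h4 : Summable fun M => if M ∈ F then 0 else g M := by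
      refine Summable.of_norm (Summable.of_nonneg_of_le (fun M => norm_nonneg _) (fun M => ?_) hgs)
      split_ifs
      · rw [norm_zero]; positivity
      · exact le_rfl
    have h5 : Summable fun M => if M ∈ F then g M else 0 :=
      summable_of_ne_finset_zero (s := F) fun M hM => by simp [hM]
    have h6 : ∑ M ∈ F, g M = ∑' M, if M ∈ F then g M else 0 := by
      rw [tsum_eq_sum (s := F) (fun M hM => by simp [hM])]
      exact Finset.sum_congr rfl fun M hM => by simp [hM]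
    rw [h6, ← h5.tsum_add h4]
    refine tsum_congr fun M => ?_
    by_cases hM : M ∈ F <;> simp [hM]
  have h4 : ∑ M ∈ F, g M = (F.card : ℂ) := by
    rw [Finset.sum_congr rfl hU]
    simp
  have h5 : ‖∑' M, if M ∈ F then 0 else g M‖ < 1 := by
    have h6 : ∀ M, ‖if M ∈ F then 0 else g M‖ ≤
        if isU B w p₀ M ∨ ¬ 0 < dD B p₀ p₀ (mx M) then 0 else (dk B p₀ p₀ (mx M))⁻¹ ^ k := by
      intro M
      by_cases hM : M ∈ F
      · rw [if_pos hM, norm_zero, if_pos (Or.inl ((hmF M).1 hM))]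
      · rw [if_neg hM]
        exact hNU M hM
    have h7 : Summable fun M => ‖if M ∈ F then 0 else g M‖ :=
      Summable.of_nonneg_of_le (fun M => norm_nonneg _) h6 hsE
    refine (norm_tsum_le_tsum_norm h7).trans_lt ((h7.tsum_le_tsum h6 hsE).trans_lt ?_)
    exact hk1
  intro h0
  rw [h0, mul_zero, h3, h4] at h2
  have h6 : 1 ≤ F.card := Finset.card_pos.2 ⟨(1 : ogr B w), (hmF 1).2 isU_one⟩
  have h7 : ‖(F.card : ℂ)‖ < 1 := by
    have h8 : (F.card : ℂ) = -∑' M, if M ∈ F then 0 else g M := eq_neg_of_add_eq_zero_left h2.symm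
    rw [h8, norm_neg]
    exact h5
  rw [Complex.norm_natCast] at h7
  have h8 : (1 : ℝ) ≤ F.card := by exact_mod_cast h6
  linarith

end Limit

end Vale.Agent.P281.H713
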