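import Vale.Agent.P281.H713.KD
import Vale.Agent.P281.H713.TsumHol
import Vale.Agent.P281.H124.Mean
import Vale.Agent.P281.H713.Wrap

open scoped Topology ContDiff ENNReal Manifold
open Set Filter Complex Module Metric MeasureTheory

namespace Vale.Agent.P281.H713

open Vale.Agent.P281 Vale.Agent.P281.MF Vale.Agent.P281.ISO Vale.Agent.P281.ELL

set_option linter.unusedSectionVars false

universe u

section Dom

variable {E : Type*} [NormedAddCommGroup E] [NormedSpace ℂ E] [FiniteDimensional ℂ E]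

/-- locally bounded sums of holomorphic functions are dominated -/
theorem dominated_of_bdd {ι : Type*} {f : ι → E → ℂ} {z₀ : E} {r : ℝ} (hr : 0 < r)
    (hf : ∀ i, DifferentiableOn ℂ (f i) (ball z₀ r)) {C : ℝ}
    (hs : ∀ z ∈ ball z₀ r, ∀ s : Finset ι, ∑ i ∈ s, ‖f i z‖ ≤ C) :
    ∃ u : ι → ℝ, Summable u ∧ ∀ i, ∀ z ∈ ball z₀ (r / 2), ‖f i z‖ ≤ u i := by
  classical
  have : FiniteDimensional ℝ E := FiniteDimensional.complexToReal E
  let _ : MeasurableSpace E := borel E
  have : BorelSpace E := ⟨rfl⟩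
  let μ : Measure E := Measure.addHaar
  set b : ℝ≥0∞ := μ (ball (0 : E) (r / 2)) with hb
  have hb0 : b ≠ 0 := (measure_ball_pos μ 0 (by positivity)).ne'
  have hbt : b ≠ ⊤ := measure_ball_lt_top.ne
  set I : ι → ℝ≥0∞ := fun i => ∫⁻ w in ball z₀ r, ‖f i w‖ₑ ∂μ with hI
  have hm : ∀ i, AEMeasurable (fun w => ‖f i w‖ₑ) (μ.restrict (ball z₀ r)) := fun i =>
    ((hf i).continuousOn.enorm).aemeasurable measurableSet_ball
  have hsum : ∀ s : Finset ι, ∑ i ∈ s, I i ≤ ENNReal.ofReal C * μ (ball z₀ r) := by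
    intro s
    rw [hI, ← lintegral_finsetSum' s fun i _ => hm i]
    rw [← setLIntegral_const]
    refine setLIntegral_mono measurable_const fun z hz => ?_
    have h1 := hs z hz s
    calc ∑ i ∈ s, ‖f i z‖ₑ = ENNReal.ofReal (∑ i ∈ s, ‖f i z‖) := by
          rw [ENNReal.ofReal_sum_of_nonneg fun i _ => norm_nonneg _]
          exact Finset.sum_congr rfl fun i _ => (ofReal_norm _).symm
      _ ≤ _ := ENNReal.ofReal_le_ofReal h1
  have htop : ENNReal.ofReal C * μ (ball z₀ r) ≠ ⊤ :=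
    ENNReal.mul_ne_top ENNReal.ofReal_ne_top measure_ball_lt_top.ne
  have hIt : ∀ i, I i ≠ ⊤ := fun i => by
    have h1 := hsum {i}
    rw [Finset.sum_singleton] at h1
    exact ne_top_of_le_ne_top htop h1
  refine ⟨fun i => (I i / b).toReal, ?_, fun i z hz => ?_⟩
  · refine summable_of_sum_le (fun i => ENNReal.toReal_nonneg)
      (c := (ENNReal.ofReal C * μ (ball z₀ r) / b).toReal) fun s => ?_
    rw [← ENNReal.toReal_sum fun i _ => ENNReal.div_ne_top (hIt i) hb0]
    refine ENNReal.toReal_mono (ENNReal.div_ne_top htop hb0) ?_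
    simp only [div_eq_mul_inv]
    rw [← Finset.sum_mul]
    gcongr
    exact hsum s
  · have hsub : ball z (r / 2) ⊆ ball z₀ r := by
      apply ball_subset_ball'
      rw [mem_ball] at hz
      linarith
    have h1 := H124.rpow_mul_volume_le μ ((hf i).mono hsub) (p := 1) one_pos
    simp only [ENNReal.rpow_one] at h1
    have h2 : μ (ball z (r / 2)) = b := Measure.addHaar_ball_center _ _ _
    rw [h2] at h1
    have h3 : ‖f i z‖ₑ ≤ I i / b := by
      rw [ENNReal.le_div_iff_mul_le (Or.inl hb0) (Or.inl hbt)]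
      exact h1.trans (lintegral_mono_set hsub)
    have h4 := ENNReal.toReal_mono (ENNReal.div_ne_top (hIt i) hb0) h3
    rwa [toReal_enorm] at h4

theorem sign_const {s : Set E} (hs : IsPreconnected s) {g : E → ℝ} (hg : ContinuousOn g s)
    (h0 : ∀ x ∈ s, g x ≠ 0) : (∀ x ∈ s, 0 < g x) ∨ ∀ x ∈ s, ¬ 0 < g x := by
  by_contra hcon
  push Not at hcon
  obtain ⟨⟨x, hx, hx'⟩, y, hy, hy'⟩ := hcon
  have h1 := hs.intermediate_value hx hy hg
  obtain ⟨z, hz, hz'⟩ := h1 ⟨hx', hy'.le⟩
  exact h0 z hz hz'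

end Dom

section Hol

variable {n : ℕ} {B : Matrix (Fin n) (Fin n) ℝ} {w : Fin n → ℝ} {p₀ p : Fin n → ℂ}
variable {E : Type*} [NormedAddCommGroup E] [NormedSpace ℂ E] [FiniteDimensional ℂ E]

theorem bil_cont : Continuous fun x : (Fin n → ℂ) × (Fin n → ℂ) => bil B x.1 x.2 := by
  unfold bil
  fun_prop

theorem nrm_cont : Continuous (nrm B) := by
  unfold nrm bil
  have h : Continuous fun p : Fin n → ℂ => star p := continuous_star
  refine Complex.continuous_re.comp ?_
  refine continuous_finsetSum _ fun i _ => continuous_finsetSum _ fun j _ => ?_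
  exact (continuous_const.mul (continuous_apply i)).mul ((continuous_apply j).comp h)

theorem rb_cont : Continuous fun x : (Fin n → ℝ) × (Fin n → ℝ) => rb B x.1 x.2 := by
  have : (fun x : (Fin n → ℝ) × (Fin n → ℝ) => rb B x.1 x.2) =
      fun x => ∑ i, ∑ j, B i j * x.1 i * x.2 j := rfl
  rw [this]
  fun_prop

theorem dD_cont (M : Matrix (Fin n) (Fin n) ℤ) : Continuous fun p => dD B p₀ p M := by
  have h1 : Continuous (vr : (Fin n → ℂ) → Fin n → ℝ) := by
    unfold vr
    fun_prop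
  have h2 : Continuous (vi : (Fin n → ℂ) → Fin n → ℝ) := by
    unfold vi
    fun_prop
  have h3 : ∀ c : Fin n → ℝ, Continuous fun p : Fin n → ℂ => rb B (vr p) c := fun c =>
    rb_cont.comp (h1.prodMk continuous_const)
  have h4 : ∀ c : Fin n → ℝ, Continuous fun p : Fin n → ℂ => rb B (vi p) c := fun c =>
    rb_cont.comp (h2.prodMk continuous_const)
  unfold dD DD
  exact ((h3 _).mul (h4 _)).sub ((h3 _).mul (h4 _))

theorem AA_diff (M : Matrix (Fin n) (Fin n) ℤ) : Differentiable ℂ fun p => AA B p₀ p M := by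
  unfold AA bil
  fun_prop

/-- the series is holomorphic -/
theorem KP_analytic (hn : 0 < n) (h₀ : IsK3Period B w p₀) {k : ℕ} (hk : 2 * (n * n + 1) ≤ k)
    {U : Set E} (hU : IsOpen U) {P : E → Fin n → ℂ} (hP : DifferentiableOn ℂ P U)
    (hPer : ∀ z ∈ U, IsK3Period B w (P z)) {z₀ : E} (hz₀ : z₀ ∈ U) :
    AnalyticAt ℂ (fun z => KP B w k p₀ (P z)) z₀ := by
  classical
  obtain ⟨C, hC0, hC⟩ := KP_bound hn h₀
  have hν := nrm_pos (hPer z₀ hz₀)
  have hn₀ := nrm_pos h₀
  have hcont : ContinuousAt (fun z => nrm B (P z)) z₀ :=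
    nrm_cont.continuousAt.comp (hP.continuousOn.continuousAt (hU.mem_nhds hz₀))
  have h1 : ∀ᶠ z in 𝓝 z₀, z ∈ U ∧ nrm B (P z₀) / 2 < nrm B (P z) :=
    (show ∀ᶠ z in 𝓝 z₀, z ∈ U from hU.mem_nhds hz₀).and
      (hcont.eventually_const_lt (by linarith))
  obtain ⟨r, hr, hball⟩ := Metric.eventually_nhds_iff_ball.1 h1
  have hpre : IsPreconnected (ball z₀ r) := by
    have : NormedSpace ℝ E := NormedSpace.restrictScalars ℝ ℂ E
    exact (convex_ball z₀ r).isPreconnected
  set C₁ : ℝ := (Real.sqrt (nrm B (P z₀) / 2 * nrm B p₀))⁻¹ ^ k * C with hC₁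
  have hd : ∀ M : ogr B w, DifferentiableOn ℂ (fun z => kterm B k p₀ (P z) (mx M))
      (ball z₀ r) := by
    intro M
    have hgc : ContinuousOn (fun z => dD B p₀ (P z) (mx M)) (ball z₀ r) :=
      (dD_cont (mx M)).comp_continuousOn (hP.continuousOn.mono fun z hz => (hball z hz).1)
    rcases sign_const hpre hgc (fun z hz => dD_ne h₀ (hPer z (hball z hz).1) M) with h2 | h2
    · have h3 : ∀ z ∈ ball z₀ r, kterm B k p₀ (P z) (mx M) = (AA B p₀ (P z) (mx M))⁻¹ ^ k := by
        intro z hz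
        unfold kterm
        rw [if_pos (h2 z hz)]
      refine DifferentiableOn.congr ?_ h3
      have h4 : DifferentiableOn ℂ (fun z => AA B p₀ (P z) (mx M)) (ball z₀ r) :=
        (AA_diff (mx M)).comp_differentiableOn (hP.mono fun z hz => (hball z hz).1)
      refine (h4.inv fun z hz h0 => ?_).pow k
      have h5 := norm_AA (B := B) (p₀ := p₀) (p := P z) (mx M)
      rw [h0, norm_zero] at h5
      have h6 := h2 z hz
      have h7 : 0 ≤ dS B p₀ (P z) (mx M) := by unfold dS SS; positivity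
      nlinarith
    · refine (differentiableOn_const (0 : ℂ)).congr fun z hz => ?_
      unfold kterm
      rw [if_neg (h2 z hz)]
  obtain ⟨u, hu, hub⟩ := dominated_of_bdd hr hd (C := C₁) fun z hz s => by
    obtain ⟨h2, h3, -⟩ := hC k hk (P z) (hPer z (hball z hz).1)
    refine (h2.sum_le_tsum s fun M _ => norm_nonneg _).trans (h3.trans ?_)
    have h4 := (hball z hz).2
    rw [hC₁]
    gcongr
  exact analyticAt_tsum (f := fun (M : ogr B w) z => kterm B k p₀ (P z) (mx M))
    (ball_mem_nhds z₀ (show 0 < r / 2 by positivity))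
    (fun M => (hd M).mono (ball_subset_ball (by linarith))) hu hub

end Hol

section Family

variable {E E' : Type} [NormedAddCommGroup E] [NormedSpace ℂ E] [FiniteDimensional ℂ E]
  [NormedAddCommGroup E'] [NormedSpace ℂ E'] [FiniteDimensional ℂ E']
variable {X Y : Type u} [TopologicalSpace X] [ChartedSpace E X] [IsManifold 𝓘(ℂ, E) ω X]
  [TopologicalSpace Y] [ChartedSpace E' Y] [IsManifold 𝓘(ℂ, E') ω Y]
variable {n : ℕ} {B : Matrix (Fin n) (Fin n) ℝ} {w : Fin n → ℝ} {p₀ : Fin n → ℂ}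

/-- the series of a family of periods -/
theorem KP_holV (hn : 0 < n) (h₀ : IsK3Period B w p₀) {k : ℕ} (hk : 2 * (n * n + 1) ≤ k)
    {f : X → Y} (hf : ∀ x, HolM E E' f x) {U : Set Y} (hU : IsOpen U) {p : Y → Fin n → ℂ}
    (hp : ∀ y ∈ U, ContMDiffAt 𝓘(ℂ, E') 𝓘(ℂ, Fin n → ℂ) ω p y)
    (hper : ∀ y ∈ U, IsK3Period B w (p y)) {x : X} (hx : f x ∈ U) :
    HolV E (fun z => KP B w k p₀ (p (f z))) x := by
  have hxs : x ∈ (chartAt E x).source := mem_chart_source E x
  refine HolV.of_rep hxs ?_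
  have hsymm : Tendsto (chartAt E x).symm (𝓝 (chartAt E x x)) (𝓝 x) := tendsto_symm x
  have hcov : ∀ᶠ z in 𝓝 x, f z ∈ U ∧ z ∈ (chartAt E x).source := by
    filter_upwards [(hf x).continuousAt.eventually (hU.mem_nhds hx),
      (chartAt E x).open_source.mem_nhds hxs] with z h1 h3 using ⟨h1, h3⟩
  have hev : ∀ᶠ c in 𝓝 (chartAt E x x), f ((chartAt E x).symm c) ∈ U ∧
      (chartAt E x).symm c ∈ (chartAt E x).source ∧ c ∈ (chartAt E x).target := by
    filter_upwards [hsymm.eventually hcov,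
      (chartAt E x).open_target.mem_nhds ((chartAt E x).map_source hxs)] with c h1 h2
      using ⟨h1.1, h1.2, h2⟩
  obtain ⟨U', hU'1, hU'2, hU'3⟩ := _root_.eventually_nhds_iff.1 hev
  have hd : DifferentiableOn ℂ (fun c => p (f ((chartAt E x).symm c))) U' := by
    intro c hc
    have h0 : HolV E (fun z => p (f z)) ((chartAt E x).symm c) :=
      HolV.comp (E' := E') (h := p) (hp _ (hU'1 c hc).1) (hf _)
    have h1 := h0.rep (hU'1 c hc).2.1
    rw [(chartAt E x).right_inv (hU'1 c hc).2.2] at h1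
    exact (h1.differentiableAt (by simp)).differentiableWithinAt
  exact (KP_analytic hn h₀ hk hU'2 (P := fun c => p (f ((chartAt E x).symm c))) hd
    (fun c hc => hper _ (hU'1 c hc).1) hU'3).contDiffAt

end Family

end Vale.Agent.P281.H713
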