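import Vale.Agent.P281.H713.Symp

open scoped Topology
open Set Filter Complex Module

namespace Vale.Agent.P281.H713

set_option linter.unusedSectionVars false

/-! ### Groups of integral matrices -/

section Latt

variable {n : ℕ}

/-- the action of an integral matrix on `ℝ ^ n` -/
noncomputable def mact (M : Matrix (Fin n) (Fin n) ℤ) : (Fin n → ℝ) →L[ℝ] (Fin n → ℝ) :=
  LinearMap.toContinuousLinearMap (M.map (Int.castRingHom ℝ)).mulVecLin

theorem mact_apply (M : Matrix (Fin n) (Fin n) ℤ) (x : Fin n → ℝ) :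
    mact M x = (M.map (Int.castRingHom ℝ)).mulVec x := rfl

theorem mact_one (x : Fin n → ℝ) : mact (1 : Matrix (Fin n) (Fin n) ℤ) x = x := by
  rw [mact_apply, Matrix.map_one _ (map_zero _) (map_one _), Matrix.one_mulVec]

theorem mact_mul (M N : Matrix (Fin n) (Fin n) ℤ) (x : Fin n → ℝ) :
    mact (M * N) x = mact M (mact N x) := by
  rw [mact_apply, mact_apply, mact_apply, Matrix.map_mul, Matrix.mulVec_mulVec]

/-- the group of the integral matrices preserving `Q` -/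
def spq (Q : (Fin n → ℝ) → (Fin n → ℝ) → ℝ) : Subgroup (GL (Fin n) ℤ) where
  carrier := {M | ∀ x x', Q (mact (M : Matrix (Fin n) (Fin n) ℤ) x)
    (mact (M : Matrix (Fin n) (Fin n) ℤ) x') = Q x x'}
  mul_mem' := by
    intro M N hM hN x x'
    rw [Units.val_mul, mact_mul, mact_mul, hM, hN]
  one_mem' := by
    intro x x'
    rw [Units.val_one, mact_one, mact_one]
  inv_mem' := by
    intro M hM x x'
    have h1 : ∀ x, mact (M : Matrix (Fin n) (Fin n) ℤ)
        (mact ((M⁻¹ : GL (Fin n) ℤ) : Matrix (Fin n) (Fin n) ℤ) x) = x := by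
      intro x
      rw [← mact_mul, ← Units.val_mul, mul_inv_cancel, Units.val_one, mact_one]
    rw [← hM, h1, h1]

theorem mact_mem {Q : (Fin n → ℝ) → (Fin n → ℝ) → ℝ} (M : spq Q) (x x' : Fin n → ℝ) :
    Q (mact ((M : GL (Fin n) ℤ) : Matrix (Fin n) (Fin n) ℤ) x)
    (mact ((M : GL (Fin n) ℤ) : Matrix (Fin n) (Fin n) ℤ) x') = Q x x' := M.2 x x'

theorem entry_le (M : Matrix (Fin n) (Fin n) ℤ) (i j : Fin n) : |(M i j : ℝ)| ≤ ‖mact M‖ := by
  have h1 := (mact M).le_opNorm (Pi.single j 1)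
  rw [Pi.norm_single, norm_one, mul_one] at h1
  refine le_trans ?_ h1
  have h2 : mact M (Pi.single j 1) i = M i j := by
    rw [mact_apply, Matrix.mulVec_single_one]
    rfl
  rw [← h2]
  exact norm_le_pi_norm (mact M (Pi.single j 1)) i

theorem mact_pos (hn : 0 < n) (M : GL (Fin n) ℤ) :
    0 < ‖mact (M : Matrix (Fin n) (Fin n) ℤ)‖ := by
  by_contra h
  have h0 : ‖mact (M : Matrix (Fin n) (Fin n) ℤ)‖ = 0 := le_antisymm (not_lt.1 h) (norm_nonneg _)
  have h1 : (M : Matrix (Fin n) (Fin n) ℤ) = 0 := by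
    ext i j
    have h2 := entry_le (M : Matrix (Fin n) (Fin n) ℤ) i j
    rw [h0] at h2
    have h3 := abs_eq_zero.1 (le_antisymm h2 (abs_nonneg _))
    exact_mod_cast h3
  have h2 : (M : Matrix (Fin n) (Fin n) ℤ) * ((M⁻¹ : GL (Fin n) ℤ) : Matrix (Fin n) (Fin n) ℤ)
      = 1 := by rw [← Units.val_mul, mul_inv_cancel, Units.val_one]
  rw [h1, zero_mul] at h2
  have h3 := congrFun (congrFun h2 ⟨0, hn⟩) ⟨0, hn⟩
  simp at h3

/-- the series `∑ ‖M‖⁻ˡ` converges -/
theorem summable_mact (hn : 0 < n) {l : ℕ} (hl : n * n < l) :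
    Summable fun M : GL (Fin n) ℤ => ‖mact (M : Matrix (Fin n) (Fin n) ℤ)‖⁻¹ ^ l := by
  classical
  let b := Pi.basisFun ℝ (Fin n × Fin n)
  let L := Submodule.span ℤ (Set.range b)
  have hL : finrank ℤ L = n * n := by
    rw [ZLattice.rank ℝ L, Module.finrank_pi, Fintype.card_prod, Fintype.card_fin]
  have h1 : Summable fun z : L => ‖z‖⁻¹ ^ l := ZLattice.summable_norm_pow_inv L l (by rw [hL]; exact hl)
  let c : GL (Fin n) ℤ → (Fin n × Fin n → ℝ) := fun M p => ((M : Matrix (Fin n) (Fin n) ℤ) p.1 p.2 : ℝ)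
  have hc : ∀ M, c M ∈ L := by
    intro M
    rw [b.mem_span_iff_repr_mem ℤ]
    intro p
    exact ⟨(M : Matrix (Fin n) (Fin n) ℤ) p.1 p.2, rfl⟩
  have hci : Function.Injective fun M => (⟨c M, hc M⟩ : L) := by
    intro M N h
    have h2 : c M = c N := congrArg Subtype.val h
    ext i j
    have h3 : ((M : Matrix (Fin n) (Fin n) ℤ) i j : ℝ) = ((N : Matrix (Fin n) (Fin n) ℤ) i j : ℝ) :=
      congrFun h2 (i, j)
    exact_mod_cast h3
  have h2 := h1.comp_injective hci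
  refine Summable.of_nonneg_of_le (fun M => by positivity) (fun M => ?_) h2
  have h3 : ‖(⟨c M, hc M⟩ : L)‖ ≤ ‖mact (M : Matrix (Fin n) (Fin n) ℤ)‖ := by
    show ‖c M‖ ≤ _
    rw [pi_norm_le_iff_of_nonneg (norm_nonneg _)]
    intro p
    exact entry_le _ _ _
  have h4 : 0 < ‖(⟨c M, hc M⟩ : L)‖ := by
    show 0 < ‖c M‖
    rw [norm_pos_iff]
    intro h0
    have h5 : (M : Matrix (Fin n) (Fin n) ℤ) = 0 := by
      ext i j
      have h6 : ((M : Matrix (Fin n) (Fin n) ℤ) i j : ℝ) = 0 := congrFun h0 (i, j)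
      exact_mod_cast h6
    have h7 := mact_pos hn M
    rw [h5] at h7
    have h8 : mact (0 : Matrix (Fin n) (Fin n) ℤ) = 0 := by
      ext x i
      rw [mact_apply]
      simp [Matrix.mulVec, dotProduct]
    rw [h8, norm_zero] at h7
    exact lt_irrefl _ h7
  show _ ≤ ‖(⟨c M, hc M⟩ : L)‖⁻¹ ^ l
  gcongr

end Latt

end Vale.Agent.P281.H713
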