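import Vale.Agent.P281.H713.LineNC

open scoped Manifold ContDiff Topology
open Set Filter Metric Module

namespace Vale.Agent.P281.H713

open Vale.Agent.P281 Vale.Agent.P281.MF Vale.Agent.P281.ISO Vale.Agent.P281.ELL

set_option linter.unusedSectionVars false

universe u

/-- the numerical data when the sum of the weights is `> 2` -/
theorem exists_data {d : ℕ} {δ : Fin d → ℝ} (hq : ∀ k, ∃ q : ℚ, δ k = q) (h0 : ∀ k, 0 < δ k)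
    (h1 : ∀ k, δ k ≤ 1) (hs : 2 < ∑ k, δ k) : ∃ (N B : ℕ) (ci cj : Fin N → Fin d),
      (∀ t, ci t ≠ cj t) ∧ ∀ (g : TT' δ → Fin d → Fin d → ℂ) l,
        ((mlt (b2 δ ci cj B g) l : ℕ) : ℝ) ≤
          ((Fintype.card ((Fin B × (TT' δ × Fin N)) ⊕ TT' δ) : ℕ) : ℝ) * δ l := by
  classical
  obtain ⟨s, hsdef⟩ : ∃ s : ℝ, s = ∑ k, δ k := ⟨_, rfl⟩
  rw [← hsdef] at hs
  have hs0 : 0 < s := by linarith
  obtain ⟨δ', hδ'⟩ : ∃ δ' : Fin d → ℝ, ∀ k, δ' k = 2 * δ k / s := ⟨_, fun _ => rfl⟩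
  have hδ'lt : ∀ k, δ' k < δ k := by
    intro k
    rw [hδ', div_lt_iff₀ hs0]
    have := h0 k
    nlinarith
  have hq' : ∀ k, ∃ q : ℚ, δ' k = q := by
    choose q hq using hq
    intro k
    refine ⟨2 * q k / ∑ l, q l, ?_⟩
    rw [hδ', hsdef]
    push_cast
    rw [hq k, Finset.sum_congr rfl fun l _ => hq l]
  obtain ⟨N, b, hN, hb, hbs, hbN⟩ := exists_num (δ := δ') hq'
    (fun k => by have := h0 k; rw [hδ']; positivity)
    (fun k => (hδ'lt k).le.trans (h1 k)) (by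
      rw [Finset.sum_congr rfl fun k _ => hδ' k, ← Finset.sum_div, ← Finset.mul_sum, ← hsdef]
      field_simp)
  obtain ⟨ci, cj, hij, hijb⟩ := coloring b hbs hbN
  have hbδ : ∀ k k', δ k = δ k' → b k = b k' := by
    intro k k' hk
    have h2 : (b k : ℝ) = b k' := by rw [hb, hb, hδ', hδ', hk]
    exact_mod_cast h2
  have hTpos : 0 < Fintype.card (TT' δ) := Fintype.card_pos
  have hNr : (0 : ℝ) < N := by exact_mod_cast hN
  obtain ⟨B, hB⟩ : ∃ B : ℕ, ∀ l, (1 : ℝ) ≤ B * (N * δ l - b l) := by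
    have h2 : ∀ᶠ B : ℕ in atTop, ∀ l, (1 : ℝ) ≤ B * (N * δ l - b l) := by
      refine Filter.eventually_all.2 fun l => ?_
      have h3 : 0 < N * δ l - b l := by
        rw [hb]
        have := hδ'lt l
        nlinarith
      exact (tendsto_natCast_atTop_atTop.atTop_mul_const h3).eventually (eventually_ge_atTop 1)
    exact h2.exists
  refine ⟨N, B, ci, cj, hij, fun g l => ?_⟩
  have h2 := b1_mlt δ hijb hbδ l
  have h3 := (b2_mlt δ ci cj B g l).trans (Nat.add_le_add_right (Nat.mul_le_mul_left B h2) _)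
  have h4 : ((mlt (b2 δ ci cj B g) l : ℕ) : ℝ) ≤
      ((B * (Fintype.card (TT' δ) * b l) + Fintype.card (TT' δ) : ℕ) : ℝ) := by
    exact_mod_cast h3
  refine h4.trans ?_
  rw [Fintype.card_sum, Fintype.card_prod, Fintype.card_prod, Fintype.card_fin,
    Fintype.card_fin]
  push_cast
  have h5 := hB l
  have h6 : (0 : ℝ) < Fintype.card (TT' δ) := by exact_mod_cast hTpos
  have h7 := (h0 l).le
  have h8 : (0 : ℝ) ≤ Fintype.card (TT' δ) * δ l := by positivity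
  have h9 : (Fintype.card (TT' δ) : ℝ) * 1 ≤ Fintype.card (TT' δ) * (B * (N * δ l - b l)) := by
    gcongr
  nlinarith

theorem b2_inv {d N : ℕ} (δ : Fin d → ℝ) (ci cj : Fin N → Fin d) (B : ℕ)
    (g : TT' δ → Fin d → Fin d → ℂ) (hg : ∀ τ : Equiv.Perm (Fin d), (∀ k, δ (τ k) = δ k) →
      ∀ w, PB g (fun x y => w (τ x) (τ y)) = PB g w) (σ : Equiv.Perm (Fin d))
    (hσ : ∀ k, δ (σ k) = δ k) (w : Fin d → Fin d → ℂ) :
    PB (b2 δ ci cj B g) (fun x y => w (σ x) (σ y)) = PB (b2 δ ci cj B g) w := by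
  rw [b2_val, b2_val, b1_inv δ ci cj σ hσ w, hg σ hσ w]

theorem b2_diag {d N : ℕ} (δ : Fin d → ℝ) {ci cj : Fin N → Fin d} (hij : ∀ t, ci t ≠ cj t)
    (B : ℕ) {g : TT' δ → Fin d → Fin d → ℂ} (hg : ∀ t x, g t x x = 0)
    (t : (Fin B × (TT' δ × Fin N)) ⊕ TT' δ) (x : Fin d) : b2 δ ci cj B g t x x = 0 := by
  rcases t with t | t
  · exact b1_diag δ hij t.2 x
  · exact hg t x

theorem g0_diag {d : ℕ} (δ : Fin d → ℝ) {i j : Fin d} (hij : i ≠ j) (t : TT' δ) (x : Fin d) :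
    g0 δ i j t x x = 0 :=
  eb_diag (fun h2 => hij ((t : Equiv.Perm (Fin d)).injective h2)) x

theorem g1_diag {d : ℕ} (δ : Fin d → ℝ) (c : ℂ) {i j k : Fin d} (hij : i ≠ j) (hik : i ≠ k)
    (t : TT' δ) (x : Fin d) : g1 δ c i j k t x x = 0 := by
  have h1 := eb_diag (fun h2 => hij ((t : Equiv.Perm (Fin d)).injective h2)) x
  have h2 := eb_diag (fun h2 => hik ((t : Equiv.Perm (Fin d)).injective h2)) x
  unfold g1
  rw [h1, h2, mul_zero, sub_zero]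

theorem b2_card_pos {d : ℕ} (δ : Fin d → ℝ) (N B : ℕ) :
    0 < Fintype.card ((Fin B × (TT' δ × Fin N)) ⊕ TT' δ) := by
  rw [Fintype.card_sum]
  have h1 : 0 < Fintype.card (TT' δ) := Fintype.card_pos
  omega

section Line

variable {E E' : Type} [NormedAddCommGroup E] [NormedSpace ℂ E] [FiniteDimensional ℂ E]
  [NormedAddCommGroup E'] [NormedSpace ℂ E'] [FiniteDimensional ℂ E']
variable {X Y : Type u} [TopologicalSpace X] [ChartedSpace E X] [IsManifold 𝓘(ℂ, E) ω X]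
  [TopologicalSpace Y] [ChartedSpace E' Y] [IsManifold 𝓘(ℂ, E') ω Y]
variable {f : X → Y} {S : Set Y} {d : ℕ} {Δ : Set X → ℝ} {δ : Fin d → ℝ} {𝒲 : Set (Set X)}
  {ι : Type u} {U : ι → Set Y} {p : ι → Fin d → Y → ℂ × ℂ} {c : ι → X → ℂ × ℂ}

/-- existence of the forms attached to a symmetric family of blocks -/
theorem exists_b2 (hf : ∀ x, HolM E E' f x) (h : IsLineFamily E E' f S Δ δ 𝒲 U p c) (hd : 2 ≤ d)
    (e₀ : E ≃L[ℂ] (E' × ℂ)) {N B : ℕ} {ci cj : Fin N → Fin d} (hij : ∀ t, ci t ≠ cj t)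
    {g : TT' δ → Fin d → Fin d → ℂ} (hgd : ∀ t x, g t x x = 0)
    (hg : ∀ τ : Equiv.Perm (Fin d), (∀ k, δ (τ k) = δ k) →
      ∀ w, PB g (fun x y => w (τ x) (τ y)) = PB g w) {M : ℕ}
    (hM : M = Fintype.card ((Fin B × (TT' δ × Fin N)) ⊕ TT' δ)) {κ₀ : Set X → ℕ}
    (hκ : ∀ l, ∀ D ∈ 𝒲, Δ D = δ l → mlt (b2 δ ci cj B g) l ≤ κ₀ D) :
    ∃ Θ : X → ℂ, (∀ a x L, Val E f U p c a L x → Θ x = PB (b2 δ ci cj B g)
      (ww e₀ f (p a) L x)) ∧ RelForm f S e₀ M 𝒲 κ₀ Θ := by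
  obtain ⟨Θ, hΘ⟩ := exists_line hf h hd e₀ (Φ := PB (b2 δ ci cj B g))
    (b2_inv δ ci cj B g hg)
  refine ⟨Θ, hΘ, ?_⟩
  rw [hM]
  exact line_rel hf h e₀ (b2_diag δ hij B hgd) hκ hΘ

/-- the weights of sum `> 2` -/
theorem hasForms_line₁ (hf : ∀ x, HolM E E' f x) (h : IsLineFamily E E' f S Δ δ 𝒲 U p c)
    (h𝒲f : 𝒲.Finite) (h𝒲p : ∀ D ∈ 𝒲, IsPrimeDivisor E D) (e₀ : E ≃L[ℂ] (E' × ℂ))
    (hΔ : ∀ D, 0 ≤ Δ D) (hq : ∀ k, ∃ q : ℚ, δ k = q) (h0 : ∀ k, 0 < δ k) (h1 : ∀ k, δ k ≤ 1)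
    (hs : 2 < ∑ k, δ k) {y : Y} (hy : y ∉ S) : HasForms f S e₀ Δ 1 y := by
  classical
  have hd : 3 ≤ d := by
    by_contra hd
    have h2 : ∑ k, δ k ≤ ∑ _k : Fin d, (1 : ℝ) := Finset.sum_le_sum fun k _ => h1 k
    rw [Finset.sum_const, Finset.card_univ, Fintype.card_fin, nsmul_eq_mul, mul_one] at h2
    have h3 : (d : ℝ) ≤ 2 := by exact_mod_cast (by omega : d ≤ 2)
    linarith
  obtain ⟨N, B, ci, cj, hij, hmlt⟩ := exists_data hq h0 h1 hs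
  obtain ⟨i, j, k, hijne, hikne, hjkne⟩ : ∃ i j k : Fin d, i ≠ j ∧ i ≠ k ∧ j ≠ k :=
    ⟨⟨0, by omega⟩, ⟨1, by omega⟩, ⟨2, by omega⟩, by simp, by simp, by simp⟩
  obtain ⟨a, ha⟩ := (h.cover y).1 hy
  obtain ⟨x₁, L, hx₁, hv⟩ := exists_val_pt h (by omega) ha
  obtain ⟨M, hM⟩ : ∃ M, M = Fintype.card ((Fin B × (TT' δ × Fin N)) ⊕ TT' δ) := ⟨_, rfl⟩
  rw [← hM] at hmlt
  have hM0 : 0 < M := by
    rw [hM]
    exact b2_card_pos δ N B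
  obtain ⟨κ₀, hκ₀⟩ : ∃ κ₀ : Set X → ℕ, ∀ D, κ₀ D = if D ∈ 𝒲 then ⌊(M : ℝ) * Δ D⌋₊ else 0 :=
    ⟨_, fun _ => rfl⟩
  have hκ : ∀ g : TT' δ → Fin d → Fin d → ℂ, ∀ l, ∀ D ∈ 𝒲, Δ D = δ l →
      mlt (b2 δ ci cj B g) l ≤ κ₀ D := by
    intro g l D hD hDl
    rw [hκ₀, if_pos hD, hDl]
    exact floor_ok (hmlt g l)
  obtain ⟨Θ, hΘ, hrel₀⟩ := exists_b2 hf h (by omega) e₀ hij (g0_diag δ hijne)
    (g0_inv δ i j) hM (hκ _)
  obtain ⟨c₀, hc₀⟩ : ∃ c₀, c₀ = rr L (fun l z => p a l (f z)) i j k x₁ := ⟨_, rfl⟩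
  obtain ⟨Ξ, hΞ, hrel₁⟩ := exists_b2 hf h (by omega) e₀ hij (g1_diag δ c₀ hijne hikne)
    (g1_inv δ c₀ i j k) hM (hκ _)
  obtain ⟨x, hx, hx1, hx2, ξ, hξ, hx3⟩ :=
    line_nc hf h e₀ hv hijne hikne hjkne hij hc₀ hΘ hΞ
  refine ⟨M, 𝒲, κ₀, Θ, fun _ => Ξ, hM0, h𝒲f, h𝒲p, hrel₀, fun _ => hrel₁, ?_, x, hx.trans hx₁,
    hx1, fun _ => hx2, ?_⟩
  · intro D
    by_cases hD : D ∈ 𝒲
    · rw [hκ₀, if_pos hD]
      exact Nat.floor_le (mul_nonneg (Nat.cast_nonneg _) (hΔ D))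
    · rw [hκ₀, if_neg hD, Nat.cast_zero]
      exact mul_nonneg (Nat.cast_nonneg _) (hΔ D)
  · intro c hc b
    have h4 := hc ξ hξ
    rw [Fin.sum_univ_one] at h4
    have h5 : b = 0 := Subsingleton.elim _ _
    rw [h5]
    exact (mul_eq_zero.1 h4).resolve_right hx3

end Line

end Vale.Agent.P281.H713
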