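import Vale.Agent.P281.H713.LineForms
import Vale.Agent.P281.H713.Wron

open scoped Manifold ContDiff Topology
open Set Filter Metric Module

namespace Vale.Agent.P281.H713

open Vale.Agent.P281 Vale.Agent.P281.MF Vale.Agent.P281.ISO Vale.Agent.P281.ELL

set_option linter.unusedSectionVars false

universe u

/-- products of functions `R - c` with `R' ≠ 0` -/
theorem prod_nc {I : Type} [Fintype I] {R : I → ℂ → ℂ} {t₁ : ℂ}
    (hR : ∀ σ, ContDiffAt ℂ ω (R σ) t₁) (hR' : ∀ σ, deriv (R σ) t₁ ≠ 0) (σ₀ : I)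
    {good : ℂ → Prop} (hgood : ∀ᶠ t in 𝓝 t₁, good t) :
    ∃ t, good t ∧ deriv (fun s => ∏ σ, (R σ s - R σ₀ t₁)) t ≠ 0 := by
  classical
  have hn' : (ω : WithTop ℕ∞) ≠ 0 := by simp
  by_contra hcon
  push Not at hcon
  set ρ : ℂ → ℂ := fun s => ∏ σ, (R σ s - R σ₀ t₁) with hρ
  have hρd : ∀ᶠ t in 𝓝 t₁, DifferentiableAt ℂ ρ t := by
    have h1 : ∀ᶠ t in 𝓝 t₁, ∀ σ, ContDiffAt ℂ ω (R σ) t :=
      Filter.eventually_all.2 fun σ => (hR σ).eventually (by simp)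
    filter_upwards [h1] with t ht
    have h2 : ContDiffAt ℂ ω ρ t := contDiffAt_prod fun σ _ => (ht σ).sub contDiffAt_const
    exact h2.differentiableAt hn'
  obtain ⟨ε, hε, hb⟩ := Metric.eventually_nhds_iff_ball.1 (hgood.and hρd)
  have hconst : ∀ t ∈ ball t₁ ε, ρ t = ρ t₁ := by
    intro t ht
    refine isOpen_ball.is_const_of_deriv_eq_zero (𝕜 := ℂ) (f := ρ)
      (convex_ball t₁ ε).isPreconnected ?_ ?_ ht (mem_ball_self hε)
    · exact fun s hs => (hb s hs).2.differentiableWithinAt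
    · exact fun s hs => hcon s (hb s hs).1
  have h0 : ρ t₁ = 0 := Finset.prod_eq_zero (Finset.mem_univ σ₀) (sub_self _)
  have h1 : ∀ᶠ t in 𝓝[≠] t₁, ∀ σ, R σ t ≠ R σ₀ t₁ :=
    Filter.eventually_all.2 fun σ =>
      ((hR σ).differentiableAt hn').hasDerivAt.eventually_ne (hR' σ)
  have h2 : ∀ᶠ t in 𝓝[≠] t₁, t ∈ ball t₁ ε :=
    eventually_nhdsWithin_of_eventually_nhds (ball_mem_nhds t₁ hε)
  obtain ⟨t, h3, h4⟩ := (h1.and h2).exists
  have h5 := hconst t h4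
  rw [h0] at h5
  exact (Finset.prod_ne_zero_iff.2 fun σ _ => sub_ne_zero.2 (h3 σ)) h5

section Line

variable {E E' : Type} [NormedAddCommGroup E] [NormedSpace ℂ E] [FiniteDimensional ℂ E]
  [NormedAddCommGroup E'] [NormedSpace ℂ E'] [FiniteDimensional ℂ E']
variable {X Y : Type u} [TopologicalSpace X] [ChartedSpace E X] [IsManifold 𝓘(ℂ, E) ω X]
  [TopologicalSpace Y] [ChartedSpace E' Y] [IsManifold 𝓘(ℂ, E') ω Y]
variable {f : X → Y} {S : Set Y} {d : ℕ} {Δ : Set X → ℝ} {δ : Fin d → ℝ} {𝒲 : Set (Set X)}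
  {ι : Type u} {U : ι → Set Y} {p : ι → Fin d → Y → ℂ × ℂ} {c : ι → X → ℂ × ℂ}

/-- the ratio `w i k / w i j` -/
noncomputable def rr (L : X → ℂ × ℂ) (q : Fin d → X → ℂ × ℂ) (i j k : Fin d) (z : X) : ℂ :=
  J.wedge (q i z) (q k z) / J.wedge (q i z) (q j z) *
    (J.wedge (L z) (q j z) / J.wedge (L z) (q k z))

/-- the first symmetric factor -/
def g0 (δ : Fin d → ℝ) (i j : Fin d) : TT' δ → Fin d → Fin d → ℂ := fun σ =>
  eb ((σ : Equiv.Perm (Fin d)) i) ((σ : Equiv.Perm (Fin d)) j)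

/-- the second symmetric factor -/
def g1 (δ : Fin d → ℝ) (c : ℂ) (i j k : Fin d) : TT' δ → Fin d → Fin d → ℂ := fun σ r s =>
  eb ((σ : Equiv.Perm (Fin d)) i) ((σ : Equiv.Perm (Fin d)) k) r s -
    c * eb ((σ : Equiv.Perm (Fin d)) i) ((σ : Equiv.Perm (Fin d)) j) r s

theorem g0_val (δ : Fin d → ℝ) (i j : Fin d) (w : Fin d → Fin d → ℂ) :
    PB (g0 δ i j) w = ∏ σ : TT' δ, w ((σ : Equiv.Perm (Fin d)) i)
      ((σ : Equiv.Perm (Fin d)) j) := by
  unfold PB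
  exact Finset.prod_congr rfl fun σ _ => eb_sum _ _ _

theorem g1_val (δ : Fin d → ℝ) (c : ℂ) (i j k : Fin d) (w : Fin d → Fin d → ℂ) :
    PB (g1 δ c i j k) w = ∏ σ : TT' δ, (w ((σ : Equiv.Perm (Fin d)) i)
      ((σ : Equiv.Perm (Fin d)) k) - c * w ((σ : Equiv.Perm (Fin d)) i)
      ((σ : Equiv.Perm (Fin d)) j)) := by
  unfold PB
  refine Finset.prod_congr rfl fun σ _ => ?_
  rw [← eb_sum ((σ : Equiv.Perm (Fin d)) i) ((σ : Equiv.Perm (Fin d)) k) w,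
    ← eb_sum ((σ : Equiv.Perm (Fin d)) i) ((σ : Equiv.Perm (Fin d)) j) w, Finset.mul_sum,
    ← Finset.sum_sub_distrib]
  refine Finset.sum_congr rfl fun r _ => ?_
  rw [Finset.mul_sum, ← Finset.sum_sub_distrib]
  refine Finset.sum_congr rfl fun s _ => ?_
  unfold g1
  ring

theorem g0_inv (δ : Fin d → ℝ) (i j : Fin d) (τ : Equiv.Perm (Fin d))
    (hτ : ∀ k, δ (τ k) = δ k) (w : Fin d → Fin d → ℂ) :
    PB (g0 δ i j) (fun x y => w (τ x) (τ y)) = PB (g0 δ i j) w := by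
  rw [g0_val, g0_val]
  exact Equiv.prod_comp (Equiv.mulLeft (⟨τ, hτ⟩ : TT' δ)) (fun σ : TT' δ =>
    w ((σ : Equiv.Perm (Fin d)) i) ((σ : Equiv.Perm (Fin d)) j))

theorem g1_inv (δ : Fin d → ℝ) (c : ℂ) (i j k : Fin d) (τ : Equiv.Perm (Fin d))
    (hτ : ∀ k, δ (τ k) = δ k) (w : Fin d → Fin d → ℂ) :
    PB (g1 δ c i j k) (fun x y => w (τ x) (τ y)) = PB (g1 δ c i j k) w := by
  rw [g1_val, g1_val]
  exact Equiv.prod_comp (Equiv.mulLeft (⟨τ, hτ⟩ : TT' δ)) (fun σ : TT' δ =>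
    w ((σ : Equiv.Perm (Fin d)) i) ((σ : Equiv.Perm (Fin d)) k) -
      c * w ((σ : Equiv.Perm (Fin d)) i) ((σ : Equiv.Perm (Fin d)) j))

theorem line_nc (hf : ∀ x, HolM E E' f x) (h : IsLineFamily E E' f S Δ δ 𝒲 U p c)
    (e₀ : E ≃L[ℂ] (E' × ℂ)) {a : ι} {x₁ : X} {L : X → ℂ × ℂ} (hv : Val E f U p c a L x₁)
    {i j k : Fin d} (hij : i ≠ j) (hik : i ≠ k) (hjk : j ≠ k) {N B : ℕ} {ci cj : Fin N → Fin d}
    (hc : ∀ t, ci t ≠ cj t) {Θ Ξ : X → ℂ} {c₀ : ℂ}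
    (hc₀ : c₀ = rr L (fun l z => p a l (f z)) i j k x₁)
    (hΘ : ∀ a x L, Val E f U p c a L x → Θ x = PB (b2 δ ci cj B (g0 δ i j)) (ww e₀ f (p a) L x))
    (hΞ : ∀ a x L, Val E f U p c a L x → Ξ x = PB (b2 δ ci cj B
      (g1 δ c₀ i j k)) (ww e₀ f (p a) L x)) :
    ∃ x, f x = f x₁ ∧ (∀ᶠ z in 𝓝 x, Θ z ≠ 0) ∧ HolV E (fun z => Ξ z / Θ z) x ∧
        ∃ ξ, dM E E' f x ξ = 0 ∧ dif E (fun z => Ξ z / Θ z) x ξ ≠ 0 := by
  classical
  have hn' : (ω : WithTop ℕ∞) ≠ 0 := by simp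
  set P : Fin d → X → ℂ × ℂ := fun l z => p a l (f z) with hP
  set r : TT' δ → X → ℂ := fun σ z => rr L P ((σ : Equiv.Perm (Fin d)) i)
    ((σ : Equiv.Perm (Fin d)) j) ((σ : Equiv.Perm (Fin d)) k) z with hr
  have hσ : ∀ (σ : TT' δ) {x y : Fin d}, x ≠ y →
      (σ : Equiv.Perm (Fin d)) x ≠ (σ : Equiv.Perm (Fin d)) y := fun σ x y hxy h =>
    hxy ((σ : Equiv.Perm (Fin d)).injective h)
  -- the values of the ratio
  have hval : ∀ z, Val E f U p c a L z → Θ z ≠ 0 ∧ Ξ z / Θ z = ∏ σ, (r σ z - c₀) := by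
    intro z hz
    have hb : PB (b1 δ ci cj) (ww e₀ f (p a) L z) ≠ 0 := by
      rw [b1_val]
      exact Finset.prod_ne_zero_iff.2 fun σ _ => Finset.prod_ne_zero_iff.2 fun t _ =>
        ww_ne hf h e₀ hz (hσ σ (hc t))
    have hg : PB (g0 δ i j) (ww e₀ f (p a) L z) ≠ 0 := by
      rw [g0_val]
      exact Finset.prod_ne_zero_iff.2 fun σ _ => ww_ne hf h e₀ hz (hσ σ hij)
    rw [hΘ a z L hz, hΞ a z L hz, b2_val, b2_val]
    refine ⟨mul_ne_zero (pow_ne_zero _ hb) hg, ?_⟩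
    rw [mul_div_mul_left _ _ (pow_ne_zero _ hb), g0_val, g1_val, ← Finset.prod_div_distrib]
    refine Finset.prod_congr rfl fun σ _ => ?_
    have h1 := ww_ne hf h e₀ hz (hσ σ hij)
    rw [sub_div, mul_div_assoc, div_self h1, mul_one]
    congr 1
    have h2 := hz.ne' h.toIsBranchedOver ((σ : Equiv.Perm (Fin d)) i)
    have h3 := hz.ne' h.toIsBranchedOver ((σ : Equiv.Perm (Fin d)) j)
    have h4 := hz.ne' h.toIsBranchedOver ((σ : Equiv.Perm (Fin d)) k)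
    have h5 := h.distinct a _ _ _ hz.mem (hσ σ hij)
    have h6 := JP_ne_zero e₀ (hz.inj hf h.toIsBranchedOver e₀)
    show ww e₀ f (p a) L z _ _ / ww e₀ f (p a) L z _ _ = rr L P _ _ _ z
    unfold ww rr
    rw [hP]
    simp only
    field_simp
  have hrh : ∀ z, Val E f U p c a L z → ∀ σ, HolV E (r σ) z := by
    intro z hz σ
    have hp1 : ∀ i, HolV E (fun z => (p a i (f z)).1) z := fun i =>
      HolV.comp (E' := E') (h := fun y => (p a i y).1) (h.branch a i (f z) hz.mem).1 (hf z)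
    have hp2 : ∀ i, HolV E (fun z => (p a i (f z)).2) z := fun i =>
      HolV.comp (E' := E') (h := fun y => (p a i y).2) (h.branch a i (f z) hz.mem).2 (hf z)
    have hw : ∀ i j, HolV E (fun z => J.wedge (p a i (f z)) (p a j (f z))) z := fun i j =>
      hol_wedge (hp1 i) (hp2 i) (hp1 j) (hp2 j)
    have hl : ∀ i, HolV E (fun z => J.wedge (L z) (p a i (f z))) z := fun i =>
      hol_wedge hz.hol1 hz.hol2 (hp1 i) (hp2 i)
    exact ((hw _ _).div (hw _ _) (h.distinct a _ _ _ hz.mem (hσ σ hij))).mul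
      ((hl _).div (hl _) (hz.ne' h.toIsBranchedOver _))
  -- the slice
  have hL1 := hv.hol1
  have hL2 := hv.hol2
  set ζ : X → ℂ := fun z => (L x₁).1 * (L z).2 + (-(L x₁).2) * (L z).1 with hζdef
  have hg1 : HolV E (fun z => (L x₁).1 * (L z).2) x₁ := HolV.mul (HolV.const _ x₁) hL2
  have hg2 : HolV E (fun z => (-(L x₁).2) * (L z).1) x₁ := HolV.mul (HolV.const _ x₁) hL1
  have hζ : HolV E ζ x₁ := HolV.add hg1 hg2
  have hdζ : ∀ ξ, dif E ζ x₁ ξ = WL E L x₁ ξ := by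
    intro ξ
    have h3 := congrArg (fun T : E →L[ℂ] ℂ => T ξ) (ISO.dif_add hg1 hg2)
    simp only [add_apply] at h3
    rw [cf_dif_mul hL2, cf_dif_mul hL1] at h3
    rw [WL_apply]
    linear_combination h3
  have hinj : ∀ ξ, dM E E' f x₁ ξ = 0 → dV E ζ x₁ ξ = 0 → ξ = 0 := fun ξ h3 h4 =>
    hv.inj hf h.toIsBranchedOver e₀ ξ h3 (by rw [← hdζ]; exact h4)
  obtain ⟨q, hq, hq0, hqe⟩ := exists_slice hf e₀ hζ hinj
  set t₁ := ζ x₁ with ht₁
  have hqt : Tendsto q (𝓝 t₁) (𝓝 x₁) := by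
    have := hq.continuousAt.tendsto
    rwa [hq0] at this
  have hfq : ∀ᶠ z in 𝓝 t₁, f (q z) = f (q t₁) := by
    rw [hq0]
    exact hqe.mono fun z hz => hz.1
  set T : ℂ →L[ℂ] E := mfderiv 𝓘(ℂ, ℂ) 𝓘(ℂ, E) q t₁ with hT
  have hder : ∀ g : X → ℂ, HolV E g x₁ → HasDerivAt (fun t => g (q t)) (dif E g x₁ (T 1)) t₁ := by
    intro g hg
    have h1 : HolV E g (q t₁) := by rw [hq0]; exact hg
    obtain ⟨h2, h3⟩ := slice_fderiv hq h1
    rw [hq0] at h3
    have h4 : deriv (fun t => g (q t)) t₁ = dif E g x₁ (T 1) := by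
      rw [← fderiv_apply_one_eq_deriv, h3]
      rfl
    rw [← h4]
    exact (h2.differentiableAt hn').hasDerivAt
  have hW1 : WL E L x₁ (T 1) = 1 := by
    rw [← hdζ]
    have h3 : HasDerivAt (fun t => ζ (q t)) 1 t₁ :=
      (hasDerivAt_id t₁).congr_of_eventuallyEq (hqe.mono fun t ht => ht.2)
    exact (hder ζ hζ).unique h3
  rw [WL_apply] at hW1
  have hA := hder _ hL1
  have hB := hder _ hL2
  -- the functions on the slice
  have hRc : ∀ σ, ContDiffAt ℂ ω (fun t => r σ (q t)) t₁ := by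
    intro σ
    have h1 : HolV E (r σ) (q t₁) := by rw [hq0]; exact hrh x₁ hv σ
    exact (slice_fderiv hq h1).1
  have hRd : ∀ σ, deriv (fun t => r σ (q t)) t₁ ≠ 0 := by
    intro σ
    set i' := (σ : Equiv.Perm (Fin d)) i
    set j' := (σ : Equiv.Perm (Fin d)) j
    set k' := (σ : Equiv.Perm (Fin d)) k
    have hj'k' : j' ≠ k' := hσ σ hjk
    have hi'k' : i' ≠ k' := hσ σ hik
    have hi'j' : i' ≠ j' := hσ σ hij
    set C : ℂ := J.wedge (P i' x₁) (P k' x₁) / J.wedge (P i' x₁) (P j' x₁) with hC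
    have hC0 : C ≠ 0 := div_ne_zero (h.distinct a _ _ _ hv.mem hi'k')
      (h.distinct a _ _ _ hv.mem hi'j')
    have hw : ∀ l, HasDerivAt (fun t => J.wedge (L (q t)) (P l x₁))
        (dif E (fun z => (L z).1) x₁ (T 1) * (P l x₁).2 -
          dif E (fun z => (L z).2) x₁ (T 1) * (P l x₁).1) t₁ := fun l =>
      (hA.mul_const _).sub (hB.mul_const _)
    have hne : J.wedge (L (q t₁)) (P k' x₁) ≠ 0 := by
      rw [hq0]
      exact hv.ne' h.toIsBranchedOver _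
    have h1 := ((hw j').div (hw k') hne).const_mul C
    have h2 : (fun t => r σ (q t)) =ᶠ[𝓝 t₁] fun t =>
        C * (J.wedge (L (q t)) (P j' x₁) / J.wedge (L (q t)) (P k' x₁)) := by
      filter_upwards [hqe] with t ht
      show J.wedge (p a i' (f (q t))) (p a k' (f (q t))) / J.wedge (p a i' (f (q t)))
        (p a j' (f (q t))) * (J.wedge (L (q t)) (p a j' (f (q t))) /
        J.wedge (L (q t)) (p a k' (f (q t)))) = _
      rw [ht.1]
    rw [h2.deriv_eq]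
    have h3 := h1.deriv
    intro h0
    have h4 : deriv (fun t => C * (J.wedge (L (q t)) (P j' x₁) /
        J.wedge (L (q t)) (P k' x₁))) t₁ = 0 := h0
    rw [show (fun t => C * (J.wedge (L (q t)) (P j' x₁) / J.wedge (L (q t)) (P k' x₁))) =
      fun y => C * ((fun t => J.wedge (L (q t)) (P j' x₁)) / fun t =>
        J.wedge (L (q t)) (P k' x₁)) y from rfl, h3] at h4
    rcases mul_eq_zero.1 h4 with h4 | h4
    · exact hC0 h4
    rcases div_eq_zero_iff.1 h4 with h4 | h4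
    · rw [hq0] at h4
      have h5 : (dif E (fun z => (L z).1) x₁ (T 1) * (P j' x₁).2 -
          dif E (fun z => (L z).2) x₁ (T 1) * (P j' x₁).1) * J.wedge (L x₁) (P k' x₁) -
          J.wedge (L x₁) (P j' x₁) * (dif E (fun z => (L z).1) x₁ (T 1) * (P k' x₁).2 -
          dif E (fun z => (L z).2) x₁ (T 1) * (P k' x₁).1) =
          -((L x₁).1 * dif E (fun z => (L z).2) x₁ (T 1) -
            (L x₁).2 * dif E (fun z => (L z).1) x₁ (T 1)) * J.wedge (P j' x₁) (P k' x₁) := by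
        unfold J.wedge
        ring
      rw [h5, hW1] at h4
      have h6 := h.distinct a _ _ _ hv.mem hj'k'
      apply h6
      have h7 : J.wedge (P j' x₁) (P k' x₁) = 0 := by linear_combination -h4
      exact h7
    · exact pow_ne_zero 2 hne h4
  have hgood : ∀ᶠ t in 𝓝 t₁, Val E f U p c a L (q t) ∧
      (∀ᶠ s in 𝓝 t, f (q s) = f x₁ ∧ ζ (q s) = s) ∧ ContMDiffAt 𝓘(ℂ, ℂ) 𝓘(ℂ, E) ω q t := by
    filter_upwards [hqt.eventually (val_near hf h hv), eventually_eventually_nhds.2 hqe,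
      (contMDiffAt_iff_contMDiffAt_nhds (by simp)).1 hq] with t h1 h2 h3 using ⟨h1, h2, h3⟩
  obtain ⟨t, ⟨g1, g2, g3⟩, g4⟩ := prod_nc hRc hRd (1 : TT' δ) hgood
  have hev := val_near hf h g1
  have hRatio : HolV E (fun z => Ξ z / Θ z) (q t) := by
    refine HolV.congr ?_ (hev.mono fun z hz => (hval z hz).2)
    refine HolV.prod fun σ _ => ?_
    refine ((hrh _ g1 σ).add (HolV.const (-c₀) (q t))).congr (Eventually.of_forall fun z => ?_)
    show r σ z - c₀ = r σ z + -c₀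
    ring
  refine ⟨q t, g2.self_of_nhds.1, hev.mono fun z hz => (hval z hz).1, hRatio,
    (mfderiv 𝓘(ℂ, ℂ) 𝓘(ℂ, E) q t : ℂ →L[ℂ] E) (1 : ℂ),
    slice_ker hf g3 (by
      rw [g2.self_of_nhds.1]
      exact g2.mono fun s hs => hs.1) (1 : ℂ), ?_⟩
  have h1 := (slice_fderiv g3 hRatio).2
  have h2 : dif E (fun z => Ξ z / Θ z) (q t)
      ((mfderiv 𝓘(ℂ, ℂ) 𝓘(ℂ, E) q t : ℂ →L[ℂ] E) (1 : ℂ)) =
      deriv (fun s => Ξ (q s) / Θ (q s)) t := by
    rw [← fderiv_apply_one_eq_deriv, h1]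
    rfl
  rw [h2]
  have h3 : (fun s => Ξ (q s) / Θ (q s)) =ᶠ[𝓝 t] fun s =>
      ∏ σ, (r σ (q s) - r (1 : TT' δ) (q t₁)) := by
    filter_upwards [g3.continuousAt.eventually hev] with s hs
    rw [(hval _ hs).2]
    refine Finset.prod_congr rfl fun σ _ => ?_
    rw [hq0, hc₀]
    rfl
  rw [h3.deriv_eq]
  exact g4

end Line

end Vale.Agent.P281.H713
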