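import Vale.Agent.P281.H713.LineVal

open scoped Manifold ContDiff Topology
open Set Filter Metric Module

namespace Vale.Agent.P281.H713

open Vale.Agent.P281 Vale.Agent.P281.MF Vale.Agent.P281.ISO Vale.Agent.P281.ELL

set_option linter.unusedSectionVars false

universe u

section Line

variable {E E' : Type} [NormedAddCommGroup E] [NormedSpace ℂ E] [FiniteDimensional ℂ E]
  [NormedAddCommGroup E'] [NormedSpace ℂ E'] [FiniteDimensional ℂ E']
variable {X Y : Type u} [TopologicalSpace X] [ChartedSpace E X] [IsManifold 𝓘(ℂ, E) ω X]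
  [TopologicalSpace Y] [ChartedSpace E' Y] [IsManifold 𝓘(ℂ, E') ω Y]
variable {f : X → Y} {S : Set Y} {d : ℕ} {Δ : Set X → ℝ} {δ : Fin d → ℝ} {𝒲 : Set (Set X)}
  {ι : Type u} {U : ι → Set Y} {p : ι → Fin d → Y → ℂ × ℂ} {c : ι → X → ℂ × ℂ}

/-- the values of the products, seen through the Jacobian determinants -/
theorem PB_val (hf : ∀ x, HolM E E' f x) (h : IsLineFamily E E' f S Δ δ 𝒲 U p c)
    (e₀ : E ≃L[ℂ] (E' × ℂ)) {I : Type} [Fintype I] {β : I → Fin d → Fin d → ℂ} {Θ : X → ℂ}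
    (hΘ : ∀ a x L, Val E f U p c a L x → Θ x = PB β (ww e₀ f (p a) L x)) {a : ι} {x : X}
    (ha : f x ∈ U a) {L : X → ℂ × ℂ} (hL1 : HolV E (fun z => (L z).1) x)
    (hL2 : HolV E (fun z => (L z).2) x) (hL0 : L x ≠ 0)
    (hcL : ∀ᶠ z in 𝓝 x, J.wedge (c a z) (L z) = 0) {x₀ : X} {y₀ : Y}
    (hx₀ : x ∈ (chartAt E x₀).source) (hy₀ : f x ∈ (chartAt E' y₀).source) :
    ∃ JJ : X → ℂ, HolV E JJ x ∧ ∀ᶠ z in 𝓝 x, (∀ i, J.wedge (L z) (p a i (f z)) ≠ 0) →
      jac E' (chartAt E' y₀) (f z) ^ Fintype.card I * Θ z =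
        jac E (chartAt E x₀) z ^ Fintype.card I * PB β (fun i j =>
          J.wedge (p a i (f z)) (p a j (f z)) * JJ z /
            (J.wedge (L z) (p a i (f z)) * J.wedge (L z) (p a j (f z)))) := by
  have hfc : ContinuousAt f x := (hf x).continuousAt
  set φ := chartAt E x₀ with hφ
  set ψ := chartAt E' y₀ with hψ
  have hnL2 : HolV E (fun z => -(L z).2) x := by
    refine ((HolV.const (-1 : ℂ) x).mul hL2).congr (Eventually.of_forall fun z => ?_)
    show -(L z).2 = -1 * (L z).2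
    ring
  obtain ⟨JJ, hJJ, hJJe⟩ := form_rep e₀ hf hx₀ hy₀ (g1 := fun z => (L z).1)
    (h1 := fun z => (L z).2) (g2 := fun z => -(L z).2) (h2 := fun z => (L z).1) hL1 hL2 hnL2 hL1
  have hWL : ∀ z, WL E L z = (L z).1 • dif E (fun z => (L z).2) z +
      (-(L z).2) • dif E (fun z => (L z).1) z := fun z => neg_form _ _ _ _
  have hL0e : ∀ᶠ z in 𝓝 x, L z ≠ 0 := by
    by_cases h0 : (L x).1 = 0
    · have h1 : (L x).2 ≠ 0 := fun h1 => hL0 (Prod.ext h0 h1)
      filter_upwards [hL2.continuousAt.eventually_ne h1] with z hz hz0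
      exact hz (by rw [hz0]; rfl)
    · filter_upwards [hL1.continuousAt.eventually_ne h0] with z hz hz0
      exact hz (by rw [hz0]; rfl)
  refine ⟨JJ, hJJ, ?_⟩
  filter_upwards [hJJe, hL1.eventually, hL2.eventually, hL0e, eventually_eventually_nhds.2 hcL,
    hfc.eventually ((h.isOpen a).mem_nhds ha)] with z h1 h2 h3 h4 h5 h6 h7
  have hv : Val E f U p c a L z :=
    ⟨h6, fun k => wedge_ne_of (h.lift a z h6).1 h5.self_of_nhds (h7 k), h2, h3, h4, h5⟩
  rw [hΘ a z L hv, ← PB_scale, ← PB_scale]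
  congr 1
  funext i j
  have h8 : jac E' ψ (f z) * JP e₀ (dM E E' f z) (WL E L z) = JJ z * jac E φ z := by
    rw [hWL]; exact h1.symm
  unfold ww
  calc jac E' ψ (f z) * (J.wedge (p a i (f z)) (p a j (f z)) *
        JP e₀ (dM E E' f z) (WL E L z) /
        (J.wedge (L z) (p a i (f z)) * J.wedge (L z) (p a j (f z))))
      = J.wedge (p a i (f z)) (p a j (f z)) *
        (jac E' ψ (f z) * JP e₀ (dM E E' f z) (WL E L z)) /
        (J.wedge (L z) (p a i (f z)) * J.wedge (L z) (p a j (f z))) := by ring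
    _ = _ := by rw [h8]; ring

theorem line_rel (hf : ∀ x, HolM E E' f x) (h : IsLineFamily E E' f S Δ δ 𝒲 U p c)
    (e₀ : E ≃L[ℂ] (E' × ℂ)) {I : Type} [Fintype I]
    {β : I → Fin d → Fin d → ℂ} (hβ : ∀ t i, β t i i = 0) {κ₀ : Set X → ℕ}
    (hκ₀ : ∀ l, ∀ D ∈ 𝒲, Δ D = δ l → mlt β l ≤ κ₀ D) {Θ : X → ℂ}
    (hΘ : ∀ a x L, Val E f U p c a L x → Θ x = PB β (ww e₀ f (p a) L x)) :
    RelForm f S e₀ (Fintype.card I) 𝒲 κ₀ Θ := by
  classical
  refine ⟨?_, ?_⟩
  · intro x₀ x y₀ hx hx₀ hy₀ T eD hT heD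
    obtain ⟨a, ha⟩ := (h.cover (f x)).1 hx
    obtain ⟨hcx, L, hL1, hL2, hL0, hcL, -, hbr⟩ := h.lift a x ha
    have hL1 : HolV E (fun z => (L z).1) x := hL1
    have hL2 : HolV E (fun z => (L z).2) x := hL2
    obtain ⟨JJ, hJJ, hval⟩ := PB_val hf h e₀ hΘ ha hL1 hL2 hL0 hcL hx₀ hy₀
    have hp1 : ∀ i, HolV E (fun z => (p a i (f z)).1) x := fun i =>
      HolV.comp (E' := E') (h := fun y => (p a i y).1) (h.branch a i (f x) ha).1 (hf x)
    have hp2 : ∀ i, HolV E (fun z => (p a i (f z)).2) x := fun i =>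
      HolV.comp (E' := E') (h := fun y => (p a i y).2) (h.branch a i (f x) ha).2 (hf x)
    set av : Fin d → X → ℂ := fun i z => J.wedge (L z) (p a i (f z)) with hav
    set wd : Fin d → Fin d → X → ℂ := fun i j z => J.wedge (p a i (f z)) (p a j (f z)) with hwd
    have havh : ∀ i, HolV E (av i) x := fun i => hol_wedge hL1 hL2 (hp1 i) (hp2 i)
    have hwdh : ∀ i j, HolV E (wd i j) x := fun i j => hol_wedge (hp1 i) (hp2 i) (hp1 j) (hp2 j)
    have hPX : HolV E (fun z => ∏ D ∈ T, eD D z ^ κ₀ D) x :=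
      HolV.prod fun D hD => ((heD D hD).holAt).pow (κ₀ D)
    by_cases hall : ∀ i, av i x ≠ 0
    · -- away from the marked points
      have hne : ∀ᶠ z in 𝓝 x, ∀ i, av i z ≠ 0 :=
        Filter.eventually_all.2 fun i => (havh i).continuousAt.eventually_ne (hall i)
      refine ⟨fun z => PB β (fun i j => wd i j z * JJ z / (av i z * av j z)) *
        ∏ D ∈ T, eD D z ^ κ₀ D, ?_, ?_⟩
      · refine HolV.mul ?_ hPX
        unfold PB
        exact HolV.prod fun t _ => HolV.sum fun i _ => HolV.sum fun j _ =>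
          (HolV.const (β t i j) x).mul (((hwdh i j).mul hJJ).div ((havh i).mul (havh j))
            (mul_ne_zero (hall i) (hall j)))
      · filter_upwards [hval, hne] with z h1 h2 _ _
        rw [h1 h2]
        ring
    · push Not at hall
      obtain ⟨k, hk⟩ := hall
      obtain ⟨D₀, hD₀, u, hu, hue, -⟩ := hbr k hk
      have hu : IsLocalEq E D₀ u x := hu
      have hue' : ∀ᶠ z in 𝓝 x, av k z = u z := hue.mono fun z hz => by
        rw [pow_one] at hz
        exact hz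
      have hdist : ∀ i, i ≠ k → av i x ≠ 0 := by
        intro i hi h0
        exact h.distinct a k i (f x) ha hi.symm (wedge_zero_of hL0 hk h0)
      have hxD : x ∈ D₀ := by
        rw [hu.mem_iff, ← hue'.self_of_nhds]
        exact hk
      have hw : Δ D₀ = δ k := by
        refine h.weight a k x ha ?_ D₀ hD₀ hxD
        have h1 : J.wedge (L x) (c a x) = 0 := by rw [cf_comm, hcL.self_of_nhds, neg_zero]
        exact cf_trans hL0 h1 hk
      obtain ⟨G, hG, hGe⟩ := PB_local hβ havh hwdh hJJ hdist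
      obtain ⟨g, hg, hge⟩ := px_factor hT heD hu (hκ₀ k D₀ hD₀ hw)
      have hne : ∀ᶠ z in 𝓝 x, ∀ i, i ≠ k → av i z ≠ 0 :=
        Filter.eventually_all.2 fun i => by
          by_cases hi : i = k
          · exact Eventually.of_forall fun z h => absurd hi h
          · exact ((havh i).continuousAt.eventually_ne (hdist i hi)).mono fun z hz _ => hz
      refine ⟨fun z => G z * g z, hG.mul hg, ?_⟩
      filter_upwards [hval, hne, hGe, hge, hue', hu.eventually] with z h1 h2 h3 h4 h5 h6 h7 h8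
      have h9 : av k z ≠ 0 := by
        rw [h5]
        exact fun h0 => h7 D₀ hD₀ (h6.mem_iff.2 h0)
      have h10 : ∀ i, av i z ≠ 0 := fun i => by
        by_cases hi : i = k
        · rw [hi]; exact h9
        · exact h2 i hi
      rw [h1 h10, h4, ← h3 h9, ← h5]
      ring
  · intro r hr
    obtain ⟨M, hM⟩ := dlog_bound 1 hr
    refine ⟨∏ t : I, ∑ i, ∑ j, ‖β t i j‖ * |M|, fun v₀ q q1 q2 q3 q4 q5 P q6 => ?_⟩
    obtain ⟨a, ha⟩ := (h.cover _).1 q4
    obtain ⟨hne, L, hL1, hL2, hL0, hLc, hb⟩ :=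
      ww_bound hf h.toIsBranchedOver e₀ hr hM q1 q2 q3 q5 q6 ha
    rw [hΘ a (q v₀) L ⟨ha, hne, hL1, hL2, hL0, hLc⟩]
    set Jv := JP e₀ (dM E E' f (q v₀)) P with hJv
    unfold PB
    rw [norm_prod, norm_pow, ← Finset.card_univ, ← Finset.prod_const, ← Finset.prod_mul_distrib]
    refine Finset.prod_le_prod (fun _ _ => norm_nonneg _) fun t _ => ?_
    rw [Finset.sum_mul]
    refine (norm_sum_le _ _).trans (Finset.sum_le_sum fun i _ => ?_)
    rw [Finset.sum_mul]
    refine (norm_sum_le _ _).trans (Finset.sum_le_sum fun j _ => ?_)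
    rw [norm_mul]
    by_cases hij : i = j
    · subst hij
      rw [hβ, norm_zero]
      simp
    · calc ‖β t i j‖ * ‖ww e₀ f (p a) L (q v₀) i j‖ ≤ ‖β t i j‖ * (|M| * ‖Jv‖) := by
            refine mul_le_mul_of_nonneg_left ((hb i j hij).trans ?_) (norm_nonneg _)
            exact mul_le_mul_of_nonneg_right (le_abs_self M) (norm_nonneg _)
        _ = _ := by ring

end Line

end Vale.Agent.P281.H713
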