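import Vale.Agent.P281.H713.DefsL
import Vale.Agent.P281.H713.Wrap
import Vale.Agent.P281.ELL.CovForms
import Vale.Agent.P281.ELL.CovLocal
import Vale.Agent.P281.ELL.CovSlice

open scoped Manifold ContDiff Topology
open Set Filter Metric Module

namespace Vale.Agent.P281.H713

open Vale.Agent.P281 Vale.Agent.P281.MF Vale.Agent.P281.ISO Vale.Agent.P281.ELL

set_option linter.unusedSectionVars false

universe u

/-- products of linear combinations of the `w i j` -/
def PB {I : Type} [Fintype I] {d : ℕ} (β : I → Fin d → Fin d → ℂ) (w : Fin d → Fin d → ℂ) : ℂ :=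
  ∏ t, ∑ i, ∑ j, β t i j * w i j

/-- the order of the pole of `PB β` at the `l`-th point -/
noncomputable def mlt {I : Type} [Fintype I] {d : ℕ} (β : I → Fin d → Fin d → ℂ) (l : Fin d) : ℕ :=
  (Set.toFinite {t | ∃ j, β t l j ≠ 0 ∨ β t j l ≠ 0}).toFinset.card

section Line

variable {E E' : Type} [NormedAddCommGroup E] [NormedSpace ℂ E] [FiniteDimensional ℂ E]
  [NormedAddCommGroup E'] [NormedSpace ℂ E'] [FiniteDimensional ℂ E']
variable {X Y : Type u} [TopologicalSpace X] [ChartedSpace E X] [IsManifold 𝓘(ℂ, E) ω X]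
  [TopologicalSpace Y] [ChartedSpace E' Y] [IsManifold 𝓘(ℂ, E') ω Y]
variable {f : X → Y} {S : Set Y} {d : ℕ} {Δ : Set X → ℝ} {δ : Fin d → ℝ} {𝒲 : Set (Set X)}
  {ι : Type u} {U : ι → Set Y} {p : ι → Fin d → Y → ℂ × ℂ} {c : ι → X → ℂ × ℂ}

/-- the permutations respect the weights -/
theorem perm_weight (h : IsLineFamily E E' f S Δ δ 𝒲 U p c) {a b : ι} {y : Y} (ha : y ∈ U a)
    (hb : y ∈ U b) {A : (ℂ × ℂ) ≃ₗ[ℂ] (ℂ × ℂ)} {σ : Equiv.Perm (Fin d)}
    (hA : ∀ x, f x = y → J.wedge (c b x) (A (c a x)) = 0)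
    (hσ : ∀ k, J.wedge (p b (σ k) y) (A (p a k y)) = 0) (hd : 2 ≤ d) (k : Fin d) :
    δ (σ k) = δ k := by
  obtain ⟨x, hx, hxk⟩ := h.surj a y ha (p a k y)
  subst hx
  have hpa : p a k (f x) ≠ 0 := by
    intro h0
    obtain ⟨k', hk'⟩ : ∃ k', k ≠ k' := by
      by_cases h1 : k = ⟨0, by omega⟩
      · exact ⟨⟨1, by omega⟩, by rw [h1]; simp [Fin.ext_iff]⟩
      · exact ⟨⟨0, by omega⟩, h1⟩
    apply h.distinct a k k' (f x) ha hk'
    rw [h0]
    simp [J.wedge]
  obtain ⟨hca, L, hL1, hL2, hL0, hLc, -, hbr⟩ := h.lift a x ha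
  have h1 : J.wedge (L x) (p a k (f x)) = 0 := cf_trans hca hLc.self_of_nhds hxk
  obtain ⟨D, hD, u, hu, hue, -⟩ := hbr k h1
  have hxD : x ∈ D := by
    have hu' : IsLocalEq E D u x := hu
    rw [hu'.mem_iff]
    have h2 := hue.self_of_nhds
    rw [h1, pow_one] at h2
    exact h2.symm
  rw [← h.weight a k x ha hxk D hD hxD]
  refine (h.weight b (σ k) x hb ?_ D hD hxD).symm
  -- the point `x` is the `σ k`-th point for `b`
  obtain ⟨μ, hμ⟩ := cf_prop hxk hca
  have hμ0 : μ ≠ 0 := by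
    rintro rfl
    exact hpa (by rw [hμ, zero_smul])
  have h3 : J.wedge (c b x) (A (p a k (f x))) = 0 := by
    rw [hμ, map_smul]
    have h4 := cf_smul 1 μ (c b x) (A (c a x))
    rw [one_smul, hA x rfl, mul_zero] at h4
    exact h4
  have hcb := (h.lift b x hb).1
  have hAp : A (p a k (f x)) ≠ 0 := fun h0 => hpa ((LinearEquiv.map_eq_zero_iff A).1 h0)
  have h5 : J.wedge (A (p a k (f x))) (c b x) = 0 := by rw [cf_comm, h3, neg_zero]
  have h6 : J.wedge (A (p a k (f x))) (p b (σ k) (f x)) = 0 := by rw [cf_comm, hσ k, neg_zero]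
  exact cf_trans hAp h5 h6

/-- invariance of the forms `ww`, for a given change of coordinates. -/
theorem ww_inv' (hf : ∀ x, HolM E E' f x) (h : IsLineFamily E E' f S Δ δ 𝒲 U p c)
    (hd : 2 ≤ d) (e₀ : E ≃L[ℂ] (E' × ℂ)) {a b : ι} {L L' : X → ℂ × ℂ} {x : X}
    (hv : Val E f U p c a L x) (hv' : Val E f U p c b L' x) :
    ∃ σ : Equiv.Perm (Fin d), (∀ k, δ (σ k) = δ k) ∧ ∀ i j,
      ww e₀ f (p b) L' x (σ i) (σ j) = ww e₀ f (p a) L x i j := by
  obtain ⟨A, σ, hA, hσ⟩ := h.change a b (f x) ⟨hv.mem, hv'.mem⟩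
  obtain ⟨κ, η, hκ, hκ', h1, h2, h3⟩ := wron_key (hf x) e₀ hv.hol1 hv.hol2 hv'.hol1 hv'.hol2
    hv.ne0 hv'.ne0 (hv.inj hf h.toIsBranchedOver e₀) A (by
      filter_upwards [hv.prop, hv'.prop] with z h1 h2 h3
      have hza : c a z ≠ 0 := (h.lift a z (by rw [h3]; exact hv.mem)).1
      have hzb : c b z ≠ 0 := (h.lift b z (by rw [h3]; exact hv'.mem)).1
      obtain ⟨μ, hμ⟩ := cf_prop h1 hza
      have h4 : J.wedge (c b z) (A (L z)) = 0 := by
        have h5 := cf_smul 1 μ (c b z) (A (c a z))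
        rw [one_smul, one_mul, hA z h3, mul_zero] at h5
        rw [hμ, map_smul]
        exact h5
      exact cf_trans hzb h2 h4)
  have hδ := cf_det_ne A
  set δ' := J.wedge (A (1, 0)) (A (0, 1)) with hδdef
  have hJ : JP e₀ (dM E E' f x) (WL E L' x) = κ ^ 2 * δ' * JP e₀ (dM E E' f x) (WL E L x) :=
    JP_scale e₀ h1 h2 (mul_ne_zero (pow_ne_zero 2 hκ) hδ) h3
  have hp : ∀ k, ∃ ν : ℂ, ν ≠ 0 ∧ p b (σ k) (f x) = ν • A (p a k (f x)) := by
    intro k
    have h4 : p a k (f x) ≠ 0 := by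
      intro h0
      apply hv.ne k
      rw [h0]
      simp [J.wedge]
    have h5 : A (p a k (f x)) ≠ 0 := fun h0 => h4 ((LinearEquiv.map_eq_zero_iff A).1 h0)
    obtain ⟨ν, hν⟩ := cf_prop (by rw [cf_comm, hσ k, neg_zero] :
      J.wedge (A (p a k (f x))) (p b (σ k) (f x)) = 0) h5
    refine ⟨ν, ?_, hν⟩
    rintro rfl
    apply hv'.ne (σ k)
    rw [hν, zero_smul]
    simp [J.wedge]
  refine ⟨σ, perm_weight h hv.mem hv'.mem hA hσ hd, fun i j => ?_⟩
  obtain ⟨νi, hνi, hi⟩ := hp i
  obtain ⟨νj, hνj, hj⟩ := hp j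
  unfold ww
  rw [hJ, hi, hj, hκ', cf_smul, cf_smul, cf_smul,
    cf_wedge_lin A (p a i (f x)) (p a j (f x)), cf_wedge_lin A (L x) (p a i (f x)),
    cf_wedge_lin A (L x) (p a j (f x)), ← hδdef]
  have hc : κ ^ 2 * νi * νj * δ' ^ 2 ≠ 0 :=
    mul_ne_zero (mul_ne_zero (mul_ne_zero (pow_ne_zero 2 hκ) hνi) hνj) (pow_ne_zero 2 hδ)
  rw [← mul_div_mul_left (J.wedge (p a i (f x)) (p a j (f x)) * JP e₀ (dM E E' f x) (WL E L x))
    (J.wedge (L x) (p a i (f x)) * J.wedge (L x) (p a j (f x))) hc]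
  congr 1 <;> ring

/-- the values of the forms -/
theorem exists_line (hf : ∀ x, HolM E E' f x) (h : IsLineFamily E E' f S Δ δ 𝒲 U p c)
    (hd : 2 ≤ d) (e₀ : E ≃L[ℂ] (E' × ℂ)) {Φ : (Fin d → Fin d → ℂ) → ℂ}
    (hΦ : ∀ σ : Equiv.Perm (Fin d), (∀ k, δ (σ k) = δ k) → ∀ w,
      Φ (fun i j => w (σ i) (σ j)) = Φ w) :
    ∃ Θ : X → ℂ, ∀ a x L, Val E f U p c a L x → Θ x = Φ (ww e₀ f (p a) L x) := by
  classical
  let P : X → Prop := fun x => ∃ q : ι × (X → ℂ × ℂ), Val E f U p c q.1 q.2 x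
  refine ⟨fun x => if hx : P x then Φ (ww e₀ f (p hx.choose.1) hx.choose.2 x) else 0, ?_⟩
  intro a x L hv
  have hx : P x := ⟨(a, L), hv⟩
  obtain ⟨σ, hσ1, hσ2⟩ := ww_inv' hf h hd e₀ hv hx.choose_spec
  simp only [dif_pos hx]
  rw [← hΦ σ hσ1]
  congr 1
  funext i j
  exact hσ2 i j

theorem PB_scale {I : Type} [Fintype I] (β : I → Fin d → Fin d → ℂ) (w : Fin d → Fin d → ℂ)
    (s : ℂ) : PB β (fun i j => s * w i j) = s ^ Fintype.card I * PB β w := by
  unfold PB
  rw [← Finset.card_univ, ← Finset.prod_const, ← Finset.prod_mul_distrib]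
  refine Finset.prod_congr rfl fun t _ => ?_
  rw [Finset.mul_sum]
  refine Finset.sum_congr rfl fun i _ => ?_
  rw [Finset.mul_sum]
  refine Finset.sum_congr rfl fun j _ => ?_
  ring

/-- local structure of the products -/
theorem PB_local {I : Type} [Fintype I] {β : I → Fin d → Fin d → ℂ} (hβ : ∀ t i, β t i i = 0)
    {x : X} {av : Fin d → X → ℂ} {wd : Fin d → Fin d → X → ℂ} {JJ : X → ℂ}
    (hav : ∀ i, HolV E (av i) x) (hwd : ∀ i j, HolV E (wd i j) x) (hJJ : HolV E JJ x) {l : Fin d}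
    (hl : ∀ i, i ≠ l → av i x ≠ 0) :
    ∃ G : X → ℂ, HolV E G x ∧ ∀ᶠ z in 𝓝 x, av l z ≠ 0 →
      PB β (fun i j => wd i j z * JJ z / (av i z * av j z)) * av l z ^ mlt β l = G z := by
  classical
  -- the factors
  let b : I → X → ℂ := fun t z => ∑ i, ∑ j, β t i j * (wd i j z * JJ z / (av i z * av j z))
  have hb : ∀ t, ∃ g : X → ℂ, HolV E g x ∧ ∀ᶠ z in 𝓝 x, av l z ≠ 0 →
      b t z * av l z ^ (if ∃ j, β t l j ≠ 0 ∨ β t j l ≠ 0 then 1 else 0) = g z := by
    intro t
    by_cases ht : ∃ j, β t l j ≠ 0 ∨ β t j l ≠ 0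
    · simp only [if_pos ht, pow_one]
      let g : X → ℂ := fun z => ∑ i, ∑ j, β t i j * (wd i j z * JJ z *
        (if i = l then (if j = l then 0 else 1 / av j z) else
          (if j = l then 1 / av i z else av l z * (1 / av i z * (1 / av j z)))))
      refine ⟨g, ?_, ?_⟩
      · refine HolV.sum fun i _ => HolV.sum fun j _ => ?_
        refine (HolV.const (β t i j) x).mul (((hwd i j).mul hJJ).mul ?_)
        by_cases hi : i = l
        · by_cases hj : j = l
          · simp only [if_pos hi, if_pos hj]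
            exact HolV.const (0 : ℂ) x
          · simp only [if_pos hi, if_neg hj]
            exact (HolV.const (1 : ℂ) x).div (hav j) (hl j hj)
        · by_cases hj : j = l
          · simp only [if_neg hi, if_pos hj]
            exact (HolV.const (1 : ℂ) x).div (hav i) (hl i hi)
          · simp only [if_neg hi, if_neg hj]
            exact (hav l).mul (((HolV.const (1 : ℂ) x).div (hav i) (hl i hi)).mul
              ((HolV.const (1 : ℂ) x).div (hav j) (hl j hj)))
      · refine Eventually.of_forall fun z hz => ?_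
        show (∑ i, ∑ j, β t i j * (wd i j z * JJ z / (av i z * av j z))) * av l z = g z
        rw [Finset.sum_mul]
        refine Finset.sum_congr rfl fun i _ => ?_
        rw [Finset.sum_mul]
        refine Finset.sum_congr rfl fun j _ => ?_
        by_cases hi : i = l
        · by_cases hj : j = l
          · rw [if_pos hi, if_pos hj]
            subst hi
            subst hj
            rw [hβ]
            ring
          · rw [if_pos hi, if_neg hj]
            subst hi
            rcases eq_or_ne (av j z) 0 with h0 | h0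
            · rw [h0]; simp
            · field_simp
        · by_cases hj : j = l
          · rw [if_neg hi, if_pos hj]
            subst hj
            rcases eq_or_ne (av i z) 0 with h0 | h0
            · rw [h0]; simp
            · field_simp
          · rw [if_neg hi, if_neg hj]
            ring
    · simp only [if_neg ht, pow_zero, mul_one]
      push Not at ht
      refine ⟨b t, ?_, Eventually.of_forall fun z _ => rfl⟩
      refine HolV.sum fun i _ => HolV.sum fun j _ => ?_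
      by_cases hi : i = l
      · subst hi
        have h1 : (fun z => β t i j * (wd i j z * JJ z / (av i z * av j z))) = fun _ => 0 := by
          funext z
          rw [(ht j).1, zero_mul]
        rw [h1]
        exact HolV.const (0 : ℂ) x
      · by_cases hj : j = l
        · subst hj
          have h1 : (fun z => β t i j * (wd i j z * JJ z / (av i z * av j z))) =
              fun _ => 0 := by
            funext z
            rw [(ht i).2, zero_mul]
          rw [h1]
          exact HolV.const (0 : ℂ) x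
        · exact (HolV.const (β t i j) x).mul (((hwd i j).mul hJJ).div
            ((hav i).mul (hav j)) (mul_ne_zero (hl i hi) (hl j hj)))
  choose g hg hge using hb
  refine ⟨fun z => ∏ t, g t z, HolV.prod fun t _ => hg t, ?_⟩
  filter_upwards [Filter.eventually_all.2 hge] with z hz hz0
  have h1 : mlt β l = ∑ t, (if ∃ j, β t l j ≠ 0 ∨ β t j l ≠ 0 then 1 else 0) := by
    unfold mlt
    rw [Finset.sum_boole]
    simp only [Nat.cast_id]
    congr 1
    ext t
    simp
  rw [h1, ← Finset.prod_pow_eq_pow_sum]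
  unfold PB
  rw [← Finset.prod_mul_distrib]
  exact Finset.prod_congr rfl fun t _ => hz t hz0

end Line

end Vale.Agent.P281.H713
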