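import Vale.Agent.P281.H713.DefsO
import Vale.Agent.P281.H713.MainB
import Vale.Agent.P281.H713.EllNC
import Vale.Agent.P281.H713.LineHas
import Vale.Agent.P281.H713.FibH

open scoped Manifold ContDiff Topology
open Set Filter Metric Module

namespace Vale.Agent.P281.H713

open Vale.Agent.P281 Vale.Agent.P281.MF Vale.Agent.P281.ISO Vale.Agent.P281.ELL

set_option linter.unusedSectionVars false

universe u

section Main

variable {E E' E₀ : Type} [NormedAddCommGroup E] [NormedSpace ℂ E] [FiniteDimensional ℂ E]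
  [NormedAddCommGroup E'] [NormedSpace ℂ E'] [FiniteDimensional ℂ E']
  [NormedAddCommGroup E₀] [NormedSpace ℂ E₀] [FiniteDimensional ℂ E₀]
variable {X Z Y F : Type u} [TopologicalSpace X] [ChartedSpace E X] [IsManifold 𝓘(ℂ, E) ω X]
  [TopologicalSpace Z] [ChartedSpace E Z] [IsManifold 𝓘(ℂ, E) ω Z]
  [TopologicalSpace Y] [ChartedSpace E' Y] [IsManifold 𝓘(ℂ, E') ω Y]
  [TopologicalSpace F] [ChartedSpace E₀ F] [IsManifold 𝓘(ℂ, E₀) ω F]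

theorem sub_line {f : Z → Y} {S : Set Y} {d : ℕ} {Δ : Set Z → ℝ} {δ : Fin d → ℝ}
    {𝒲 : Set (Set Z)} {ι : Type u} {U : ι → Set Y} {p : ι → Fin d → Y → ℂ × ℂ}
    {c : ι → Z → ℂ × ℂ} (hE : finrank ℂ E = finrank ℂ E' + 1)
    (h : IsLineFamily E E' f S Δ δ 𝒲 U p c) (x : Z) (hx : f x ∉ S) :
    Function.Surjective (dM E E' f x) := by
  obtain ⟨a, ha⟩ := (h.cover _).1 hx
  obtain ⟨hcx, L, hL1, hL2, hL0, hcL, hunm, hbr⟩ := h.lift a x ha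
  by_cases hall : ∀ k, J.wedge (L x) (p a k (f x)) ≠ 0
  · refine surj_of_coord (E₀ := ℂ) (by rw [hE, Module.finrank_self]) (P := WL E L x)
      fun ξ h1 h2 => hunm hall ξ h1 ?_
    exact (WL_apply L x ξ).symm.trans h2
  · push Not at hall
    obtain ⟨k, hk⟩ := hall
    obtain ⟨D, hD, u, hu, hue, hinj⟩ := hbr k hk
    exact surj_of_coord (E₀ := ℂ) (by rw [hE, Module.finrank_self]) hinj

/-- the weights are the coefficients -/
theorem weight_eq {f : Z → Y} {S : Set Y} {d : ℕ} {Δ : Set Z → ℝ} {δ : Fin d → ℝ}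
    {𝒲 : Set (Set Z)} {ι : Type u} {U : ι → Set Y} {p : ι → Fin d → Y → ℂ × ℂ}
    {c : ι → Z → ℂ × ℂ} (h : IsLineFamily E E' f S Δ δ 𝒲 U p c) {y : Y} (hy : y ∉ S)
    (l : Fin d) : ∃ D ∈ 𝒲, Δ D = δ l := by
  obtain ⟨a, ha⟩ := (h.cover y).1 hy
  obtain ⟨x, hx, hxw⟩ := h.surj a y ha (p a l y)
  subst hx
  obtain ⟨hcx, L, -, -, hL0, hcL, -, hbr⟩ := h.lift a x ha
  obtain ⟨D, hD, u, hu, hue, -⟩ := hbr l (cf_trans hcx hcL.self_of_nhds hxw)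
  have hu : IsLocalEq E D u x := hu
  have hxD : x ∈ D := by
    rw [hu.mem_iff]
    have h2 := hue.self_of_nhds
    rw [cf_trans hcx hcL.self_of_nhds hxw, pow_one] at h2
    exact h2.symm
  exact ⟨D, hD, h.weight a l x ha hxw D hD hxD⟩

/-- fibrations of relative dimension one -/
theorem main_one [Nonempty X] (hE : finrank ℂ E = finrank ℂ E' + 1)
    (hE₀ : finrank ℂ E₀ = 1)
    (j : Z → X) (hj : J.IsBigOpen E j) (f : Z → Y) (hf : ContMDiff 𝓘(ℂ, E) 𝓘(ℂ, E') ω f)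
    (𝒢 : Set (Set Y)) (h𝒢 : J.IsDivisorial E E' f 𝒢)
    (Δ : Set X → ℝ) (hsnc : J.IsSNC E Δ) (Δ' : Set Z → ℝ) (hsnc' : J.IsSNC E Δ')
    (hΔ : J.IsRestriction j Δ Δ') (hBS : ∀ G, J.orbBase' E E' f Δ' G ≠ 0 → G ∈ 𝒢)
    (hC : IsFamilyOfCurves E E' f (⋃₀ 𝒢) Δ')
    [CompactSpace F] [PreconnectedSpace F] (i : F → Z) (hi : ContMDiff 𝓘(ℂ, E₀) 𝓘(ℂ, E) ω i)
    (hi₃ : ∀ p, Function.Injective (mfderiv 𝓘(ℂ, E₀) 𝓘(ℂ, E) i p)) {y : Y} (hy : y ∉ ⋃₀ 𝒢)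
    (hfi : ∀ p, f (i p) = y) :
    J.kod E₀ (fun (D : Set Z) p g => ∃ e, J.IsLocalEq E D e (i p) ∧
        ∀ᶠ q in 𝓝 p, g q = e (i q)) Δ' +
      J.kod E' (fun (G : Set Y) z g => J.IsLocalEq E' G g z) (J.orbBase' E E' f Δ') ≤
      J.kod E (fun (D : Set X) z g => J.IsLocalEq E D g z) Δ := by
  rw [JB.kod_eq, JB.kod_eq, JB.kod_eq]
  let e₀ : E ≃L[ℂ] (E' × ℂ) := ContinuousLinearEquiv.ofFinrankEq (by
    rw [hE, Module.finrank_prod, Module.finrank_self])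
  have hs' := JB.snc hsnc'
  have hfh : ∀ x, HolM E E' f x := fun x => hf x
  have hih : ∀ p, HolM E₀ E i p := fun p => hi p
  have hΔ0 : ∀ D, 0 ≤ Δ' D := fun D => (snc01 hs' D).1
  have h𝒲f : (horizontal f (⋃₀ 𝒢) Δ').Finite := hs'.finite.subset fun D hD => hD.1
  have h𝒲p : ∀ D ∈ horizontal f (⋃₀ 𝒢) Δ', IsPrimeDivisor E D := fun D hD => hs'.prime D hD.1
  have h𝒲 : ∀ D, Δ' D ≠ 0 → D ∈ horizontal f (⋃₀ 𝒢) Δ' ∨ D ⊆ f ⁻¹' (⋃₀ 𝒢) := by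
    intro D hD
    by_cases h1 : D ⊆ f ⁻¹' (⋃₀ 𝒢)
    · exact Or.inr h1
    · exact Or.inl ⟨hD, h1⟩
  have hpos : ∀ D ∈ horizontal f (⋃₀ 𝒢) Δ', 0 < Δ' D := fun D hD =>
    lt_of_le_of_ne (hΔ0 D) hD.1.symm
  refine kod_add_le fun j₁ j₂ h₁ h₂ => ?_
  have hj₁ : j₁ ≤ 1 := by
    have := kodGE_le h₁
    rwa [hE₀] at this
  have hfin : KodGE E (fun (D : Set X) z g => IsLocalEq E D g z) Δ (j₂ + 1) →
      KodGE E (fun (D : Set X) z g => IsLocalEq E D g z) Δ (j₁ + j₂) := by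
    intro hmain
    rcases Nat.eq_zero_or_pos j₁ with h0 | h0
    · rw [h0, zero_add]
      exact kodGE_pred' hmain
    · have h1 : j₁ = 1 := by omega
      rw [h1, add_comm]
      exact hmain
  rcases hC with hC | hC | hC
  · obtain ⟨g, n, Q, ι, U, π, α, hg, hC⟩ := hC
    refine hfin (kodGE_of_forms (r := 1) j hj f hf 𝒢 h𝒢 (fun x hx => ?_)
      e₀ Δ hsnc Δ' hsnc' hΔ hBS (fun y hy => hasForms_curve hC ?_ hfh e₀ hΔ0 hy) h₂)
    · obtain ⟨ζ, -, h1⟩ := hC.coord x hx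
      exact surj_of_coord (E₀ := ℂ) (by rw [hE, Module.finrank_self]) h1
    · rw [finrank_euclideanSpace_fin]
      exact hg
  · obtain ⟨n, d, Q, ι, U, π, u, p, hC⟩ := hC
    have hT := hC.toIsTorusFamily
    have hn : 0 < n := by
      obtain ⟨a₀, ha₀⟩ := (hT.cover y).1 hy
      exact pos_of_period (π a₀ y) (by rw [Module.finrank_self]; exact one_pos)
    have hsub : ∀ x, f x ∉ ⋃₀ 𝒢 → Function.Surjective (dM E E' f x) := by
      intro x hx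
      obtain ⟨a, ha⟩ := (hT.cover _).1 hx
      obtain ⟨ζ, -, -, h1⟩ := hT.coord a x ha
      exact surj_of_coord (E₀ := ℂ) (by rw [hE, Module.finrank_self])
        (P := (mfderiv 𝓘(ℂ, E) 𝓘(ℂ, ℂ) ζ x : E →L[ℂ] ℂ)) h1
    rcases Nat.eq_zero_or_pos d with hd | hd
    · have h3 : ∀ D, Δ' D ≠ 0 → ∀ q, i q ∉ D := by
        intro D hD q hq
        have hfq : f (i q) ∉ ⋃₀ 𝒢 := by rw [hfi]; exact hy
        obtain ⟨a, ha⟩ := (hT.cover _).1 hfq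
        rcases h𝒲 D hD with h1 | h1
        · obtain ⟨l, -⟩ := hC.marked a (i q) ha D h1 hq
          rw [hd] at l
          exact l.elim0
        · exact hfq (h1 hq)
      have hj0 : j₁ = 0 := kodF_ell hE₀ hT hfh hy hih hfi hi₃ h3 h₁
      rw [hj0, zero_add]
      exact kodGE_of_forms (r := 0) j hj f hf 𝒢 h𝒢 hsub e₀ Δ hsnc Δ' hsnc' hΔ hBS
        (fun y hy => hasForms_torus hn hT hfh e₀ hΔ0 hy) h₂
    · obtain ⟨δ, hδ, hδ'⟩ : ∃ δ : ℝ, 0 < δ ∧ ∀ D ∈ horizontal f (⋃₀ 𝒢) Δ', δ ≤ Δ' D := by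
        rcases (horizontal f (⋃₀ 𝒢) Δ').eq_empty_or_nonempty with h0 | h0
        · exact ⟨1, one_pos, fun D hD => by rw [h0] at hD; exact absurd hD (Set.notMem_empty D)⟩
        · obtain ⟨D₀, hD₀, hmin⟩ := h𝒲f.exists_minimalFor Δ' _ h0
          refine ⟨Δ' D₀, hpos D₀ hD₀, fun D hD => ?_⟩
          rcases le_total (Δ' D₀) (Δ' D) with h1 | h1
          · exact h1
          · exact hmin hD h1
      exact hfin (kodGE_of_forms (r := 1) j hj f hf 𝒢 h𝒢 hsub e₀ Δ hsnc Δ' hsnc' hΔ hBS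
        (fun y hy => hasForms_ell hd hC h𝒲f h𝒲p hfh e₀ hΔ0 hδ hδ' hy) h₂)
  · obtain ⟨d, δ, ι, U, p, c, hC⟩ := hC
    have hsub := sub_line hE hC
    have hq : ∀ l, ∃ q : ℚ, δ l = q := by
      intro l
      obtain ⟨D, hD, hDl⟩ := weight_eq hC hy l
      obtain ⟨q, h1, -⟩ := hs'.rational D
      exact ⟨q, by rw [← hDl, h1]⟩
    have h0 : ∀ l, 0 < δ l := by
      intro l
      obtain ⟨D, hD, hDl⟩ := weight_eq hC hy l
      rw [← hDl]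
      exact hpos D hD
    have h1 : ∀ l, δ l ≤ 1 := by
      intro l
      obtain ⟨D, hD, hDl⟩ := weight_eq hC hy l
      rw [← hDl]
      exact (snc01 hs' D).2
    rcases le_or_gt (∑ l, δ l) 2 with hs | hs
    · obtain ⟨hs2, hj0⟩ := kodF_line hE₀ hfh hC hih hy hfi hi₃ h𝒲 hs h₁
      rw [hj0, zero_add]
      exact kodGE_of_forms (r := 0) j hj f hf 𝒢 h𝒢 hsub e₀ Δ hsnc Δ' hsnc' hΔ hBS
        (fun y hy => hasForms_line₀ hfh hC h𝒲f h𝒲p e₀ hΔ0 hq (fun l => (h0 l).le) h1 hs2 hy) h₂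
    · exact hfin (kodGE_of_forms (r := 1) j hj f hf 𝒢 h𝒢 hsub e₀ Δ hsnc Δ' hsnc' hΔ hBS
        (fun y hy => hasForms_line₁ hfh hC h𝒲f h𝒲p e₀ hΔ0 hq h0 h1 hs hy) h₂)

end Main

end Vale.Agent.P281.H713
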