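import Vale.Agent.P281.H713.Poinc3

open scoped Topology ContDiff ENNReal
open Set Filter Complex Module MeasureTheory Metric

namespace Vale.Agent.P281.H713

set_option linter.unusedSectionVars false

/-! ### Sums over separated sets -/

section Packing

/-- the sum of the inverse cubes over a separated set -/
theorem packing : ∃ C : ℝ, 0 ≤ C ∧ ∀ (ι : Type) (s : ι → ℂ) (ρ : ℝ), 0 < ρ → (∀ i, ρ ≤ ‖s i‖) →
    (∀ i j, i ≠ j → ρ ≤ ‖s i - s j‖) → ∀ F : Finset ι, ∑ i ∈ F, (ρ / ‖s i‖) ^ 3 ≤ C := by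
  classical
  set g : ℂ → ℝ := fun z => (1 + ‖z‖) ^ (-(3 : ℝ)) with hg
  have hgi : Integrable g := integrable_one_add_norm (by
    rw [Complex.finrank_real_complex]
    norm_num)
  have hg0 : ∀ z, 0 ≤ g z := fun z => by positivity
  set b : ℝ := (volume (ball (0 : ℂ) (1 / 2))).toReal with hb
  have hb0 : 0 < b := ENNReal.toReal_pos (measure_ball_pos volume 0 (by norm_num)).ne'
    measure_ball_lt_top.ne
  refine ⟨(5 / 2) ^ 3 * (∫ z, g z) / b, by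
    have := integral_nonneg (μ := (volume : Measure ℂ)) (f := g) hg0
    positivity, ?_⟩
  intro ι s ρ hρ h1 h2 F
  set t : ι → ℂ := fun i => s i / ρ with ht
  have hρ' : ‖(ρ : ℂ)‖ = ρ := by rw [Complex.norm_real, Real.norm_eq_abs, abs_of_pos hρ]
  have ht1 : ∀ i, 1 ≤ ‖t i‖ := fun i => by
    rw [ht]
    simp only [norm_div, hρ']
    rw [one_le_div hρ]
    exact h1 i
  have ht2 : ∀ i j, i ≠ j → 1 ≤ ‖t i - t j‖ := fun i j hij => by
    rw [ht]
    simp only [← sub_div, norm_div, hρ']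
    rw [one_le_div hρ]
    exact h2 i j hij
  have hst : ∀ i, ρ / ‖s i‖ = ‖t i‖⁻¹ := fun i => by
    rw [ht]
    simp only [norm_div, hρ', inv_div]
  have hdisj : ∀ i j, i ≠ j → Disjoint (ball (t i) (1 / 2)) (ball (t j) (1 / 2)) := by
    intro i j hij
    rw [Set.disjoint_left]
    intro z hz hz'
    have h3 := ht2 i j hij
    have h4 : dist (t i) (t j) ≤ dist (t i) z + dist z (t j) := dist_triangle _ _ _
    rw [dist_comm (t i) z] at h4
    have h5 := mem_ball.1 hz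
    have h6 := mem_ball.1 hz'
    rw [dist_eq_norm (t i) (t j)] at h4
    linarith
  have hball : ∀ i, (‖t i‖⁻¹) ^ 3 * b ≤ (5 / 2) ^ 3 * ∫ z in ball (t i) (1 / 2), g z := by
    intro i
    have h3 : ∀ z ∈ ball (t i) (1 / 2), (‖t i‖⁻¹) ^ 3 * (2 / 5) ^ 3 ≤ g z := by
      intro z hz
      have h4 : ‖z‖ ≤ ‖t i‖ + 1 / 2 := by
        have h5 := mem_ball.1 hz
        rw [dist_eq_norm] at h5
        have h6 : ‖z‖ ≤ ‖z - t i‖ + ‖t i‖ := by
          calc ‖z‖ = ‖z - t i + t i‖ := by rw [sub_add_cancel]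
            _ ≤ _ := norm_add_le _ _
        linarith
      have h5 : 1 + ‖z‖ ≤ 5 / 2 * ‖t i‖ := by
        have := ht1 i
        linarith
      have h6 : 0 < ‖t i‖ := lt_of_lt_of_le one_pos (ht1 i)
      have h7 : g z = ((1 + ‖z‖)⁻¹) ^ 3 := by
        rw [hg]
        simp only
        rw [Real.rpow_neg (by positivity), inv_pow]
        congr 1
        exact Real.rpow_natCast _ 3
      rw [h7, ← mul_pow]
      refine pow_le_pow_left₀ (by positivity) ?_ 3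
      rw [show (2 / 5 : ℝ) = (5 / 2)⁻¹ by norm_num, ← mul_inv]
      refine inv_anti₀ (by positivity) ?_
      linarith
    have h4 : (‖t i‖⁻¹) ^ 3 * (2 / 5) ^ 3 * b ≤ ∫ z in ball (t i) (1 / 2), g z := by
      have h5 := setIntegral_mono_on (μ := (volume : Measure ℂ)) (s := ball (t i) (1 / 2))
        (f := fun _ => (‖t i‖⁻¹) ^ 3 * (2 / 5) ^ 3) (g := g)
        (integrableOn_const measure_ball_lt_top.ne) hgi.integrableOn measurableSet_ball h3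
      rw [setIntegral_const, smul_eq_mul] at h5
      have h6 : volume.real (ball (t i) (1 / 2)) = b := by
        rw [hb, Measure.real]
        congr 1
        exact Measure.addHaar_ball_center _ _ _
      rw [h6] at h5
      linarith
    calc (‖t i‖⁻¹) ^ 3 * b = (5 / 2) ^ 3 * ((‖t i‖⁻¹) ^ 3 * (2 / 5) ^ 3 * b) := by ring
      _ ≤ _ := by gcongr
  have hsum : ∑ i ∈ F, ∫ z in ball (t i) (1 / 2), g z ≤ ∫ z, g z := by
    rw [← integral_biUnion_finset F (fun i _ => measurableSet_ball)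
      (fun i _ j _ hij => hdisj i j hij) (fun i _ => hgi.integrableOn)]
    exact setIntegral_le_integral hgi (Eventually.of_forall hg0)
  rw [le_div_iff₀ hb0, Finset.sum_mul]
  calc ∑ i ∈ F, (ρ / ‖s i‖) ^ 3 * b = ∑ i ∈ F, (‖t i‖⁻¹) ^ 3 * b := by
        refine Finset.sum_congr rfl fun i _ => ?_
        rw [hst]
    _ ≤ ∑ i ∈ F, (5 / 2) ^ 3 * ∫ z in ball (t i) (1 / 2), g z :=
        Finset.sum_le_sum fun i _ => hball i
    _ = (5 / 2) ^ 3 * ∑ i ∈ F, ∫ z in ball (t i) (1 / 2), g z := by rw [Finset.mul_sum]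
    _ ≤ _ := by gcongr

/-- the norms of the terms of the Eisenstein series -/
theorem eis_sum_le : ∃ C : ℝ, 0 ≤ C ∧ ∀ (ι : Type) (s : ι → ℂ) (ρ : ℝ), 0 < ρ →
    (∀ i, ρ ≤ ‖s i‖) → (∀ i j, i ≠ j → ρ ≤ ‖s i - s j‖) → ∀ p, 3 ≤ p →
    Summable (fun i => ‖((s i)⁻¹) ^ p‖) ∧ ∑' i, ‖((s i)⁻¹) ^ p‖ ≤ C * (ρ⁻¹) ^ p := by
  obtain ⟨C, hC0, hC⟩ := packing
  refine ⟨C, hC0, fun ι s ρ hρ h1 h2 p hp => ?_⟩
  have h3 : ∀ i, ‖((s i)⁻¹) ^ p‖ ≤ (ρ⁻¹) ^ p * (ρ / ‖s i‖) ^ 3 := by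
    intro i
    have hs : 0 < ‖s i‖ := hρ.trans_le (h1 i)
    have h4 : ρ / ‖s i‖ ≤ 1 := (div_le_one hs).2 (h1 i)
    have h5 : (ρ / ‖s i‖) ^ p ≤ (ρ / ‖s i‖) ^ 3 :=
      pow_le_pow_of_le_one (by positivity) h4 hp
    calc ‖((s i)⁻¹) ^ p‖ = (ρ⁻¹) ^ p * (ρ / ‖s i‖) ^ p := by
          rw [norm_pow, norm_inv, ← mul_pow]
          congr 1
          field_simp
      _ ≤ _ := by gcongr
  have h4 : ∀ F : Finset ι, ∑ i ∈ F, ‖((s i)⁻¹) ^ p‖ ≤ C * (ρ⁻¹) ^ p := by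
    intro F
    calc ∑ i ∈ F, ‖((s i)⁻¹) ^ p‖ ≤ ∑ i ∈ F, (ρ⁻¹) ^ p * (ρ / ‖s i‖) ^ 3 :=
          Finset.sum_le_sum fun i _ => h3 i
      _ = (ρ⁻¹) ^ p * ∑ i ∈ F, (ρ / ‖s i‖) ^ 3 := by rw [Finset.mul_sum]
      _ ≤ (ρ⁻¹) ^ p * C := by
          gcongr
          exact hC ι s ρ hρ h1 h2 F
      _ = _ := by ring
  have hs := summable_of_sum_le (fun i => norm_nonneg (((s i)⁻¹) ^ p)) h4
  exact ⟨hs, hs.tsum_le_of_sum_le h4⟩

end Packing

end Vale.Agent.P281.H713
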