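import Vale.Agent.P281.H713.Poinc
import Vale.Agent.P281.H713.TsumHol

open scoped Topology ContDiff
open Set Filter Complex Module

namespace Vale.Agent.P281.H713

set_option linter.unusedSectionVars false

section Pol

variable {V : Type*} [NormedAddCommGroup V] [InnerProductSpace ℂ V] [FiniteDimensional ℂ V]
variable {n : ℕ} {Q : (Fin n → ℝ) → (Fin n → ℝ) → ℝ}
variable {π₀ π : (Fin n → ℝ) ≃L[ℝ] V} {G₀ G : V ≃L[ℂ] V}

theorem dl_ne (h₀ : IsPol Q π₀ G₀) (h : IsPol Q π G) (M : spq Q) :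
    (LL π₀ π (mx M)).det ≠ 0 := by
  have h1 := one_le_dl h₀ h M
  rw [dl_eq] at h1
  intro h2
  rw [h2] at h1
  simp at h1
  linarith

/-- the bound for the inverse of `L_M` -/
theorem inverse_le (h₀ : IsPol Q π₀ G₀) (h : IsPol Q π G) (M : spq Q) (v : V) :
    ‖(LL π₀ π (mx M)).inverse v‖ ≤ ‖(G₀.symm : V →L[ℂ] V)‖ * ‖G v‖ := by
  set N := clin (NT π₀ π G₀ G (mx M)) with hN
  have hL : LL π₀ π (mx M) = (G.symm : V →L[ℂ] V).comp (N.comp (G₀ : V →L[ℂ] V)) := by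
    rw [hN, clin_NT]
    ext v
    simp
  have hexp := le_clin_norm (isSymp_NT h₀ h M)
  have hdet : N.det ≠ 0 := by
    intro h1
    have h2 := (expanding _ hexp).1
    rw [← hN, h1, norm_zero] at h2
    linarith
  set e := N.toContinuousLinearEquivOfDetNeZero hdet with he
  have he' : (e : V →L[ℂ] V) = N := by
    rw [he, ContinuousLinearMap.coe_toContinuousLinearEquivOfDetNeZero]
  have h3 : (LL π₀ π (mx M)).inverse v = G₀.symm (e.symm (G v)) := by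
    rw [hL, ContinuousLinearMap.inverse_equiv_comp, ContinuousLinearMap.inverse_comp_equiv, ← he',
      ContinuousLinearMap.inverse_equiv]
    rfl
  rw [h3]
  refine ((G₀.symm : V →L[ℂ] V).le_opNorm _).trans ?_
  gcongr
  have h4 := hexp (e.symm (G v))
  rw [← hN, ← he'] at h4
  simpa using h4

/-- the terms of the Poincaré series -/
noncomputable def pterm (φ : V → ℂ) (k : ℕ) (π₀ π : (Fin n → ℝ) ≃L[ℝ] V) (w : V)
    (M : Matrix (Fin n) (Fin n) ℤ) : ℂ :=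
  φ ((LL π₀ π M).inverse w) * ((LL π₀ π M).det)⁻¹ ^ k

/-- the Poincaré series -/
noncomputable def PP (Q : (Fin n → ℝ) → (Fin n → ℝ) → ℝ) (φ : V → ℂ) (k : ℕ)
    (π₀ π : (Fin n → ℝ) ≃L[ℝ] V) (w : V) : ℂ :=
  ∑' M : spq Q, pterm φ k π₀ π w (mx M)

theorem pterm_le {φ : V → ℂ} {A : ℝ} (hA : 0 ≤ A) {N : ℕ} (hφ : ∀ v, ‖φ v‖ ≤ A * ‖v‖ ^ N)
    (k : ℕ) (h₀ : IsPol Q π₀ G₀) (h : IsPol Q π G) (M : spq Q) (w : V) :
    ‖pterm φ k π₀ π w (mx M)‖ ≤ A * (‖(G₀.symm : V →L[ℂ] V)‖ * ‖G w‖) ^ N *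
      (‖(G : V →L[ℂ] V).det‖ * ‖(G₀ : V →L[ℂ] V).det‖⁻¹) ^ k *
      (dl π₀ π G₀ G (mx M))⁻¹ ^ k := by
  have hG := norm_pos_iff.2 (det_equiv_ne G)
  have hG₀ := norm_pos_iff.2 (det_equiv_ne G₀)
  have hL := norm_pos_iff.2 (dl_ne h₀ h M)
  have h1 : ‖(LL π₀ π (mx M)).det‖⁻¹ = (‖(G : V →L[ℂ] V).det‖ * ‖(G₀ : V →L[ℂ] V).det‖⁻¹) *
      (dl π₀ π G₀ G (mx M))⁻¹ := by
    rw [dl_eq]
    field_simp
  rw [pterm, norm_mul, norm_pow, norm_inv, h1, mul_pow, ← mul_assoc]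
  have hd : 0 ≤ (dl π₀ π G₀ G (mx M))⁻¹ := inv_nonneg.2 (norm_nonneg _)
  gcongr
  exact (hφ _).trans (by gcongr; exact inverse_le h₀ h M w)

theorem dl_pow_le (h₀ : IsPol Q π₀ G₀) (h : IsPol Q π G) {k l : ℕ} (hkl : l ≤ k) (M : spq Q) :
    (dl π₀ π G₀ G (mx M))⁻¹ ^ k ≤ (dl π₀ π G₀ G (mx M))⁻¹ ^ l := by
  have h1 := one_le_dl h₀ h M
  exact pow_le_pow_of_le_one (inv_nonneg.2 (norm_nonneg _)) (inv_le_one_of_one_le₀ h1) hkl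

/-- the constant in the uniform bound -/
noncomputable def CP (Q : (Fin n → ℝ) → (Fin n → ℝ) → ℝ) (π₀ : (Fin n → ℝ) ≃L[ℝ] V)
    (G₀ : V ≃L[ℂ] V) : ℝ :=
  C0 π₀ G₀ ^ (n * n + 1) * ∑' M : spq Q, ‖mact (mx M)‖⁻¹ ^ (n * n + 1)

theorem PP_bound (hn : 0 < n) {φ : V → ℂ} {A : ℝ} (hA : 0 ≤ A) {N : ℕ}
    (hφ : ∀ v, ‖φ v‖ ≤ A * ‖v‖ ^ N) {k : ℕ} (hk : 2 * (n * n + 1) ≤ k)
    (h₀ : IsPol Q π₀ G₀) (h : IsPol Q π G) (w : V) :
    Summable (fun M : spq Q => ‖pterm φ k π₀ π w (mx M)‖) ∧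
    ‖PP Q φ k π₀ π w‖ ≤ A * (‖(G₀.symm : V →L[ℂ] V)‖ * ‖G w‖) ^ N *
      (‖(G : V →L[ℂ] V).det‖ * ‖(G₀ : V →L[ℂ] V).det‖⁻¹) ^ k * CP Q π₀ G₀ := by
  have h1 := dl_sum hn (Nat.lt_succ_self (n * n)) h₀ h
  set K : ℝ := A * (‖(G₀.symm : V →L[ℂ] V)‖ * ‖G w‖) ^ N *
      (‖(G : V →L[ℂ] V).det‖ * ‖(G₀ : V →L[ℂ] V).det‖⁻¹) ^ k with hK
  have hK0 : 0 ≤ K := by positivity
  have h2 : ∀ M : spq Q, ‖pterm φ k π₀ π w (mx M)‖ ≤
      K * (dl π₀ π G₀ G (mx M))⁻¹ ^ (2 * (n * n + 1)) := fun M =>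
    (pterm_le hA hφ k h₀ h M w).trans (mul_le_mul_of_nonneg_left (dl_pow_le h₀ h hk M) hK0)
  have h3 : Summable fun M : spq Q => K * (dl π₀ π G₀ G (mx M))⁻¹ ^ (2 * (n * n + 1)) :=
    h1.1.mul_left K
  have h4 : Summable (fun M : spq Q => ‖pterm φ k π₀ π w (mx M)‖) :=
    Summable.of_nonneg_of_le (fun M => norm_nonneg _) h2 h3
  refine ⟨h4, (norm_tsum_le_tsum_norm h4).trans ?_⟩
  calc ∑' M : spq Q, ‖pterm φ k π₀ π w (mx M)‖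
      ≤ ∑' M : spq Q, K * (dl π₀ π G₀ G (mx M))⁻¹ ^ (2 * (n * n + 1)) :=
        h4.tsum_le_tsum h2 h3
    _ = K * ∑' M : spq Q, (dl π₀ π G₀ G (mx M))⁻¹ ^ (2 * (n * n + 1)) := tsum_mul_left
    _ ≤ K * CP Q π₀ G₀ := mul_le_mul_of_nonneg_left h1.2 hK0

/-- change of periods -/
theorem PP_change {π' : (Fin n → ℝ) ≃L[ℝ] V} {G' : V ≃L[ℂ] V} {M' : spq Q}
    (h : ∀ x, π' (mact (mx M') x) = G' (π x)) (φ : V → ℂ) (k : ℕ) (w : V) :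
    PP Q φ k π₀ π' (G' w) = ((G' : V →L[ℂ] V).det)⁻¹ ^ k * PP Q φ k π₀ π w := by
  have h1 : ∀ M : spq Q, pterm φ k π₀ π' (G' w) (mx (M' * M)) =
      ((G' : V →L[ℂ] V).det)⁻¹ ^ k * pterm φ k π₀ π w (mx M) := by
    intro M
    have h2 : TT π₀ π' (mx (M' * M)) =
        ((G' : V →L[ℂ] V).restrictScalars ℝ).comp (TT π₀ π (mx M)) := by
      ext v
      show π' (mact (mx (M' * M)) (π₀.symm v)) = G' (π (mact (mx M) (π₀.symm v)))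
      rw [mx_mul, mact_mul, h]
    have h3 : LL π₀ π' (mx (M' * M)) = (G' : V →L[ℂ] V).comp (LL π₀ π (mx M)) := by
      rw [LL, h2, clin_comp_left, LL]
    rw [pterm, h3, ContinuousLinearMap.inverse_equiv_comp, det_comp, mul_inv, mul_pow, pterm]
    have h4 : ((LL π₀ π (mx M)).inverse.comp (G'.symm : V →L[ℂ] V)) (G' w) =
        (LL π₀ π (mx M)).inverse w := by
      rw [ContinuousLinearMap.comp_apply]
      congr 1
      exact G'.symm_apply_apply w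
    rw [h4]
    ring
  rw [PP, ← (Equiv.mulLeft M').tsum_eq]
  show ∑' M : spq Q, pterm φ k π₀ π' (G' w) (mx (M' * M)) = _
  simp_rw [h1]
  rw [tsum_mul_left]
  rfl

end Pol

end Vale.Agent.P281.H713
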