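import Vale.Agent.P281.H713.Poinc2

open scoped Topology ContDiff
open Set Filter Complex Module

namespace Vale.Agent.P281.H713

set_option linter.unusedSectionVars false

section Clin

variable {V W : Type*} [NormedAddCommGroup V] [NormedSpace ℂ V] [NormedAddCommGroup W]
  [NormedSpace ℂ W]

theorem clin_sub (T T' : V →L[ℝ] W) : clin (T - T') = clin T - clin T' := by
  ext u
  simp only [clin_apply, sub_apply]
  module

theorem norm_clin_le (T : V →L[ℝ] W) : ‖clin T‖ ≤ ‖T‖ := by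
  refine ContinuousLinearMap.opNorm_le_bound _ (norm_nonneg _) fun u => ?_
  rw [clin_apply, norm_smul]
  have h1 : ‖T u - I • T (I • u)‖ ≤ ‖T‖ * ‖u‖ + ‖T‖ * ‖u‖ := by
    refine (norm_sub_le _ _).trans (add_le_add (T.le_opNorm u) ?_)
    rw [norm_smul, norm_I, one_mul]
    refine (T.le_opNorm _).trans ?_
    rw [norm_smul, norm_I, one_mul]
  have h2 : ‖(1 / 2 : ℂ)‖ = 1 / 2 := by simp
  rw [h2]
  linarith

theorem continuous_clin : Continuous (clin : (V →L[ℝ] W) → (V →L[ℂ] W)) := by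
  have : LipschitzWith 1 (clin : (V →L[ℝ] W) → (V →L[ℂ] W)) := by
    refine LipschitzWith.of_dist_le_mul fun T T' => ?_
    rw [dist_eq_norm, dist_eq_norm, ← clin_sub, NNReal.coe_one, one_mul]
    exact norm_clin_le _
  exact this.continuous

end Clin

section Pol

variable {V : Type*} [NormedAddCommGroup V] [InnerProductSpace ℂ V] [FiniteDimensional ℂ V]
variable {n : ℕ} {Q : (Fin n → ℝ) → (Fin n → ℝ) → ℝ}
variable {π₀ : (Fin n → ℝ) ≃L[ℝ] V} {G₀ : V ≃L[ℂ] V}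

/-- `‖det G‖` is determined by the periods. -/
theorem det_G_sq (h₀ : IsPol Q π₀ G₀) {π : (Fin n → ℝ) ≃L[ℝ] V} {G : V ≃L[ℂ] V}
    (h : IsPol Q π G) :
    ‖(G : V →L[ℂ] V).det‖ ^ 2 * |(TT π₀ π 1).det| = ‖(G₀ : V →L[ℂ] V).det‖ ^ 2 := by
  have h1 := abs_det_symp (isSymp_NT h₀ h 1)
  have h2 : (NT π₀ π G₀ G (mx (1 : spq Q))).det =
      ‖(G : V →L[ℂ] V).det‖ ^ 2 * ((TT π₀ π 1).det * ‖(G₀.symm : V →L[ℂ] V).det‖ ^ 2) := by
    rw [mx_one, ← det_real_of_complex, ← det_real_of_complex]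
    show LinearMap.det _ = _
    rw [NT, ContinuousLinearMap.toLinearMap_comp, LinearMap.det_comp,
      ContinuousLinearMap.toLinearMap_comp, LinearMap.det_comp]
  have h3 := norm_pos_iff.2 (det_equiv_ne G₀)
  rw [h2, det_symm', norm_inv, abs_mul, abs_mul, abs_of_nonneg (by positivity :
    (0 : ℝ) ≤ ‖(G : V →L[ℂ] V).det‖ ^ 2), abs_of_nonneg (by positivity :
    (0 : ℝ) ≤ ‖(G₀ : V →L[ℂ] V).det‖⁻¹ ^ 2)] at h1
  field_simp at h1
  linarith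

/-- local bounds for the normalizations -/
theorem loc_bound (h₀ : IsPol Q π₀ G₀) {Z : Type*} [TopologicalSpace Z]
    {π : Z → ((Fin n → ℝ) ≃L[ℝ] V)} {z₀ : Z}
    (hπ : ContinuousAt (fun z => (π z : (Fin n → ℝ) →L[ℝ] V)) z₀) :
    ∃ C : ℝ, 0 ≤ C ∧ ∀ᶠ z in 𝓝 z₀, ∀ G : V ≃L[ℂ] V, IsPol Q (π z) G →
      ‖(G : V →L[ℂ] V)‖ ≤ C ∧ ‖(G : V →L[ℂ] V).det‖ ≤ C ∧ dl π₀ (π z) G₀ G 1 ≤ C := by
  have : FiniteDimensional ℝ V := FiniteDimensional.complexToReal V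
  have : CompleteSpace V := FiniteDimensional.complete ℂ V
  set R : Z → (V →L[ℝ] V) := fun z => TT π₀ (π z) 1 with hR
  have hRc : ContinuousAt R z₀ := by
    have h1 : Continuous fun T : (Fin n → ℝ) →L[ℝ] V =>
        T.comp ((mact (1 : Matrix (Fin n) (Fin n) ℤ)).comp
          (π₀.symm : V →L[ℝ] (Fin n → ℝ))) := by fun_prop
    exact h1.continuousAt.comp hπ
  have hR0 : (R z₀).det ≠ 0 := by
    have h1 : R z₀ = ((π₀.symm.trans (π z₀) : V ≃L[ℝ] V) : V →L[ℝ] V) := by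
      ext v
      show π z₀ (mact 1 (π₀.symm v)) = π z₀ (π₀.symm v)
      rw [mact_one]
    rw [h1]
    exact (LinearEquiv.isUnit_det' (π₀.symm.trans (π z₀)).toLinearEquiv).ne_zero
  have hdc : ContinuousAt (fun z => |(R z).det|) z₀ :=
    (ContinuousLinearMap.continuous_det.continuousAt.comp hRc).abs
  have hd0 : 0 < |(R z₀).det| := abs_pos.2 hR0
  have hev1 : ∀ᶠ z in 𝓝 z₀, |(R z₀).det| / 2 < |(R z).det| :=
    hdc.eventually (lt_mem_nhds (by linarith))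
  have hLc : ContinuousAt (fun z => ‖(clin (R z)).det‖) z₀ := by
    have h1 : Continuous fun T : V →L[ℝ] V => ‖(clin T).det‖ :=
      (contDiff_det'.continuous.comp continuous_clin).norm
    exact h1.continuousAt.comp hRc
  have hev2 : ∀ᶠ z in 𝓝 z₀, ‖(clin (R z)).det‖ < ‖(clin (R z₀)).det‖ + 1 :=
    hLc.eventually (gt_mem_nhds (by linarith))
  have hic : ContinuousAt (fun z => ‖((π z).symm : V →L[ℝ] (Fin n → ℝ))‖) z₀ := by
    have h1 : ContinuousAt (ContinuousLinearMap.inverse (R := ℝ) (M := Fin n → ℝ) (M₂ := V))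
        ((π z₀ : (Fin n → ℝ) →L[ℝ] V)) :=
      (contDiffAt_map_inverse (𝕜 := ℝ) (n := ω) (π z₀)).continuousAt
    have h2 : ContinuousAt (fun z => ‖ContinuousLinearMap.inverse ((π z : (Fin n → ℝ) →L[ℝ] V))‖) z₀ :=
      (ContinuousAt.comp (f := fun z => (π z : (Fin n → ℝ) →L[ℝ] V)) h1 hπ).norm
    refine h2.congr (Filter.Eventually.of_forall fun z => ?_)
    show ‖ContinuousLinearMap.inverse ((π z : (Fin n → ℝ) →L[ℝ] V))‖ = _
    rw [ContinuousLinearMap.inverse_equiv]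
  have hev3 : ∀ᶠ z in 𝓝 z₀, ‖((π z).symm : V →L[ℝ] (Fin n → ℝ))‖ <
      ‖((π z₀).symm : V →L[ℝ] (Fin n → ℝ))‖ + 1 :=
    hic.eventually (gt_mem_nhds (by linarith))
  set g₀ : ℝ := ‖(G₀ : V →L[ℂ] V).det‖ with hg₀
  have hg₀p : 0 < g₀ := norm_pos_iff.2 (det_equiv_ne G₀)
  set C₁ : ℝ := 1 + g₀ ^ 2 / (|(R z₀).det| / 2) with hC₁
  set C₂ : ℝ := C₁ * (‖(clin (R z₀)).det‖ + 1) * g₀⁻¹ with hC₂
  set C₃ : ℝ := 2 * C₂ * (‖(G₀ : V →L[ℂ] V)‖ * (‖(π₀ : (Fin n → ℝ) →L[ℝ] V)‖ *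
    (‖((π z₀).symm : V →L[ℝ] (Fin n → ℝ))‖ + 1))) with hC₃
  have hC₁0 : 0 ≤ C₁ := by positivity
  have hC₂0 : 0 ≤ C₂ := by positivity
  have hC₃0 : 0 ≤ C₃ := by positivity
  refine ⟨C₁ + C₂ + C₃, by positivity, ?_⟩
  filter_upwards [hev1, hev2, hev3] with z h1 h2 h3 G hG
  have h4 := det_G_sq h₀ hG
  set d : ℝ := ‖(G : V →L[ℂ] V).det‖ with hd
  have hd1 : d ≤ C₁ := by
    have h5 : d ^ 2 ≤ g₀ ^ 2 / (|(R z₀).det| / 2) := by
      rw [le_div_iff₀ (by positivity), ← h4]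
      exact mul_le_mul_of_nonneg_left h1.le (by positivity)
    nlinarith [sq_nonneg (d - 1)]
  have hdl : dl π₀ (π z) G₀ G 1 ≤ C₂ := by
    rw [dl_eq, hC₂]
    have h6 : (LL π₀ (π z) 1) = clin (R z) := rfl
    rw [h6]
    gcongr
  refine ⟨?_, by linarith, by linarith⟩
  have h7 : ‖(G : V →L[ℂ] V)‖ ≤ C₃ := by
    refine ContinuousLinearMap.opNorm_le_bound _ hC₃0 fun v => ?_
    have h8 : G v = NT π₀ (π z) G₀ G (mx (1 : spq Q)) (G₀ (π₀ ((π z).symm v))) := by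
      rw [NT_apply, G₀.symm_apply_apply, π₀.symm_apply_apply, mx_one, mact_one,
        (π z).apply_symm_apply]
    have h9 := NT_le h₀ hG 1 (G₀ (π₀ ((π z).symm v)))
    rw [← h8, mx_one] at h9
    have h10 : ‖G₀ (π₀ ((π z).symm v))‖ ≤ ‖(G₀ : V →L[ℂ] V)‖ * (‖(π₀ : (Fin n → ℝ) →L[ℝ] V)‖ *
        ((‖((π z₀).symm : V →L[ℝ] (Fin n → ℝ))‖ + 1) * ‖v‖)) := by
      refine ((G₀ : V →L[ℂ] V).le_opNorm _).trans ?_
      gcongr
      refine ((π₀ : (Fin n → ℝ) →L[ℝ] V).le_opNorm _).trans ?_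
      gcongr
      refine (((π z).symm : V →L[ℝ] (Fin n → ℝ)).le_opNorm _).trans ?_
      gcongr
    calc ‖G v‖ ≤ 2 * dl π₀ (π z) G₀ G 1 * ‖G₀ (π₀ ((π z).symm v))‖ := h9
      _ ≤ 2 * C₂ * (‖(G₀ : V →L[ℂ] V)‖ * (‖(π₀ : (Fin n → ℝ) →L[ℝ] V)‖ *
        ((‖((π z₀).symm : V →L[ℝ] (Fin n → ℝ))‖ + 1) * ‖v‖))) := by
          gcongr
      _ = C₃ * ‖v‖ := by rw [hC₃]; ring
  linarith

/-- domination of the terms of the series, locally uniform in the periods -/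
theorem pterm_dom (hn : 0 < n) {φ : V → ℂ} {A : ℝ} (hA : 0 ≤ A) {N : ℕ}
    (hφ : ∀ v, ‖φ v‖ ≤ A * ‖v‖ ^ N) {k : ℕ} (hk : n * n + 1 ≤ k) (h₀ : IsPol Q π₀ G₀)
    {Z : Type*} [TopologicalSpace Z]
    {π : Z → ((Fin n → ℝ) ≃L[ℝ] V)} {w : Z → V} {z₀ : Z}
    (hπ : ContinuousAt (fun z => (π z : (Fin n → ℝ) →L[ℝ] V)) z₀) (hw : ContinuousAt w z₀) :
    ∃ u : spq Q → ℝ, Summable u ∧ ∀ᶠ z in 𝓝 z₀, ∀ G : V ≃L[ℂ] V, IsPol Q (π z) G →
      ∀ M : spq Q, ‖pterm φ k π₀ (π z) (w z) (mx M)‖ ≤ u M := by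
  obtain ⟨C, hC0, hC⟩ := loc_bound h₀ hπ
  set g : ℝ := ‖(G₀ : V →L[ℂ] V).det‖⁻¹ with hg
  set K : ℝ := A * (‖(G₀.symm : V →L[ℂ] V)‖ * (C * (‖w z₀‖ + 1))) ^ N * (C * g) ^ k *
    (C0 π₀ G₀ * C) ^ k with hK
  have hC00 : 0 ≤ C0 π₀ G₀ := by unfold C0; positivity
  have hK0 : 0 ≤ K := by positivity
  refine ⟨fun M => K * ‖mact (mx M)‖⁻¹ ^ k, (summable_mx hn (by omega)).mul_left K, ?_⟩
  have hwev : ∀ᶠ z in 𝓝 z₀, ‖w z‖ < ‖w z₀‖ + 1 :=
    hw.norm.eventually (gt_mem_nhds (by linarith))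
  filter_upwards [hC, hwev] with z hz hwz G hG M
  obtain ⟨hG1, hG2, hG3⟩ := hz G hG
  have h1 := pterm_le hA hφ k h₀ hG M (w z)
  have h2 := mact_le h₀ hG 1 M
  rw [inv_one, one_mul, mx_one] at h2
  have h3 := one_le_dl h₀ hG M
  have h4 := mact_mx_pos hn M
  have h5 : (dl π₀ (π z) G₀ G (mx M))⁻¹ ≤ (C0 π₀ G₀ * C) * ‖mact (mx M)‖⁻¹ := by
    rw [← div_eq_mul_inv, inv_eq_one_div, div_le_div_iff₀ (by linarith) h4, one_mul]
    refine h2.trans ?_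
    rw [mul_assoc]
    gcongr
  have h6 : ‖G (w z)‖ ≤ C * (‖w z₀‖ + 1) := by
    refine ((G : V →L[ℂ] V).le_opNorm _).trans ?_
    gcongr
  have h7 : 0 ≤ (dl π₀ (π z) G₀ G (mx M))⁻¹ := inv_nonneg.2 (norm_nonneg _)
  calc _ ≤ _ := h1
    _ ≤ A * (‖(G₀.symm : V →L[ℂ] V)‖ * (C * (‖w z₀‖ + 1))) ^ N * (C * g) ^ k *
        ((C0 π₀ G₀ * C) * ‖mact (mx M)‖⁻¹) ^ k := by
        gcongr
    _ = K * ‖mact (mx M)‖⁻¹ ^ k := by rw [hK, mul_pow _ (‖mact (mx M)‖⁻¹)]; ring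

variable {E : Type*} [NormedAddCommGroup E] [NormedSpace ℂ E] [FiniteDimensional ℂ E]

theorem clin_TT_apply (π : (Fin n → ℝ) ≃L[ℝ] V) (M : Matrix (Fin n) (Fin n) ℤ) (v : V) :
    LL π₀ π M v = (1 / 2 : ℂ) • (π (mact M (π₀.symm v)) -
      I • π (mact M (π₀.symm (I • v)))) := rfl

theorem contAt_of_pointwise {U : Set E} (hU : IsOpen U) {π : E → ((Fin n → ℝ) ≃L[ℝ] V)}
    (hπ : ∀ x, DifferentiableOn ℂ (fun z => π z x) U) {z₀ : E} (hz₀ : z₀ ∈ U) :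
    ContinuousAt (fun z => (π z : (Fin n → ℝ) →L[ℝ] V)) z₀ := by
  have h : ContinuousOn (fun z => (π z : (Fin n → ℝ) →L[ℝ] V)) U :=
    continuousOn_clm_apply.2 fun x => (hπ x).continuousOn
  exact h.continuousAt (hU.mem_nhds hz₀)

theorem LL_diff {U : Set E} (hU : IsOpen U) {π : E → ((Fin n → ℝ) ≃L[ℝ] V)}
    (hπ : ∀ x, DifferentiableOn ℂ (fun z => π z x) U) (M : Matrix (Fin n) (Fin n) ℤ) :
    ContDiffOn ℂ ω (fun z => LL π₀ (π z) M) U := by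
  have : CompleteSpace V := FiniteDimensional.complete ℂ V
  rw [contDiffOn_clm_apply]
  intro v
  have h1 : DifferentiableOn ℂ (fun z => LL π₀ (π z) M v) U :=
    ((hπ _).sub ((hπ _).const_smul I)).const_smul (1 / 2 : ℂ)
  exact (MF.analyticOnNhd_of_differentiableOn hU h1).contDiffOn hU.uniqueDiffOn

theorem pterm_diff {φ : V → ℂ} (hφ : Differentiable ℂ φ) (k : ℕ) {U : Set E} (hU : IsOpen U)
    {π : E → ((Fin n → ℝ) ≃L[ℝ] V)} (hπ : ∀ x, DifferentiableOn ℂ (fun z => π z x) U)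
    {w : E → V} (hw : DifferentiableOn ℂ w U) {M : Matrix (Fin n) (Fin n) ℤ}
    (hdet : ∀ z ∈ U, (LL π₀ (π z) M).det ≠ 0) :
    DifferentiableOn ℂ (fun z => pterm φ k π₀ (π z) (w z) M) U := by
  have : CompleteSpace V := FiniteDimensional.complete ℂ V
  intro z hz
  have hL : ContDiffAt ℂ ω (fun z => LL π₀ (π z) M) z :=
    (LL_diff hU hπ M).contDiffAt (hU.mem_nhds hz)
  have hd := hdet z hz
  set e := (LL π₀ (π z) M).toContinuousLinearEquivOfDetNeZero hd with he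
  have he' : (e : V →L[ℂ] V) = LL π₀ (π z) M := by
    rw [he, ContinuousLinearMap.coe_toContinuousLinearEquivOfDetNeZero]
  have hinv : ContDiffAt ℂ ω (fun z => (LL π₀ (π z) M).inverse) z := by
    have h1 : ContDiffAt ℂ ω (ContinuousLinearMap.inverse (R := ℂ) (M := V) (M₂ := V))
        (LL π₀ (π z) M) := by
      rw [← he']
      exact contDiffAt_map_inverse e
    exact h1.comp z hL
  have h2 : DifferentiableAt ℂ (fun z => (LL π₀ (π z) M).inverse (w z)) z :=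
    (hinv.differentiableAt (by simp)).clm_apply (hw.differentiableAt (hU.mem_nhds hz))
  have h3 : DifferentiableAt ℂ (fun z => φ ((LL π₀ (π z) M).inverse (w z))) z :=
    (hφ _).comp z h2
  have h4 : DifferentiableAt ℂ (fun z => (LL π₀ (π z) M).det) z :=
    (contDiff_det'.contDiffAt.comp z hL).differentiableAt (by simp)
  exact (h3.mul ((h4.inv hd).pow k)).differentiableWithinAt

/-- The Poincaré series is holomorphic. -/
theorem PP_analytic (hn : 0 < n) {φ : V → ℂ} (hφd : Differentiable ℂ φ) {A : ℝ} (hA : 0 ≤ A)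
    {N : ℕ} (hφ : ∀ v, ‖φ v‖ ≤ A * ‖v‖ ^ N) {k : ℕ} (hk : n * n + 1 ≤ k) (h₀ : IsPol Q π₀ G₀)
    {U : Set E} (hU : IsOpen U) {π : E → ((Fin n → ℝ) ≃L[ℝ] V)}
    (hπ : ∀ x, DifferentiableOn ℂ (fun z => π z x) U)
    (hpol : ∀ z ∈ U, ∃ G, IsPol Q (π z) G)
    {w : E → V} (hw : DifferentiableOn ℂ w U) {z₀ : E} (hz₀ : z₀ ∈ U) :
    AnalyticAt ℂ (fun z => PP Q φ k π₀ (π z) (w z)) z₀ := by
  obtain ⟨u, hu, hdom⟩ := pterm_dom hn hA hφ hk h₀ (contAt_of_pointwise hU hπ hz₀)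
    (hw.continuousOn.continuousAt (hU.mem_nhds hz₀))
  obtain ⟨U', hU'1, hU'2, hU'3⟩ := eventually_nhds_iff.1 (hdom.and (hU.mem_nhds hz₀))
  have hsub : U' ⊆ U := fun z hz => (hU'1 z hz).2
  refine analyticAt_tsum (hU'2.mem_nhds hU'3) (fun M => ?_) hu (fun M z hz => ?_)
  · refine pterm_diff hφd k hU'2 (fun x => (hπ x).mono hsub) (hw.mono hsub) fun z hz => ?_
    obtain ⟨G, hG⟩ := hpol z (hsub hz)
    exact dl_ne h₀ hG M
  · obtain ⟨G, hG⟩ := hpol z (hsub hz)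
    exact (hU'1 z hz).1 G hG M

end Pol

end Vale.Agent.P281.H713
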