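import Vale.Agent.P281.H713.Slice2
import Vale.Agent.P281.H713.Wron

open scoped Manifold ContDiff Topology
open Set Filter Metric Module

namespace Vale.Agent.P281.H713

open Vale.Agent.P281 Vale.Agent.P281.MF Vale.Agent.P281.ISO Vale.Agent.P281.ELL

set_option linter.unusedSectionVars false

universe u

section Slices

variable {E E' E₀ : Type} [NormedAddCommGroup E] [NormedSpace ℂ E] [FiniteDimensional ℂ E]
  [NormedAddCommGroup E'] [NormedSpace ℂ E'] [FiniteDimensional ℂ E']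
  [NormedAddCommGroup E₀] [NormedSpace ℂ E₀] [FiniteDimensional ℂ E₀]
variable {X Y : Type u} [TopologicalSpace X] [ChartedSpace E X] [IsManifold 𝓘(ℂ, E) ω X]
  [TopologicalSpace Y] [ChartedSpace E' Y] [IsManifold 𝓘(ℂ, E') ω Y]

/-- The local product structure of a submersion. -/
theorem exists_slices {f : X → Y} (hf : ∀ x, HolM E E' f x) (e₀ : E ≃L[ℂ] (E' × E₀)) {x₀ : X}
    {ζ : X → E₀} (hζ : HolV E ζ x₀)
    (hinj : ∀ ξ, dM E E' f x₀ ξ = 0 → dV E ζ x₀ ξ = 0 → ξ = 0) :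
    ∃ R : E' × E₀ → X,
      ContMDiffAt 𝓘(ℂ, E' × E₀) 𝓘(ℂ, E) ω R (chartAt E' (f x₀) (f x₀), ζ x₀) ∧
      (∀ᶠ z in 𝓝 x₀, R (chartAt E' (f x₀) (f z), ζ z) = z) ∧
      ∀ᶠ p in 𝓝 (chartAt E' (f x₀) (f x₀), ζ x₀), f (R p) ∈ (chartAt E' (f x₀)).source ∧
        chartAt E' (f x₀) (f (R p)) = p.1 ∧ ζ (R p) = p.2 := by
  have : CompleteSpace E := FiniteDimensional.complete ℂ E
  have : CompleteSpace E' := FiniteDimensional.complete ℂ E'
  have : CompleteSpace E₀ := FiniteDimensional.complete ℂ E₀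
  set φ := chartAt E x₀ with hφ
  set ψY := chartAt E' (f x₀) with hψY
  have hxs : x₀ ∈ φ.source := mem_chart_source E x₀
  have hys : f x₀ ∈ ψY.source := mem_chart_source E' (f x₀)
  have h1 : HolV E (fun z => ψY (f z)) x₀ :=
    HolV.comp (h := (ψY : Y → E')) (HolV.chart hys) (hf x₀)
  have hG1 : ContDiffAt ℂ ω ((fun z => ψY (f z)) ∘ φ.symm) (φ x₀) := h1.rep hxs
  have hG2 : ContDiffAt ℂ ω (ζ ∘ φ.symm) (φ x₀) := hζ.rep hxs
  set G : E → E' × E₀ := fun v => (ψY (f (φ.symm v)), ζ (φ.symm v)) with hG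
  have hGc : ContDiffAt ℂ ω G (φ x₀) := hG1.prodMk hG2
  set L₁ := fderiv ℂ ((fun z => ψY (f z)) ∘ φ.symm) (φ x₀) with hL₁
  set L₂ := fderiv ℂ (ζ ∘ φ.symm) (φ x₀) with hL₂
  have hGd : HasFDerivAt G (L₁.prod L₂) (φ x₀) :=
    (hG1.differentiableAt (by simp)).hasFDerivAt.prodMk
      (hG2.differentiableAt (by simp)).hasFDerivAt
  have d1 : (dV E' (ψY : Y → E') (f x₀)).comp (dM E E' f x₀) =
      L₁.comp (dV E (φ : X → E) x₀) := by
    have h9 := dV_comp (h := (ψY : Y → E')) (HolV.chart hys) (hf x₀)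
    rw [← h9]
    exact dV_eq_chart hxs h1
  have d2 : dV E ζ x₀ = L₂.comp (dV E (φ : X → E) x₀) := dV_eq_chart hxs hζ
  have hker : ∀ ξ, L₁ (dV E (φ : X → E) x₀ ξ) = 0 → dM E E' f x₀ ξ = 0 := by
    intro ξ hv1
    have e1 := congrArg (fun T : E →L[ℂ] E' => T ξ) d1
    simp only [ContinuousLinearMap.comp_apply] at e1
    rw [hv1] at e1
    obtain ⟨A₁, hA₁⟩ := dV_chart_leftInv (E := E') hys
    have := congrArg (fun T : E' →L[ℂ] E' => T (dM E E' f x₀ ξ)) hA₁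
    simp only [ContinuousLinearMap.comp_apply, ContinuousLinearMap.id_apply] at this
    rw [← this, e1, map_zero]
  have hinj' : Function.Injective (L₁.prod L₂) := by
    rw [injective_iff_map_eq_zero]
    intro v hv
    obtain ⟨ξ, rfl⟩ := dV_chart_surj (E := E) hxs v
    have hv1 : L₁ (dV E (φ : X → E) x₀ ξ) = 0 := (Prod.mk.inj hv).1
    have hv2 : L₂ (dV E (φ : X → E) x₀ ξ) = 0 := (Prod.mk.inj hv).2
    have e4 : dV E ζ x₀ ξ = 0 := by
      rw [d2]
      exact hv2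
    rw [hinj ξ (hker ξ hv1) e4, map_zero]
  have hbij : Function.Bijective ((L₁.prod L₂ : E →L[ℂ] (E' × E₀)) : E →ₗ[ℂ] (E' × E₀)) := by
    refine ⟨hinj', ?_⟩
    have h3 : Function.Injective (((L₁.prod L₂ : E →L[ℂ] (E' × E₀)) : E →ₗ[ℂ] (E' × E₀)) ∘ₗ
        (e₀.symm.toLinearEquiv : (E' × E₀) →ₗ[ℂ] E)) := hinj'.comp e₀.symm.injective
    have h4 := LinearMap.surjective_of_injective h3
    intro w
    obtain ⟨v, hv⟩ := h4 w
    exact ⟨e₀.symm v, hv⟩
  let L : E ≃L[ℂ] (E' × E₀) := (LinearEquiv.ofBijective _ hbij).toContinuousLinearEquiv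
  have hL : (L : E →L[ℂ] (E' × E₀)) = L₁.prod L₂ := by ext v <;> rfl
  have hGd' : HasFDerivAt G (L : E →L[ℂ] (E' × E₀)) (φ x₀) := by rw [hL]; exact hGd
  have hn : (ω : WithTop ℕ∞) ≠ 0 := by simp
  set R := hGc.localInverse hGd' hn with hR
  have hRc : ContDiffAt ℂ ω R (G (φ x₀)) := hGc.to_localInverse hGd' hn
  have hstr : HasStrictFDerivAt G (L : E →L[ℂ] (E' × E₀)) (φ x₀) :=
    hGc.hasStrictFDerivAt' hGd' hn
  have hRr : ∀ᶠ w in 𝓝 (G (φ x₀)), G (R w) = w := hstr.eventually_right_inverse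
  have hRl : ∀ᶠ v in 𝓝 (φ x₀), R (G v) = v := hstr.eventually_left_inverse
  have hR0 : R (G (φ x₀)) = φ x₀ := hRl.self_of_nhds
  have hG0 : G (φ x₀) = (ψY (f x₀), ζ x₀) := by
    simp only [hG, φ.left_inv hxs]
  have hsymm : ContMDiffAt 𝓘(ℂ, E) 𝓘(ℂ, E) ω φ.symm (φ x₀) :=
    contMDiffOn_chart_symm.contMDiffAt (φ.open_target.mem_nhds (φ.map_source hxs))
  refine ⟨fun p => φ.symm (R p), ?_, ?_, ?_⟩
  · have h2 : ContMDiffAt 𝓘(ℂ, E' × E₀) 𝓘(ℂ, E) ω R (G (φ x₀)) := contMDiffAt_iff_contDiffAt.2 hRc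
    have h3 : ContMDiffAt 𝓘(ℂ, E) 𝓘(ℂ, E) ω φ.symm (R (G (φ x₀))) := by rw [hR0]; exact hsymm
    have h4 := ContMDiffAt.comp (G (φ x₀)) h3 h2
    rw [hG0] at h4
    exact h4
  · filter_upwards [(HolV.chart hxs).continuousAt.eventually hRl,
      φ.open_source.mem_nhds hxs] with z h2 h3
    show φ.symm (R (ψY (f z), ζ z)) = z
    have h4 : G (φ z) = (ψY (f z), ζ z) := by simp only [hG, φ.left_inv h3]
    rw [← h4, h2, φ.left_inv h3]
  · rw [← hG0]
    have hRt : Tendsto R (𝓝 (G (φ x₀))) (𝓝 (φ x₀)) := by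
      have := hRc.continuousAt.tendsto
      rwa [hR0] at this
    have hz : Tendsto (fun p => φ.symm (R p)) (𝓝 (G (φ x₀))) (𝓝 x₀) := (tendsto_symm x₀).comp hRt
    filter_upwards [hRr,
      hz.eventually ((hf x₀).continuousAt.eventually (ψY.open_source.mem_nhds hys))] with p h3 h4
    exact ⟨h4, congrArg Prod.fst h3, congrArg Prod.snd h3⟩

/-- the iterated derivatives in the second variable are analytic -/
theorem iter_snd {W : Type} [NormedAddCommGroup W] [NormedSpace ℂ W] (i : ℕ) {B : E' × ℂ → W}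
    {p : E' × ℂ} (hB : ContDiffAt ℂ ω B p) :
    ContDiffAt ℂ ω (fun p : E' × ℂ => iteratedDeriv i (fun t => B (p.1, t)) p.2) p := by
  induction i generalizing B with
  | zero => simpa using hB
  | succ i ih =>
    have h1 : ContDiffAt ℂ ω (fun p => fderiv ℂ B p (0, 1)) p :=
      (hB.fderiv_right (m := ω) (by simp)).clm_apply contDiffAt_const
    refine (ih h1).congr_of_eventuallyEq ?_
    have h2 : ∀ᶠ p' in 𝓝 p, ContDiffAt ℂ ω B p' := hB.eventually (by simp)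
    filter_upwards [eventually_eventually_nhds.2 h2] with p' hp'
    rw [iteratedDeriv_succ']
    have h3 : Tendsto (fun t : ℂ => (p'.1, t)) (𝓝 p'.2) (𝓝 p') := by
      have : Continuous fun t : ℂ => (p'.1, t) := by fun_prop
      exact this.tendsto' _ _ rfl
    refine (Filter.EventuallyEq.iteratedDeriv ?_ i).self_of_nhds
    filter_upwards [h3.eventually hp'] with t ht
    have h4 : HasDerivAt (fun t : ℂ => (p'.1, t)) ((0 : E'), (1 : ℂ)) t :=
      (hasDerivAt_const t p'.1).prodMk (hasDerivAt_id t)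
    exact ((ht.differentiableAt (by simp)).hasFDerivAt.comp_hasDerivAt t h4).deriv

end Slices

end Vale.Agent.P281.H713
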