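import Mathlib

open scoped Topology
open Set Filter Complex

namespace Vale.Agent.P281.H713

set_option linter.unusedSectionVars false

/-! ### Complex linear part of a real linear map -/

section Clin

variable {V W W' : Type*} [NormedAddCommGroup V] [NormedSpace ℂ V] [NormedAddCommGroup W]
  [NormedSpace ℂ W] [NormedAddCommGroup W'] [NormedSpace ℂ W']

theorem real_smul_I (T : V →L[ℝ] W) (c : ℂ) (u : V) :
    T (c • u) = (c.re : ℂ) • T u + (c.im : ℂ) • T (I • u) := by
  have h1 : c • u = c.re • u + c.im • (I • u) := by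
    conv_lhs => rw [← Complex.re_add_im c]
    rw [add_smul, mul_smul]
    rfl
  rw [h1, map_add, map_smul, map_smul]
  rfl

theorem map_I_I (T : V →L[ℝ] W) (u : V) : T (I • I • u) = -T u := by
  rw [smul_smul I I u, I_mul_I, neg_one_smul, map_neg]

/-- the complex linear part -/
noncomputable def clin (T : V →L[ℝ] W) : V →L[ℂ] W where
  toFun u := (1 / 2 : ℂ) • (T u - I • T (I • u))
  map_add' u v := by
    simp only [smul_add, map_add]
    module
  map_smul' c u := by
    rw [RingHom.id_apply, real_smul_I T c u, smul_comm I c u, real_smul_I T c (I • u),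
      map_I_I]
    have h3 : (c : ℂ) = c.re + c.im * I := (Complex.re_add_im c).symm
    have h4 : I * I = -1 := I_mul_I
    conv_rhs => rw [h3]
    match_scalars
    · ring
    · linear_combination (1 / 2 : ℂ) * (c.im : ℂ) * h4
  cont := by fun_prop

theorem clin_apply (T : V →L[ℝ] W) (u : V) : clin T u = (1 / 2 : ℂ) • (T u - I • T (I • u)) := rfl

/-- the antilinear part -/
noncomputable def alin (T : V →L[ℝ] W) (u : V) : W := (1 / 2 : ℂ) • (T u + I • T (I • u))

theorem clin_add_alin (T : V →L[ℝ] W) (u : V) : clin T u + alin T u = T u := by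
  rw [clin_apply, alin]
  module

theorem alin_I (T : V →L[ℝ] W) (u : V) : alin T (I • u) = -I • alin T u := by
  rw [alin, alin, map_I_I]
  have h4 : I * I = -1 := I_mul_I
  match_scalars
  · linear_combination (1 / 2 : ℂ) * h4
  · ring

theorem clin_comp_left (G : W →L[ℂ] W') (T : V →L[ℝ] W) :
    clin ((G.restrictScalars ℝ).comp T) = G.comp (clin T) := by
  ext u
  simp only [clin_apply, ContinuousLinearMap.comp_apply, ContinuousLinearMap.coe_restrictScalars',
    map_smul, map_sub]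

theorem clin_comp_right (T : W →L[ℝ] W') (G : V →L[ℂ] W) :
    clin (T.comp (G.restrictScalars ℝ)) = (clin T).comp G := by
  ext u
  simp only [clin_apply, ContinuousLinearMap.comp_apply, ContinuousLinearMap.coe_restrictScalars',
    map_smul]

end Clin

section Inner

variable {V : Type*} [NormedAddCommGroup V] [InnerProductSpace ℂ V]

/-- `T` preserves the imaginary part of the Hermitian product. -/
def IsSymp (T : V →L[ℝ] V) : Prop := ∀ u v, (inner ℂ (T u) (T v)).im = (inner ℂ u v).im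

theorem inner_I_im (u v : V) : (inner ℂ u (I • v)).im = (inner ℂ u v).re := by
  rw [inner_smul_right, I_mul_im]

theorem clin_norm {T : V →L[ℝ] V} (hT : IsSymp T) (u : V) :
    ‖clin T u‖ ^ 2 = ‖u‖ ^ 2 + ‖alin T u‖ ^ 2 := by
  have h1 := hT u (I • u)
  rw [inner_I_im] at h1
  have h2 : (inner ℂ u u).re = ‖u‖ ^ 2 := by
    have := inner_self_eq_norm_sq (𝕜 := ℂ) u
    exact_mod_cast this
  rw [h2] at h1
  rw [← clin_add_alin T u, ← clin_add_alin T (I • u), alin_I, map_smul] at h1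
  set a := clin T u
  set b := alin T u
  have h3 : I • a + -I • b = I • (a - b) := by module
  rw [h3, inner_I_im, inner_add_left, inner_sub_right, inner_sub_right] at h1
  have h4 : (inner ℂ a a).re = ‖a‖ ^ 2 := by
    have := inner_self_eq_norm_sq (𝕜 := ℂ) a
    exact_mod_cast this
  have h5 : (inner ℂ b b).re = ‖b‖ ^ 2 := by
    have := inner_self_eq_norm_sq (𝕜 := ℂ) b
    exact_mod_cast this
  have h6 : (inner ℂ a b).re = (inner ℂ b a).re := by
    rw [← inner_conj_symm, conj_re]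
  simp only [add_re, sub_re] at h1
  rw [h4, h5, h6] at h1
  linarith

theorem le_clin_norm {T : V →L[ℝ] V} (hT : IsSymp T) (u : V) : ‖u‖ ≤ ‖clin T u‖ := by
  have h := clin_norm hT u
  have h1 : ‖u‖ ^ 2 ≤ ‖clin T u‖ ^ 2 := by rw [h]; nlinarith [sq_nonneg ‖alin T u‖]
  exact (sq_le_sq₀ (norm_nonneg _) (norm_nonneg _)).1 h1

theorem norm_le_clin {T : V →L[ℝ] V} (hT : IsSymp T) (u : V) : ‖T u‖ ≤ 2 * ‖clin T u‖ := by
  have h := clin_norm hT u
  have h1 : ‖alin T u‖ ^ 2 ≤ ‖clin T u‖ ^ 2 := by rw [h]; nlinarith [sq_nonneg ‖u‖]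
  have h2 := (sq_le_sq₀ (norm_nonneg _) (norm_nonneg _)).1 h1
  calc ‖T u‖ = ‖clin T u + alin T u‖ := by rw [clin_add_alin]
    _ ≤ ‖clin T u‖ + ‖alin T u‖ := norm_add_le _ _
    _ ≤ 2 * ‖clin T u‖ := by linarith

/-- bound for a preimage -/
theorem norm_le_of_symp {T : V →L[ℝ] V} (hT : IsSymp T) {K : ℝ} (hK : ∀ u, ‖T u‖ ≤ K * ‖u‖)
    (w : V) : ‖w‖ ≤ K * ‖T w‖ := by
  have h1 := hT w (I • w)
  rw [inner_I_im] at h1
  have h2 : (inner ℂ w w).re = ‖w‖ ^ 2 := by
    have := inner_self_eq_norm_sq (𝕜 := ℂ) w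
    exact_mod_cast this
  rw [h2] at h1
  rcases eq_or_ne w 0 with h0 | h0
  · rw [h0]; simp
  have hw : 0 < ‖w‖ := norm_pos_iff.2 h0
  have h3 : ‖w‖ ^ 2 ≤ ‖T w‖ * (K * ‖w‖) := by
    rw [← h1]
    refine (le_abs_self _).trans ((abs_im_le_norm _).trans ((norm_inner_le_norm _ _).trans ?_))
    have h4 := hK (I • w)
    rw [norm_smul, norm_I, one_mul] at h4
    exact mul_le_mul_of_nonneg_left h4 (norm_nonneg _)
  have h5 : ‖w‖ * ‖w‖ ≤ (K * ‖T w‖) * ‖w‖ := by
    rw [← sq]; linarith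
  exact le_of_mul_le_mul_right h5 hw

variable [FiniteDimensional ℂ V]

/-- expanding linear maps -/
theorem expanding (L : V →L[ℂ] V) (hL : ∀ u, ‖u‖ ≤ ‖L u‖) :
    1 ≤ ‖L.det‖ ∧ (∀ u, ‖L u‖ ≤ ‖L.det‖ * ‖u‖) ∧ (‖L.det‖ = 1 → ∀ u, ‖L u‖ = ‖u‖) := by
  set L' : V →ₗ[ℂ] V := (L : V →ₗ[ℂ] V) with hL'
  set T : V →ₗ[ℂ] V := LinearMap.adjoint L' ∘ₗ L' with hTd
  have hT : T.IsSymmetric := by
    intro u v
    simp only [hTd, LinearMap.comp_apply, LinearMap.adjoint_inner_left,
      LinearMap.adjoint_inner_right]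
  have hTi : ∀ u, (inner ℂ u (T u)) = ((‖L u‖ ^ 2 : ℝ) : ℂ) := by
    intro u
    simp only [hTd, LinearMap.comp_apply, LinearMap.adjoint_inner_right]
    rw [inner_self_eq_norm_sq_to_K]
    norm_cast
  set n := Module.finrank ℂ V with hn
  set b := hT.eigenvectorBasis hn.symm with hb
  set l := hT.eigenvalues hn.symm with hl
  have hTb : ∀ i, T (b i) = (l i : ℂ) • b i := fun i => hT.apply_eigenvectorBasis hn.symm i
  have hl1 : ∀ i, 1 ≤ l i := by
    intro i
    have h1 := hTi (b i)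
    rw [hTb, inner_smul_right, inner_self_eq_norm_sq_to_K, b.norm_eq_one] at h1
    have h2 : (l i : ℝ) = ‖L (b i)‖ ^ 2 := by
      have : ((l i : ℝ) : ℂ) = ((‖L (b i)‖ ^ 2 : ℝ) : ℂ) := by rw [← h1]; simp
      exact_mod_cast this
    have h3 := hL (b i)
    rw [b.norm_eq_one] at h3
    rw [h2]
    nlinarith
  have hdet : (‖L.det‖ ^ 2 : ℝ) = ∏ i, l i := by
    have h1 := hT.det_eq_prod_eigenvalues hn.symm
    have h2 := LinearMap.normDet_sq L'
    rw [LinearMap.normDet_eq_norm_det] at h2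
    rw [h1] at h2
    have h3 : (((‖L.det‖ ^ 2 : ℝ)) : ℂ) = ((∏ i, l i : ℝ) : ℂ) := by
      push_cast at h2 ⊢
      exact h2
    exact_mod_cast h3
  -- expansion of the norm
  have hexp : ∀ u, ‖L u‖ ^ 2 = ∑ i, l i * ‖inner ℂ (b i) u‖ ^ 2 := by
    intro u
    have h1 : T u = ∑ i, (l i * inner ℂ (b i) u) • b i := by
      conv_lhs => rw [← b.sum_repr' u]
      rw [map_sum]
      refine Finset.sum_congr rfl fun i _ => ?_
      rw [map_smul, hTb, smul_smul, mul_comm]
    have h2 := hTi u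
    rw [h1, inner_sum] at h2
    have h3 : ∑ i, inner ℂ u ((l i * inner ℂ (b i) u) • b i) =
        ((∑ i, l i * ‖inner ℂ (b i) u‖ ^ 2 : ℝ) : ℂ) := by
      push_cast
      refine Finset.sum_congr rfl fun i _ => ?_
      rw [inner_smul_right, mul_assoc, ← inner_conj_symm u (b i), Complex.mul_conj,
        Complex.normSq_eq_norm_sq]
      norm_cast
    rw [h3] at h2
    exact (by exact_mod_cast h2.symm : ‖L u‖ ^ 2 = _)
  have hnorm : ∀ u, ‖u‖ ^ 2 = ∑ i, ‖inner ℂ (b i) u‖ ^ 2 := fun u =>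
    (b.sum_sq_norm_inner_right u).symm
  have h1p : ∀ s : Finset (Fin n), 1 ≤ ∏ i ∈ s, l i := fun s =>
    Finset.prod_induction _ (fun x : ℝ => 1 ≤ x) (fun a b ha hb => one_le_mul_of_one_le_of_one_le ha hb)
      le_rfl fun i _ => hl1 i
  have hprod1 : 1 ≤ ∏ i, l i := h1p _
  have hli : ∀ i, l i ≤ ∏ i, l i := by
    intro i
    rw [← Finset.mul_prod_erase Finset.univ l (Finset.mem_univ i)]
    have h1 : 1 ≤ ∏ j ∈ Finset.univ.erase i, l j := h1p _
    have h2 := hl1 i
    nlinarith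
  have hdet1 : 1 ≤ ‖L.det‖ := by
    rw [← hdet] at hprod1
    nlinarith [norm_nonneg L.det]
  refine ⟨hdet1, fun u => ?_, fun h1 u => ?_⟩
  · have h2 : ‖L u‖ ^ 2 ≤ (‖L.det‖ * ‖u‖) ^ 2 := by
      rw [hexp, mul_pow, hnorm, hdet, Finset.mul_sum]
      exact Finset.sum_le_sum fun i _ => mul_le_mul_of_nonneg_right (hli i) (by positivity)
    exact (sq_le_sq₀ (norm_nonneg _) (by positivity)).1 h2
  · rw [h1, one_pow] at hdet
    have h2 : ‖L u‖ ^ 2 ≤ ‖u‖ ^ 2 := by
      rw [hexp, hnorm]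
      refine Finset.sum_le_sum fun i _ => ?_
      have h3 := hli i
      rw [← hdet] at h3
      have h4 : (0 : ℝ) ≤ ‖inner ℂ (b i) u‖ ^ 2 := by positivity
      nlinarith
    exact le_antisymm ((sq_le_sq₀ (norm_nonneg _) (norm_nonneg _)).1 h2) (hL u)

end Inner

end Vale.Agent.P281.H713
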