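import Vale.Agent.P281.H713.ZG

open scoped Manifold ContDiff Topology ENNReal NNReal
open Set Filter Metric Module

namespace Vale.Agent.P281.H713

open Vale.Agent.P281 Vale.Agent.P281.MF Vale.Agent.P281.ISO Vale.Agent.P281.ELL

set_option linter.unusedSectionVars false

universe u

section Forms

variable {E E' : Type} [NormedAddCommGroup E] [NormedSpace ℂ E] [FiniteDimensional ℂ E]
  [NormedAddCommGroup E'] [NormedSpace ℂ E'] [FiniteDimensional ℂ E']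
variable {X Y : Type u} [TopologicalSpace X] [ChartedSpace E X] [IsManifold 𝓘(ℂ, E) ω X]
  [TopologicalSpace Y] [ChartedSpace E' Y] [IsManifold 𝓘(ℂ, E') ω Y]
variable {V : Type} [NormedAddCommGroup V] [InnerProductSpace ℂ V] [FiniteDimensional ℂ V]
variable {n m d b t r N s : ℕ} {f : X → Y} {S : Set Y} {κ : Set X → ℕ}
  {Q : (Fin n → ℝ) → (Fin n → ℝ) → ℝ} {B : Fin b → Matrix (Fin m) (Fin m) ℝ}
  {w : Fin b → Fin m → ℝ} {e : Fin b → ℕ} {ι : Type u} {U : ι → Set Y}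
  {π : ι → Y → ((Fin n → ℝ) ≃L[ℝ] V)} {p : ι → Y → Fin b → Fin m → ℂ}
  {η : ι → Fin t → X → (Fin d → E) → ℂ}

theorem hasForms_periods (hC : IsPeriodForms E E' f S r N κ Q s B w e U π p η)
    (hf : ∀ x, HolM E E' f x) (e₀ : E ≃L[ℂ] (E' × (Fin d → ℂ))) {Δ : Set X → ℝ}
    (hN : 0 < N) (hfin : {D | κ D ≠ 0}.Finite) (hprime : ∀ D, κ D ≠ 0 → IsPrimeDivisor E D)
    (hκ : ∀ D, (κ D : ℝ) ≤ N * Δ D) {y : Y} (hy : y ∉ S) : HasForms f S e₀ Δ r y := by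
  classical
  have hUS : ∀ a, ∀ y ∈ U a, y ∉ S := fun a y hy => (hC.cover y).2 ⟨a, hy⟩
  obtain ⟨θ, hθ, hθ0⟩ := exists_theta e₀ hUS hC.chart hC.forms hfin hprime
  have hθ' : ∀ a, IsTheta f e₀ κ N (U a) (η a) (θ a) := fun a => hθ a
  obtain ⟨a₀, ha₀⟩ := (hC.cover y).1 hy
  let ν : ι → Y → ℝ := fun a y => if h : ∃ G : V ≃L[ℂ] V, IsPol Q (π a y) G then
    ‖((h.choose : V ≃L[ℂ] V) : V →L[ℂ] V).det‖ ^ s / pnS B e (p a y) else 1
  have hν : ∀ a, ∀ y ∈ U a, ∃ G : V ≃L[ℂ] V, IsPol Q (π a y) G ∧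
      ν a y = ‖(G : V →L[ℂ] V).det‖ ^ s / pnS B e (p a y) := by
    intro a y hy
    have h : ∃ G : V ≃L[ℂ] V, IsPol Q (π a y) G := hC.polarized a y hy
    refine ⟨h.choose, h.choose_spec, ?_⟩
    simp only [ν]
    rw [dif_pos h]
  have hper : ∀ a, ∀ y ∈ U a, ∀ j, IsK3Period (B j) (w j) (p a y j) := fun a y hy j =>
    (hC.period a y hy j).1
  have hpn : ∀ a, ∀ y ∈ U a, 0 < pnS B e (p a y) := fun a y hy => pnS_pos (hper a y hy)
  refine hasForms_Z (𝒜 := {D | κ D ≠ 0}) (κ₀ := κ) (N := N) (θ := θ) (ν := ν)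
    (Rl := RelP Q s B w e π p) (fun y hy => (hC.cover y).1 hy) hC.isOpen hf e₀ hN hfin
    (fun D hD => hprime D hD) hκ ?_ ?_ ?_ ?_ ha₀ ?_ ?_
  · intro a x hx T e' hT he'
    obtain ⟨ζ, c, hζ, hc, hev⟩ := hC.forms a x hx T e' hT he'
    obtain ⟨h1, -, h2⟩ := theta_loc hf e₀ (hC.isOpen a) (hθ' a) hx hζ hev
    exact ⟨vec ζ, c, h1, hc, h2⟩
  · intro a y hy
    obtain ⟨G, hG, hG2⟩ := hν a y hy
    rw [hG2]
    have h1 := norm_pos_iff.2 (det_equiv_ne G)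
    have h2 := hpn a y hy
    positivity
  · intro ρ hρ
    obtain ⟨C, hC0, hCb⟩ := pull_bound hC hf hN hfin hprime hρ
    refine ⟨Real.sqrt C, Real.sqrt_nonneg _, fun v₀ q h1 h2 h3 h4 h5 P h6 a ha i => ?_⟩
    obtain ⟨G, hG, hG2⟩ := hν a _ ha
    have hv₀ : v₀ ∈ ball v₀ ρ := mem_ball_self hρ
    have hoff : ∀ D, κ D ≠ 0 → q v₀ ∉ D := fun D hD => h5 v₀ hv₀ D hD
    have h7 := hCb v₀ q ⟨h1, h2, h3⟩ h5 a ha G hG i
    have h8 := hθ a (q v₀) ha hoff P (mfderiv 𝓘(ℂ, Fin d → ℂ) 𝓘(ℂ, E) q v₀)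
      (slice_ker hf (h1 v₀ hv₀) (eventually_of_mem (ball_mem_nhds v₀ hρ) fun v hv => h3 v hv))
      (fun w => congrArg (fun L : (Fin d → ℂ) →L[ℂ] (Fin d → ℂ) => L w) h6) i
    have h9 : θ a i (q v₀) = pull E (η a i) q v₀ * JP e₀ (dM E E' f (q v₀)) P ^ N := h8
    rw [h9, norm_mul, mul_right_comm]
    refine mul_le_mul_of_nonneg_right ?_ (norm_nonneg _)
    have h10 := hpn a _ ha
    rw [hG2, ← pnS_sq (hper a _ ha)] at *
    refine Real.le_sqrt_of_sq_le ?_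
    rw [mul_pow, div_pow, ← pow_mul, mul_comm s 2, ← mul_div_assoc, div_le_iff₀ (by positivity)]
    exact h7
  · intro a a' y ha ha'
    obtain ⟨G, σ, χ, τ, hG, hχ, h1⟩ := hC.change a a' y ⟨ha, ha'⟩
    refine ⟨(G : V →L[ℂ] V).det ^ s * ∏ j, χ j ^ e j, ⟨G, σ, χ, hG, hχ, rfl⟩, fun x hx =>
      ⟨τ, fun i => ?_⟩⟩
    by_cases hoff : ∀ D, κ D ≠ 0 → x ∉ D
    · have hxa : f x ∈ U a := by rw [hx]; exact ha
      have hxa' : f x ∈ U a' := by rw [hx]; exact ha'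
      obtain ⟨ζ, hζ, hinj⟩ := hC.chart x (hUS a _ hxa)
      have hζ : ∀ l, HolV E (ζ l) x := hζ
      obtain ⟨T, hT1, hT2⟩ := exists_frame_of e₀ (A := dM E E' f x) (P := dV E (vec ζ) x)
        (fun ξ h1 h2 => hinj ξ h1 fun l => by
          have h3 := dV_vec hζ ξ l
          rw [h2] at h3
          exact h3.symm)
      rw [hθ a x hxa hoff _ T hT1 hT2, hθ a' x hxa' hoff _ T hT1 hT2,
        h1 x hx hoff i _ fun l => hT1 _]
      ring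
    · rw [hθ0 a i x hoff, hθ0 a' (τ i) x hoff, mul_zero]
  · obtain ⟨o, ho, h1⟩ := aut hC hf ha₀
    refine ⟨o, ho, h1.mono fun k hk => ?_⟩
    obtain ⟨ψ, C, h2, h3, h4, h5⟩ := hk
    refine ⟨ψ, C, h2, fun a a' y μ ha ha' hμ => h3 a a' y μ ha ha' hμ, fun a y hy => ?_, h5⟩
    obtain ⟨G, hG, hG2⟩ := hν a y hy
    rw [hG2]
    exact h4 a y G hy hG
  · exact theta_rank hf e₀ (hC.isOpen a₀) (hθ' a₀) (hC.forms a₀) hfin hprime ha₀
      (hC.rank a₀ y ha₀)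

end Forms

section Main

variable {E E' E₀ V : Type} [NormedAddCommGroup E] [NormedSpace ℂ E] [FiniteDimensional ℂ E]
  [NormedAddCommGroup E'] [NormedSpace ℂ E'] [FiniteDimensional ℂ E']
  [NormedAddCommGroup E₀] [NormedSpace ℂ E₀]
  [NormedAddCommGroup V] [InnerProductSpace ℂ V] [FiniteDimensional ℂ V]
variable {X Z Y F : Type u} [TopologicalSpace X] [ChartedSpace E X] [IsManifold 𝓘(ℂ, E) ω X]
  [TopologicalSpace Z] [ChartedSpace E Z] [IsManifold 𝓘(ℂ, E) ω Z]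
  [TopologicalSpace Y] [ChartedSpace E' Y] [IsManifold 𝓘(ℂ, E') ω Y]
  [TopologicalSpace F] [ChartedSpace E₀ F]

theorem le_of_kod_le {ι₀ : Type u} {eqn₀ : ι₀ → F → (F → ℂ) → Prop} {c₀ : ι₀ → ℝ} {r j : ℕ}
    (h : kod E₀ eqn₀ c₀ ≤ (r : WithBot ℕ∞)) (hj : KodGE E₀ eqn₀ c₀ j) : j ≤ r := by
  have h1 : (((j : ℕ) : ℕ∞) : WithBot ℕ∞) ≤ kod E₀ eqn₀ c₀ := by
    unfold kod
    exact le_iSup₂_of_le j hj le_rfl
  exact_mod_cast h1.trans h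

/-- families of manifolds with forms controlled by periods -/
theorem main_periods [Nonempty X] [FiniteDimensional ℂ E₀] {n m d b t r N s : ℕ} (hN : 0 < N)
    (hE : finrank ℂ E = finrank ℂ E' + d)
    (j : Z → X) (hj : J.IsBigOpen E j) (f : Z → Y) (hf : ContMDiff 𝓘(ℂ, E) 𝓘(ℂ, E') ω f)
    (𝒢 : Set (Set Y)) (h𝒢 : J.IsDivisorial E E' f 𝒢)
    {Q : (Fin n → ℝ) → (Fin n → ℝ) → ℝ} {B : Fin b → Matrix (Fin m) (Fin m) ℝ}
    {w : Fin b → Fin m → ℝ} {e : Fin b → ℕ} {κ : Set Z → ℕ} {ι : Type u} {U : ι → Set Y}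
    {π : ι → Y → ((Fin n → ℝ) ≃L[ℝ] V)} {p : ι → Y → Fin b → Fin m → ℂ}
    {η : ι → Fin t → Z → (Fin d → E) → ℂ}
    (hC : IsPeriodForms E E' f (⋃₀ 𝒢) r N κ Q s B w e U π p η)
    (Δ : Set X → ℝ) (hsnc : J.IsSNC E Δ) (Δ' : Set Z → ℝ) (hsnc' : J.IsSNC E Δ')
    (hΔ : J.IsRestriction j Δ Δ') (hκ : ∀ D, (κ D : ℝ) ≤ N * Δ' D)
    (hBS : ∀ G, J.orbBase' E E' f Δ' G ≠ 0 → G ∈ 𝒢)
    (ΔF : Set F → ℝ) (hF : J.kod E₀ (fun (C : Set F) p g => J.IsLocalEq E₀ C g p) ΔF ≤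
      (r : WithBot ℕ∞)) :
    J.kod E₀ (fun (C : Set F) p g => J.IsLocalEq E₀ C g p) ΔF +
      J.kod E' (fun (G : Set Y) z g => J.IsLocalEq E' G g z) (J.orbBase' E E' f Δ') ≤
      J.kod E (fun (D : Set X) z g => J.IsLocalEq E D g z) Δ := by
  rw [JB.kod_eq] at hF
  rw [JB.kod_eq, JB.kod_eq, JB.kod_eq]
  let e₀ : E ≃L[ℂ] (E' × (Fin d → ℂ)) := ContinuousLinearEquiv.ofFinrankEq (by
    rw [hE, Module.finrank_prod, Module.finrank_fin_fun])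
  have hs' := JB.snc hsnc'
  have hne : ∀ D, κ D ≠ 0 → Δ' D ≠ 0 := by
    intro D hD h0
    have h1 := hκ D
    rw [h0, mul_zero] at h1
    have h2 : (0 : ℝ) < κ D := by exact_mod_cast Nat.pos_of_ne_zero hD
    linarith
  have hfin : {D | κ D ≠ 0}.Finite := hs'.finite.subset fun D hD => hne D hD
  refine kod_add_le fun j₁ j₂ h₁ h₂ => ?_
  have hj₁ : j₁ ≤ r := le_of_kod_le hF h₁
  have hmain := kodGE_of_forms (r := r) j hj f hf 𝒢 h𝒢 (fun x hx => by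
      obtain ⟨ζ, hζ, hinj⟩ := hC.chart x hx
      have hζ : ∀ l, HolV E (ζ l) x := hζ
      exact surj_of_coord (E₀ := Fin d → ℂ) (P := dV E (vec ζ) x)
        (by rw [hE, Module.finrank_fin_fun]) fun ξ h1 h2 => hinj ξ h1 fun l => by
          have h3 := dV_vec hζ ξ l
          rw [h2] at h3
          exact h3.symm)
    e₀ Δ hsnc Δ' hsnc' hΔ hBS
    (fun y hy => hasForms_periods hC (fun x => hf x) e₀ hN hfin
      (fun D hD => hs'.prime D (hne D hD)) hκ hy) h₂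
  exact kodGE_le_of hmain (by omega)

end Main

end Vale.Agent.P281.H713
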