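import Vale.Agent.P281.H713.Torus

open scoped Manifold ContDiff Topology
open Set Filter Metric Module

namespace Vale.Agent.P281.H713

open Vale.Agent.P281 Vale.Agent.P281.MF Vale.Agent.P281.ISO Vale.Agent.P281.ELL

set_option linter.unusedSectionVars false

universe u

section

variable {V : Type} [NormedAddCommGroup V] [InnerProductSpace ℂ V] [FiniteDimensional ℂ V]

/-- entire functions with a full lattice of periods are constant -/
theorem periodic_const {n : ℕ} (P : (Fin n → ℝ) ≃L[ℝ] V) {h : V → ℂ} (hh : Differentiable ℂ h)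
    (hp : ∀ w (m : Fin n → ℤ), h (w + P fun i => (m i : ℝ)) = h w) (w w' : V) : h w = h w' := by
  refine hh.apply_eq_apply_of_bounded ?_ w w'
  have hK : IsCompact (P '' (Set.univ.pi fun _ : Fin n => Set.Icc (0 : ℝ) 1)) :=
    (isCompact_univ_pi fun _ => isCompact_Icc).image P.continuous
  have h1 : range h = h '' (P '' (Set.univ.pi fun _ : Fin n => Set.Icc (0 : ℝ) 1)) := by
    refine Subset.antisymm ?_ (image_subset_range _ _)
    rintro _ ⟨v, rfl⟩
    set x := P.symm v with hx
    refine ⟨P fun i => Int.fract (x i), ⟨_, fun i _ => ⟨Int.fract_nonneg _,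
      (Int.fract_lt_one _).le⟩, rfl⟩, ?_⟩
    have h2 := hp v fun i => -⌊x i⌋
    rw [← h2]
    congr 1
    have h3 : v = P x := by rw [hx, P.apply_symm_apply]
    rw [h3, ← map_add]
    congr 1
    funext i
    simp only [Pi.add_apply, Int.cast_neg, Int.fract]
    ring
  rw [h1]
  exact (hK.image_of_continuousOn hh.continuous.continuousOn).isBounded

variable {F : Type u} [TopologicalSpace F] [ChartedSpace V F] [IsManifold 𝓘(ℂ, V) ω F]

/-- the differential of `p : V → F` -/
noncomputable def dU (V : Type) [NormedAddCommGroup V] [NormedSpace ℂ V] {F : Type u}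
    [TopologicalSpace F] [ChartedSpace V F] (p : V → F) (w : V) : V →L[ℂ] V :=
  mfderiv 𝓘(ℂ, V) 𝓘(ℂ, V) p w

/-- the Kodaira dimension of a complex torus is `≤ 0` -/
theorem kodGE_torus {n : ℕ} (P : (Fin n → ℝ) ≃L[ℝ] V) {p : V → F} (hs : Function.Surjective p)
    (hp : ∀ w, ContMDiffAt 𝓘(ℂ, V) 𝓘(ℂ, V) ω p w) (hp' : ∀ w, Function.Injective (dU V p w))
    (hP : ∀ w (m : Fin n → ℤ), p (w + P fun i => (m i : ℝ)) = p w) {ι : Type u}
    {eqn : ι → F → (F → ℂ) → Prop} {ΔF : ι → ℝ} (h0 : ∀ i, ΔF i = 0) {j : ℕ}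
    (h : KodGE V eqn ΔF j) : j = 0 := by
  obtain ⟨m, k, s, z, hm, hk, hsec, hz, hs0, hind⟩ := h
  have hk0 : ∀ i, k i = 0 := by
    intro i
    have h1 := hk i
    rw [h0, mul_zero] at h1
    exact_mod_cast h1
  have hdet : ∀ w, (dU V p w).det ≠ 0 := fun w => det_ne_of_inj (hp' w)
  -- the pull-back of a section is constant
  have hconst : ∀ b, ∃ c : ℂ, ∀ w, s b (p w) * (dU V p w).det ^ m = c := by
    intro b
    have hper : ∀ w (l : Fin n → ℤ), s b (p (w + P fun i => (l i : ℝ))) *
        (dU V p (w + P fun i => (l i : ℝ))).det ^ m = s b (p w) * (dU V p w).det ^ m := by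
      intro w l
      set v := P fun i => (l i : ℝ) with hv
      have h1 : dU V p (w + v) = dU V p w := by
        have h2 : (fun z => p (z + v)) = p := funext fun z => hP z l
        have h3 : dU V (fun z => p (z + v)) w = dU V p (w + v) := by
          have h4 : MDifferentiableAt 𝓘(ℂ, V) 𝓘(ℂ, V) (fun z : V => z + v) w :=
            (differentiableAt_id.add_const v).mdifferentiableAt
          have h5 := mfderiv_comp w (g := p) (f := fun z : V => z + v)
            (ContMDiffAt.mdifferentiableAt (hp (w + v)) (by simp)) h4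
          have h6 : (mfderiv 𝓘(ℂ, V) 𝓘(ℂ, V) (fun z : V => z + v) w : V →L[ℂ] V) =
              ContinuousLinearMap.id ℂ V := by
            rw [mfderiv_eq_fderiv]
            exact (fderiv_add_const v).trans fderiv_fun_id
          refine h5.trans ?_
          have h7 : ∀ B : V →L[ℂ] V, B = ContinuousLinearMap.id ℂ V →
              (dU V p (w + v)).comp B = dU V p (w + v) := by
            rintro B rfl
            exact ContinuousLinearMap.comp_id _
          exact h7 _ h6
        rw [← h3, h2]
      rw [hP w l, h1]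
    have hdiff : Differentiable ℂ fun w => s b (p w) * (dU V p w).det ^ m := by
      intro w
      obtain ⟨T, g, a, hT, -, ha, hev⟩ := hsec b (p w)
      set φ := chartAt V (p w) with hφ
      have hws : p w ∈ φ.source := mem_chart_source V (p w)
      have hφp' : ContDiffAt ℂ ω (fun z => φ (p z)) w :=
        (slice_fderiv (hp w) (ζ := (φ : F → V)) (HolV.chart hws)).1
      have ha'' : ContDiffAt ℂ ω (fun z => a (p z)) w := (slice_fderiv (hp w) ha).1
      have h1 : ContDiffAt ℂ ω (fun z => a (p z) * (fderiv ℂ (fun z => φ (p z)) z).det ^ m) w :=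
        ha''.mul ((contDiff_det'.contDiffAt.comp w (hφp'.fderiv_right (m := ω) (by simp))).pow m)
      refine (h1.differentiableAt (by simp)).congr_of_eventuallyEq ?_
      filter_upwards [(hp w).continuousAt.eventually hev,
        (hp w).continuousAt.eventually (φ.open_source.mem_nhds hws)] with z h2 h3
      have h4 : ∏ i ∈ T, g i (p z) ^ k i = 1 :=
        Finset.prod_eq_one fun i _ => by rw [hk0, pow_zero]
      rw [h4, mul_one] at h2
      rw [h2 one_ne_zero, mul_assoc, ← mul_pow]
      congr 2
      have d2 := (slice_fderiv (hp z) (ζ := (φ : F → V)) (HolV.chart h3)).2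
      rw [d2]
      exact (clm_det_comp (dV V (φ : F → V) (p z)) (dU V p z)).symm
    exact ⟨_, fun w => periodic_const P hdiff hper w 0⟩
  choose c hc using hconst
  by_contra hj
  obtain ⟨j', rfl⟩ : ∃ j', j = j' + 1 := ⟨j - 1, by omega⟩
  obtain ⟨w₀, rfl⟩ := hs z
  have hc0 : c 0 ≠ 0 := by
    rw [← hc 0 w₀]
    exact mul_ne_zero hs0 (pow_ne_zero _ (hdet w₀))
  have hratio : (fun z => s (Fin.succ 0) z / s 0 z) = fun _ => c (Fin.succ 0) / c 0 := by
    funext z
    obtain ⟨w, rfl⟩ := hs z
    have h1 := pow_ne_zero m (hdet w)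
    rw [← hc 0 w, ← hc (Fin.succ 0) w, mul_div_mul_right _ _ h1]
  have h1 := hind.ne_zero 0
  apply h1
  show dif V (fun z => s (Fin.succ 0) z / s 0 z) (p w₀) = 0
  rw [hratio]
  unfold dif
  exact mfderiv_const

end

end Vale.Agent.P281.H713
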