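import Vale.Agent.P281.H713.GNC

open scoped Topology ContDiff
open Set Filter Module Metric

namespace Vale.Agent.P281.H713

set_option linter.unusedSectionVars false

section PowerSums

variable {W : Type*} [NormedAddCommGroup W] [NormedSpace ℂ W] [FiniteDimensional ℂ W]
  {I : Type*} [Fintype I]

/-- power sums -/
noncomputable def ps (b : I → W → ℂ) (l : ℕ) (v : W) : ℂ := ∑ i, b i v ^ l

theorem ps_fderiv {b : I → W → ℂ} {v : W} (hb : ∀ i, DifferentiableAt ℂ (b i) v) (l : ℕ) :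
    fderiv ℂ (ps b (l + 1)) v = ∑ i, ((l + 1 : ℂ) * b i v ^ l) • fderiv ℂ (b i) v := by
  have h1 : HasFDerivAt (ps b (l + 1)) (∑ i, ((l + 1 : ℂ) * b i v ^ l) • fderiv ℂ (b i) v) v := by
    unfold ps
    refine HasFDerivAt.fun_sum fun i _ => ?_
    have h2 := (hb i).hasFDerivAt.pow (l + 1)
    simp only [Nat.add_sub_cancel, nsmul_eq_mul, Nat.cast_add, Nat.cast_one] at h2
    exact h2
  exact h1.fderiv

theorem ps_cd {b : I → W → ℂ} {v : W} (hb : ∀ i, ContDiffAt ℂ ω (b i) v) (l : ℕ) :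
    ContDiffAt ℂ ω (ps b l) v := by
  unfold ps
  exact ContDiffAt.sum fun i _ => (hb i).pow l

/-- the jets of the power sums -/
noncomputable def pj (b : I → W → ℂ) (l : ℕ) (v : W) : ℂ × (W →L[ℂ] ℂ) :=
  ((l : ℂ) * ps b l v, fderiv ℂ (ps b l) v)

theorem pj_eq {b : I → W → ℂ} {v : W} (hb : ∀ i, DifferentiableAt ℂ (b i) v) (l : ℕ) :
    pj b (l + 1) v = ∑ i, ((l + 1 : ℂ) * b i v ^ l) • (b i v, fderiv ℂ (b i) v) := by
  unfold pj
  rw [ps_fderiv hb]
  refine Prod.ext ?_ ?_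
  · simp only [Prod.fst_sum, Prod.smul_fst, smul_eq_mul, ps, Nat.cast_add, Nat.cast_one,
      Finset.mul_sum]
    refine Finset.sum_congr rfl fun i _ => ?_
    rw [pow_succ]
    ring
  · simp only [Prod.snd_sum, Prod.smul_snd]

theorem jets_mem_span {b : I → W → ℂ} {v : W} (hb : ∀ i, DifferentiableAt ℂ (b i) v)
    (hgen : ∀ i j, b i =ᶠ[𝓝 v] b j ∨ b i v ≠ b j v) (i₀ : I) :
    (b i₀ v, fderiv ℂ (b i₀) v) ∈ Submodule.span ℂ (range fun l : ℕ => pj b (l + 1) v) := by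
  classical
  set s : Finset ℂ := Finset.univ.image fun i => b i v with hs
  have hmem : ∀ i, b i v ∈ s := fun i => Finset.mem_image.2 ⟨i, Finset.mem_univ i, rfl⟩
  set p : Polynomial ℂ := Lagrange.basis s id (b i₀ v) with hp
  have hinj : Set.InjOn (id : ℂ → ℂ) s := Set.injOn_id _
  have hp1 : p.eval (b i₀ v) = 1 := Lagrange.eval_basis_self hinj (hmem i₀)
  have hp0 : ∀ i, b i v ≠ b i₀ v → p.eval (b i v) = 0 := fun i hi =>
    Lagrange.eval_basis_of_ne (v := (id : ℂ → ℂ)) (Ne.symm hi) (hmem i)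
  -- the combination
  have h1 : ∑ l ∈ p.support, (p.coeff l / (l + 1 : ℂ)) • pj b (l + 1) v =
      ∑ i, p.eval (b i v) • (b i v, fderiv ℂ (b i) v) := by
    simp only [pj_eq hb, Finset.smul_sum, smul_smul]
    rw [Finset.sum_comm]
    refine Finset.sum_congr rfl fun i _ => ?_
    rw [← Finset.sum_smul, Polynomial.eval_eq_sum, Polynomial.sum]
    congr 1
    refine Finset.sum_congr rfl fun l _ => ?_
    have h2 : (l + 1 : ℂ) ≠ 0 := by exact_mod_cast Nat.succ_ne_zero l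
    field_simp
  have h2 : ∑ i, p.eval (b i v) • (b i v, fderiv ℂ (b i) v) =
      (((Finset.univ.filter fun i => b i v = b i₀ v).card : ℕ) : ℂ) •
        (b i₀ v, fderiv ℂ (b i₀) v) := by
    rw [← Finset.sum_filter_add_sum_filter_not Finset.univ (fun i => b i v = b i₀ v)]
    have h3 : ∑ i with ¬ b i v = b i₀ v, p.eval (b i v) • (b i v, fderiv ℂ (b i) v) = 0 := by
      refine Finset.sum_eq_zero fun i hi => ?_
      rw [hp0 i (Finset.mem_filter.1 hi).2]
      exact zero_smul ℂ ((b i v, fderiv ℂ (b i) v) : ℂ × (W →L[ℂ] ℂ))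
    rw [h3, add_zero]
    have h4 : ∀ i ∈ Finset.univ.filter fun i => b i v = b i₀ v,
        p.eval (b i v) • (b i v, fderiv ℂ (b i) v) = (b i₀ v, fderiv ℂ (b i₀) v) := by
      intro i hi
      have h5 := (Finset.mem_filter.1 hi).2
      have h6 : b i =ᶠ[𝓝 v] b i₀ := (hgen i i₀).resolve_right (not_not.2 h5)
      rw [h5, hp1, one_smul, h6.fderiv_eq]
    rw [Finset.sum_congr rfl h4, Finset.sum_const]
    exact (Nat.cast_smul_eq_nsmul ℂ _ ((b i₀ v, fderiv ℂ (b i₀) v) : ℂ × (W →L[ℂ] ℂ))).symm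
  have h3 : (((Finset.univ.filter fun i => b i v = b i₀ v).card : ℕ) : ℂ) ≠ 0 := by
    have : 0 < (Finset.univ.filter fun i => b i v = b i₀ v).card :=
      Finset.card_pos.2 ⟨i₀, Finset.mem_filter.2 ⟨Finset.mem_univ _, rfl⟩⟩
    exact_mod_cast this.ne'
  have h4 : (b i₀ v, fderiv ℂ (b i₀) v) =
      (((Finset.univ.filter fun i => b i v = b i₀ v).card : ℕ) : ℂ)⁻¹ •
        ∑ l ∈ p.support, (p.coeff l / (l + 1 : ℂ)) • pj b (l + 1) v := by
    rw [h1, h2, smul_smul, inv_mul_cancel₀ h3, one_smul]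
  rw [h4]
  exact Submodule.smul_mem _ _ (Submodule.sum_mem _ fun l _ =>
    Submodule.smul_mem _ _ (Submodule.subset_span ⟨l, rfl⟩))

theorem exists_powers {b : I → W → ℂ} {v : W} (hb : ∀ i, DifferentiableAt ℂ (b i) v)
    (hgen : ∀ i j, b i =ᶠ[𝓝 v] b j ∨ b i v ≠ b j v) {r : ℕ} {i : Fin (r + 1) → I}
    (hind : LinearIndependent ℂ fun s =>
      ((b (i s) v, fderiv ℂ (b (i s)) v) : ℂ × (W →L[ℂ] ℂ))) :
    ∃ l : Fin (r + 1) → ℕ, LinearIndependent ℂ fun s => pj b (l s + 1) v := by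
  obtain ⟨F, hF, -, hFi⟩ := Submodule.exists_fun_fin_finrank_span_eq ℂ
    (range fun l : ℕ => pj b (l + 1) v)
  have h1 : r + 1 ≤ finrank ℂ (Submodule.span ℂ (range fun l : ℕ => pj b (l + 1) v)) := by
    have h2 : Submodule.span ℂ (range fun s => ((b (i s) v, fderiv ℂ (b (i s)) v) :
        ℂ × (W →L[ℂ] ℂ))) ≤ Submodule.span ℂ (range fun l : ℕ => pj b (l + 1) v) := by
      rw [Submodule.span_le]
      rintro _ ⟨s, rfl⟩
      exact jets_mem_span hb hgen (i s)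
    have h3 := Submodule.finrank_mono h2
    rw [finrank_span_eq_card hind, Fintype.card_fin] at h3
    exact h3
  choose l hl using hF
  refine ⟨fun s => l (Fin.castLE h1 s), ?_⟩
  have h2 := hFi.comp (Fin.castLE h1) (Fin.castLE_injective h1)
  have h3 : (F ∘ Fin.castLE h1) = fun s => pj b (l (Fin.castLE h1 s) + 1) v := by
    funext s
    exact (hl _).symm
  rwa [h3] at h2

/-- generic points for the power sums -/
theorem ps_point {b : I → W → ℂ} {v₀ : W} (hb : ∀ i, ContDiffAt ℂ ω (b i) v₀) {r : ℕ}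
    {i : Fin (r + 1) → I} (hind : LinearIndependent ℂ fun s =>
      ((b (i s) v₀, fderiv ℂ (b (i s)) v₀) : ℂ × (W →L[ℂ] ℂ))) {good : W → Prop}
    (hgood : ∀ᶠ v in 𝓝 v₀, good v) :
    ∃ v₂, good v₂ ∧ (∀ i, ContDiffAt ℂ ω (b i) v₂) ∧ ∃ l : Fin (r + 1) → ℕ,
      (∀ s, 0 < l s ∧ ps b (l s) v₂ ≠ 0) ∧ LinearIndependent ℂ fun s => pj b (l s) v₂ := by
  classical
  have hn' : (ω : WithTop ℕ∞) ≠ 0 := by simp
  have hcont : ∀ {c : W → ℂ} {v : W}, ContDiffAt ℂ ω c v →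
      ContinuousAt (fun v => ((c v, fderiv ℂ c v) : ℂ × (W →L[ℂ] ℂ))) v := fun hc =>
    hc.continuousAt.prodMk (hc.fderiv_right (m := ω) (by simp)).continuousAt
  have h1 : ∀ᶠ v in 𝓝 v₀, LinearIndependent ℂ fun s =>
      ((b (i s) v, fderiv ℂ (b (i s)) v) : ℂ × (W →L[ℂ] ℂ)) := by
    have h2 : ContinuousAt (fun v => fun s : Fin (r + 1) =>
        ((b (i s) v, fderiv ℂ (b (i s)) v) : ℂ × (W →L[ℂ] ℂ))) v₀ :=
      continuousAt_pi.2 fun s => hcont (hb (i s))
    exact h2.eventually hind.eventually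
  obtain ⟨O, hO1, hO2, hO3⟩ := _root_.eventually_nhds_iff.1 ((hgood.and h1).and
    ((Filter.eventually_all).2 fun i => (hb i).eventually (by simp)))
  obtain ⟨v₁, hv₁, hgen₁⟩ := exists_generic (W := W) (ι' := Unit) (Finset.univ : Finset (I × I))
    (F := fun u _ v => b u.1 v - b u.2 v) hO2 ⟨v₀, hO3⟩ (fun u _ v hv =>
      (((hO1 v hv).2 u.1).continuousAt.sub ((hO1 v hv).2 u.2).continuousAt).continuousWithinAt)
  have hgen : ∀ i j, b i =ᶠ[𝓝 v₁] b j ∨ b i v₁ ≠ b j v₁ := by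
    intro i j
    rcases hgen₁ (i, j) (Finset.mem_univ _) with h2 | ⟨-, h2⟩
    · left
      filter_upwards [h2] with v hv
      exact sub_eq_zero.1 (hv ())
    · right
      exact sub_ne_zero.1 h2
  obtain ⟨⟨-, h2⟩, h3⟩ := hO1 v₁ hv₁
  obtain ⟨l, hl⟩ := exists_powers (fun i => (h3 i).differentiableAt hn') hgen h2
  -- a second generic point
  have h4 : ∀ᶠ v in 𝓝 v₁, LinearIndependent ℂ fun s => pj b (l s + 1) v := by
    have h5 : ContinuousAt (fun v => fun s : Fin (r + 1) => pj b (l s + 1) v) v₁ :=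
      continuousAt_pi.2 fun s => by
        have h6 := hcont (ps_cd h3 (l s + 1))
        exact (h6.fst.const_mul _).prodMk h6.snd
    exact h5.eventually hl.eventually
  obtain ⟨O', hO'1, hO'2, hO'3⟩ := _root_.eventually_nhds_iff.1
    (h4.and (show ∀ᶠ v in 𝓝 v₁, v ∈ O from hO2.mem_nhds hv₁))
  obtain ⟨v₂, hv₂, hgen₂⟩ := exists_generic (W := W) (ι' := Unit)
    (Finset.univ : Finset (Fin (r + 1)))
    (F := fun s _ v => ps b (l s + 1) v) hO'2 ⟨v₁, hO'3⟩ (fun s _ v hv =>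
      (ps_cd (hO1 v (hO'1 v hv).2).2 _).continuousAt.continuousWithinAt)
  obtain ⟨h5, h6⟩ := hO'1 v₂ hv₂
  obtain ⟨⟨h7, -⟩, h8⟩ := hO1 v₂ h6
  refine ⟨v₂, h7, h8, fun s => l s + 1, fun s => ⟨Nat.succ_pos _, ?_⟩, h5⟩
  rcases hgen₂ s (Finset.mem_univ _) with h9 | ⟨-, h9⟩
  · exfalso
    have h10 : ps b (l s + 1) =ᶠ[𝓝 v₂] fun _ => (0 : ℂ) := h9.mono fun v hv => hv ()
    have h11 : pj b (l s + 1) v₂ = 0 := by
      unfold pj
      rw [h10.fderiv_eq, h10.self_of_nhds]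
      simp
    exact h5.ne_zero s h11
  · exact h9

/-- the jets of the powers of the power sums -/
theorem pow_indep {b : I → W → ℂ} {v : W} (hb : ∀ i, DifferentiableAt ℂ (b i) v) {r : ℕ}
    {l m : Fin (r + 1) → ℕ} {K : ℕ} (hK : 0 < K) (hlm : ∀ s, l s * m s = K)
    (h0 : ∀ s, ps b (l s) v ≠ 0) (hind : LinearIndependent ℂ fun s => pj b (l s) v) :
    LinearIndependent ℂ fun s => ((ps b (l s) v ^ m s, fderiv ℂ (fun v => ps b (l s) v ^ m s) v) :
      ℂ × (W →L[ℂ] ℂ)) := by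
  have hd : ∀ l, DifferentiableAt ℂ (ps b l) v := fun l => by
    unfold ps
    exact DifferentiableAt.fun_sum fun i _ => (hb i).pow l
  have hm : ∀ s, m s ≠ 0 := fun s h => by
    have := hlm s
    rw [h, mul_zero] at this
    omega
  rw [Fintype.linearIndependent_iff] at hind ⊢
  intro c hc
  have h1 : ∀ s, fderiv ℂ (fun v => ps b (l s) v ^ m s) v =
      ((m s : ℂ) * ps b (l s) v ^ (m s - 1)) • fderiv ℂ (ps b (l s)) v := by
    intro s
    have h2 := ((hd (l s)).hasFDerivAt.pow (m s)).fderiv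
    simp only [nsmul_eq_mul] at h2
    exact h2
  have h2 := hind (fun s => c s * ((m s : ℂ) * ps b (l s) v ^ (m s - 1))) (by
    have h3 := congrArg Prod.fst hc
    have h4 := congrArg Prod.snd hc
    simp only [Prod.fst_sum, Prod.smul_fst, Prod.fst_zero, smul_eq_mul] at h3
    simp only [Prod.snd_sum, Prod.smul_snd, Prod.snd_zero] at h4
    refine Prod.ext ?_ ?_
    · simp only [pj, Prod.fst_sum, Prod.smul_fst, Prod.fst_zero, smul_eq_mul]
      have h5 : ∀ s, c s * ((m s : ℂ) * ps b (l s) v ^ (m s - 1)) *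
          ((l s : ℂ) * ps b (l s) v) = K * (c s * ps b (l s) v ^ m s) := by
        intro s
        obtain ⟨q, hq⟩ := Nat.exists_eq_succ_of_ne_zero (hm s)
        have h6 : ((l s : ℂ) * m s) = K := by exact_mod_cast hlm s
        rw [hq, Nat.succ_sub_one, pow_succ, ← h6, hq]
        ring
      simp only [h5]
      rw [← Finset.mul_sum, h3, mul_zero]
    · simp only [pj, Prod.snd_sum, Prod.smul_snd, Prod.snd_zero]
      rw [← h4]
      refine Finset.sum_congr rfl fun s _ => ?_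
      rw [h1, smul_smul])
  intro s
  have h3 := h2 s
  have h4 : (m s : ℂ) * ps b (l s) v ^ (m s - 1) ≠ 0 :=
    mul_ne_zero (by exact_mod_cast hm s) (pow_ne_zero _ (h0 s))
  exact (mul_eq_zero.1 h3).resolve_right h4

end PowerSums

end Vale.Agent.P281.H713
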