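import Vale.Agent.P281.H713.ZA
import Vale.Agent.P281.H713.MainA

open scoped Manifold ContDiff Topology
open Set Filter Metric Module

namespace Vale.Agent.P281.H713

open Vale.Agent.P281 Vale.Agent.P281.MF Vale.Agent.P281.ISO Vale.Agent.P281.ELL

set_option linter.unusedSectionVars false

universe u

section Z

variable {E E' E₀ : Type} [NormedAddCommGroup E] [NormedSpace ℂ E] [FiniteDimensional ℂ E]
  [NormedAddCommGroup E'] [NormedSpace ℂ E'] [FiniteDimensional ℂ E']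
  [NormedAddCommGroup E₀] [NormedSpace ℂ E₀] [FiniteDimensional ℂ E₀]
variable {X Y : Type u} [TopologicalSpace X] [ChartedSpace E X] [IsManifold 𝓘(ℂ, E) ω X]
  [TopologicalSpace Y] [ChartedSpace E' Y] [IsManifold 𝓘(ℂ, E') ω Y]
variable {f : X → Y} {S : Set Y} {ι : Type u} {U : ι → Set Y} {I : Type} [Fintype I]

/-- symmetric functions of relative forms -/
noncomputable def Sf (θ : ι → I → X → ℂ) (l m : ℕ) (a : ι) (x : X) : ℂ :=
  (∑ i, θ a i x ^ l) ^ m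

theorem sf_change {θ : ι → I → X → ℂ} {a b : ι} {x : X} {μ : ℂ} {σ : Equiv.Perm I}
    (h : ∀ i, θ b (σ i) x = μ * θ a i x) {l m K : ℕ} (hK : l * m = K) :
    Sf θ l m b x = μ ^ K * Sf θ l m a x := by
  unfold Sf
  rw [← Equiv.sum_comp σ]
  simp only [h, mul_pow, ← Finset.mul_sum]
  rw [← pow_mul, hK]

theorem holV_sf {c : I → X → ℂ} {x : X} (hc : ∀ i, HolV E (c i) x) (l m : ℕ) :
    HolV E (fun z => (∑ i, c i z ^ l) ^ m) x := by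
  classical
  have h1 : ∀ s : Finset I, HolV E (fun z => ∑ i ∈ s, c i z ^ l) x := by
    intro s
    induction s using Finset.induction_on with
    | empty => simpa using HolV.const (0 : ℂ) x
    | insert a s ha ih =>
      simp only [Finset.sum_insert ha]
      exact ((hc a).pow l).add ih
  exact (h1 _).pow m

/-- the forms -/
theorem relForm_Z (hcov : ∀ y, y ∉ S → ∃ a, y ∈ U a) (hUo : ∀ a, IsOpen (U a))
    (hf : ∀ x, HolM E E' f x) (e₀ : E ≃L[ℂ] (E' × E₀)) {N : ℕ}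
    {κ₀ : Set X → ℕ} {𝒜 : Set (Set X)} {θ : ι → I → X → ℂ}
    (hloc : ∀ a x, f x ∈ U a → ∀ (T : Finset (Set X)) (e : Set X → X → ℂ),
      (∀ D, κ₀ D ≠ 0 → D ∈ T) → (∀ D ∈ T, IsLocalEq E D (e D) x) →
      ∃ (ζ : X → E₀) (c : I → X → ℂ), HolV E ζ x ∧ (∀ i, HolV E (c i) x) ∧
        ∀ᶠ z in 𝓝 x, (∀ D ∈ 𝒜, z ∉ D) → ∏ D ∈ T, e D z ^ κ₀ D ≠ 0 → ∀ i,
          θ a i z * ∏ D ∈ T, e D z ^ κ₀ D = c i z * JP e₀ (dM E E' f z) (dV E ζ z) ^ N)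
    {ν : ι → Y → ℝ} (hν : ∀ a, ∀ y ∈ U a, 0 < ν a y)
    (hbd : ∀ r : ℝ, 0 < r → ∃ C : ℝ, 0 ≤ C ∧ ∀ (v₀ : E₀) (Q : E₀ → X),
      (∀ v ∈ ball v₀ r, ContMDiffAt 𝓘(ℂ, E₀) 𝓘(ℂ, E) ω Q v) → InjOn Q (ball v₀ r) →
      (∀ v ∈ ball v₀ r, f (Q v) = f (Q v₀)) → f (Q v₀) ∉ S →
      (∀ v ∈ ball v₀ r, ∀ D ∈ 𝒜, Q v ∉ D) → ∀ P : E →L[ℂ] E₀,
      P.comp (mfderiv 𝓘(ℂ, E₀) 𝓘(ℂ, E) Q v₀ : E₀ →L[ℂ] E) = ContinuousLinearMap.id ℂ E₀ →
      ∀ a, f (Q v₀) ∈ U a → ∀ i, ‖θ a i (Q v₀)‖ * ν a (f (Q v₀)) ≤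
        C * ‖JP e₀ (dM E E' f (Q v₀)) P ^ N‖)
    {K l m : ℕ} (hK : l * m = K) (hK0 : 0 < K) {ψ : ι → Y → ℂ} {C' : ℝ}
    (hψ : ∀ a x, f x ∈ U a → HolV E (fun z => ψ a (f z)) x)
    (hψb : ∀ a y, y ∈ U a → ‖ψ a y‖ ≤ C' * ν a y ^ K)
    {Θ : X → ℂ} (hΘ : ∀ a x, f x ∈ U a → Θ x = ψ a (f x) * Sf θ l m a x) :
    RelForm f S e₀ (N * K) 𝒜 (fun D => K * κ₀ D) Θ := by
  classical
  refine ⟨hol_of_local hf e₀ ?_, ?_⟩
  · intro x hx T e hT he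
    obtain ⟨a, ha⟩ := hcov _ hx
    obtain ⟨ζ, c, hζ, hc, hev⟩ := hloc a x ha T e (fun D hD => hT D
      (Nat.mul_ne_zero hK0.ne' hD)) he
    refine ⟨ζ, fun z => ψ a (f z) * (∑ i, c i z ^ l) ^ m, hζ, (hψ a x ha).mul (holV_sf hc l m),
      ?_⟩
    filter_upwards [hev, (hf x).continuousAt.eventually ((hUo a).mem_nhds ha)] with z h1 h2 h3 h4
    have h5 : ∏ D ∈ T, e D z ^ (K * κ₀ D) = (∏ D ∈ T, e D z ^ κ₀ D) ^ K := by
      rw [← Finset.prod_pow]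
      refine Finset.prod_congr rfl fun D _ => ?_
      rw [← pow_mul, mul_comm]
    rw [h5] at h4 ⊢
    have h6 := h1 h3 (fun h => h4 (by rw [h, zero_pow hK0.ne']))
    set Pe := ∏ D ∈ T, e D z ^ κ₀ D with hPe
    set Jz := JP e₀ (dM E E' f z) (dV E ζ z) with hJ
    have h7 : (∑ i, θ a i z ^ l) * Pe ^ l = (∑ i, c i z ^ l) * Jz ^ (N * l) := by
      rw [Finset.sum_mul, Finset.sum_mul]
      refine Finset.sum_congr rfl fun i _ => ?_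
      rw [← mul_pow, h6 i, mul_pow, ← pow_mul]
    have h8 : Sf θ l m a z * Pe ^ K = (∑ i, c i z ^ l) ^ m * Jz ^ (N * K) := by
      unfold Sf
      rw [← hK, pow_mul, ← mul_pow, h7, mul_pow, ← pow_mul]
      congr 2
      ring
    rw [hΘ a z h2, mul_assoc, h8, mul_assoc]
  · intro r hr
    obtain ⟨C, hC0, hC⟩ := hbd r hr
    refine ⟨|C'| * ((Fintype.card I : ℝ) * C ^ l) ^ m, fun v₀ Q h1 h2 h3 h4 h5 P h6 => ?_⟩
    obtain ⟨a, ha⟩ := hcov _ h4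
    have hν0 := hν a _ ha
    rw [hΘ a _ ha, norm_mul]
    set Jn : ℝ := ‖JP e₀ (dM E E' f (Q v₀)) P ^ N‖ with hJn
    have h7 : ‖∑ i, θ a i (Q v₀) ^ l‖ * ν a (f (Q v₀)) ^ l ≤
        (Fintype.card I : ℝ) * C ^ l * Jn ^ l := by
      calc ‖∑ i, θ a i (Q v₀) ^ l‖ * ν a (f (Q v₀)) ^ l
          ≤ (∑ i, ‖θ a i (Q v₀)‖ ^ l) * ν a (f (Q v₀)) ^ l := by
            gcongr
            refine (norm_sum_le _ _).trans (Finset.sum_le_sum fun i _ => ?_)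
            rw [norm_pow]
        _ = ∑ i, (‖θ a i (Q v₀)‖ * ν a (f (Q v₀))) ^ l := by
            rw [Finset.sum_mul]
            exact Finset.sum_congr rfl fun i _ => (mul_pow _ _ _).symm
        _ ≤ ∑ _i : I, (C * Jn) ^ l := by
            refine Finset.sum_le_sum fun i _ => ?_
            exact pow_le_pow_left₀ (by positivity) (hC v₀ Q h1 h2 h3 h4 h5 P h6 a ha i) l
        _ = _ := by
            rw [Finset.sum_const, Finset.card_univ, nsmul_eq_mul, mul_pow]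
            ring
    have h8 : ‖Sf θ l m a (Q v₀)‖ * ν a (f (Q v₀)) ^ K ≤
        ((Fintype.card I : ℝ) * C ^ l) ^ m * Jn ^ K := by
      unfold Sf
      rw [norm_pow, ← hK, pow_mul, pow_mul, ← mul_pow, ← mul_pow]
      exact pow_le_pow_left₀ (by positivity) h7 m
    have h9 : ‖JP e₀ (dM E E' f (Q v₀)) P ^ (N * K)‖ = Jn ^ K := by
      rw [hJn, pow_mul, norm_pow]
    rw [h9]
    calc ‖ψ a (f (Q v₀))‖ * ‖Sf θ l m a (Q v₀)‖
        ≤ (|C'| * ν a (f (Q v₀)) ^ K) * ‖Sf θ l m a (Q v₀)‖ := by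
          gcongr
          refine (hψb a _ ha).trans ?_
          gcongr
          exact le_abs_self _
      _ = |C'| * (‖Sf θ l m a (Q v₀)‖ * ν a (f (Q v₀)) ^ K) := by ring
      _ ≤ |C'| * (((Fintype.card I : ℝ) * C ^ l) ^ m * Jn ^ K) := by gcongr
      _ = _ := by ring

/-- Relative forms from finite families of forms on the fibres, permuted by the monodromy up to a
factor of automorphy. -/
theorem hasForms_Z (hcov : ∀ y, y ∉ S → ∃ a, y ∈ U a) (hUo : ∀ a, IsOpen (U a))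
    (hf : ∀ x, HolM E E' f x) (e₀ : E ≃L[ℂ] (E' × E₀)) {Δ : Set X → ℝ} {N : ℕ} (hN : 0 < N)
    {κ₀ : Set X → ℕ} {𝒜 : Set (Set X)} (h𝒜 : 𝒜.Finite) (h𝒜p : ∀ D ∈ 𝒜, IsPrimeDivisor E D)
    (hκ : ∀ D, (κ₀ D : ℝ) ≤ N * Δ D) {θ : ι → I → X → ℂ}
    (hloc : ∀ a x, f x ∈ U a → ∀ (T : Finset (Set X)) (e : Set X → X → ℂ),
      (∀ D, κ₀ D ≠ 0 → D ∈ T) → (∀ D ∈ T, IsLocalEq E D (e D) x) →
      ∃ (ζ : X → E₀) (c : I → X → ℂ), HolV E ζ x ∧ (∀ i, HolV E (c i) x) ∧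
        ∀ᶠ z in 𝓝 x, (∀ D ∈ 𝒜, z ∉ D) → ∏ D ∈ T, e D z ^ κ₀ D ≠ 0 → ∀ i,
          θ a i z * ∏ D ∈ T, e D z ^ κ₀ D = c i z * JP e₀ (dM E E' f z) (dV E ζ z) ^ N)
    {ν : ι → Y → ℝ} (hν : ∀ a, ∀ y ∈ U a, 0 < ν a y)
    (hbd : ∀ r : ℝ, 0 < r → ∃ C : ℝ, 0 ≤ C ∧ ∀ (v₀ : E₀) (Q : E₀ → X),
      (∀ v ∈ ball v₀ r, ContMDiffAt 𝓘(ℂ, E₀) 𝓘(ℂ, E) ω Q v) → InjOn Q (ball v₀ r) →
      (∀ v ∈ ball v₀ r, f (Q v) = f (Q v₀)) → f (Q v₀) ∉ S →
      (∀ v ∈ ball v₀ r, ∀ D ∈ 𝒜, Q v ∉ D) → ∀ P : E →L[ℂ] E₀,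
      P.comp (mfderiv 𝓘(ℂ, E₀) 𝓘(ℂ, E) Q v₀ : E₀ →L[ℂ] E) = ContinuousLinearMap.id ℂ E₀ →
      ∀ a, f (Q v₀) ∈ U a → ∀ i, ‖θ a i (Q v₀)‖ * ν a (f (Q v₀)) ≤
        C * ‖JP e₀ (dM E E' f (Q v₀)) P ^ N‖)
    {Rl : ι → ι → Y → ℂ → Prop}
    (hch : ∀ a b y, y ∈ U a → y ∈ U b → ∃ μ, Rl a b y μ ∧ ∀ x, f x = y →
      ∃ σ : Equiv.Perm I, ∀ i, θ b (σ i) x = μ * θ a i x)
    {y₀ : Y} {a₀ : ι} (ha₀ : y₀ ∈ U a₀)
    (haut : ∃ o : ℕ, 0 < o ∧ ∀ᶠ k in atTop, ∃ (ψ : ι → Y → ℂ) (C' : ℝ),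
      (∀ a x, f x ∈ U a → HolV E (fun z => ψ a (f z)) x) ∧
      (∀ a b y μ, y ∈ U a → y ∈ U b → Rl a b y μ → ψ b y * μ ^ (o * k) = ψ a y) ∧
      (∀ a y, y ∈ U a → ‖ψ a y‖ ≤ C' * ν a y ^ (o * k)) ∧ ψ a₀ y₀ ≠ 0)
    {r : ℕ}
    (hrank : ∃ x₀, f x₀ = y₀ ∧ (∀ D ∈ 𝒜, x₀ ∉ D) ∧ ∃ (ζ : X → E₀) (c : I → X → ℂ),
      HolV E ζ x₀ ∧ (∀ ξ, dM E E' f x₀ ξ = 0 → dV E ζ x₀ ξ = 0 → ξ = 0) ∧
      (∀ i, HolV E (c i) x₀) ∧
      (∀ᶠ z in 𝓝 x₀, ∀ i, θ a₀ i z = c i z * JP e₀ (dM E E' f z) (dV E ζ z) ^ N) ∧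
      ∃ i : Fin (r + 1) → I, c (i 0) x₀ ≠ 0 ∧ ∀ t : Fin r → ℂ, (∀ ξ, dM E E' f x₀ ξ = 0 →
        ∑ s, t s * dif E (fun z => c (i s.succ) z / c (i 0) z) x₀ ξ = 0) → t = 0) :
    HasForms f S e₀ Δ r y₀ := by
  classical
  have hn' : (ω : WithTop ℕ∞) ≠ 0 := by simp
  obtain ⟨x₀, hx₀, hx₀𝒜, ζ, c, hζ, hinj, hc, hθ, i, hi0, hrk⟩ := hrank
  obtain ⟨q, hq, hq0, hqe⟩ := exists_slice hf e₀ hζ hinj
  set v₀ := ζ x₀ with hv₀
  have hqt : Tendsto q (𝓝 v₀) (𝓝 x₀) := by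
    have := hq.continuousAt.tendsto
    rwa [hq0] at this
  set b : I → E₀ → ℂ := fun i v => c i (q v) with hb
  have hbc : ∀ i, ContDiffAt ℂ ω (b i) v₀ := fun i =>
    (slice_fderiv hq (by rw [hq0]; exact hc i)).1
  have hfq : ∀ᶠ z in 𝓝 v₀, f (q z) = f (q v₀) := by
    rw [hq0]
    exact hqe.mono fun z hz => hz.1
  -- vertical vectors come from the slice
  let Tq : E₀ →L[ℂ] E := mfderiv 𝓘(ℂ, E₀) 𝓘(ℂ, E) q v₀
  have hvert : ∀ ξ, dM E E' f x₀ ξ = 0 → Tq (dV E ζ x₀ ξ) = ξ := by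
    intro ξ hξ
    have h1 : dM E E' f x₀ (Tq (dV E ζ x₀ ξ)) = 0 := by
      have := slice_ker hf hq hfq (dV E ζ x₀ ξ)
      rwa [hq0] at this
    have hζq : HolV E ζ (q v₀) := by rw [hq0]; exact hζ
    have h2 := (slice_fderiv hq hζq).2
    have h3 : fderiv ℂ (fun z => ζ (q z)) v₀ = ContinuousLinearMap.id ℂ E₀ := by
      have : (fun z => ζ (q z)) =ᶠ[𝓝 v₀] fun z => z := hqe.mono fun z hz => hz.2
      rw [this.fderiv_eq]
      exact fderiv_fun_id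
    rw [h3, hq0] at h2
    have h4 : dV E ζ x₀ (Tq (dV E ζ x₀ ξ)) = dV E ζ x₀ ξ := by
      have := congrArg (fun L : E₀ →L[ℂ] E₀ => L (dV E ζ x₀ ξ)) h2
      exact this.symm
    have h5 := hinj (Tq (dV E ζ x₀ ξ) - ξ)
      (by rw [map_sub, h1, hξ, sub_zero]) (by rw [map_sub, h4, sub_self])
    exact sub_eq_zero.1 h5
  have hratio : ∀ s : Fin r, HolV E (fun z => c (i s.succ) z / c (i 0) z) x₀ := fun s =>
    (hc _).div (hc _) hi0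
  have hind : LinearIndependent ℂ fun s : Fin (r + 1) =>
      ((b (i s) v₀, fderiv ℂ (b (i s)) v₀) : ℂ × (E₀ →L[ℂ] ℂ)) := by
    rw [Fintype.linearIndependent_iff]
    intro t ht
    have h1 := congrArg Prod.fst ht
    have h2 := congrArg Prod.snd ht
    simp only [Prod.fst_sum, Prod.smul_fst, Prod.fst_zero, smul_eq_mul] at h1
    simp only [Prod.snd_sum, Prod.smul_snd, Prod.snd_zero] at h2
    have hb0 : b (i 0) v₀ ≠ 0 := by
      show c (i 0) (q v₀) ≠ 0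
      rw [hq0]
      exact hi0
    have h3 : ∀ s : Fin r, b (i 0) v₀ • fderiv ℂ (fun v => b (i s.succ) v / b (i 0) v) v₀ =
        fderiv ℂ (b (i s.succ)) v₀ - (b (i s.succ) v₀ / b (i 0) v₀) • fderiv ℂ (b (i 0)) v₀ := by
      intro s
      have hd1 := (hbc (i s.succ)).differentiableAt hn'
      have hd0 := (hbc (i 0)).differentiableAt hn'
      have hdr : DifferentiableAt ℂ (fun v => b (i s.succ) v / b (i 0) v) v₀ := by
        simp only [div_eq_mul_inv]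
        exact hd1.mul (hd0.inv hb0)
      have h4 : b (i s.succ) =ᶠ[𝓝 v₀] fun v => (b (i s.succ) v / b (i 0) v) * b (i 0) v := by
        filter_upwards [hd0.continuousAt.eventually_ne hb0] with v hv
        rw [div_mul_cancel₀ _ hv]
      have h5 := (hdr.hasFDerivAt.mul hd0.hasFDerivAt).fderiv
      have h6 : fderiv ℂ (b (i s.succ)) v₀ =
          (b (i s.succ) v₀ / b (i 0) v₀) • fderiv ℂ (b (i 0)) v₀ +
            b (i 0) v₀ • fderiv ℂ (fun v => b (i s.succ) v / b (i 0) v) v₀ := by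
        rw [h4.fderiv_eq]
        exact h5
      rw [h6]
      abel
    have h4 : ∑ s : Fin r, t s.succ • fderiv ℂ (fun v => b (i s.succ) v / b (i 0) v) v₀ = 0 := by
      have h5 : b (i 0) v₀ • ∑ s : Fin r, t s.succ •
          fderiv ℂ (fun v => b (i s.succ) v / b (i 0) v) v₀ = 0 := by
        rw [Finset.smul_sum]
        have h6 : ∀ s : Fin r, b (i 0) v₀ • t s.succ •
            fderiv ℂ (fun v => b (i s.succ) v / b (i 0) v) v₀ =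
            t s.succ • fderiv ℂ (b (i s.succ)) v₀ -
              (t s.succ * b (i s.succ) v₀ / b (i 0) v₀) • fderiv ℂ (b (i 0)) v₀ := by
          intro s
          rw [smul_comm, h3, smul_sub, smul_smul, mul_div_assoc]
        simp only [h6]
        rw [Finset.sum_sub_distrib, ← Finset.sum_smul]
        rw [Fin.sum_univ_succ] at h1 h2
        have h7 : ∑ s : Fin r, t s.succ * b (i s.succ) v₀ / b (i 0) v₀ = - t 0 := by
          rw [← Finset.sum_div, div_eq_iff hb0]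
          linear_combination h1
        rw [h7, neg_smul, sub_neg_eq_add, add_comm]
        exact h2
      exact (smul_eq_zero.1 h5).resolve_left hb0
    have h5 : (fun s : Fin r => t s.succ) = 0 := by
      refine hrk _ fun ξ hξ => ?_
      have h6 := congrArg (fun L : E₀ →L[ℂ] ℂ => L (dV E ζ x₀ ξ)) h4
      have h7 : ∀ s : Fin r, dif E (fun z => c (i s.succ) z / c (i 0) z) x₀ ξ =
          fderiv ℂ (fun v => b (i s.succ) v / b (i 0) v) v₀ (dV E ζ x₀ ξ) := by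
        intro s
        have h8 := (slice_fderiv hq (ζ := fun z => c (i s.succ) z / c (i 0) z)
          (by rw [hq0]; exact hratio s)).2
        rw [hq0] at h8
        have h9 := (congrArg (fun L : E₀ →L[ℂ] ℂ => L (dV E ζ x₀ ξ)) h8).symm
        have h10 : dif E (fun z => c (i s.succ) z / c (i 0) z) x₀ (Tq (dV E ζ x₀ ξ)) =
            fderiv ℂ (fun v => b (i s.succ) v / b (i 0) v) v₀ (dV E ζ x₀ ξ) := h9
        rwa [hvert ξ hξ] at h10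
      simp only [h7]
      simpa using h6
    have h6 : t 0 = 0 := by
      rw [Fin.sum_univ_succ] at h1
      have h7 : ∑ s : Fin r, t s.succ * b (i s.succ) v₀ = 0 := by
        refine Finset.sum_eq_zero fun s _ => ?_
        have := congrFun h5 s
        simp only [Pi.zero_apply] at this
        rw [this, zero_mul]
      rw [h7, add_zero] at h1
      exact (mul_eq_zero.1 h1).resolve_right hb0
    intro s
    refine Fin.cases h6 (fun s => ?_) s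
    exact congrFun h5 s
  -- the good points
  have h𝒜o : ∀ᶠ z in 𝓝 x₀, ∀ D ∈ 𝒜, z ∉ D :=
    (Filter.eventually_all_finite h𝒜).2 fun D hD =>
      (h𝒜p D hD).1.isOpen_compl.mem_nhds (hx₀𝒜 D hD)
  have hgood : ∀ᶠ v in 𝓝 v₀, f (q v) = y₀ ∧ (∀ᶠ z in 𝓝 v, f (q z) = y₀) ∧
      ContMDiffAt 𝓘(ℂ, E₀) 𝓘(ℂ, E) ω q v ∧ (∀ i, HolV E (c i) (q v)) ∧
      (∀ᶠ z in 𝓝 (q v), ∀ i, θ a₀ i z = c i z * JP e₀ (dM E E' f z) (dV E ζ z) ^ N) ∧
      (∀ᶠ z in 𝓝 (q v), ∀ ξ, dM E E' f z ξ = 0 → dV E ζ z ξ = 0 → ξ = 0) := by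
    have e1 : ∀ᶠ v in 𝓝 v₀, f (q v) = y₀ := hqe.mono fun z hz => by rw [hz.1, hx₀]
    filter_upwards [e1, eventually_eventually_nhds.2 e1,
      (contMDiffAt_iff_contMDiffAt_nhds (by simp)).1 hq,
      hqt.eventually ((Filter.eventually_all).2 fun i => HolV.eventually (hc i)),
      hqt.eventually (eventually_eventually_nhds.2 hθ),
      hqt.eventually (eventually_eventually_nhds.2 (ker_eventually hf e₀ hζ hinj))]
      with v h1 h2 h3 h4 h5 h6 using ⟨h1, h2, h3, h4, h5, h6⟩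
  obtain ⟨v₂, hg₂, hb₂, l, hl, hlind⟩ := ps_point hbc hind hgood
  obtain ⟨hf₂, hf₂', hq₂, hc₂, hθ₂, hinj₂⟩ := hg₂
  set x₂ := q v₂ with hx₂
  have hfx₂ : f x₂ ∈ U a₀ := by rw [hf₂]; exact ha₀
  -- the weight
  obtain ⟨o, ho, haut⟩ := haut
  set L : ℕ := ∏ s, l s with hL
  have hL0 : 0 < L := Finset.prod_pos fun s _ => (hl s).1
  have ht : Tendsto (fun k : ℕ => L * k) atTop atTop := tendsto_id.const_mul_atTop' hL0
  obtain ⟨k, ⟨ψ, C', hψ1, hψ2, hψ3, hψ4⟩, hk0⟩ :=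
    ((ht.eventually haut).and (eventually_gt_atTop 0)).exists
  set K : ℕ := o * (L * k) with hKd
  have hK0 : 0 < K := Nat.mul_pos ho (Nat.mul_pos hL0 hk0)
  have hdvd : ∀ s, ∃ m, l s * m = K := fun s => by
    have h1 : l s ∣ K := by
      rw [hKd]
      exact Dvd.dvd.mul_left (Dvd.dvd.mul_right (Finset.dvd_prod_of_mem l (Finset.mem_univ s)) k) o
    obtain ⟨m, hm⟩ := h1
    exact ⟨m, hm.symm⟩
  choose m hm using hdvd
  -- the forms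
  have hex : ∀ (s : Fin (r + 1)) (x : X), ∃ v : ℂ, ∀ a, f x ∈ U a →
      v = ψ a (f x) * Sf θ (l s) (m s) a x := by
    intro s x
    by_cases hx : ∃ a, f x ∈ U a
    · obtain ⟨a, ha⟩ := hx
      refine ⟨ψ a (f x) * Sf θ (l s) (m s) a x, fun b hb => ?_⟩
      obtain ⟨μ, hμ, hμ2⟩ := hch a b (f x) ha hb
      obtain ⟨σ, hσ⟩ := hμ2 x rfl
      rw [sf_change hσ (hm s), ← hψ2 a b (f x) μ ha hb hμ]
      ring
    · exact ⟨0, fun a ha => absurd ⟨a, ha⟩ hx⟩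
  choose Θ hΘ using hex
  have hrel : ∀ s, RelForm f S e₀ (N * K) 𝒜 (fun D => K * κ₀ D) (Θ s) := fun s =>
    relForm_Z hcov hUo hf e₀ hloc hν hbd (hm s) hK0 hψ1 hψ3 fun a x ha => hΘ s x a ha
  -- local expressions at the good point
  have hlc : ∀ᶠ z in 𝓝 x₂, ∀ s, Θ s z = (ψ a₀ (f z) * JP e₀ (dM E E' f z) (dV E ζ z) ^ (N * K)) *
      (∑ i, c i z ^ l s) ^ m s := by
    filter_upwards [hθ₂, (hf x₂).continuousAt.eventually ((hUo a₀).mem_nhds hfx₂)] with z h1 h2 s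
    rw [hΘ s z a₀ h2]
    unfold Sf
    have h3 : ∑ i, θ a₀ i z ^ l s = (∑ i, c i z ^ l s) *
        JP e₀ (dM E E' f z) (dV E ζ z) ^ (N * l s) := by
      rw [Finset.sum_mul]
      refine Finset.sum_congr rfl fun i _ => ?_
      rw [h1 i, mul_pow, ← pow_mul]
    rw [h3, mul_pow, ← pow_mul, mul_assoc N, hm s]
    ring
  have hψx : HolV E (fun z => ψ a₀ (f z)) x₂ := hψ1 a₀ x₂ hfx₂
  have hψne : ψ a₀ (f x₂) ≠ 0 := by rw [hf₂]; exact hψ4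
  have hcs : ∀ s, HolV E (fun z => (∑ i, c i z ^ l s) ^ m s) x₂ := fun s => holV_sf hc₂ _ _
  have hcs0 : (∑ i, c i x₂ ^ l 0) ^ m 0 ≠ 0 := pow_ne_zero _ (hl 0).2
  have hnz : ∀ᶠ z in 𝓝 x₂, ψ a₀ (f z) * JP e₀ (dM E E' f z) (dV E ζ z) ^ (N * K) ≠ 0 := by
    filter_upwards [hψx.continuousAt.eventually_ne hψne, hinj₂] with z h1 h2
    exact mul_ne_zero h1 (pow_ne_zero _ (JP_ne_zero e₀ h2))
  have hrat : ∀ s, (fun z => Θ s z / Θ 0 z) =ᶠ[𝓝 x₂]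
      fun z => (∑ i, c i z ^ l s) ^ m s / (∑ i, c i z ^ l 0) ^ m 0 := by
    intro s
    filter_upwards [hlc, hnz] with z h1 h2
    rw [h1 s, h1 0, mul_div_mul_left _ _ h2]
  have hrh : ∀ s, HolV E (fun z => (∑ i, c i z ^ l s) ^ m s / (∑ i, c i z ^ l 0) ^ m 0) x₂ :=
    fun s => (hcs s).div (hcs 0) hcs0
  refine ⟨N * K, 𝒜, fun D => K * κ₀ D, Θ 0, fun s => Θ s.succ, Nat.mul_pos hN hK0, h𝒜, h𝒜p,
    hrel 0, fun s => hrel s.succ, fun D => ?_, x₂, hf₂, ?_, fun s => ?_, ?_⟩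
  · have h1 := hκ D
    push_cast
    have h2 : (0 : ℝ) ≤ K := by positivity
    calc (K : ℝ) * κ₀ D ≤ K * (N * Δ D) := by gcongr
      _ = _ := by ring
  · filter_upwards [hlc, hnz, (hcs 0).continuousAt.eventually_ne hcs0] with z h1 h2 h3
    rw [h1 0]
    exact mul_ne_zero h2 h3
  · exact (hrh s.succ).congr (hrat s.succ)
  · intro t ht
    have h1 := pow_indep (fun i => (hb₂ i).differentiableAt hn') hK0 hm (fun s => (hl s).2) hlind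
    have hud : ∀ s, DifferentiableAt ℂ (fun v => ps b (l s) v ^ m s) v₂ := fun s =>
      ((ps_cd hb₂ (l s)).pow (m s)).differentiableAt hn'
    have h2 := ratio_indep (u := fun s v => ps b (l s) v ^ m s) hud
      (pow_ne_zero _ (hl 0).2) h1 t fun ξ => ?_
    · exact fun s => congrFun h2 s
    · have h3 := ht ((mfderiv 𝓘(ℂ, E₀) 𝓘(ℂ, E) q v₂ : E₀ →L[ℂ] E) ξ) (slice_ker hf hq₂ (by
        filter_upwards [hf₂'] with z hz
        rw [hz]; exact hf₂.symm) ξ)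
      rw [← h3]
      refine Finset.sum_congr rfl fun s _ => ?_
      congr 1
      have h4 := (slice_fderiv hq₂ (hrh s.succ)).2
      have h5 := (hrat s.succ).mfderiv_eq (I := 𝓘(ℂ, E)) (I' := 𝓘(ℂ, ℂ))
      have h6 : dif E (fun z => Θ s.succ z / Θ 0 z) x₂ =
          dif E (fun z => (∑ i, c i z ^ l s.succ) ^ m s.succ / (∑ i, c i z ^ l 0) ^ m 0) x₂ := h5
      rw [h6]
      exact congrArg (fun L : E₀ →L[ℂ] ℂ => L ξ) h4

end Z

end Vale.Agent.P281.H713
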