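import Vale.Agent.P281.H713.DefsZ
import Vale.Agent.P281.H713.ZB
import Vale.Agent.P281.H713.GNC4

open scoped Manifold ContDiff Topology
open Set Filter Metric Module

namespace Vale.Agent.P281.H713

open Vale.Agent.P281 Vale.Agent.P281.MF Vale.Agent.P281.ISO Vale.Agent.P281.ELL

set_option linter.unusedSectionVars false

universe u

section Lin

variable {E E' E₀ : Type} [NormedAddCommGroup E] [NormedSpace ℂ E] [FiniteDimensional ℂ E]
  [NormedAddCommGroup E'] [NormedSpace ℂ E'] [FiniteDimensional ℂ E']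
  [NormedAddCommGroup E₀] [NormedSpace ℂ E₀] [FiniteDimensional ℂ E₀]

theorem JP_gen (e₀ : E ≃L[ℂ] (E' × E₀)) {A : E →L[ℂ] E'} {P L : E →L[ℂ] E₀} {t : E₀ →L[ℂ] E}
    (hAt : ∀ w, A (t w) = 0) (hPt : ∀ w, P (t w) = w) (hker : ∀ ξ, A ξ = 0 → L ξ = 0 → ξ = 0) :
    JP e₀ A L = (L.comp t).det * JP e₀ A P := by
  set B : E₀ →L[ℂ] E₀ := L.comp t with hB
  have hinj : Function.Injective B := by
    rw [injective_iff_map_eq_zero]
    intro w hw
    have h1 := hker (t w) (hAt w) hw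
    rw [← hPt w, h1, map_zero]
  have hdet : B.det ≠ 0 := by
    have h1 : LinearMap.ker (B : E₀ →ₗ[ℂ] E₀) = ⊥ := LinearMap.ker_eq_bot.2 hinj
    intro h2
    exact (LinearMap.bot_lt_ker_of_det_eq_zero h2).ne' h1
  set e := B.toContinuousLinearEquivOfDetNeZero hdet with he
  have he' : (e : E₀ →L[ℂ] E₀) = B := by
    rw [he, ContinuousLinearMap.coe_toContinuousLinearEquivOfDetNeZero]
  set P₁ : E →L[ℂ] E₀ := (e.symm : E₀ →L[ℂ] E₀).comp L with hP₁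
  have hP₁t : ∀ w, P₁ (t w) = w := by
    intro w
    show e.symm (L (t w)) = w
    rw [e.symm_apply_eq]
    have h1 : e w = B w := by rw [← he']; rfl
    rw [h1]
    rfl
  have h2 := JP_left e₀ A P₁ (ContinuousLinearMap.id ℂ E') B
  have h3 : B.comp P₁ = L := by
    ext w
    show B (e.symm (L w)) = L w
    have h1 : B (e.symm (L w)) = e (e.symm (L w)) := by rw [← he']; rfl
    rw [h1, e.apply_symm_apply]
  rw [h3, det_id', one_mul, ContinuousLinearMap.id_comp] at h2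
  rw [h2, JP_indep e₀ hAt hPt hP₁t]

end Lin

section Frame

variable {E E' : Type} [NormedAddCommGroup E] [NormedSpace ℂ E] [FiniteDimensional ℂ E]
  [NormedAddCommGroup E'] [NormedSpace ℂ E'] [FiniteDimensional ℂ E']
variable {d : ℕ}

/-- vertical frames adapted to a linear map -/
theorem exists_frame_of (e₀ : E ≃L[ℂ] (E' × (Fin d → ℂ))) {A : E →L[ℂ] E'}
    {P : E →L[ℂ] (Fin d → ℂ)} (h : ∀ ξ, A ξ = 0 → P ξ = 0 → ξ = 0) :
    ∃ t : (Fin d → ℂ) →L[ℂ] E, (∀ w, A (t w) = 0) ∧ ∀ w, P (t w) = w := by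
  let T : E →ₗ[ℂ] (E' × (Fin d → ℂ)) := (A.prod P : E →L[ℂ] (E' × (Fin d → ℂ)))
  have h1 : Function.Injective T := by
    rw [injective_iff_map_eq_zero]
    intro v hv
    exact h v (Prod.mk.inj hv).1 (Prod.mk.inj hv).2
  have h2 : finrank ℂ E = finrank ℂ (E' × (Fin d → ℂ)) := e₀.toLinearEquiv.finrank_eq
  let F : E ≃ₗ[ℂ] (E' × (Fin d → ℂ)) := LinearEquiv.ofBijective T
    ⟨h1, (LinearMap.injective_iff_surjective_of_finrank_eq_finrank h2).1 h1⟩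
  have hF : ∀ v, F v = (A v, P v) := fun v => rfl
  refine ⟨LinearMap.toContinuousLinearMap ((F.symm : (E' × (Fin d → ℂ)) →ₗ[ℂ] E).comp
    (LinearMap.inr ℂ E' (Fin d → ℂ))), fun w => ?_, fun w => ?_⟩
  · have h3 := F.apply_symm_apply ((0 : E'), w)
    rw [hF] at h3
    exact (Prod.mk.inj h3).1
  · have h3 := F.apply_symm_apply ((0 : E'), w)
    rw [hF] at h3
    exact (Prod.mk.inj h3).2

theorem det_clm_eq (B : (Fin d → ℂ) →L[ℂ] (Fin d → ℂ)) :
    B.det = (Matrix.of fun k l => B (Pi.single l 1) k).det := by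
  have h1 : B.det = LinearMap.det (B : (Fin d → ℂ) →ₗ[ℂ] (Fin d → ℂ)) := rfl
  rw [h1, ← LinearMap.det_toMatrix']
  rfl

end Frame

section Theta

variable {E E' : Type} [NormedAddCommGroup E] [NormedSpace ℂ E] [FiniteDimensional ℂ E]
  [NormedAddCommGroup E'] [NormedSpace ℂ E'] [FiniteDimensional ℂ E']
variable {X Y : Type u} [TopologicalSpace X] [ChartedSpace E X] [IsManifold 𝓘(ℂ, E) ω X]
  [TopologicalSpace Y] [ChartedSpace E' Y] [IsManifold 𝓘(ℂ, E') ω Y]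
variable {d t : ℕ} {f : X → Y} {κ : Set X → ℕ} {N : ℕ}

/-- the map with components `ζ i` -/
def vec (ζ : Fin d → X → ℂ) (z : X) : Fin d → ℂ := fun i => ζ i z

theorem holV_vec {ζ : Fin d → X → ℂ} {x : X} (h : ∀ i, HolV E (ζ i) x) : HolV E (vec ζ) x := by
  have hxs : x ∈ (chartAt E x).source := mem_chart_source E x
  refine HolV.of_rep hxs ?_
  have h1 : ∀ i, ContDiffAt ℂ ω (ζ i ∘ (chartAt E x).symm) (chartAt E x x) := fun i =>
    (h i).rep hxs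
  exact contDiffAt_pi.2 h1

theorem dV_vec {ζ : Fin d → X → ℂ} {x : X} (h : ∀ i, HolV E (ζ i) x) (ξ : E) (i : Fin d) :
    dV E (vec ζ) x ξ i = dif E (ζ i) x ξ := by
  let pr : (Fin d → ℂ) →L[ℂ] ℂ := ContinuousLinearMap.proj i
  have h1 : ζ i = fun z => pr (vec ζ z) := rfl
  have h2 : HolV E (vec ζ) x := holV_vec h
  have h3 : dV E (fun z => pr (vec ζ z)) x = pr.comp (dV E (vec ζ) x) := by
    have h4 : MDifferentiableAt 𝓘(ℂ, Fin d → ℂ) 𝓘(ℂ, ℂ) pr (vec ζ x) :=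
      pr.differentiableAt.mdifferentiableAt
    have h5 := mfderiv_comp x h4 h2.mdiff
    have h6 : mfderiv 𝓘(ℂ, Fin d → ℂ) 𝓘(ℂ, ℂ) pr (vec ζ x) = pr := by
      rw [mfderiv_eq_fderiv]
      exact pr.fderiv
    rw [h6] at h5
    exact h5
  have h7 := congrArg (fun L : E →L[ℂ] ℂ => L ξ) h3
  exact h7.symm

theorem frame_eq (e₀ : E ≃L[ℂ] (E' × (Fin d → ℂ))) {ζ : Fin d → X → ℂ} {z : X}
    (hζ : ∀ l, HolV E (ζ l) z)
    (hinj : ∀ ξ, dM E E' f z ξ = 0 → (∀ l, dif E (ζ l) z ξ = 0) → ξ = 0)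
    {P : E →L[ℂ] (Fin d → ℂ)} {T : (Fin d → ℂ) →L[ℂ] E} (hT : ∀ w, dM E E' f z (T w) = 0)
    (hP : ∀ w, P (T w) = w) :
    JP e₀ (dM E E' f z) (dV E (vec ζ) z) =
      (Matrix.of fun k l => dif E (ζ k) z (T (Pi.single l 1))).det *
        JP e₀ (dM E E' f z) P := by
  rw [JP_gen e₀ hT hP (fun ξ h1 h2 => hinj ξ h1 fun l => by
    rw [← dV_vec hζ, h2]
    rfl), det_clm_eq]
  congr 2
  ext k l
  exact dV_vec hζ _ k

/-- the forms on the fibres give forms of weight `N` on `X` -/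
theorem exists_theta (e₀ : E ≃L[ℂ] (E' × (Fin d → ℂ))) {S : Set Y}
    {ι : Type u} {U : ι → Set Y} (hUS : ∀ a, ∀ y ∈ U a, y ∉ S)
    (hchart : ∀ x, f x ∉ S → ∃ ζ : Fin d → X → ℂ, IsFibreChart E E' f ζ x)
    {η : ι → Fin t → X → (Fin d → E) → ℂ}
    (hforms : ∀ a x, f x ∈ U a → IsFibreForms E E' f N κ (η a) x)
    (hfin : {D | κ D ≠ 0}.Finite) (hprime : ∀ D, κ D ≠ 0 → IsPrimeDivisor E D) :
    ∃ θ : ι → Fin t → X → ℂ,
      (∀ a x, f x ∈ U a → (∀ D, κ D ≠ 0 → x ∉ D) → ∀ (P : E →L[ℂ] (Fin d → ℂ))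
        (T : (Fin d → ℂ) →L[ℂ] E), (∀ w, dM E E' f x (T w) = 0) → (∀ w, P (T w) = w) → ∀ i,
        θ a i x = η a i x (fun l => T (Pi.single l 1)) * JP e₀ (dM E E' f x) P ^ N) ∧
      ∀ a i x, ¬ (∀ D, κ D ≠ 0 → x ∉ D) → θ a i x = 0 := by
  classical
  have hPT : ∀ x, ∃ PT : (E →L[ℂ] (Fin d → ℂ)) × ((Fin d → ℂ) →L[ℂ] E), f x ∉ S →
      (∀ w, dM E E' f x (PT.2 w) = 0) ∧ ∀ w, PT.1 (PT.2 w) = w := by
    intro x
    by_cases hx : f x ∈ S
    · exact ⟨(0, 0), fun h => absurd hx h⟩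
    · obtain ⟨ζ, hζ, hinj⟩ := hchart x hx
      obtain ⟨T, hT1, hT2⟩ := exists_frame_of e₀ (A := dM E E' f x) (P := dV E (vec ζ) x)
        (fun ξ h1 h2 => hinj ξ h1 fun l => by
          have h3 := dV_vec hζ ξ l
          rw [h2] at h3
          exact h3.symm)
      exact ⟨(dV E (vec ζ) x, T), fun _ => ⟨hT1, hT2⟩⟩
  choose PT hPT using hPT
  refine ⟨fun a i x => if (∀ D, κ D ≠ 0 → x ∉ D) then
    η a i x (fun l => (PT x).2 (Pi.single l 1)) * JP e₀ (dM E E' f x) (PT x).1 ^ N else 0,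
    fun a x hx hoff P T hT hP i => ?_, fun a i x h => if_neg h⟩
  simp only [if_pos hoff]
  have hex : ∀ D, ∃ g : X → ℂ, κ D ≠ 0 → IsLocalEq E D g x := fun D => by
    by_cases hD : κ D = 0
    · exact ⟨fun _ => 0, fun h => absurd hD h⟩
    · obtain ⟨g, hg⟩ := (hprime D hD).2.1 x
      exact ⟨g, fun _ => hg⟩
  choose e he using hex
  obtain ⟨ζ, c, ⟨hζ, hinj⟩, -, hev⟩ := hforms a x hx hfin.toFinset e
    (fun D hD => hfin.mem_toFinset.2 hD) (fun D hD => he D (hfin.mem_toFinset.1 hD))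
  have hprod : ∏ D ∈ hfin.toFinset, e D x ^ κ D ≠ 0 := by
    refine Finset.prod_ne_zero_iff.2 fun D hD => pow_ne_zero _ ?_
    have hD' : κ D ≠ 0 := hfin.mem_toFinset.1 hD
    exact fun h0 => hoff D hD' ((he D hD').mem_iff.2 h0)
  have hev := hev.self_of_nhds hprod i
  obtain ⟨hT', hP'⟩ := hPT x (hUS a _ hx)
  have key : ∀ (P : E →L[ℂ] (Fin d → ℂ)) (T : (Fin d → ℂ) →L[ℂ] E),
      (∀ w, dM E E' f x (T w) = 0) → (∀ w, P (T w) = w) →
      (η a i x (fun l => T (Pi.single l 1)) * JP e₀ (dM E E' f x) P ^ N) *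
        ∏ D ∈ hfin.toFinset, e D x ^ κ D = c i x * JP e₀ (dM E E' f x) (dV E (vec ζ) x) ^ N := by
    intro P T hT hP
    have h1 := hev (fun l => T (Pi.single l 1)) (fun l => hT _)
    have h2 := frame_eq e₀ hζ hinj hT hP
    rw [h2, mul_pow, mul_right_comm, h1]
    rw [mul_assoc]
    rfl
  have h1 := key P T hT hP
  have h2 := key _ _ hT' hP'
  exact mul_right_cancel₀ hprod (h2.trans h1.symm)

end Theta

end Vale.Agent.P281.H713
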