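import Vale.Agent.P281.H713.ZC

open scoped Manifold ContDiff Topology ENNReal NNReal
open Set Filter Metric Module MeasureTheory

namespace Vale.Agent.P281.H713

open Vale.Agent.P281 Vale.Agent.P281.MF Vale.Agent.P281.ISO Vale.Agent.P281.ELL

set_option linter.unusedSectionVars false

universe u

section PN

variable {b m : ℕ} {B : Fin b → Matrix (Fin m) (Fin m) ℝ} {w : Fin b → Fin m → ℝ} {e : Fin b → ℕ}

theorem periodNorm_pos {p : Fin b → Fin m → ℂ} (h : ∀ j, IsK3Period (B j) (w j) (p j)) :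
    0 < periodNorm B e p :=
  Finset.prod_pos fun j _ => pow_pos (h j).pos _

end PN

section Forms

variable {E E' : Type} [NormedAddCommGroup E] [NormedSpace ℂ E] [FiniteDimensional ℂ E]
  [NormedAddCommGroup E'] [NormedSpace ℂ E'] [FiniteDimensional ℂ E']
variable {X Y : Type u} [TopologicalSpace X] [ChartedSpace E X] [IsManifold 𝓘(ℂ, E) ω X]
  [TopologicalSpace Y] [ChartedSpace E' Y] [IsManifold 𝓘(ℂ, E') ω Y]
variable {d t : ℕ} {f : X → Y} {κ : Set X → ℕ} {N : ℕ}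

/-- the pull-back of a form by a polydisc is holomorphic -/
theorem pull_diff (hf : ∀ x, HolM E E' f x) (hfin : {D | κ D ≠ 0}.Finite) (hprime : ∀ D, κ D ≠ 0 → IsPrimeDivisor E D)
    {η : Fin t → X → (Fin d → E) → ℂ} {q : (Fin d → ℂ) → X} {v : Fin d → ℂ}
    (hη : IsFibreForms E E' f N κ η (q v)) (hoff : ∀ D, κ D ≠ 0 → q v ∉ D)
    (hq : ∀ᶠ z in 𝓝 v, ContMDiffAt 𝓘(ℂ, Fin d → ℂ) 𝓘(ℂ, E) ω q z)
    (hfq : ∀ᶠ z in 𝓝 v, f (q z) = f (q v)) (i : Fin t) :
    DifferentiableAt ℂ (pull E (η i) q) v := by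
  classical
  have hqv := hq.self_of_nhds
  have hqt : Tendsto q (𝓝 v) (𝓝 (q v)) := hqv.continuousAt
  have hex : ∀ D, ∃ g : X → ℂ, κ D ≠ 0 → IsLocalEq E D g (q v) := fun D => by
    by_cases hD : κ D = 0
    · exact ⟨fun _ => 0, fun h => absurd hD h⟩
    · obtain ⟨g, hg⟩ := (hprime D hD).2.1 (q v)
      exact ⟨g, fun _ => hg⟩
  choose e he using hex
  obtain ⟨ζ, c, ⟨hζ, hinj⟩, hc, hev⟩ := hη hfin.toFinset e
    (fun D hD => hfin.mem_toFinset.2 hD) (fun D hD => he D (hfin.mem_toFinset.1 hD))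
  have hζ : ∀ l, HolV E (ζ l) (q v) := hζ
  have hprod : ∏ D ∈ hfin.toFinset, e D (q v) ^ κ D ≠ 0 := by
    refine Finset.prod_ne_zero_iff.2 fun D hD => pow_ne_zero _ ?_
    have hD' : κ D ≠ 0 := hfin.mem_toFinset.1 hD
    exact fun h0 => hoff D hD' ((he D hD').mem_iff.2 h0)
  have heD : ∀ s : Finset (Set X), s ⊆ hfin.toFinset →
      ContDiffAt ℂ ω (fun z => ∏ D ∈ s, e D (q z) ^ κ D) v := by
    intro s hs
    refine contDiffAt_prod fun D hD => ContDiffAt.pow ?_ _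
    exact (slice_fderiv hqv (he D (hfin.mem_toFinset.1 (hs hD))).holAt).1
  have hPe := heD _ (Finset.Subset.refl _)
  have hcq : ContDiffAt ℂ ω (fun z => c i (q z)) v := (slice_fderiv hqv (hc i)).1
  have hvec : HolV E (vec ζ) (q v) := holV_vec hζ
  have hζq : ContDiffAt ℂ ω (fun z => vec ζ (q z)) v := (slice_fderiv hqv hvec).1
  have hdet : ContDiffAt ℂ ω (fun z => (fderiv ℂ (fun z => vec ζ (q z)) z).det) v :=
    contDiff_det.contDiffAt.comp v (hζq.fderiv_right (by simp))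
  have heq : pull E (η i) q =ᶠ[𝓝 v] fun z => c i (q z) *
      (fderiv ℂ (fun z => vec ζ (q z)) z).det ^ N * (∏ D ∈ hfin.toFinset, e D (q z) ^ κ D)⁻¹ := by
    filter_upwards [hqt.eventually hev, hPe.continuousAt.eventually_ne hprod, hq,
      eventually_eventually_nhds.2 hfq,
      hqt.eventually ((Filter.eventually_all).2 fun l => HolV.eventually (hζ l))]
      with z h1 h2 h3 h4 h5
    have h6 : ∀ᶠ z' in 𝓝 z, f (q z') = f (q z) := by
      filter_upwards [h4] with z' hz'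
      rw [hz', h4.self_of_nhds]
    have h7 := h1 h2 i (fun l => mfderiv 𝓘(ℂ, Fin d → ℂ) 𝓘(ℂ, E) q z (Pi.single l 1))
      (fun l => slice_ker hf h3 h6 _)
    rw [eq_mul_inv_iff_mul_eq₀ h2]
    refine h7.trans ?_
    congr 2
    rw [det_clm_eq, (slice_fderiv h3 (holV_vec h5)).2]
    congr 1
    ext k l
    exact (dV_vec h5 _ k).symm
  refine DifferentiableAt.congr_of_eventuallyEq ?_ heq
  have hn' : (ω : WithTop ℕ∞) ≠ 0 := by simp
  exact ((hcq.differentiableAt hn').mul ((hdet.differentiableAt hn').pow N)).mul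
    ((hPe.differentiableAt hn').inv hprod)

variable {V : Type} [NormedAddCommGroup V] [InnerProductSpace ℂ V] [FiniteDimensional ℂ V]
variable {n m b r s : ℕ} {S : Set Y} {Q : (Fin n → ℝ) → (Fin n → ℝ) → ℝ}
  {B : Fin b → Matrix (Fin m) (Fin m) ℝ} {w : Fin b → Fin m → ℝ} {e : Fin b → ℕ} {ι : Type u}
  {U : ι → Set Y} {π : ι → Y → ((Fin n → ℝ) ≃L[ℝ] V)} {p : ι → Y → Fin b → Fin m → ℂ}
  {η : ι → Fin t → X → (Fin d → E) → ℂ}

/-- the bound for the forms on polydiscs -/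
theorem pull_bound (hC : IsPeriodForms E E' f S r N κ Q s B w e U π p η)
    (hf : ∀ x, HolM E E' f x) (hN : 0 < N) (hfin : {D | κ D ≠ 0}.Finite)
    (hprime : ∀ D, κ D ≠ 0 → IsPrimeDivisor E D) {ρ : ℝ} (hρ : 0 < ρ) :
    ∃ C : ℝ, 0 ≤ C ∧ ∀ (v₀ : Fin d → ℂ) (q : (Fin d → ℂ) → X), IsPolydisc E f q v₀ ρ →
      (∀ v ∈ ball v₀ ρ, ∀ D, κ D ≠ 0 → q v ∉ D) → ∀ a, f (q v₀) ∈ U a → ∀ G : V ≃L[ℂ] V,
      IsPol Q (π a (f (q v₀))) G → ∀ i, ‖pull E (η a i) q v₀‖ ^ 2 *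
        ‖(G : V →L[ℂ] V).det‖ ^ (2 * s) ≤ C * periodNorm B e (p a (f (q v₀))) := by
  obtain ⟨A, hA⟩ := hC.norm
  set vol : ℝ≥0∞ := volume (ball (0 : Fin d → ℂ) ρ) with hvol
  have hv0 : vol ≠ 0 := (measure_ball_pos volume 0 hρ).ne'
  have hvt : vol ≠ ⊤ := measure_ball_lt_top.ne
  have hvr : 0 < vol.toReal := ENNReal.toReal_pos hv0 hvt
  refine ⟨|A| / vol.toReal ^ N, by positivity, fun v₀ q hq hoff a ha G hG i => ?_⟩
  have hpn : 0 < periodNorm B e (p a (f (q v₀))) :=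
    periodNorm_pos fun j => (hC.period a _ ha j).1
  have h1 := hA a i q v₀ ρ hq ha hoff G hG
  have hdiff : DifferentiableOn ℂ (pull E (η a i) q) (ball v₀ ρ) := by
    intro v hv
    have hb : ball v₀ ρ ∈ 𝓝 v := isOpen_ball.mem_nhds hv
    have hfv : f (q v) = f (q v₀) := hq.2.2 v hv
    refine (pull_diff hf hfin hprime (hC.forms a (q v) (by rw [hfv]; exact ha)) (hoff v hv)
      (eventually_of_mem hb fun z hz => hq.1 z hz) (eventually_of_mem hb fun z hz => ?_)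
      i).differentiableWithinAt
    rw [hq.2.2 z hz, hfv]
  have hNr : (0 : ℝ) < N := by exact_mod_cast hN
  have h2 := H124.rpow_mul_volume_le (volume : Measure (Fin d → ℂ)) hdiff (p := 2 / (N : ℝ))
    (by positivity)
  have h3 : volume (ball v₀ ρ) = vol := Measure.addHaar_ball_center _ _ _
  rw [h3] at h2
  set F := ‖pull E (η a i) q v₀‖ₑ with hF
  have h4 : (F ^ (2 / (N : ℝ))) ^ N = F ^ 2 := by
    rw [← ENNReal.rpow_natCast, ← ENNReal.rpow_mul, div_mul_cancel₀ _ hNr.ne',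
      ENNReal.rpow_ofNat]
  have h5 : F ^ 2 * vol ^ N * ‖(G : V →L[ℂ] V).det‖ₑ ^ (2 * s) ≤
      ENNReal.ofReal (|A| * periodNorm B e (p a (f (q v₀)))) := by
    calc F ^ 2 * vol ^ N * ‖(G : V →L[ℂ] V).det‖ₑ ^ (2 * s)
        = (F ^ (2 / (N : ℝ)) * vol) ^ N * ‖(G : V →L[ℂ] V).det‖ₑ ^ (2 * s) := by
          rw [mul_pow, h4]
      _ ≤ _ := by
          refine le_trans ?_ (h1.trans (ENNReal.ofReal_le_ofReal ?_))
          · gcongr
          · exact mul_le_mul_of_nonneg_right (le_abs_self A) hpn.le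
  have h6 := ENNReal.toReal_mono ENNReal.ofReal_ne_top h5
  rw [ENNReal.toReal_ofReal (by positivity), ENNReal.toReal_mul, ENNReal.toReal_mul,
    ENNReal.toReal_pow, ENNReal.toReal_pow, ENNReal.toReal_pow, hF, toReal_enorm,
    toReal_enorm] at h6
  rw [div_mul_eq_mul_div, le_div_iff₀ (by positivity)]
  calc ‖pull E (η a i) q v₀‖ ^ 2 * ‖(G : V →L[ℂ] V).det‖ ^ (2 * s) * vol.toReal ^ N
      = ‖pull E (η a i) q v₀‖ ^ 2 * vol.toReal ^ N * ‖(G : V →L[ℂ] V).det‖ ^ (2 * s) := by ring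
    _ ≤ _ := h6

end Forms

end Vale.Agent.P281.H713
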