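import Vale.Agent.P281.H713.ZD

open scoped Manifold ContDiff Topology ENNReal NNReal
open Set Filter Metric Module MeasureTheory

namespace Vale.Agent.P281.H713

open Vale.Agent.P281 Vale.Agent.P281.MF Vale.Agent.P281.ISO Vale.Agent.P281.ELL

set_option linter.unusedSectionVars false

universe u

section Forms

variable {E E' : Type} [NormedAddCommGroup E] [NormedSpace ℂ E] [FiniteDimensional ℂ E]
  [NormedAddCommGroup E'] [NormedSpace ℂ E'] [FiniteDimensional ℂ E']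
variable {X Y : Type u} [TopologicalSpace X] [ChartedSpace E X] [IsManifold 𝓘(ℂ, E) ω X]
  [TopologicalSpace Y] [ChartedSpace E' Y] [IsManifold 𝓘(ℂ, E') ω Y]
variable {d t : ℕ} {f : X → Y} {κ : Set X → ℕ} {N : ℕ}

/-- `θ` is the form of weight `N` on `X` given by `η` -/
def IsTheta (f : X → Y) (e₀ : E ≃L[ℂ] (E' × (Fin d → ℂ))) (κ : Set X → ℕ) (N : ℕ) (W : Set Y)
    (η : Fin t → X → (Fin d → E) → ℂ) (θ : Fin t → X → ℂ) : Prop :=
  ∀ x, f x ∈ W → (∀ D, κ D ≠ 0 → x ∉ D) → ∀ (P : E →L[ℂ] (Fin d → ℂ))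
    (T : (Fin d → ℂ) →L[ℂ] E), (∀ w, dM E E' f x (T w) = 0) → (∀ w, P (T w) = w) → ∀ i,
    θ i x = η i x (fun l => T (Pi.single l 1)) * JP e₀ (dM E E' f x) P ^ N

theorem theta_loc (hf : ∀ x, HolM E E' f x) (e₀ : E ≃L[ℂ] (E' × (Fin d → ℂ))) {W : Set Y}
    (hW : IsOpen W) {η : Fin t → X → (Fin d → E) → ℂ} {θ : Fin t → X → ℂ}
    (hθ : IsTheta f e₀ κ N W η θ) {x : X} (hx : f x ∈ W) {ζ : Fin d → X → ℂ} {c : Fin t → X → ℂ}
    (hζ : IsFibreChart E E' f ζ x) {Pe : X → ℂ}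
    (hev : ∀ᶠ z in 𝓝 x, Pe z ≠ 0 → ∀ i ξ, IsVertical E E' f z ξ →
      η i z ξ * Pe z = c i z * (Matrix.of fun k l => J.dif E (ζ k) z (ξ l)).det ^ N) :
    HolV E (vec ζ) x ∧ (∀ ξ, dM E E' f x ξ = 0 → dV E (vec ζ) x ξ = 0 → ξ = 0) ∧
    ∀ᶠ z in 𝓝 x, (∀ D, κ D ≠ 0 → z ∉ D) → Pe z ≠ 0 → ∀ i,
      θ i z * Pe z = c i z * JP e₀ (dM E E' f z) (dV E (vec ζ) z) ^ N := by
  obtain ⟨hζ1, hinj⟩ := hζ
  have hζ1 : ∀ l, HolV E (ζ l) x := hζ1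
  have hvec : HolV E (vec ζ) x := holV_vec hζ1
  have hinj' : ∀ ξ, dM E E' f x ξ = 0 → dV E (vec ζ) x ξ = 0 → ξ = 0 := fun ξ h1 h2 =>
    hinj ξ h1 fun l => by
      have h3 := dV_vec hζ1 ξ l
      rw [h2] at h3
      exact h3.symm
  refine ⟨hvec, hinj', ?_⟩
  filter_upwards [hev, ker_eventually hf e₀ hvec hinj',
    (Filter.eventually_all).2 fun l => HolV.eventually (hζ1 l),
    (hf x).continuousAt.eventually (hW.mem_nhds hx)] with z h1 h2 h3 h4 hoff hPe i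
  obtain ⟨T, hT1, hT2⟩ := exists_frame_of e₀ h2
  rw [hθ z h4 hoff _ T hT1 hT2 i]
  have h5 := h1 hPe i (fun l => T (Pi.single l 1)) (fun l => hT1 _)
  have h6 := frame_eq e₀ h3 (fun ξ h7 h8 => h2 ξ h7 (by
    funext l
    rw [dV_vec h3]
    exact h8 l)) hT1 hT2
  rw [mul_right_comm, h5, mul_assoc, ← mul_pow]
  congr 2
  exact h6.symm

theorem theta_rank (hf : ∀ x, HolM E E' f x) (e₀ : E ≃L[ℂ] (E' × (Fin d → ℂ))) {W : Set Y}
    (hW : IsOpen W) {η : Fin t → X → (Fin d → E) → ℂ} {θ : Fin t → X → ℂ}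
    (hθ : IsTheta f e₀ κ N W η θ) (hforms : ∀ x, f x ∈ W → IsFibreForms E E' f N κ η x)
    (hfin : {D | κ D ≠ 0}.Finite) (hprime : ∀ D, κ D ≠ 0 → IsPrimeDivisor E D)
    {y₀ : Y} (hy₀ : y₀ ∈ W) {r : ℕ} (hr : IsOfRank E E' f κ r η y₀) :
    ∃ x₀, f x₀ = y₀ ∧ (∀ D ∈ {D | κ D ≠ 0}, x₀ ∉ D) ∧
      ∃ (ζ : X → (Fin d → ℂ)) (c : Fin t → X → ℂ),
      HolV E ζ x₀ ∧ (∀ ξ, dM E E' f x₀ ξ = 0 → dV E ζ x₀ ξ = 0 → ξ = 0) ∧
      (∀ i, HolV E (c i) x₀) ∧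
      (∀ᶠ z in 𝓝 x₀, ∀ i, θ i z = c i z * JP e₀ (dM E E' f z) (dV E ζ z) ^ N) ∧
      ∃ i : Fin (r + 1) → Fin t, c (i 0) x₀ ≠ 0 ∧ ∀ a : Fin r → ℂ, (∀ ξ, dM E E' f x₀ ξ = 0 →
        ∑ s, a s * dif E (fun z => c (i s.succ) z / c (i 0) z) x₀ ξ = 0) → a = 0 := by
  classical
  obtain ⟨x₀, hx₀, hoff, i₀, i, g, ⟨ξ₀, hξ₀, hη₀⟩, hg, hge, hind⟩ := hr
  have hx₀W : f x₀ ∈ W := by rw [hx₀]; exact hy₀
  have hg : ∀ s, HolV E (g s) x₀ := hg
  have hex : ∀ D, ∃ g : X → ℂ, κ D ≠ 0 → IsLocalEq E D g x₀ := fun D => by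
    by_cases hD : κ D = 0
    · exact ⟨fun _ => 0, fun h => absurd hD h⟩
    · obtain ⟨g, hg⟩ := (hprime D hD).2.1 x₀
      exact ⟨g, fun _ => hg⟩
  choose e he using hex
  obtain ⟨ζ, c, hζ, hc, hev⟩ := hforms x₀ hx₀W hfin.toFinset e
    (fun D hD => hfin.mem_toFinset.2 hD) (fun D hD => he D (hfin.mem_toFinset.1 hD))
  have hc : ∀ i, HolV E (c i) x₀ := hc
  set Pe : X → ℂ := fun z => ∏ D ∈ hfin.toFinset, e D z ^ κ D with hPe
  have hprod : Pe x₀ ≠ 0 := by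
    refine Finset.prod_ne_zero_iff.2 fun D hD => pow_ne_zero _ ?_
    have hD' : κ D ≠ 0 := hfin.mem_toFinset.1 hD
    exact fun h0 => hoff D hD' ((he D hD').mem_iff.2 h0)
  have hPh : HolV E Pe x₀ := by
    have h1 : ∀ s : Finset (Set X), s ⊆ hfin.toFinset →
        HolV E (fun z => ∏ D ∈ s, e D z ^ κ D) x₀ := by
      intro s
      induction s using Finset.induction_on with
      | empty => intro _; simpa using HolV.const (1 : ℂ) x₀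
      | insert D s hD ih =>
        intro hs
        simp only [Finset.prod_insert hD]
        rw [Finset.insert_subset_iff] at hs
        exact (((he D (hfin.mem_toFinset.1 hs.1)).holAt).pow _).mul (ih hs.2)
    exact h1 _ (Finset.Subset.refl _)
  obtain ⟨hvec, hinj', hloc⟩ := theta_loc hf e₀ hW hθ hx₀W hζ hev
  have hoff' : ∀ᶠ z in 𝓝 x₀, ∀ D, κ D ≠ 0 → z ∉ D := by
    have h1 : ∀ᶠ z in 𝓝 x₀, ∀ D ∈ {D | κ D ≠ 0}, z ∉ D :=
      (Filter.eventually_all_finite hfin).2 fun D hD =>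
        (hprime D hD).1.isOpen_compl.mem_nhds (hoff D hD)
    exact h1
  have hPne : ∀ᶠ z in 𝓝 x₀, Pe z ≠ 0 := hPh.continuousAt.eventually_ne hprod
  have hc0 : c i₀ x₀ ≠ 0 := by
    intro h0
    have h1 := hev.self_of_nhds hprod i₀ ξ₀ hξ₀
    rw [h0, zero_mul] at h1
    exact (mul_ne_zero hη₀ hprod) h1
  have hθc : ∀ᶠ z in 𝓝 x₀, ∀ i, θ i z = (c i z / Pe z) *
      JP e₀ (dM E E' f z) (dV E (vec ζ) z) ^ N := by
    filter_upwards [hloc, hoff', hPne] with z h1 h2 h3 i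
    have h4 := h1 h2 h3 i
    rw [div_mul_eq_mul_div, eq_div_iff h3]
    exact h4
  have hcg : ∀ᶠ z in 𝓝 x₀, ∀ s, (c (i s) z / Pe z) / (c i₀ z / Pe z) = g s z := by
    filter_upwards [hθc, hge, hoff', hPne, (hc i₀).continuousAt.eventually_ne hc0,
      ker_eventually hf e₀ hvec hinj',
      (hf x₀).continuousAt.eventually (hW.mem_nhds hx₀W)] with z h1 h2 h3 h4 h5 h6 h7 s
    obtain ⟨T, hT1, hT2⟩ := exists_frame_of e₀ h6
    have h8 : θ (i s) z = g s z * θ i₀ z := by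
      rw [hθ z h7 h3 _ T hT1 hT2, hθ z h7 h3 _ T hT1 hT2,
        h2 s (fun l => T (Pi.single l 1)) (fun l => hT1 _)]
      ring
    rw [h1, h1, ← mul_assoc] at h8
    have h9 := mul_right_cancel₀ (pow_ne_zero N (JP_ne_zero e₀ h6)) h8
    rw [h9, mul_div_assoc, div_self (div_ne_zero h5 h4), mul_one]
  refine ⟨x₀, hx₀, fun D hD => hoff D hD, vec ζ, fun i z => c i z / Pe z, hvec, hinj',
    fun i => (hc i).div hPh hprod, hθc, Fin.cons i₀ i, ?_, fun a ha => hind a fun ξ hξ => ?_⟩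
  · rw [Fin.cons_zero]
    exact div_ne_zero hc0 hprod
  · rw [← ha ξ hξ]
    refine Finset.sum_congr rfl fun s _ => ?_
    congr 1
    have h1 : (fun z => (c ((Fin.cons i₀ i : Fin (r + 1) → Fin t) s.succ) z / Pe z) /
        (c ((Fin.cons i₀ i : Fin (r + 1) → Fin t) 0) z / Pe z)) =ᶠ[𝓝 x₀] g s := by
      filter_upwards [hcg] with z hz
      rw [Fin.cons_succ, Fin.cons_zero]
      exact hz s
    have h2 := h1.mfderiv_eq (I := 𝓘(ℂ, E)) (I' := 𝓘(ℂ, ℂ))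
    exact (congrArg (fun L : E →L[ℂ] ℂ => L ξ) h2).symm

end Forms

end Vale.Agent.P281.H713
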