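import Vale.Agent.P281.H713.ZE
import Vale.Agent.P281.H713.KE

open scoped Manifold ContDiff Topology
open Set Filter Metric Module

namespace Vale.Agent.P281.H713

open Vale.Agent.P281 Vale.Agent.P281.MF Vale.Agent.P281.ISO Vale.Agent.P281.ELL

set_option linter.unusedSectionVars false

universe u

section Change

variable {m : ℕ} {B : Matrix (Fin m) (Fin m) ℝ} {w : Fin m → ℝ}

theorem rb_eq_dot (x y : Fin m → ℝ) : rb B x y = dotProduct x (B.mulVec y) := by
  rw [rb_apply]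
  simp only [dotProduct, Matrix.mulVec, Finset.mul_sum]
  refine Finset.sum_congr rfl fun i _ => Finset.sum_congr rfl fun j _ => ?_
  ring

theorem exists_ogr {M : Matrix (Fin m) (Fin m) ℤ} (hdet : IsUnit M.det)
    (hw : (M.map (Int.cast : ℤ → ℝ)).mulVec w = w)
    (hB : (M.map (Int.cast : ℤ → ℝ)).transpose * B * M.map (Int.cast : ℤ → ℝ) = B) :
    ∃ N : ogr B w, mx N = M := by
  have hact : ∀ x, mact M x = (M.map (Int.cast : ℤ → ℝ)).mulVec x := fun x => by
    funext i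
    exact mact_apply' M x i
  let N : GL (Fin m) ℤ := Matrix.nonsingInvUnit M hdet
  refine ⟨⟨N, fun x x' => ?_, ?_⟩, rfl⟩
  · show rb B (mact M x) (mact M x') = rb B x x'
    rw [hact, hact, rb_eq_dot, rb_eq_dot]
    set A := M.map (Int.cast : ℤ → ℝ) with hA
    have h1 : dotProduct (A.mulVec x) (B.mulVec (A.mulVec x')) =
        dotProduct x ((A.transpose * B * A).mulVec x') := by
      rw [← Matrix.mulVec_mulVec, ← Matrix.mulVec_mulVec, Matrix.dotProduct_mulVec x,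
        Matrix.vecMul_transpose]
    rw [h1, hB]
  · show mact M w = w
    rw [hact, hw]

theorem KP_k3 (k : ℕ) {p₀ p p' : Fin m → ℂ} {χ : ℂ} (h : IsK3Change B w p p' χ)
    (hp' : p' ≠ 0) : χ ≠ 0 ∧ KP B w k p₀ p' * χ ^ k = KP B w k p₀ p := by
  obtain ⟨M, hdet, hw, hB, rfl⟩ := h
  have hχ : χ ≠ 0 := by
    rintro rfl
    exact hp' (zero_smul _ _)
  obtain ⟨N, hN⟩ := exists_ogr hdet hw hB
  refine ⟨hχ, ?_⟩
  have h1 := KP_change (p₀ := p₀) (p := p) k N hχ
  rw [hN] at h1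
  have h2 : (M.map (Int.cast : ℤ → ℂ)).mulVec p = cact M p := rfl
  rw [h2, h1, inv_pow, mul_comm (χ ^ k)⁻¹, mul_assoc, inv_mul_cancel₀ (pow_ne_zero k hχ), mul_one]

end Change

section Generic

theorem exists_genc {J : Type*} [Fintype J] {b : ℕ} (a : J → Fin b → ℂ) (h : ∀ j, a j ≠ 0) :
    ∃ c : Fin b → ℂ, ∀ j, ∑ i, c i * a j i ≠ 0 := by
  classical
  let P : J → Polynomial ℂ := fun j => ∑ i : Fin b, Polynomial.C (a j i) * Polynomial.X ^ (i : ℕ)
  have hP : ∀ j, P j ≠ 0 := by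
    intro j h0
    apply h j
    funext i
    have h1 := congrArg (fun p => Polynomial.coeff p (i : ℕ)) h0
    simp only [P, Polynomial.finsetSum_coeff, Polynomial.coeff_C_mul, Polynomial.coeff_X_pow,
      Polynomial.coeff_zero] at h1
    rw [Finset.sum_eq_single i] at h1
    · simpa using h1
    · intro i' _ hi'
      rw [if_neg (fun h => hi' (Fin.ext h.symm)), mul_zero]
    · intro hi'
      exact absurd (Finset.mem_univ i) hi'
  have hprod : ∏ j, P j ≠ 0 := Finset.prod_ne_zero_iff.2 fun j _ => hP j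
  obtain ⟨t, ht⟩ : ∃ t : ℂ, Polynomial.eval t (∏ j, P j) ≠ 0 := by
    by_contra hcon
    push Not at hcon
    exact hprod (Polynomial.funext fun t => by rw [hcon t, Polynomial.eval_zero])
  refine ⟨fun i => t ^ (i : ℕ), fun j h0 => ?_⟩
  rw [Polynomial.eval_prod] at ht
  apply Finset.prod_ne_zero_iff.1 ht j (Finset.mem_univ j)
  simp only [P, Polynomial.eval_finsetSum, Polynomial.eval_mul, Polynomial.eval_C,
    Polynomial.eval_pow, Polynomial.eval_X]
  rw [← h0]
  exact Finset.sum_congr rfl fun i _ => mul_comm _ _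

end Generic

section TypeOne

variable {E E' : Type} [NormedAddCommGroup E] [NormedSpace ℂ E] [FiniteDimensional ℂ E]
  [NormedAddCommGroup E'] [NormedSpace ℂ E'] [FiniteDimensional ℂ E']
variable {X Y : Type u} [TopologicalSpace X] [ChartedSpace E X] [IsManifold 𝓘(ℂ, E) ω X]
  [TopologicalSpace Y] [ChartedSpace E' Y] [IsManifold 𝓘(ℂ, E') ω Y]
variable {V : Type} [NormedAddCommGroup V] [InnerProductSpace ℂ V] [FiniteDimensional ℂ V]
variable {n : ℕ} {Q : (Fin n → ℝ) → (Fin n → ℝ) → ℝ} {S : Set Y} {ι : Type u} {U : ι → Set Y}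
  {π : ι → Y → ((Fin n → ℝ) ≃L[ℝ] V)} {f : X → Y}

/-- automorphic forms of type I -/
theorem autI (hP : IsPeriodFamily E' S Q U π) (hf : ∀ x, HolM E E' f x) {a₀ : ι} {y₀ : Y}
    (ha₀ : y₀ ∈ U a₀) (s : ℕ) : ∃ o : ℕ, 0 < o ∧ ∀ᶠ k in atTop, ∃ (ψ : ι → Y → ℂ) (C : ℝ), 0 ≤ C ∧
      (∀ a x, f x ∈ U a → HolV E (fun z => ψ a (f z)) x) ∧
      (∀ a b y (G : V ≃L[ℂ] V), IsPeriodChange Q (π a y) (π b y) G →
        ψ b y * (G : V →L[ℂ] V).det ^ (s * (o * k)) = ψ a y) ∧
      (∀ a y (G : V ≃L[ℂ] V), IsPol Q (π a y) G →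
        ‖ψ a y‖ ≤ C * ‖(G : V →L[ℂ] V).det‖ ^ (s * (o * k))) ∧ ψ a₀ y₀ ≠ 0 := by
  classical
  rcases Nat.eq_zero_or_pos s with hs | hs
  · refine ⟨1, one_pos, Eventually.of_forall fun k => ⟨fun _ _ => 1, 1, zero_le_one,
      fun a x _ => HolV.const _ _, fun a b y G _ => ?_, fun a y G _ => ?_, one_ne_zero⟩⟩
    · rw [hs, zero_mul, pow_zero, mul_one]
    · rw [hs, zero_mul, pow_zero, mul_one, norm_one]
  rcases Nat.eq_zero_or_pos n with hn | hn
  · subst hn
    have hV : Subsingleton V := ⟨fun v w => (π a₀ y₀).symm.injective (Subsingleton.elim _ _)⟩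
    have hdet : ∀ G : V ≃L[ℂ] V, (G : V →L[ℂ] V).det = 1 := fun G =>
      LinearMap.det_eq_one_of_subsingleton _
    refine ⟨1, one_pos, Eventually.of_forall fun k => ⟨fun _ _ => 1, 1, zero_le_one,
      fun a x _ => HolV.const _ _, fun a b y G _ => ?_, fun a y G _ => ?_, one_ne_zero⟩⟩
    · rw [hdet, one_pow, mul_one]
    · rw [hdet, norm_one, one_pow, mul_one]
  obtain ⟨G₀, h₀⟩ : ∃ G₀, IsPol Q (π a₀ y₀) G₀ := hP.polarized a₀ y₀ ha₀
  set π₀ := π a₀ y₀ with hπ₀
  obtain ⟨o, ho, ho1⟩ := exists_exponent hn h₀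
  have hφ1 : ∀ v : V, ‖(1 : ℂ)‖ ≤ 1 * ‖v‖ ^ 0 := fun v => by simp
  refine ⟨o, ho, ?_⟩
  have ht : Tendsto (fun k => s * (o * k)) atTop atTop :=
    (tendsto_id.const_mul_atTop' ho).const_mul_atTop' hs
  filter_upwards [((errT_tendsto hn h₀).comp ht).eventually (gt_mem_nhds zero_lt_one),
    ht.eventually (eventually_ge_atTop (2 * (n * n + 1)))] with k hk1 hk2
  set K : ℕ := s * (o * k) with hK
  have hk1 : errT hn h₀ K < 1 := hk1
  have hkm : ∀ M ∈ unitF hn h₀, (LL π₀ π₀ (mx M)).det ^ K = 1 := by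
    intro M hM
    have : K = o * (s * k) := by rw [hK]; ring
    rw [this, pow_mul, ho1 M hM, one_pow]
  set c₀ : ℝ := ‖(G₀ : V →L[ℂ] V).det‖⁻¹ with hc₀
  refine ⟨fun a y => PP Q (fun _ => (1 : ℂ)) K π₀ (π a y) 0, c₀ ^ K * |CP Q π₀ G₀|, by positivity,
    fun a x hx => PP_holV hn (differentiable_const _) zero_le_one hφ1 (by omega) h₀ hP hf hx
      (HolV.const (0 : V) x), fun a b y G hG => ?_, fun a y G hG => ?_, ?_⟩
  · obtain ⟨M, hM⟩ := IsPeriodChange.exists_mx hG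
    have h1 := PP_change (π₀ := π₀) hM (fun _ => (1 : ℂ)) K 0
    rw [map_zero] at h1
    have h2 := pow_ne_zero K (det_equiv_ne G)
    have h3 : PP Q (fun _ => (1 : ℂ)) K π₀ (π b y) 0 =
        ((G : V →L[ℂ] V).det)⁻¹ ^ K * PP Q (fun _ => (1 : ℂ)) K π₀ (π a y) 0 := h1
    show PP Q (fun _ => (1 : ℂ)) K π₀ (π b y) 0 * (G : V →L[ℂ] V).det ^ K =
      PP Q (fun _ => (1 : ℂ)) K π₀ (π a y) 0
    rw [h3, inv_pow]
    field_simp
  · have h8 := (PP_bound hn zero_le_one hφ1 hk2 h₀ hG 0).2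
    rw [pow_zero, mul_one, one_mul] at h8
    show ‖PP Q (fun _ => (1 : ℂ)) K π₀ (π a y) 0‖ ≤ _
    calc ‖PP Q (fun _ => (1 : ℂ)) K π₀ (π a y) 0‖
        ≤ (‖(G : V →L[ℂ] V).det‖ * c₀) ^ K * |CP Q π₀ G₀| :=
          h8.trans (mul_le_mul_of_nonneg_left (le_abs_self _) (by positivity))
      _ = _ := by rw [mul_pow]; ring
  · have h1 := PP_limit hn h₀ zero_le_one hφ1 (fun M _ v => rfl) hk2 hkm 0
    rw [pow_zero, mul_one, one_mul] at h1
    intro h3
    have h3' : PP Q (fun _ => (1 : ℂ)) K π₀ π₀ 0 = 0 := h3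
    rw [h3', zero_sub, norm_neg, Complex.norm_natCast] at h1
    have h4 : 1 ≤ (unitF hn h₀).card := Finset.card_pos.2 ⟨1, one_mem_unitF hn h₀⟩
    have h5 : (1 : ℝ) ≤ (unitF hn h₀).card := by exact_mod_cast h4
    have h1' : ((unitF hn h₀).card : ℝ) * 1 ≤ errT hn h₀ K := by simpa using h1
    linarith

end TypeOne

section TypeFour

variable {E E' : Type} [NormedAddCommGroup E] [NormedSpace ℂ E] [FiniteDimensional ℂ E]
  [NormedAddCommGroup E'] [NormedSpace ℂ E'] [FiniteDimensional ℂ E']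
variable {X Y : Type u} [TopologicalSpace X] [ChartedSpace E X] [IsManifold 𝓘(ℂ, E) ω X]
  [TopologicalSpace Y] [ChartedSpace E' Y] [IsManifold 𝓘(ℂ, E') ω Y]
variable {m b : ℕ} {B : Fin b → Matrix (Fin m) (Fin m) ℝ} {w : Fin b → Fin m → ℝ} {e : Fin b → ℕ}
  {ι : Type u} {U : ι → Set Y} {p : ι → Y → Fin b → Fin m → ℂ} {f : X → Y}

open scoped Classical in
/-- the function of the `j`-th period -/
noncomputable def FK (B : Fin b → Matrix (Fin m) (Fin m) ℝ) (w : Fin b → Fin m → ℝ) (e : Fin b → ℕ)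
    (p₀ : Fin b → Fin m → ℂ) (K : ℕ) (c : Fin b → ℂ) (j : Fin b) (q : Fin m → ℂ) : ℂ :=
  if e j = 0 then 1 else
    ∑ i, c i * (if B i = B j ∧ w i = w j ∧ e i = e j then KP (B j) (w j) (e j * K) (p₀ i) q else 0)

/-- automorphic forms of type IV -/
theorem autK (hU : ∀ a, IsOpen (U a)) (hf : ∀ x, HolM E E' f x)
    (hper : ∀ a, ∀ y ∈ U a, ∀ j, IsK3Period (B j) (w j) (p a y j))
    (hhol : ∀ a, ∀ y ∈ U a, ∀ j, ContMDiffAt 𝓘(ℂ, E') 𝓘(ℂ, Fin m → ℂ) ω (fun y => p a y j) y)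
    {p₀ : Fin b → Fin m → ℂ} (h₀ : ∀ j, IsK3Period (B j) (w j) (p₀ j)) :
    ∃ o : ℕ, 0 < o ∧ ∀ᶠ k in atTop, ∃ (F : Fin b → (Fin m → ℂ) → ℂ) (C : ℝ), 0 ≤ C ∧
      (∀ j j', B j' = B j → w j' = w j → e j' = e j → F j' = F j) ∧
      (∀ a x, f x ∈ U a → ∀ j, HolV E (fun z => F j (p a (f z) j)) x) ∧
      (∀ j q q' χ, IsK3Change (B j) (w j) q q' χ → q' ≠ 0 →
        F j q' * χ ^ (e j * (o * k)) = F j q) ∧
      (∀ j q, IsK3Period (B j) (w j) q →
        ‖F j q‖ * Real.sqrt (nrm (B j) q) ^ (e j * (o * k)) ≤ C) ∧ ∀ j, F j (p₀ j) ≠ 0 := by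
  classical
  have hm : ∀ _ : Fin b, 0 < m := fun j => by
    rcases Nat.eq_zero_or_pos m with h | h
    · subst h
      exact absurd (Subsingleton.elim _ _) (p_ne_zero (h₀ j))
    · exact h
  choose o ho hne using fun j => KP_ne (hm j) (h₀ j)
  set O : ℕ := ∏ j, o j with hO
  have hO0 : 0 < O := Finset.prod_pos fun j _ => ho j
  refine ⟨O, hO0, ?_⟩
  have hev : ∀ j, ∀ᶠ k in atTop, e j ≠ 0 → KP (B j) (w j) (e j * (O * k)) (p₀ j) (p₀ j) ≠ 0 := by
    intro j
    rcases Nat.eq_zero_or_pos (e j) with hj | hj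
    · exact Eventually.of_forall fun k h => absurd hj h
    · obtain ⟨q, hq⟩ := Finset.dvd_prod_of_mem o (Finset.mem_univ j)
      have hq0 : 0 < q := by
        rcases Nat.eq_zero_or_pos q with h | h
        · rw [h, mul_zero] at hq
          rw [hO] at hO0
          omega
        · exact h
      have ht : Tendsto (fun k => e j * (q * k)) atTop atTop :=
        (tendsto_id.const_mul_atTop' hq0).const_mul_atTop' hj
      filter_upwards [ht.eventually (hne j)] with k hk _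
      have h1 : e j * (O * k) = o j * (e j * (q * k)) := by rw [hO, hq]; ring
      rw [h1]
      exact hk
  filter_upwards [(Filter.eventually_all).2 hev, eventually_ge_atTop (2 * (m * m + 1))] with k hk1 hk2
  set K : ℕ := O * k with hK
  have hKge : ∀ j, e j ≠ 0 → 2 * (m * m + 1) ≤ e j * K := by
    intro j hj
    refine hk2.trans ?_
    rw [hK, ← mul_assoc]
    exact Nat.le_mul_of_pos_left _ (Nat.mul_pos (Nat.pos_of_ne_zero hj) hO0)
  -- generic coefficients
  obtain ⟨c, hc⟩ := exists_genc (J := {j : Fin b // e j ≠ 0}) (b := b)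
    (fun j i => if B i = B j ∧ w i = w j ∧ e i = e j then
      KP (B j) (w j) (e j * K) (p₀ i) (p₀ j) else 0) (fun j h0 => by
        have h1 := congrFun h0 (j : Fin b)
        simp only [and_self, if_true, Pi.zero_apply] at h1
        exact hk1 j j.2 h1)
  -- bounds
  have hbd : ∀ i j : Fin b, ∃ C : ℝ, 0 ≤ C ∧ (e j ≠ 0 → B i = B j ∧ w i = w j ∧ e i = e j →
      ∀ q, IsK3Period (B j) (w j) q → ‖KP (B j) (w j) (e j * K) (p₀ i) q‖ *
        Real.sqrt (nrm (B j) q) ^ (e j * K) ≤ C) := by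
    intro i j
    by_cases hj : e j ≠ 0 ∧ B i = B j ∧ w i = w j ∧ e i = e j
    · have h₀' : IsK3Period (B j) (w j) (p₀ i) := by
        have := h₀ i
        rwa [hj.2.1, hj.2.2.1] at this
      obtain ⟨C, hC0, hC⟩ := KP_bound (hm j) h₀'
      refine ⟨(Real.sqrt (nrm (B j) (p₀ i)))⁻¹ ^ (e j * K) * C, by positivity,
        fun _ _ q hq => ?_⟩
      have h1 := (hC (e j * K) (hKge j hj.1) q hq).2.2
      have h2 : 0 < Real.sqrt (nrm (B j) q) := Real.sqrt_pos.2 (nrm_pos hq)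
      rw [Real.sqrt_mul (nrm_pos hq).le, mul_inv, mul_pow] at h1
      calc ‖KP (B j) (w j) (e j * K) (p₀ i) q‖ * Real.sqrt (nrm (B j) q) ^ (e j * K)
          ≤ ((Real.sqrt (nrm (B j) q))⁻¹ ^ (e j * K) *
            (Real.sqrt (nrm (B j) (p₀ i)))⁻¹ ^ (e j * K) * C) *
            Real.sqrt (nrm (B j) q) ^ (e j * K) := by gcongr
        _ = _ := by
            rw [inv_pow]
            field_simp
    · exact ⟨0, le_rfl, fun h1 h2 => absurd ⟨h1, h2⟩ hj⟩
  choose C hC0 hC using hbd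
  refine ⟨FK B w e p₀ K c, 1 + ∑ j, ∑ i, ‖c i‖ * C i j, ?_, ?_, ?_, ?_, ?_, ?_⟩
  · have : 0 ≤ ∑ j, ∑ i, ‖c i‖ * C i j := Finset.sum_nonneg fun j _ => Finset.sum_nonneg
      fun i _ => mul_nonneg (norm_nonneg _) (hC0 i j)
    linarith
  · intro j j' h1 h2 h3
    funext q
    unfold FK
    rw [h1, h2, h3]
  · intro a x hx j
    unfold FK
    split_ifs with hj
    · exact HolV.const _ _
    · have h1 : ∀ s : Finset (Fin b), HolV E (fun z => ∑ i ∈ s, c i * (if B i = B j ∧ w i = w j ∧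
          e i = e j then KP (B j) (w j) (e j * K) (p₀ i) (p a (f z) j) else 0)) x := by
        intro s
        induction s using Finset.induction_on with
        | empty => simpa using HolV.const (0 : ℂ) x
        | insert i s hi ih =>
          simp only [Finset.sum_insert hi]
          refine HolV.add (HolV.mul (HolV.const _ _) ?_) ih
          split_ifs with hij
          · have h₀' : IsK3Period (B j) (w j) (p₀ i) := by
              have := h₀ i
              rwa [hij.1, hij.2.1] at this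
            exact KP_holV (hm j) h₀' (hKge j hj) hf (hU a) (p := fun y => p a y j)
              (fun y hy => hhol a y hy j) (fun y hy => hper a y hy j) hx
          · exact HolV.const _ _
      exact h1 _
  · intro j q q' χ hχ hq'
    unfold FK
    split_ifs with hj
    · rw [hj, zero_mul, pow_zero, mul_one]
    · rw [Finset.sum_mul]
      refine Finset.sum_congr rfl fun i _ => ?_
      rw [mul_assoc]
      congr 1
      split_ifs with hij
      · exact (KP_k3 (e j * K) hχ hq').2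
      · rw [zero_mul]
  · intro j q hq
    unfold FK
    have hsum : ∀ j₁ : Fin b, 0 ≤ ∑ i, ‖c i‖ * C i j₁ := fun j₁ => Finset.sum_nonneg
      fun i _ => mul_nonneg (norm_nonneg _) (hC0 i j₁)
    have hle : ∑ i, ‖c i‖ * C i j ≤ ∑ j, ∑ i, ‖c i‖ * C i j :=
      Finset.single_le_sum (f := fun j => ∑ i, ‖c i‖ * C i j) (fun j₁ _ => hsum j₁)
        (Finset.mem_univ j)
    split_ifs with hj
    · rw [hj, zero_mul, pow_zero, mul_one, norm_one]
      linarith [hsum j]
    · refine le_trans ?_ (hle.trans (by linarith))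
      refine (mul_le_mul_of_nonneg_right (norm_sum_le _ _) (by positivity)).trans ?_
      rw [Finset.sum_mul]
      refine Finset.sum_le_sum fun i _ => ?_
      rw [norm_mul, mul_assoc]
      refine mul_le_mul_of_nonneg_left ?_ (norm_nonneg _)
      split_ifs with hij
      · exact hC i j hj hij q hq
      · rw [norm_zero, zero_mul]
        exact hC0 i j
  · intro j
    unfold FK
    split_ifs with hj
    · exact one_ne_zero
    · exact hc ⟨j, hj⟩

end TypeFour

end Vale.Agent.P281.H713
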