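import Vale.Agent.P281.H713.ZF

open scoped Manifold ContDiff Topology ENNReal NNReal
open Set Filter Metric Module

namespace Vale.Agent.P281.H713

open Vale.Agent.P281 Vale.Agent.P281.MF Vale.Agent.P281.ISO Vale.Agent.P281.ELL

set_option linter.unusedSectionVars false

universe u

section PN

variable {b m : ℕ} {B : Fin b → Matrix (Fin m) (Fin m) ℝ} {w : Fin b → Fin m → ℝ} {e : Fin b → ℕ}

/-- square root of the norm of the periods -/
noncomputable def pnS (B : Fin b → Matrix (Fin m) (Fin m) ℝ) (e : Fin b → ℕ)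
    (p : Fin b → Fin m → ℂ) : ℝ := ∏ j, Real.sqrt (nrm (B j) (p j)) ^ e j

theorem pnS_pos {p : Fin b → Fin m → ℂ} (h : ∀ j, IsK3Period (B j) (w j) (p j)) :
    0 < pnS B e p :=
  Finset.prod_pos fun j _ => pow_pos (Real.sqrt_pos.2 (nrm_pos (h j))) _

theorem pnS_sq {p : Fin b → Fin m → ℂ} (h : ∀ j, IsK3Period (B j) (w j) (p j)) :
    pnS B e p ^ 2 = periodNorm B e p := by
  unfold pnS periodNorm
  rw [← Finset.prod_pow]
  refine Finset.prod_congr rfl fun j _ => ?_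
  rw [← pow_mul, mul_comm, pow_mul, Real.sq_sqrt (nrm_pos (h j)).le]
  rfl

end PN

section Forms

variable {E E' : Type} [NormedAddCommGroup E] [NormedSpace ℂ E] [FiniteDimensional ℂ E]
  [NormedAddCommGroup E'] [NormedSpace ℂ E'] [FiniteDimensional ℂ E']
variable {X Y : Type u} [TopologicalSpace X] [ChartedSpace E X] [IsManifold 𝓘(ℂ, E) ω X]
  [TopologicalSpace Y] [ChartedSpace E' Y] [IsManifold 𝓘(ℂ, E') ω Y]
variable {V : Type} [NormedAddCommGroup V] [InnerProductSpace ℂ V] [FiniteDimensional ℂ V]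
variable {n m d b t r N s : ℕ} {f : X → Y} {S : Set Y} {κ : Set X → ℕ}
  {Q : (Fin n → ℝ) → (Fin n → ℝ) → ℝ} {B : Fin b → Matrix (Fin m) (Fin m) ℝ}
  {w : Fin b → Fin m → ℝ} {e : Fin b → ℕ} {ι : Type u} {U : ι → Set Y}
  {π : ι → Y → ((Fin n → ℝ) ≃L[ℝ] V)} {p : ι → Y → Fin b → Fin m → ℂ}
  {η : ι → Fin t → X → (Fin d → E) → ℂ}

theorem hol_pi {q : Y → Fin m → ℂ} {y : Y} (h : ∀ i, HolV E' (fun y => q y i) y) :
    ContMDiffAt 𝓘(ℂ, E') 𝓘(ℂ, Fin m → ℂ) ω q y :=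
  holV_vec (E := E') (X := Y) (ζ := fun i y => q y i) h

/-- the factors of the changes of forms -/
def RelP (Q : (Fin n → ℝ) → (Fin n → ℝ) → ℝ) (s : ℕ) (B : Fin b → Matrix (Fin m) (Fin m) ℝ)
    (w : Fin b → Fin m → ℝ) (e : Fin b → ℕ) (π : ι → Y → ((Fin n → ℝ) ≃L[ℝ] V))
    (p : ι → Y → Fin b → Fin m → ℂ) (a a' : ι) (y : Y) (μ : ℂ) : Prop :=
  ∃ (G : V ≃L[ℂ] V) (σ : Equiv.Perm (Fin b)) (χ : Fin b → ℂ),
    IsPeriodChange Q (π a y) (π a' y) G ∧ IsK3Changes B w e (p a y) (p a' y) σ χ ∧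
    μ = (G : V →L[ℂ] V).det ^ s * ∏ j, χ j ^ e j

/-- the automorphic factors -/
theorem aut (hC : IsPeriodForms E E' f S r N κ Q s B w e U π p η) (hf : ∀ x, HolM E E' f x)
    {y₀ : Y} {a₀ : ι} (ha₀ : y₀ ∈ U a₀) :
    ∃ o : ℕ, 0 < o ∧ ∀ᶠ k in atTop, ∃ (ψ : ι → Y → ℂ) (C : ℝ),
      (∀ a x, f x ∈ U a → HolV E (fun z => ψ a (f z)) x) ∧
      (∀ a b y μ, y ∈ U a → y ∈ U b → RelP Q s B w e π p a b y μ → ψ b y * μ ^ (o * k) = ψ a y) ∧
      (∀ a y (G : V ≃L[ℂ] V), y ∈ U a → IsPol Q (π a y) G →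
        ‖ψ a y‖ ≤ C * (‖(G : V →L[ℂ] V).det‖ ^ s / pnS B e (p a y)) ^ (o * k)) ∧
      ψ a₀ y₀ ≠ 0 := by
  have hper : ∀ a, ∀ y ∈ U a, ∀ j, IsK3Period (B j) (w j) (p a y j) := fun a y hy j =>
    (hC.period a y hy j).1
  obtain ⟨o₁, ho₁, h1⟩ := autI (s := s) hC.toIsPeriodFamily hf ha₀
  obtain ⟨o₂, ho₂, h2⟩ := autK (e := e) hC.isOpen hf hper
    (fun a y hy j => hol_pi fun i => (hC.period a y hy j).2 i)
    (p₀ := p a₀ y₀) (fun j => hper a₀ y₀ ha₀ j)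
  refine ⟨o₁ * o₂, Nat.mul_pos ho₁ ho₂, ?_⟩
  have t1 : Tendsto (fun k => o₂ * k) atTop atTop := tendsto_id.const_mul_atTop' ho₂
  have t2 : Tendsto (fun k => o₁ * k) atTop atTop := tendsto_id.const_mul_atTop' ho₁
  filter_upwards [t1.eventually h1, t2.eventually h2] with k hk1 hk2
  obtain ⟨ψ₁, C₁, hC₁, a1, a2, a3, a4⟩ := hk1
  obtain ⟨F, C₂, hC₂, b1, b2, b3, b4, b5⟩ := hk2
  have e1 : o₁ * (o₂ * k) = o₁ * o₂ * k := by ring
  have e2 : o₂ * (o₁ * k) = o₁ * o₂ * k := by ring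
  rw [e1] at a2 a3
  rw [e2] at b3 b4
  set K := o₁ * o₂ * k with hK
  refine ⟨fun a y => ψ₁ a y * ∏ j, F j (p a y j), C₁ * C₂ ^ b, fun a x hx => ?_,
    fun a a' y μ ha ha' hμ => ?_, fun a y G hy hG => ?_, ?_⟩
  · refine (a1 a x hx).mul ?_
    have h3 : ∀ s : Finset (Fin b), HolV E (fun z => ∏ j ∈ s, F j (p a (f z) j)) x := by
      classical
      intro s
      induction s using Finset.induction_on with
      | empty => simpa using HolV.const (1 : ℂ) x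
      | insert j s hj ih =>
        simp only [Finset.prod_insert hj]
        exact (b2 a x hx j).mul ih
    exact h3 _
  · obtain ⟨G, σ, χ, hG, hχ, rfl⟩ := hμ
    have h3 := a2 a a' y G hG
    have h4 : ∏ j, F j (p a' y j) = ∏ j, F j (p a' y (σ j)) := by
      rw [← Equiv.prod_comp σ]
      refine Finset.prod_congr rfl fun j _ => ?_
      rw [b1 j (σ j) (hχ j).1 (hχ j).2.1 (hχ j).2.2.1]
    have h5 : ∀ j, F j (p a' y (σ j)) * χ j ^ (e j * K) = F j (p a y j) := fun j =>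
      b3 j _ _ _ (hχ j).2.2.2 (p_ne_zero (hper a' y ha' (σ j)))
    have h6 : (∏ j, F j (p a' y (σ j))) * (∏ j, χ j ^ e j) ^ K = ∏ j, F j (p a y j) := by
      rw [← Finset.prod_pow, ← Finset.prod_mul_distrib]
      refine Finset.prod_congr rfl fun j _ => ?_
      rw [← pow_mul, h5]
    show ψ₁ a' y * (∏ j, F j (p a' y j)) *
      ((G : V →L[ℂ] V).det ^ s * ∏ j, χ j ^ e j) ^ K = ψ₁ a y * ∏ j, F j (p a y j)
    rw [h4, mul_pow, ← pow_mul]
    calc ψ₁ a' y * (∏ j, F j (p a' y (σ j))) *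
          ((G : V →L[ℂ] V).det ^ (s * K) * (∏ j, χ j ^ e j) ^ K)
        = (ψ₁ a' y * (G : V →L[ℂ] V).det ^ (s * K)) *
          ((∏ j, F j (p a' y (σ j))) * (∏ j, χ j ^ e j) ^ K) := by ring
      _ = _ := by rw [h3, h6]
  · have h3 := a3 a y G hG
    have h4 : (∏ j, ‖F j (p a y j)‖) * pnS B e (p a y) ^ K ≤ C₂ ^ b := by
      unfold pnS
      rw [← Finset.prod_pow, ← Finset.prod_mul_distrib]
      calc ∏ j, ‖F j (p a y j)‖ * (Real.sqrt (nrm (B j) (p a y j)) ^ e j) ^ K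
          ≤ ∏ _j : Fin b, C₂ := by
            refine Finset.prod_le_prod (fun j _ => by positivity) fun j _ => ?_
            rw [← pow_mul]
            exact b4 j _ (hper a y hy j)
        _ = C₂ ^ b := by rw [Finset.prod_const, Finset.card_univ, Fintype.card_fin]
    have h5 : 0 < pnS B e (p a y) := pnS_pos (hper a y hy)
    have h6 : ∏ j, ‖F j (p a y j)‖ ≤ C₂ ^ b / pnS B e (p a y) ^ K := by
      rw [le_div_iff₀ (by positivity)]
      exact h4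
    show ‖ψ₁ a y * ∏ j, F j (p a y j)‖ ≤ _
    rw [norm_mul, norm_prod, div_pow, ← pow_mul]
    calc ‖ψ₁ a y‖ * ∏ j, ‖F j (p a y j)‖
        ≤ (C₁ * ‖(G : V →L[ℂ] V).det‖ ^ (s * K)) * (C₂ ^ b / pnS B e (p a y) ^ K) := by
          gcongr
      _ = _ := by ring
  · exact mul_ne_zero a4 (Finset.prod_ne_zero_iff.2 fun j _ => b5 j)

end Forms

end Vale.Agent.P281.H713
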